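import Crest.Agent.N334.AC.P.Sched2

/-! # S0520 part P: ledger, release and probabilities (leaf: fill the sorries; take logarithms) -/

set_option autoImplicit false

open Finset

namespace Crest.Agent.N334.AC

namespace Sch

variable (s : Sch) (k j : ℕ)

namespace S3

/-- `2 ^ x` -/
noncomputable def T (x : ℝ) : ℝ := (2 : ℝ) ^ x
lemma T_pos (x : ℝ) : 0 < T x := Real.rpow_pos_of_pos two_pos x
lemma T_add (x y : ℝ) : T x * T y = T (x + y) := (Real.rpow_add two_pos x y).symm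
lemma T_mono {x y : ℝ} (h : x ≤ y) : T x ≤ T y := Real.rpow_le_rpow_of_exponent_le one_le_two h
lemma T_pow (x : ℝ) (n : ℕ) : T x ^ n = T (n * x) := by
  rw [T, T, ← Real.rpow_natCast, ← Real.rpow_mul zero_le_two, mul_comm]
lemma T_inv (x : ℝ) : (T x)⁻¹ = T (-x) := (Real.rpow_neg zero_le_two x).symm
lemma T_div (x y : ℝ) : T x / T y = T (x - y) := (Real.rpow_sub two_pos x y).symm
lemma T_nat (n : ℕ) : (2 : ℝ) ^ n = T n := (Real.rpow_natCast 2 n).symm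
lemma T_zero : T 0 = 1 := Real.rpow_zero 2
lemma T_one : T 1 = 2 := Real.rpow_one 2
lemma le_T {x : ℝ} (h : 1 ≤ x) : x + 1 ≤ T x := by
  have := one_add_mul_self_le_rpow_one_add (s := 1) (by norm_num) h
  rw [one_add_one_eq_two] at this
  unfold T; linarith
lemma num_le {c : ℝ} (n : ℕ) (h : c ≤ 2 ^ n) : c ≤ T n := by rwa [← T_nat]
lemma T_exp (x : ℝ) : T x = Real.exp (Real.log 2 * x) := Real.rpow_def_of_pos two_pos x
lemma T_le_exp {x : ℝ} (h : 0 ≤ x) : T x ≤ Real.exp x := by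
  rw [T_exp]; apply Real.exp_le_exp.2
  nlinarith [Real.log_two_lt_d9]
lemma exp_le_T {x : ℝ} (h : 0 ≤ x) : Real.exp (-x) ≤ T (-x) := by
  rw [← T_inv, Real.exp_neg]; exact inv_anti₀ (T_pos x) (T_le_exp h)
lemma T_le_exp_neg {x : ℝ} (h : 0 ≤ x) : T (-x / 2) ≤ Real.exp (-x / 3) := by
  rw [T_exp]; apply Real.exp_le_exp.2
  nlinarith [Real.log_two_gt_d9]
lemma T_add_le {a b x : ℝ} (ha : a ≤ T x) (hb : b ≤ T x) : a + b ≤ T (x + 1) := by
  rw [← T_add, T_one]; linarith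

lemma hY : (10 : ℝ) ^ 100 ≤ s.y k := by exact_mod_cast s.y_ge k
lemma one_Y : (1 : ℝ) ≤ s.y k := le_trans (by norm_num) (hY s k)
lemma pw {n m : ℕ} (h : n < m) : 10 ^ 100 * (s.y k : ℝ) ^ n ≤ (s.y k : ℝ) ^ m := by
  have h1 := one_Y s k
  calc _ ≤ (s.y k : ℝ) * (s.y k : ℝ) ^ n := by gcongr; exact hY s k
    _ = (s.y k : ℝ) ^ (n + 1) := by ring
    _ ≤ _ := pow_le_pow_right₀ h1 h
lemma pw1 {m : ℕ} (h : 1 < m) : 10 ^ 100 * (s.y k : ℝ) ≤ (s.y k : ℝ) ^ m := by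
  simpa using pw s k h
lemma Y_le : (s.y k : ℝ) ≤ T (s.y k) := by linarith [le_T (one_Y s k)]
lemma Ypow_le (n : ℕ) : (s.y k : ℝ) ^ n ≤ T (n * s.y k) := by
  rw [← T_pow]; gcongr; exact Y_le s k
lemma hd3 : (3 : ℝ) ≤ s.d := by exact_mod_cast s.hd
lemma hdC : 10 ^ 20 * (s.d : ℝ) ≤ s.y k ∧ s.C ≤ s.y k := by
  have h := s.cst_le k
  have hd := hd3 s
  have h1 : (1000 * s.d : ℝ) ≤ (1000 * s.d : ℝ) ^ (10 * s.d) :=
    le_self_pow₀ (by linarith) (by have := s.hd; omega)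
  have h2 : s.C ≤ s.C ^ 20 := le_self_pow₀ s.hC (by norm_num)
  have hC := s.hC
  have h3 : 10 ^ 20 * s.C * (1000 * s.d : ℝ) ≤ s.y k := le_trans (by gcongr) h
  constructor <;> nlinarith
lemma C_le : s.C ≤ T (s.y k) := (hdC s k).2.trans (Y_le s k)
lemma d_mul (n m : ℕ) (h : m = n + 1 := by norm_num) :
    10 ^ 20 * ((s.d : ℝ) * (s.y k : ℝ) ^ n) ≤ (s.y k : ℝ) ^ m := by
  rw [h, ← mul_assoc, pow_succ' (s.y k : ℝ)]; gcongr; exact (hdC s k).1

/-- `log₂ (1/σ)` -/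
noncomputable def a : ℝ := -Real.logb 2 s.σ
lemma σ_eq : s.σ = T (-a s) := by
  rw [a, neg_neg, T, Real.rpow_logb two_pos (by norm_num) s.σ0]
lemma a_nonneg : 0 ≤ a s := by
  have h := s.σ_lt
  have h1 : (1 : ℝ) ≤ 10 ^ 10 * s.C ^ 10 := by nlinarith [one_le_pow₀ (n := 10) s.hC]
  have h2 : s.σ ≤ 1 := by nlinarith [s.σ0]
  have := Real.logb_nonpos (b := 2) (by norm_num) s.σ0.le h2
  unfold a; linarith
lemma J_succ : (s.J (k + 1) : ℝ) = (s.y k : ℝ) ^ 4 := by simp [J]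
lemma a_le : 10 ^ 6 * a s ≤ (s.y k : ℝ) ^ 4 := by
  have h := s.inv_σ_pow k
  rw [σ_eq, one_div, T_inv, T_pow, J_succ, T,
    Real.rpow_le_rpow_left_iff (by norm_num : (1 : ℝ) < 2)] at h
  push_cast at h; linarith
lemma y_pred {k : ℕ} (hk : 1 ≤ k) : (s.y k : ℝ) = (s.y (k - 1) : ℝ) ^ 2 := by
  obtain ⟨k, rfl⟩ : ∃ k', k = k' + 1 := ⟨k - 1, by omega⟩
  rw [s.y_succ]; simp
lemma a_le' {k : ℕ} (hk : 1 ≤ k) : 10 ^ 6 * a s ≤ (s.y k : ℝ) ^ 2 := by
  have := a_le s (k - 1)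
  rw [y_pred s hk]; linarith [show ((s.y (k - 1) : ℝ) ^ 2) ^ 2 = (s.y (k - 1) : ℝ) ^ 4 by ring]
lemma ρ_eq : (s.ρ k : ℝ) = T ((s.y k : ℝ) ^ 7) := by
  rw [ρ]; push_cast; rw [T_nat]; push_cast; rfl
lemma εR_eq : s.εR k = T (-(s.y k : ℝ) ^ 4 / 60 - 8 * a s) / 100 := by
  have h : s.hh (k + 1) (s.J (k + 1)) = T (-(s.y k : ℝ) ^ 4 / 120) := by
    rw [hh, if_neg (by omega), J_succ, T]; simp
  rw [εR, h, σ_eq, T_pow, T_pow, T_add]; congr 2; push_cast; ring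
lemma εR_ge : T (-(s.y k : ℝ) ^ 4 / 60 - 8 * a s - 7) ≤ s.εR k := by
  rw [εR_eq, ← T_div]
  gcongr
  · exact (T_pos _).le
  · exact_mod_cast num_le 7 (by norm_num)
lemma εR_le' : s.εR k ≤ T (-(s.y k : ℝ) ^ 4 / 60) := by
  rw [εR_eq]
  have := T_mono (show -(s.y k : ℝ) ^ 4 / 60 - 8 * a s ≤ -(s.y k : ℝ) ^ 4 / 60 by
    linarith [a_nonneg s])
  linarith [T_pos (-(s.y k : ℝ) ^ 4 / 60 - 8 * a s)]
lemma cell_eq : s.cell k = T (1 - a s - (s.y k : ℝ) ^ 15) := by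
  rw [cell, lv, T_nat, σ_eq, ← T_one, T_add, T_div]; push_cast; rfl
lemma ζ_eq : s.ζ k = T (-3 * a s - (s.y k : ℝ) ^ 15) / (3 * s.C) := by
  have : T (1 - a s - (s.y k : ℝ) ^ 15) * T (-a s) ^ 2 = 2 * T (-3 * a s - (s.y k : ℝ) ^ 15) := by
    rw [T_pow, T_add, ← T_one, T_add]; congr 1; push_cast; ring
  have hC := s.hC
  rw [ζ, cell_eq, σ_eq, this]; field_simp; ring
lemma ζ_ge : T (-3 * a s - (s.y k : ℝ) ^ 15 - (2 + s.y k)) ≤ s.ζ k := by
  have hC := s.hC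
  rw [ζ_eq, ← T_div, ← T_add]
  gcongr
  · exact (T_pos _).le
  · exact (T_pos _).le
  · exact_mod_cast num_le 2 (by norm_num)
  · exact C_le s k
lemma ζ_le : s.ζ k ≤ T (-(s.y k : ℝ) ^ 15) := by
  have hC := s.hC
  rw [ζ_eq]
  refine (div_le_self (T_pos _).le (by linarith)).trans (T_mono ?_)
  linarith [a_nonneg s]
lemma nB_le {k : ℕ} (hk : 1 ≤ k) : s.nB k ≤ T ((s.y k : ℝ) ^ 4 / 10 ^ 10) := by
  have h1 : (6 * s.r (k - 1) + 1 : ℝ) ≤ T (5 * (s.y (k - 1) : ℝ) ^ 7) := by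
    have e : (s.r (k - 1) : ℝ) = T (4 * (s.y (k - 1) : ℝ) ^ 7) := by
      rw [r]; push_cast; rw [ρ_eq, T_pow]; norm_num
    have h2 := pw s (k - 1) (show 0 < 7 by norm_num)
    have h3 : 1 ≤ T (4 * (s.y (k - 1) : ℝ) ^ 7) := by rw [← T_zero]; exact T_mono (by positivity)
    have h4 : (8 : ℝ) ≤ T 3 := by exact_mod_cast num_le 3 (by norm_num)
    calc _ ≤ T 3 * T (4 * (s.y (k - 1) : ℝ) ^ 7) := by rw [e]; nlinarith
      _ ≤ _ := by rw [T_add]; exact T_mono (by linarith)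
  have h2 := d_mul s (k - 1) 7 8
  have h3 := pw1 s k (show 1 < 4 by norm_num)
  have e : (s.y k : ℝ) ^ 4 = (s.y (k - 1) : ℝ) ^ 8 := by rw [y_pred s hk]; ring
  calc s.nB k = (s.y k : ℝ) ^ 8 * (6 * s.r (k - 1) + 1) ^ s.d := by simp [nB, m]
    _ ≤ T ((8 : ℕ) * s.y k) * T (5 * (s.y (k - 1) : ℝ) ^ 7) ^ s.d := by
      gcongr
      · exact (T_pos _).le
      · exact Ypow_le s k 8
    _ ≤ _ := by
      rw [T_pow, T_add]; apply T_mono; push_cast
      have := one_Y s k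
      nlinarith
lemma nB_nonneg : 0 ≤ s.nB k := by unfold nB; positivity
lemma log_ζ : 0 ≤ Real.log (2 / s.ζ k) ∧ Real.log (2 / s.ζ k) ≤ T (16 * s.y k) := by
  have h0 : 0 < s.ζ k := (T_pos _).trans_le (ζ_ge s k)
  have h1 := ζ_le s k
  have h2 : T (-(s.y k : ℝ) ^ 15) ≤ 1 := by
    rw [← T_zero]; exact T_mono (neg_nonpos.2 (by positivity))
  refine ⟨Real.log_nonneg (by rw [le_div_iff₀ h0]; linarith), ?_⟩
  have h3 : 2 / s.ζ k ≤ Real.exp ((s.y k : ℝ) ^ 16) := by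
    refine le_trans ?_ (T_le_exp (by positivity))
    calc 2 / s.ζ k ≤ T 1 / T (-3 * a s - (s.y k : ℝ) ^ 15 - (2 + s.y k)) := by
          rw [T_one]; gcongr
          · exact T_pos _
          · exact ζ_ge s k
      _ ≤ _ := by
          rw [T_div]; apply T_mono
          linarith [a_le s k, pw s k (show 4 < 16 by norm_num), pw s k (show 15 < 16 by norm_num),
            pw1 s k (show 1 < 16 by norm_num), one_Y s k, pw s k (show 0 < 4 by norm_num),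
            pw s k (show 0 < 15 by norm_num)]
  have h4 := (Real.log_le_iff_le_exp (by positivity)).2 h3
  exact h4.trans (by exact_mod_cast Ypow_le s k 16)
lemma NJ_le {k : ℕ} (hk : 1 ≤ k) : s.nB k + s.Jz k ≤ T ((s.y k : ℝ) ^ 4 / 50) := by
  have h0 : 0 < s.εR k := (T_pos _).trans_le (εR_ge s k)
  have h1 := log_ζ s k
  have h2 := nB_nonneg s k
  have p1 := pw1 s k (show 1 < 4 by norm_num)
  have p2 := a_le s k
  have p3 := one_Y s k
  have h3 : 20 * s.nB k * Real.log (2 / s.ζ k) / s.εR k ≤ T ((s.y k : ℝ) ^ 4 / 55) := by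
    calc _ ≤ T (5 : ℕ) * T ((s.y k : ℝ) ^ 4 / 10 ^ 10) * T (16 * s.y k) /
          T (-(s.y k : ℝ) ^ 4 / 60 - 8 * a s - 7) := by
          have := T_pos (5 : ℕ)
          have := T_pos ((s.y k : ℝ) ^ 4 / 10 ^ 10)
          have := T_pos (16 * s.y k)
          gcongr
          · exact T_pos _
          · exact h1.1
          · exact num_le 5 (by norm_num)
          · exact nB_le s hk
          · exact h1.2
          · exact εR_ge s k
      _ ≤ _ := by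
          rw [T_add, T_add, T_div]; apply T_mono; push_cast; linarith
  have h4 : (s.Jz k : ℝ) ≤ T ((s.y k : ℝ) ^ 4 / 55) + 2 := by
    have := Nat.ceil_lt_add_one (show 0 ≤ 20 * s.nB k * Real.log (2 / s.ζ k) / s.εR k by
      have := h1.1; positivity)
    rw [Jz]; push_cast; linarith
  have h5 : (2 : ℝ) ≤ T ((s.y k : ℝ) ^ 4 / 55) := by rw [← T_one]; exact T_mono (by linarith)
  have h6 := T_add_le h5 le_rfl
  have h7 : s.nB k ≤ T ((s.y k : ℝ) ^ 4 / 55 + 1) := (nB_le s hk).trans (T_mono (by linarith))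
  exact (T_add_le h7 (show (s.Jz k : ℝ) ≤ _ by linarith)).trans (T_mono (by linarith))
lemma Jz_le' {k : ℕ} (hk : 1 ≤ k) : (s.Jz k : ℝ) ≤ T ((s.y k : ℝ) ^ 4 / 50) := by
  linarith [NJ_le s hk, nB_nonneg s k]
lemma tt_eq : s.tt k = T (-(s.y k : ℝ) ^ 16) := rfl
lemma bs_ge' : T (-(s.y k : ℝ) ^ 15 / 2 - (4 * s.y k + 1)) ≤ s.bs k := by
  have h1 : (s.y k : ℝ) ^ 4 ≤ T (4 * s.y k) := by exact_mod_cast Ypow_le s k 4
  have h2 : (2 : ℝ) ≤ T (4 * s.y k) := by rw [← T_one]; exact T_mono (by linarith [one_Y s k])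
  rw [bs, b, Z, ← T_div]; push_cast
  gcongr
  · exact T_le_exp_neg (by positivity)
  · exact T_add_le h1 h2
lemma vol_nonneg' (M t : ℕ) [NeZero M] : 0 ≤ vol s.d M t := Nat.cast_nonneg _
lemma vol_T {M : ℕ} [NeZero M] {t : ℕ} (ht : t ≤ 100 * s.r k) :
    vol s.d M t ≤ T (5 * (s.d * (s.y k : ℝ) ^ 7)) := by
  refine (s.vol_le_ρ k ht).trans_eq ?_
  rw [ρ_eq, T_pow]; congr 1; push_cast; ring
lemma m_le_ρ : s.m k ≤ s.ρ k := by
  have h := s.ρ_big k
  have : 1 ≤ s.L0 k := Nat.one_le_two_pow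
  nlinarith
lemma vb {M : ℕ} [NeZero M] {t : ℕ} (ht : t ≤ 100 * s.r (k + 1)) :
    vol s.d M t * (2 * s.b k) ≤ Real.exp (-((s.y k : ℝ) ^ 15 / 4)) := by
  have h1 := vol_T s (k + 1) (M := M) ht
  have e : (s.y (k + 1) : ℝ) ^ 7 = (s.y k : ℝ) ^ 14 := by rw [s.y_succ]; push_cast; ring
  rw [e] at h1
  have h2 := d_mul s k 14 15
  have h3 := pw s k (show 0 < 15 by norm_num)
  have h4 : vol s.d M t * 2 ≤ Real.exp ((s.y k : ℝ) ^ 15 / 12) := by
    refine le_trans ?_ (T_le_exp (by positivity))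
    calc _ ≤ T (5 * (s.d * (s.y k : ℝ) ^ 14)) * T 1 := by rw [T_one]; gcongr
      _ ≤ _ := by rw [T_add]; apply T_mono; linarith
  rw [← mul_assoc, b, Z]; push_cast
  calc _ ≤ Real.exp ((s.y k : ℝ) ^ 15 / 12) * Real.exp (-(s.y k : ℝ) ^ 15 / 3) := by gcongr
    _ = _ := by rw [← Real.exp_add]; congr 1; ring
lemma ρ_ge : (s.y k : ℝ) ^ 16 ≤ s.ρ k := by
  rw [ρ_eq]
  refine (Ypow_le s k 16).trans (T_mono ?_)
  push_cast; linarith [pw1 s k (show 1 < 7 by norm_num), one_Y s k]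
lemma K1_le : Real.exp (2 * s.θ' k * (21 * s.m k * s.R k : ℕ)) * (3 / (4 * s.cell k)) ≤
    Real.exp (21 / 200 * (s.ρ k : ℝ) ^ 2) * T (2 * (s.y k : ℝ) ^ 15) := by
  have h1 := one_Y s k
  have h2 : (0 : ℝ) < s.ρ k := by rw [ρ_eq]; exact T_pos _
  have e : 2 * s.θ' k * (21 * s.m k * s.R k : ℕ) = 21 / 200 * (s.ρ k : ℝ) ^ 2 := by
    rw [θ', R, m]; push_cast; field_simp; ring
  rw [e]
  gcongr
  have hc : 0 < s.cell k := by rw [cell_eq]; exact T_pos _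
  calc 3 / (4 * s.cell k) ≤ (s.cell k)⁻¹ := by
        rw [div_le_iff₀ (by positivity)]; field_simp; norm_num
    _ ≤ _ := by
        rw [cell_eq, T_inv]; apply T_mono
        linarith [a_le s k, pw s k (show 4 < 15 by norm_num), pw s k (show 0 < 4 by norm_num)]

end S3
open S3

/-! ### release -/
lemma εR_pos : 0 < s.εR k := (T_pos _).trans_le (εR_ge s k)
lemma εR_le : s.εR k ≤ s.vp (k + 1) ^ 48 * s.σ ^ 8 := by
  have h : s.vp (k + 1) = T (-(s.y k : ℝ) ^ 4 / 3600) := by rw [vp, if_neg (by omega), J_succ, T]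
  rw [εR_eq, h, σ_eq, T_pow, T_pow, T_add]
  refine (div_le_self (T_pos _).le (by norm_num)).trans (T_mono ?_)
  push_cast; linarith [pw s k (show 0 < 4 by norm_num)]
lemma tt_εR : s.tt k ≤ s.εR k ^ 2 := by
  refine le_trans ?_ (pow_le_pow_left₀ (T_pos _).le (εR_ge s k) 2)
  rw [tt_eq, T_pow]; apply T_mono; push_cast
  linarith [a_le s k, pw s k (show 4 < 16 by norm_num), pw s k (show 0 < 4 by norm_num)]
lemma ζ_pos : 0 < s.ζ k := (T_pos _).trans_le (ζ_ge s k)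
lemma ζ_sq : 2 * s.ζ k ^ 2 ≤ s.εR k := by
  refine le_trans ?_ (εR_ge s k)
  calc _ ≤ T 1 * T (-(s.y k : ℝ) ^ 15) ^ 2 := by
        rw [T_one]; gcongr
        · exact (s.ζ_pos k).le
        · exact ζ_le s k
    _ ≤ _ := by
        rw [T_pow, T_add]; apply T_mono; push_cast
        linarith [a_le s k, pw s k (show 4 < 15 by norm_num), pw s k (show 0 < 4 by norm_num)]
lemma cell_pos : 0 < s.cell k := by rw [cell_eq]; exact T_pos _
lemma Jz_le (hk : 1 ≤ k) : s.nB k + s.Jz k ≤ (2 : ℝ) ^ ((s.J (k + 1) : ℝ) / 50) := by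
  rw [J_succ]; exact NJ_le s hk
lemma Jz_e (hk : 1 ≤ k) : 10 ^ 4 * s.C ^ 4 * s.Jz k * Real.sqrt (s.hh k (s.J (k + 1))) ≤ s.εR k * s.σ := by
  have hC := s.hC
  have h1 : Real.sqrt (s.hh k (s.J (k + 1))) ≤ T (-((s.y k : ℝ) ^ 4 - (s.y k : ℝ) ^ 2) / 16) := by
    rw [Real.sqrt_le_left (T_pos _).le, T_pow, hh, if_neg (by omega), J_succ, s.J_eq k hk]
    apply T_mono; push_cast
    nlinarith [sq_nonneg (s.y k : ℝ)]
  calc _ ≤ T (14 : ℕ) * T (s.y k) ^ 4 * T ((s.y k : ℝ) ^ 4 / 50) *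
        T (-((s.y k : ℝ) ^ 4 - (s.y k : ℝ) ^ 2) / 16) := by
        have := T_pos (14 : ℕ)
        have := T_pos (s.y k)
        have := T_pos ((s.y k : ℝ) ^ 4 / 50)
        gcongr
        · exact num_le 14 (by norm_num)
        · exact C_le s k
        · exact Jz_le' s hk
    _ ≤ T (-(s.y k : ℝ) ^ 4 / 60 - 8 * a s - 7) * T (-a s) := by
        rw [T_pow, T_add, T_add, T_add, T_add]; apply T_mono; push_cast
        linarith [a_le s k, pw s k (show 2 < 4 by norm_num), pw1 s k (show 1 < 2 by norm_num),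
          one_Y s k]
    _ ≤ _ := by
        rw [← σ_eq]; gcongr
        · exact s.σ0.le
        · exact εR_ge s k
lemma Jz_L (hk : 1 ≤ k) : s.r (k - 1) + (s.Jz k + 3) * s.L k ≤ s.R k := by
  have h1 : s.Jz k + 4 ≤ s.ρ k := by
    have p := pw s k (show 0 < 4 by norm_num)
    have h2 : (4 : ℝ) ≤ T ((s.y k : ℝ) ^ 4 / 50) :=
      (num_le 2 (by norm_num)).trans (T_mono (by push_cast; linarith))
    have h3 := (T_add_le (Jz_le' s hk) h2).trans (T_mono (show _ ≤ (s.y k : ℝ) ^ 7 by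
      linarith [pw s k (show 4 < 7 by norm_num)]))
    rw [← ρ_eq] at h3
    exact_mod_cast h3
  have h2 : s.r (k - 1) ≤ s.ρ k := by
    have h3 := s.r_prev (k - 1)
    rw [Nat.sub_add_cancel hk] at h3
    have h4 := s.ρ_big k
    have h5 : 1 ≤ s.m k := Nat.one_le_pow _ _ (by have := s.y_ge k; omega)
    nlinarith
  have h3 : s.ρ k ≤ s.L k := Nat.le_self_pow (by norm_num) _
  calc _ ≤ (s.Jz k + 4) * s.L k := by nlinarith
    _ ≤ s.ρ k * s.L k := by gcongr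
    _ = _ := by rw [L, R]; ring
lemma lev_tail (hk : 1 ≤ k) : s.tt k * (s.nB k + s.Jz k) * (4 * s.C ^ 2) ≤ s.εR k * s.ζ k ^ 2 * s.σ ^ 2 := by
  have hC := s.hC
  calc _ ≤ T (-(s.y k : ℝ) ^ 16) * T ((s.y k : ℝ) ^ 4 / 50) * (T (2 : ℕ) * T (s.y k) ^ 2) := by
        have := T_pos (2 : ℕ)
        have := T_pos (-(s.y k : ℝ) ^ 16)
        have := T_pos ((s.y k : ℝ) ^ 4 / 50)
        rw [tt_eq]
        gcongr
        · exact NJ_le s hk
        · exact num_le 2 (by norm_num)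
        · exact C_le s k
    _ ≤ T (-(s.y k : ℝ) ^ 4 / 60 - 8 * a s - 7) *
        T (-3 * a s - (s.y k : ℝ) ^ 15 - (2 + s.y k)) ^ 2 * T (-a s) ^ 2 := by
        simp only [T_pow, T_add]; apply T_mono; push_cast
        linarith [a_le s k, pw s k (show 4 < 15 by norm_num), pw1 s k (show 1 < 4 by norm_num),
          pw s k (show 15 < 16 by norm_num), one_Y s k]
    _ ≤ _ := by
        rw [← σ_eq]
        have := s.εR_pos k
        gcongr
        · exact εR_ge s k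
        · exact (T_pos _).le
        · exact ζ_ge s k
lemma rel_F (hk : 1 ≤ k) : (s.εR k + s.FO (s.J (k + 1)) * (s.nB k + s.Jz k)) * s.lam k ^ 2 *
    (s.y k : ℝ) ^ (20 * s.d) ≤ s.vp k ^ 24 * s.σ ^ 4 := by
  have hC := s.hC
  have p1 := a_le' s hk
  have p2 := pw s k (show 2 < 4 by norm_num)
  have p3 := pw1 s k (show 1 < 2 by norm_num)
  have p4 := one_Y s k
  have p5 := d_mul s k 1 2
  have h1 : s.FO (s.J (k + 1)) ≤ T (s.y k + 10 * a s - (s.y k : ℝ) ^ 4 / 4) := by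
    refine (min_le_right _ _).trans ?_
    rw [J_succ]
    calc _ ≤ T (s.y k) / T (-a s) ^ 10 * T (-(s.y k : ℝ) ^ 4 / 4) := by
          rw [← σ_eq, T.eq_def (-_ / 4)]
          have := s.σ0
          gcongr; exact C_le s k
      _ = _ := by rw [T_pow, T_div, T_add]; congr 1; push_cast; ring
  have h2 : s.FO (s.J (k + 1)) * (s.nB k + s.Jz k) ≤ T (-(s.y k : ℝ) ^ 4 / 60) := by
    have := nB_nonneg s k
    refine (mul_le_mul h1 (NJ_le s hk) (by positivity) (T_pos _).le).trans ?_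
    rw [T_add]; apply T_mono; linarith
  have h3 : s.lam k = (s.y k : ℝ) ^ 300 * T (a s) ^ 10 := by
    rw [lam, u, if_neg (by omega), σ_eq, one_div, T_inv, neg_neg]
  have h4 : s.vp k = T (-(s.y k : ℝ) ^ 2 / 3600) := by
    rw [vp, if_neg (by omega), s.J_eq k hk, T]; push_cast; rfl
  calc _ ≤ T (-(s.y k : ℝ) ^ 4 / 60 + 1) * (T ((300 : ℕ) * s.y k) * T (a s) ^ 10) ^ 2 *
        T ((20 * s.d : ℕ) * s.y k) := by
        have := T_pos (-(s.y k : ℝ) ^ 4 / 60 + 1)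
        have := T_pos (a s)
        rw [h3]
        gcongr
        · exact T_add_le (εR_le' s k) h2
        · exact Ypow_le s k 300
        · exact Ypow_le s k _
    _ ≤ _ := by
        rw [h4, σ_eq]; simp only [T_pow, T_add]; apply T_mono; push_cast
        simp only [pow_one] at p5
        linarith
lemma weg_le (hk : 1 ≤ k) : 160 * (s.nB k + s.Jz k) * 2 ^ s.lv (k - 1) / 2 ^ s.lv k ≤ s.bs k := by
  refine le_trans ?_ (bs_ge' s k)
  have h1 : (s.y (k - 1) : ℝ) ^ 15 ≤ (s.y k : ℝ) ^ 8 := by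
    rw [y_pred s hk, ← pow_mul]; exact pow_le_pow_right₀ (one_Y s _) (by norm_num)
  rw [T_nat, T_nat, lv, lv]; push_cast
  calc _ ≤ T (8 : ℕ) * T ((s.y k : ℝ) ^ 4 / 50) * T ((s.y (k - 1) : ℝ) ^ 15) / T ((s.y k : ℝ) ^ 15) := by
        have := T_pos (8 : ℕ)
        have := T_pos ((s.y (k - 1) : ℝ) ^ 15)
        have := T_pos ((s.y k : ℝ) ^ 15)
        have := nB_nonneg s k
        gcongr
        · exact num_le 8 (by norm_num)
        · exact NJ_le s hk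
    _ ≤ _ := by
        simp only [T_add, T_div]; apply T_mono; push_cast
        linarith [pw s k (show 4 < 8 by norm_num), pw1 s k (show 1 < 4 by norm_num),
          pw s k (show 8 < 15 by norm_num), one_Y s k]
/-- `K1 := exp (2 θ' (21 m R)) · 3/(4 cell)`; hypotheses `htn` of `Rel` and the new reference -/
lemma rel_tn {M : ℕ} [NeZero M] : 40 * vol s.d M (21 * s.m k * s.R k + s.R k) * (s.ρ k : ℝ) ^ 3 *
    (Real.exp (2 * s.θ' k * (21 * s.m k * s.R k : ℕ)) * (3 / (4 * s.cell k))) ^ 2 *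
    (12 * s.d / (1 / s.ρ k)) ^ (2 * s.d) / (s.σ ^ 2 / (2 * s.C)) ^ 2 *
    Real.exp (-(1 / s.ρ k) * s.R k / 2) ≤ Real.exp (-(s.ρ k : ℝ)) := by
  have hC := s.hC
  have hσ := s.σ0
  have hc := s.cell_pos k
  have p0 := one_Y s k
  have p1 := ρ_ge s k
  have p2 := pw s k (show 0 < 16 by norm_num)
  have p3 := d_mul s k 7 8
  have p4 := d_mul s k 1 2
  have hρ : (0 : ℝ) < s.ρ k := by linarith
  have h1 : vol s.d M (21 * s.m k * s.R k + s.R k) ≤ T (5 * (s.d * (s.y k : ℝ) ^ 7)) := by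
    apply vol_T
    have h2 := m_le_ρ s k
    have h3 : 1 ≤ s.ρ k := Nat.one_le_two_pow
    have e : s.r k = s.ρ k * s.R k := by rw [r, R]; ring
    rw [e]; nlinarith [Nat.zero_le (s.R k)]
  have h2 : (12 * s.d / (1 / s.ρ k) : ℝ) ≤ T (s.y k) * T ((s.y k : ℝ) ^ 7) := by
    rw [one_div, div_inv_eq_mul, ← ρ_eq]
    gcongr
    linarith [(hdC s k).1, Y_le s k, hd3 s]
  have h3 : T (-a s) ^ 2 / (T 1 * T (s.y k)) ≤ s.σ ^ 2 / (2 * s.C) := by
    rw [← σ_eq, T_one]; gcongr; exact C_le s k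
  have e : -(1 / (s.ρ k : ℝ)) * s.R k / 2 = -(s.ρ k : ℝ) ^ 2 / 2 := by
    rw [R]; push_cast; field_simp
  rw [e]
  have hK := K1_le s k
  have hK0 : 0 ≤ Real.exp (2 * s.θ' k * (21 * s.m k * s.R k : ℕ)) * (3 / (4 * s.cell k)) := by
    positivity
  generalize Real.exp (2 * s.θ' k * (21 * s.m k * s.R k : ℕ)) * (3 / (4 * s.cell k)) = K at hK hK0 ⊢
  calc _ ≤ T (6 : ℕ) * T (5 * (s.d * (s.y k : ℝ) ^ 7)) * T ((s.y k : ℝ) ^ 7) ^ 3 *
        (Real.exp (21 / 200 * (s.ρ k : ℝ) ^ 2) * T (2 * (s.y k : ℝ) ^ 15)) ^ 2 *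
        (T (s.y k) * T ((s.y k : ℝ) ^ 7)) ^ (2 * s.d) / (T (-a s) ^ 2 / (T 1 * T (s.y k))) ^ 2 *
        Real.exp (-(s.ρ k : ℝ) ^ 2 / 2) := by
        have := T_pos (6 : ℕ)
        have := T_pos (5 * (s.d * (s.y k : ℝ) ^ 7))
        have := T_pos ((s.y k : ℝ) ^ 7)
        have := T_pos (s.y k)
        have := T_pos 1
        have := T_pos (-a s)
        have := vol_nonneg' s M (21 * s.m k * s.R k + s.R k)
        gcongr
        · exact num_le 6 (by norm_num)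
        · exact (ρ_eq s k).le
    _ = (T (6 : ℕ) * T (5 * (s.d * (s.y k : ℝ) ^ 7)) * T ((s.y k : ℝ) ^ 7) ^ 3 *
        T (2 * (s.y k : ℝ) ^ 15) ^ 2 *
        (T (s.y k) * T ((s.y k : ℝ) ^ 7)) ^ (2 * s.d) / (T (-a s) ^ 2 / (T 1 * T (s.y k))) ^ 2) *
        (Real.exp (21 / 200 * (s.ρ k : ℝ) ^ 2) ^ 2 * Real.exp (-(s.ρ k : ℝ) ^ 2 / 2)) := by ring
    _ ≤ Real.exp (s.ρ k) *
        (Real.exp (21 / 200 * (s.ρ k : ℝ) ^ 2) ^ 2 * Real.exp (-(s.ρ k : ℝ) ^ 2 / 2)) := by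
        gcongr
        refine le_trans ?_ (T_le_exp hρ.le)
        simp only [T_pow, T_add, T_div]; apply T_mono; push_cast
        simp only [pow_one] at p4
        linarith [a_le s k, pw s k (show 15 < 16 by norm_num), pw s k (show 8 < 15 by norm_num),
          pw s k (show 7 < 8 by norm_num), pw s k (show 4 < 7 by norm_num),
          pw s k (show 2 < 4 by norm_num), pw1 s k (show 1 < 2 by norm_num)]
    _ ≤ _ := by
        rw [← Real.exp_nat_mul, ← Real.exp_add, ← Real.exp_add]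
        apply Real.exp_le_exp.2
        push_cast
        nlinarith
lemma rel_ref {t : ℕ} (ht : s.L0 (k + 1) < t) : (s.ρ k + 2 * (s.ρ k : ℝ) ^ 2 *
    (Real.exp (2 * s.θ' k * (21 * s.m k * s.R k : ℕ)) * (3 / (4 * s.cell k)))) *
    Real.exp (-s.θ' k * t) ≤ Real.exp (-(t : ℝ) / s.R0 (k + 1)) := by
  have p0 := one_Y s k
  have p1 := ρ_ge s k
  have p2 := pw s k (show 0 < 16 by norm_num)
  have hρ : (0 : ℝ) < s.ρ k := by linarith
  have q1 := pw s k (show 7 < 8 by norm_num)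
  have q2 := pw1 s k (show 1 < 7 by norm_num)
  have q3 := pw s k (show 8 < 10 by norm_num)
  have h1 : 2 * (s.ρ k : ℝ) ^ 2 * (Real.exp (2 * s.θ' k * (21 * s.m k * s.R k : ℕ)) *
      (3 / (4 * s.cell k))) ≤ Real.exp ((s.ρ k : ℝ) ^ 2 / 2) := by
    have h2 : 2 * (s.ρ k : ℝ) ^ 2 * T (2 * (s.y k : ℝ) ^ 15) ≤ Real.exp (s.ρ k) := by
      refine le_trans ?_ (T_le_exp hρ.le)
      calc _ = T 1 * T ((s.y k : ℝ) ^ 7) ^ 2 * T (2 * (s.y k : ℝ) ^ 15) := by rw [T_one, ← ρ_eq]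
        _ ≤ _ := by
          simp only [T_pow, T_add]; apply T_mono; push_cast
          linarith [pw s k (show 15 < 16 by norm_num), pw s k (show 7 < 15 by norm_num)]
    calc _ ≤ 2 * (s.ρ k : ℝ) ^ 2 *
          (Real.exp (21 / 200 * (s.ρ k : ℝ) ^ 2) * T (2 * (s.y k : ℝ) ^ 15)) := by
          exact mul_le_mul_of_nonneg_left (K1_le s k) (by positivity)
      _ = 2 * (s.ρ k : ℝ) ^ 2 * T (2 * (s.y k : ℝ) ^ 15) * Real.exp (21 / 200 * (s.ρ k : ℝ) ^ 2) := by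
          ring
      _ ≤ Real.exp (s.ρ k) * Real.exp (21 / 200 * (s.ρ k : ℝ) ^ 2) := by gcongr
      _ ≤ _ := by rw [← Real.exp_add]; apply Real.exp_le_exp.2; nlinarith
  have h2 : (s.ρ k : ℝ) ≤ Real.exp ((s.ρ k : ℝ) ^ 2 / 2) := by
    nlinarith [Real.add_one_le_exp ((s.ρ k : ℝ) ^ 2 / 2)]
  have h3 : 2 * Real.exp ((s.ρ k : ℝ) ^ 2 / 2) ≤ Real.exp ((s.ρ k : ℝ) ^ 2) := by
    have e : Real.exp ((s.ρ k : ℝ) ^ 2) =
        Real.exp ((s.ρ k : ℝ) ^ 2 / 2) * Real.exp ((s.ρ k : ℝ) ^ 2 / 2) := by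
      rw [← Real.exp_add]; congr 1; ring
    rw [e]; gcongr; linarith
  have h4 : T (-(9 + 8 * s.y k + (s.y k : ℝ) ^ 7)) ≤ s.θ' k := by
    rw [θ', m, ← T_inv, one_div, ← T_add, ← T_add, ← ρ_eq]; push_cast
    gcongr
    · exact (T_pos _).le
    · exact_mod_cast num_le 9 (by norm_num)
    · exact_mod_cast Ypow_le s k 8
  have h5 : T ((s.y k : ℝ) ^ 10) ≤ t := by
    have : (s.L0 (k + 1) : ℝ) = T ((s.y k : ℝ) ^ 10) := by
      rw [L0, s.y_succ]; push_cast; rw [T_nat]; push_cast; congr 1; ring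
    rw [← this]; exact_mod_cast ht.le
  have h6 : (s.R0 (k + 1) : ℝ) = T ((s.y k : ℝ) ^ 8) := by
    rw [R0, s.y_succ]; push_cast; rw [T_nat]; push_cast; congr 1; ring
  have h7 : 2 * (T ((s.y k : ℝ) ^ 8))⁻¹ ≤ s.θ' k := by
    refine le_trans ?_ h4
    rw [← T_one, T_inv, T_add]; apply T_mono; linarith
  have h8 : 2 * (s.ρ k : ℝ) ^ 2 ≤ s.θ' k * t := by
    refine le_trans ?_ (mul_le_mul h4 h5 (T_pos _).le ((T_pos _).le.trans h4))
    rw [ρ_eq, T_pow, T_add]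
    nth_rewrite 1 [← T_one]
    rw [T_add]; apply T_mono; push_cast; linarith
  have h9 := mul_le_mul_of_nonneg_right h7 (Nat.cast_nonneg (α := ℝ) t)
  calc _ ≤ Real.exp ((s.ρ k : ℝ) ^ 2) * Real.exp (-s.θ' k * t) := by gcongr; linarith
    _ ≤ _ := by
      rw [← Real.exp_add, h6, div_eq_mul_inv]; apply Real.exp_le_exp.2; linarith

/-! ### probabilities -/
lemma bs_pos : 0 < s.bs k := (T_pos _).trans_le (bs_ge' s k)
lemma bs_ge {M : ℕ} [NeZero M] : 100 * vol s.d M (3 * s.L k) * Real.exp (-(s.Z k : ℝ) / 2) ≤ s.bs k := by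
  have p0 := one_Y s k
  have h1 : vol s.d M (3 * s.L k) ≤ T (5 * (s.d * (s.y k : ℝ) ^ 7)) := by
    apply vol_T
    have : s.L k ≤ s.r k := Nat.pow_le_pow_right Nat.one_le_two_pow (by norm_num)
    omega
  have h2 : (s.y k : ℝ) ^ 4 + 2 ≤ T (4 * s.y k + 1) :=
    T_add_le (by exact_mod_cast Ypow_le s k 4) (by rw [← T_one]; exact T_mono (by linarith))
  have h3 : 100 * vol s.d M (3 * s.L k) * ((s.y k : ℝ) ^ 4 + 2) ≤ Real.exp ((s.y k : ℝ) ^ 15 / 6) := by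
    refine le_trans ?_ (T_le_exp (by positivity))
    calc _ ≤ T (7 : ℕ) * T (5 * (s.d * (s.y k : ℝ) ^ 7)) * T (4 * s.y k + 1) := by
          have := T_pos (7 : ℕ)
          have := T_pos (5 * (s.d * (s.y k : ℝ) ^ 7))
          have := vol_nonneg' s M (3 * s.L k)
          gcongr
          exact num_le 7 (by norm_num)
      _ ≤ _ := by
          simp only [T_add]; apply T_mono; push_cast
          linarith [d_mul s k 7 8, pw s k (show 8 < 15 by norm_num), pw1 s k (show 1 < 8 by norm_num)]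
  rw [bs, b, Z, le_div_iff₀ (by positivity)]; push_cast
  calc _ = 100 * vol s.d M (3 * s.L k) * ((s.y k : ℝ) ^ 4 + 2) * Real.exp (-(s.y k : ℝ) ^ 15 / 2) := by
        ring
    _ ≤ Real.exp ((s.y k : ℝ) ^ 15 / 6) * Real.exp (-(s.y k : ℝ) ^ 15 / 2) := by gcongr
    _ = _ := by rw [← Real.exp_add]; congr 1; ring
lemma b_rec {M : ℕ} [NeZero M] :
    (vol s.d M (s.Rc (k + 1)) * (2 * s.b k)) ^ s.m (k + 1) ≤ s.b (k + 1) := by
  have h1 := vb s k (M := M) (t := s.Rc (k + 1)) (by have := s.Rc_le k; omega)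
  have h0 : 0 ≤ vol s.d M (s.Rc (k + 1)) * (2 * s.b k) :=
    mul_nonneg (vol_nonneg' s _ _) (by unfold b; positivity)
  refine (pow_le_pow_left₀ h0 h1 _).trans ?_
  rw [← Real.exp_nat_mul, b, Z, m, s.y_succ]; apply Real.exp_le_exp.2; push_cast
  have e1 : ((s.y k : ℝ) ^ 2) ^ 8 * -((s.y k : ℝ) ^ 15 / 4) = -(s.y k : ℝ) ^ 31 / 4 := by ring
  have e2 : ((s.y k : ℝ) ^ 2) ^ 15 = (s.y k : ℝ) ^ 30 := by ring
  rw [e1, e2]
  linarith [pw s k (show 30 < 31 by norm_num), pw s k (show 0 < 30 by norm_num)]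
lemma b_sum {M : ℕ} [NeZero M] : vol s.d M (s.r (k + 1)) * (2 * s.b k) ≤ (1 / 2) ^ (k + 2) := by
  refine (vb s k (M := M) (t := s.r (k + 1)) (by omega)).trans ((exp_le_T (by positivity)).trans ?_)
  have h1 : k ≤ s.y k := by
    have h0 : 10 ^ 100 ≤ s.y0 := by simpa [y] using s.y_ge 0
    calc k ≤ 2 ^ k := Nat.lt_two_pow_self.le
      _ ≤ 2 ^ 2 ^ k := Nat.lt_two_pow_self.le
      _ ≤ _ := Nat.pow_le_pow_left (by omega) _
  have h2 : (k : ℝ) ≤ s.y k := by exact_mod_cast h1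
  rw [one_div, inv_pow, T_nat, T_inv]; apply T_mono; push_cast
  linarith [pw1 s k (show 1 < 15 by norm_num), one_Y s k]
lemma M_le_r : 2 ^ s.J (k + 1) ≤ s.r k := by
  have h : 1 ≤ s.y k := by have := s.y_ge k; omega
  have h1 : s.y k ^ 4 ≤ s.y k ^ 7 := Nat.pow_le_pow_right h (by norm_num)
  rw [r, ρ, ← pow_mul]
  exact Nat.pow_le_pow_right (by norm_num) (by simp only [J]; omega)

end Sch

end Crest.Agent.N334.AC
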