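import Crest.Agent.N334.AC.Rel

/-!
# Row 334, S0520 (helper78): one-step algebra of the closing monitors

Pure matrix lemmas for the rank-one update `X a b - t * X a y * X y b`:
`quad_step` (weighted squares: mass `n`, dwell `d`), `four_step` (fourth powers `N`),
`lin_sq` (quadratic variation of `N`), `lin_bias` (bias drift of `N`, size split),
`split` (size split of a row against bounded weights).
-/

set_option autoImplicit false

open Finset Matrix Complex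

namespace Crest.Agent.N334.AC.One

variable {ι : Type} [Fintype ι] [DecidableEq ι]

theorem norm_sub_sq (a b : ℂ) :
    ‖a - b‖ ^ 2 = ‖a‖ ^ 2 - 2 * (b * (starRingEnd ℂ) a).re + ‖b‖ ^ 2 := by
  simp only [← Complex.normSq_eq_norm_sq, Complex.normSq_apply, sub_re, sub_im, mul_re, conj_re,
    conj_im]
  ring

omit [Fintype ι] [DecidableEq ι] in
/-- weighted squares under a rank-one update (an identity) -/
theorem quad_step (Q : Finset ι) (ω : ι → ℝ) (x z : ι → ℂ) (s : ℂ) :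
    ∑ b ∈ Q, ω b * ‖x b - s * z b‖ ^ 2 = ∑ b ∈ Q, ω b * ‖x b‖ ^ 2 -
      2 * (s * ∑ b ∈ Q, (ω b : ℂ) * (starRingEnd ℂ) (x b) * z b).re +
      ‖s‖ ^ 2 * ∑ b ∈ Q, ω b * ‖z b‖ ^ 2 := by
  simp only [mul_sum, re_sum, ← sum_sub_distrib, ← sum_add_distrib]
  refine sum_congr rfl fun b _ => ?_
  have : s * ((ω b : ℂ) * (starRingEnd ℂ) (x b) * z b) =
      (ω b : ℂ) * (s * z b * (starRingEnd ℂ) (x b)) := by ring
  rw [norm_sub_sq, this, re_ofReal_mul, norm_mul]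
  ring

theorem four_le (a b : ℂ) : ‖a - b‖ ^ 4 ≤ ‖a‖ ^ 4 - 4 * (‖a‖ ^ 2 * (b * (starRingEnd ℂ) a).re) +
    7 * (‖a‖ ^ 2 * ‖b‖ ^ 2) + 5 * ‖b‖ ^ 4 := by
  have h1 : |(b * (starRingEnd ℂ) a).re| ≤ ‖b‖ * ‖a‖ := by
    refine (abs_re_le_norm _).trans ?_
    rw [norm_mul, Complex.norm_conj]
  have e : ‖a - b‖ ^ 4 = (‖a‖ ^ 2 - 2 * (b * (starRingEnd ℂ) a).re + ‖b‖ ^ 2) ^ 2 := by
    rw [← norm_sub_sq]; ring
  rw [e]
  set r := (b * (starRingEnd ℂ) a).re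
  have ha := norm_nonneg a
  have hb := norm_nonneg b
  have h2 : r ^ 2 ≤ (‖b‖ * ‖a‖) ^ 2 := sq_le_sq' (abs_le.1 h1).1 (abs_le.1 h1).2
  have h3 : -r * ‖b‖ ^ 2 ≤ ‖b‖ * ‖a‖ * ‖b‖ ^ 2 :=
    mul_le_mul_of_nonneg_right (by linarith [(abs_le.1 h1).1]) (sq_nonneg _)
  nlinarith [sq_nonneg (‖a‖ * ‖b‖ - 2 * ‖b‖ ^ 2)]

/-- the linear coefficient of the fourth moment -/
noncomputable def lin (Q : Finset ι) (x z : ι → ℂ) : ℂ :=
  ∑ b ∈ Q, ((‖x b‖ ^ 2 : ℝ) : ℂ) * (starRingEnd ℂ) (x b) * z b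

omit [Fintype ι] [DecidableEq ι] in
/-- fourth powers under a rank-one update -/
theorem four_step (Q : Finset ι) (x z : ι → ℂ) (s : ℂ) :
    ∑ b ∈ Q, ‖x b - s * z b‖ ^ 4 ≤ ∑ b ∈ Q, ‖x b‖ ^ 4 - 4 * (s * lin Q x z).re +
      7 * (‖s‖ ^ 2 * ∑ b ∈ Q, ‖x b‖ ^ 2 * ‖z b‖ ^ 2) + 5 * (‖s‖ ^ 4 * ∑ b ∈ Q, ‖z b‖ ^ 4) := by
  simp only [lin, mul_sum, re_sum, ← sum_sub_distrib, ← sum_add_distrib]
  refine sum_le_sum fun b _ => (four_le _ _).trans (le_of_eq ?_)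
  have : s * (((‖x b‖ ^ 2 : ℝ) : ℂ) * (starRingEnd ℂ) (x b) * z b) =
      ((‖x b‖ ^ 2 : ℝ) : ℂ) * (s * z b * (starRingEnd ℂ) (x b)) := by ring
  rw [this, re_ofReal_mul, norm_mul]
  ring

omit [Fintype ι] [DecidableEq ι] in
/-- Cauchy-Schwarz for the linear coefficient with the weight `‖x b‖²` -/
theorem lin_sq (Q : Finset ι) (x z : ι → ℂ) :
    ‖lin Q x z‖ ^ 2 ≤ (∑ b ∈ Q, ‖x b‖ ^ 2 * ‖z b‖ ^ 2) * ∑ b ∈ Q, ‖x b‖ ^ 4 := by
  have h1 : ‖lin Q x z‖ ≤ ∑ b ∈ Q, (‖x b‖ * ‖z b‖) * ‖x b‖ ^ 2 := by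
    refine (norm_sum_le _ _).trans (sum_le_sum fun b _ => le_of_eq ?_)
    rw [norm_mul, norm_mul, Complex.norm_conj, Complex.norm_real, Real.norm_of_nonneg (sq_nonneg _)]
    ring
  refine (pow_le_pow_left₀ (norm_nonneg _) h1 2).trans
    ((sum_mul_sq_le_sq_mul_sq _ _ _).trans (le_of_eq ?_))
  simp only [mul_pow, ← pow_mul]

omit [Fintype ι] [DecidableEq ι] in
/-- Cauchy-Schwarz for the linear coefficient of weighted squares -/
theorem quad_lin_sq (Q : Finset ι) {ω : ι → ℝ} (hω : ∀ b ∈ Q, 0 ≤ ω b) (x z : ι → ℂ) :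
    ‖∑ b ∈ Q, (ω b : ℂ) * (starRingEnd ℂ) (x b) * z b‖ ^ 2 ≤
      (∑ b ∈ Q, ω b * ‖x b‖ ^ 2) * ∑ b ∈ Q, ω b * ‖z b‖ ^ 2 := by
  have h1 : ‖∑ b ∈ Q, (ω b : ℂ) * (starRingEnd ℂ) (x b) * z b‖ ≤
      ∑ b ∈ Q, (√(ω b) * ‖x b‖) * (√(ω b) * ‖z b‖) := by
    refine (norm_sum_le _ _).trans (sum_le_sum fun b hb => le_of_eq ?_)
    rw [norm_mul, norm_mul, Complex.norm_conj, Complex.norm_real, Real.norm_of_nonneg (hω b hb)]
    have := Real.mul_self_sqrt (hω b hb)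
    linear_combination (-(‖x b‖ * ‖z b‖)) * this
  refine (pow_le_pow_left₀ (norm_nonneg _) h1 2).trans
    ((sum_mul_sq_le_sq_mul_sq _ _ _).trans (le_of_eq ?_))
  congr 1 <;> exact sum_congr rfl fun b hb => by rw [mul_pow, Real.sq_sqrt (hω b hb)]

omit [Fintype ι] [DecidableEq ι] in
/-- **Size split.** `c y ≤ s∞`, `∑ c ≤ s₁`: `∑ ‖x y‖² c y ≤ e s₁ + (∑ ‖x y‖⁴ / e) s∞`. -/
theorem split (A : Finset ι) (x : ι → ℂ) {c : ι → ℝ} {e s1 si : ℝ} (he : 0 < e)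
    (h0 : ∀ y ∈ A, 0 ≤ c y) (hi : ∀ y ∈ A, c y ≤ si) (h1 : ∑ y ∈ A, c y ≤ s1) :
    ∑ y ∈ A, ‖x y‖ ^ 2 * c y ≤ e * s1 + (∑ y ∈ A, ‖x y‖ ^ 4) / e * si := by
  have h2 : ∀ y ∈ A, ‖x y‖ ^ 2 * c y ≤ e * c y + ‖x y‖ ^ 4 / e * si := fun y hy => by
    have h3 : 0 ≤ ‖x y‖ ^ 4 / e := by positivity
    rcases le_total (‖x y‖ ^ 2) e with h | h
    · have := mul_le_mul_of_nonneg_right h (h0 y hy)
      have := mul_nonneg h3 ((h0 y hy).trans (hi y hy))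
      linarith
    · have h4 : ‖x y‖ ^ 2 ≤ ‖x y‖ ^ 4 / e := by
        rw [le_div_iff₀ he]
        nlinarith [sq_nonneg ‖x y‖]
      have := mul_le_mul h4 (hi y hy) (h0 y hy) h3
      have := mul_nonneg he.le (h0 y hy)
      linarith
  refine (sum_le_sum h2).trans ?_
  rw [sum_add_distrib, ← mul_sum, ← sum_mul, ← sum_div]
  exact add_le_add (mul_le_mul_of_nonneg_left h1 he.le) le_rfl

/-- Ward bound in the `ℓ¹` norm: only the diagonal of `K` enters -/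
theorem ward_l1 {K : Matrix ι ι ℂ} (hK : Ward K) {Q : Finset ι} {c : ℝ} (hc0 : 0 ≤ c)
    (hc : ∀ b ∈ Q, (K b b).im ≤ c) {v : ι → ℂ} (hv : ∀ b, b ∉ Q → v b = 0) :
    nsq (K *ᵥ v) ≤ c * (∑ b, ‖v b‖) ^ 2 := by
  have key : ∀ s : Finset ι, √(nsq (K *ᵥ ∑ b ∈ s, Pi.single b (v b))) ≤ √c * ∑ b ∈ s, ‖v b‖ := by
    intro s
    induction s using Finset.induction_on with
    | empty => simp [nsq]
    | insert b s hb ih =>
      rw [sum_insert hb, sum_insert hb, mulVec_add, mul_add]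
      refine (sqrt_nsq_add_le _ _).trans (add_le_add ?_ ih)
      by_cases hQ : b ∈ Q
      · have e : nsq (K *ᵥ Pi.single b (v b)) = (K b b).im * ‖v b‖ ^ 2 := by
          rw [← hK.col b, sum_mul]
          exact sum_congr rfl fun a _ => by simp [mul_pow]
        rw [e, Real.sqrt_mul' _ (sq_nonneg _), Real.sqrt_sq (norm_nonneg _)]
        exact mul_le_mul_of_nonneg_right (Real.sqrt_le_sqrt (hc b hQ)) (norm_nonneg _)
      · simp [hv b hQ, nsq]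
  have h := key univ
  rw [univ_sum_single] at h
  have h2 := pow_le_pow_left₀ (Real.sqrt_nonneg _) h 2
  rwa [Real.sq_sqrt (nsq_nonneg _), mul_pow, Real.sq_sqrt hc0] at h2

/-- the linear coefficients of the fourth moment in `ℓ²` over the drivers (size split) -/
theorem lin_nsq {K : Matrix ι ι ℂ} (hK : Ward K) {Q : Finset ι} {c e : ℝ} (hc0 : 0 ≤ c)
    (hc : ∀ b ∈ Q, (K b b).im ≤ c) (he : 0 < e) (x : ι → ℂ) :
    ∑ y, ‖lin Q x (K y)‖ ^ 2 ≤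
      2 * (e ^ 2 * ∑ b ∈ Q, ‖x b‖ ^ 4) + 2 * (c * ((∑ b ∈ Q, ‖x b‖ ^ 4) / e) ^ 2) := by
  set u : ι → ℂ := fun b => ((‖x b‖ ^ 2 : ℝ) : ℂ) * (starRingEnd ℂ) (x b) with hu
  have hun : ∀ b, ‖u b‖ = ‖x b‖ ^ 3 := fun b => by
    rw [hu]
    simp only [norm_mul, Complex.norm_conj, Complex.norm_real, Real.norm_of_nonneg (sq_nonneg _)]
    ring
  set s : ι → ℂ := fun b => if b ∈ Q ∧ ‖x b‖ ≤ e then u b else 0 with hs
  set g : ι → ℂ := fun b => if b ∈ Q ∧ ¬‖x b‖ ≤ e then u b else 0 with hg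
  have e1 : ∑ y, ‖lin Q x (K y)‖ ^ 2 = nsq (K *ᵥ s + K *ᵥ g) := by
    rw [← mulVec_add]
    refine sum_congr rfl fun y _ => ?_
    congr 2
    rw [lin, mulVec, dotProduct, ← sum_subset (subset_univ Q)]
    · refine sum_congr rfl fun b hb => ?_
      by_cases h : ‖x b‖ ≤ e <;> simp [hs, hg, hu, hb, h, mul_comm]
    · intro b _ hb
      simp [hs, hg, hb]
  have e2 : nsq s ≤ e ^ 2 * ∑ b ∈ Q, ‖x b‖ ^ 4 := by
    rw [nsq, ← sum_subset (subset_univ Q) (fun b _ hb => by simp [hs, hb]), mul_sum]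
    refine sum_le_sum fun b hb => ?_
    by_cases h : ‖x b‖ ≤ e
    · simp only [hs, hb, h, and_self, if_true, hun]
      have := mul_le_mul_of_nonneg_right (pow_le_pow_left₀ (norm_nonneg _) h 2)
        (show 0 ≤ ‖x b‖ ^ 4 by positivity)
      linarith
    · simp only [hs, h, and_false, if_false, norm_zero]
      have : 0 ≤ e ^ 2 * ‖x b‖ ^ 4 := by positivity
      linarith
  have e3 : ∑ b, ‖g b‖ ≤ (∑ b ∈ Q, ‖x b‖ ^ 4) / e := by
    rw [← sum_subset (subset_univ Q) (fun b _ hb => by simp [hg, hb]), sum_div]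
    refine sum_le_sum fun b hb => ?_
    by_cases h : ‖x b‖ ≤ e
    · simp only [hg, h, not_true, and_false, if_false, norm_zero]
      positivity
    · simp only [hg, hb, h, not_false_iff, and_self, if_true, hun]
      rw [le_div_iff₀ he]
      have := mul_le_mul_of_nonneg_left (not_le.1 h).le (show 0 ≤ ‖x b‖ ^ 3 by positivity)
      linarith
  have e4 := ward_l1 hK hc0 hc (v := g) fun b hb => by simp [hg, hb]
  have e5 := hK.bd s
  have e6 := mul_le_mul_of_nonneg_left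
    (pow_le_pow_left₀ (sum_nonneg fun b _ => norm_nonneg (g b)) e3 2) hc0
  rw [e1]
  linarith [nsq_add_le (K *ᵥ s) (K *ᵥ g)]

/-- **Bias drift of the fourth moment.** -/
theorem lin_bias {K : Matrix ι ι ℂ} (hK : Ward K) {Q : Finset ι} {c e : ℝ} (hc0 : 0 ≤ c)
    (hc : ∀ b ∈ Q, (K b b).im ≤ c) (he : 0 < e) (x z : ι → ℂ) (A : Finset ι) :
    (∑ y ∈ A, ‖z y‖ * ‖lin Q x (K y)‖) ^ 2 ≤ (∑ y ∈ A, ‖z y‖ ^ 2) *
      (2 * (e ^ 2 * ∑ b ∈ Q, ‖x b‖ ^ 4) + 2 * (c * ((∑ b ∈ Q, ‖x b‖ ^ 4) / e) ^ 2)) :=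
  (sum_mul_sq_le_sq_mul_sq _ _ _).trans (mul_le_mul_of_nonneg_left
    ((sum_le_univ_sum_of_nonneg fun _ => sq_nonneg _).trans (lin_nsq hK hc0 hc he x))
    (sum_nonneg fun _ _ => sq_nonneg _))

/-- crude quadratic variation of the fourth moment (late epochs): `‖K‖ ≤ 1` -/
theorem lin_nsq_crude {K : Matrix ι ι ℂ} (hK : Ward K) {Q : Finset ι} {h : ℝ} (x : ι → ℂ)
    (hx : ∀ b ∈ Q, ‖x b‖ ^ 2 ≤ h) : ∑ y, ‖lin Q x (K y)‖ ^ 2 ≤ h * ∑ b ∈ Q, ‖x b‖ ^ 4 := by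
  set s : ι → ℂ := fun b => if b ∈ Q then ((‖x b‖ ^ 2 : ℝ) : ℂ) * (starRingEnd ℂ) (x b) else 0
    with hs
  have e1 : ∑ y, ‖lin Q x (K y)‖ ^ 2 = nsq (K *ᵥ s) := by
    refine sum_congr rfl fun y _ => ?_
    congr 2
    rw [lin, mulVec, dotProduct, ← sum_subset (subset_univ Q)]
    · exact sum_congr rfl fun b hb => by simp [hs, hb, mul_comm]
    · intro b _ hb
      simp [hs, hb]
  have e2 : nsq s ≤ h * ∑ b ∈ Q, ‖x b‖ ^ 4 := by
    rw [nsq, ← sum_subset (subset_univ Q) (fun b _ hb => by simp [hs, hb]), mul_sum]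
    refine sum_le_sum fun b hb => ?_
    simp only [hs, hb, if_true, norm_mul, Complex.norm_conj, Complex.norm_real,
      Real.norm_of_nonneg (sq_nonneg ‖x b‖)]
    have := mul_le_mul_of_nonneg_right (hx b hb) (show 0 ≤ ‖x b‖ ^ 4 by positivity)
    linarith
  have e5 := hK.bd s
  rw [e1]
  linarith

/-- the linear coefficients of a mass in `ℓ²` over the drivers -/
theorem mass_lin_nsq {K : Matrix ι ι ℂ} (hK : Ward K) (Q : Finset ι) (x : ι → ℂ) :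
    ∑ y, ‖∑ b ∈ Q, (starRingEnd ℂ) (x b) * K y b‖ ^ 2 ≤ ∑ b ∈ Q, ‖x b‖ ^ 2 := by
  set s : ι → ℂ := fun b => if b ∈ Q then (starRingEnd ℂ) (x b) else 0 with hs
  have e1 : ∑ y, ‖∑ b ∈ Q, (starRingEnd ℂ) (x b) * K y b‖ ^ 2 = nsq (K *ᵥ s) := by
    refine sum_congr rfl fun y _ => ?_
    congr 2
    rw [mulVec, dotProduct, ← sum_subset (subset_univ Q)]
    · exact sum_congr rfl fun b hb => by simp [hs, hb, mul_comm]
    · intro b _ hb
      simp [hs, hb]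
  have e2 : nsq s = ∑ b ∈ Q, ‖x b‖ ^ 2 := by
    rw [nsq, ← sum_subset (subset_univ Q) (fun b _ hb => by simp [hs, hb])]
    exact sum_congr rfl fun b hb => by simp [hs, hb]
  have e5 := hK.bd s
  rw [e1, ← e2]
  linarith

end Crest.Agent.N334.AC.One
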