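import Crest.Agent.N334.AC.L.Rel
import Crest.Agent.N334.AC.L.Jump
import Crest.Agent.N334.AC.L.Tau
import Crest.Agent.N334.AC.L.Weg
import Crest.Agent.N334.AC.L.Newton
import Crest.Agent.N334.AC.F.Wit
import Crest.Agent.N334.AC.CT
import Crest.Agent.N334.AC.M6.Defs

/-!
# S0520 part P (helper50): the closing process. DEFINITIONS.

Everything is in `G`-units. `γ = -Im w₀ ≈ σ²`. One epoch has a reference `Ref` and parameters `Ep`;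
one stage has parameters `Sg`. A stage is Newton, selection, closing; an epoch ends with a release.
`x⁴ = θ` bounds `γ ∑ |G|⁴`, `h = x²/q` bounds `|G|²` off the diagonal, `q² = Q γ`.
-/

set_option autoImplicit false
set_option linter.dupNamespace false

open Finset Complex
open scoped Matrix.Norms.L2Operator Matrix

namespace Crest.Agent.N334.AC.P

/-- fixed data -/
structure Cx (d M : ℕ) where
  C : ℝ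
  σ : ℝ
  E : ℝ
  w0 : ℂ
  N : ℕ
  r : Tor d M → ℝ

/-- epoch parameters -/
structure Ep where
  /-- `Z = T = P` -/
  P : ℕ
  Q : ℕ
  q : ℝ
  /-- range -/
  ρ : ℕ
  /-- decay rate in the epoch -/
  ϑ : ℝ
  /-- bound of everything that is large -/
  Bg : ℝ
  /-- decay of the reference -/
  A0 : ℝ
  θ0 : ℝ
  /-- shield -/
  τ : ℝ
  /-- open cells have length `2^a'`, `a ≤ a'` -/
  a : ℕ
  /-- separation of the tame set -/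
  Rt : ℕ
  Ft : ℝ
  /-- old frozen ports are within `s` of an old seed -/
  s : ℕ

/-- stage parameters -/
structure Sg where
  R : ℕ
  x : ℝ
  x' : ℝ
  X : ℝ
  X' : ℝ
  e : ℝ
  e' : ℝ
  z : ℝ
  D : ℝ
  F : ℝ

/-- thresholds of the invariant -/
structure Th where
  R : ℕ
  h : ℝ
  θ : ℝ
  X : ℝ
  e : ℝ
  β : ℝ
  D : ℝ
  K : ℝ

/-- reference of an epoch: potential and ordinary ports at its start, tame set, old seeds -/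
structure Ref (d M : ℕ) where
  wr : Tor d M → ℂ
  ord0 : Finset (Tor d M)
  T : Finset (Tor d M)
  P : Finset (Tor d M)

/-- state: potential, cells `(lo, len)`, ordinary ports, seeds of the current level -/
structure St (d M : ℕ) where
  w : Tor d M → ℂ
  S : Tor d M → ℕ × ℕ
  ord : Finset (Tor d M)
  PS : Finset (Tor d M)

/-- state of the closing phase: active ports, number of steps -/
structure CS (d M : ℕ) extends St d M where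
  A : Finset (Tor d M)
  n : ℕ

section Par

/-- mass left after the selection -/
noncomputable def Ep.φ (e : Ep) : ℝ := 1 / ((e.P : ℝ) ^ 2 * e.Q)
/-- size of the Newton step -/
noncomputable def nu (e : Ep) (g : Sg) : ℝ := (e.P : ℝ) ^ 8 * e.Q * g.x ^ 2
/-- Lyapunov constant of the diagonal -/
noncomputable def Be (e : Ep) (g : Sg) : ℝ := (e.P : ℝ) ^ 4 * e.Q * g.x ^ 2
/-- Lyapunov constant of the dwell time -/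
noncomputable def Bw (e : Ep) (g : Sg) : ℝ := 6 * (e.P : ℝ) ^ 2 * e.Q * g.D
/-- next dwell bound -/
noncomputable def D' (e : Ep) (g : Sg) : ℝ := (e.P : ℝ) ^ 3 * e.Q * g.D
/-- weight of `N^A` -/
noncomputable def bt (e : Ep) (t : ℝ) : ℝ := min (Real.exp (t / 2)) ((e.P : ℝ) ^ 2)

/-- start of a stage -/
noncomputable def mkTh (e : Ep) (R : ℕ) (x X ε D : ℝ) : Th :=
  ⟨R, x ^ 2 / e.q, x ^ 4, X, ε, (e.P : ℝ) ^ 6 * e.Q * x ^ 2, D, (e.P : ℝ) ^ 4 * D⟩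
noncomputable def th0 (e : Ep) (g : Sg) : Th := mkTh e g.R g.x g.X g.e g.D
/-- after the Newton step -/
noncomputable def th1 (e : Ep) (g : Sg) : Th :=
  ⟨g.R, 4 * (g.x ^ 2 / e.q), 9 * g.x ^ 4, g.X + g.x, g.e + g.x, g.x ^ 2, 3 * g.D,
    2 * ((e.P : ℝ) ^ 4 * g.D)⟩
/-- during the closing phase -/
noncomputable def th2 (e : Ep) (g : Sg) : Th :=
  ⟨g.R, 9 * (g.x ^ 2 / e.q), 13 * g.x ^ 4, g.X', g.e', (e.P : ℝ) ^ 5 * e.Q * g.x ^ 2, D' e g,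
    (e.P : ℝ) ^ 4 * D' e g⟩
/-- end of the stage -/
noncomputable def th3 (e : Ep) (g : Sg) : Th := mkTh e (2 * g.R) g.x' g.X' g.e' (D' e g)

/-- thresholds under which the derived facts hold -/
structure ThLe (e : Ep) (g : Sg) (t : Th) : Prop where
  R : g.R ≤ t.R
  e_le : t.e ≤ g.e'
  X : t.X ≤ g.X'
  D : t.D ≤ D' e g
  K : t.K ≤ (e.P : ℝ) ^ 4 * D' e g

end Par

variable {d M : ℕ} [NeZero M]

namespace Cx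

variable (c : Cx d M)

noncomputable def A : Matrix (Tor d M) (Tor d M) ℂ := Aop d M c.E
noncomputable def G (w : Tor d M → ℂ) : Matrix (Tor d M) (Tor d M) ℂ := Gm c.A w
def γ : ℝ := -c.w0.im
noncomputable def G0 : Matrix (Tor d M) (Tor d M) ℂ := c.G fun _ => c.w0
noncomputable def μ : ℝ := c.γ * (c.G0 0 0).im
noncomputable def E0 : (Tor d M → ℝ) → ℝ := En (Km c.A fun _ => c.w0)
noncomputable def v (x : Tor d M) (k : ℕ) : ℝ := val c.σ c.N (c.r x) k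
/-- rank-one coefficient of the closing of `y` with digit `k` -/
noncomputable def τ (w : Tor d M → ℂ) (y : Tor d M) (k : ℕ) : ℂ := tau (c.G w y y) (w y) (c.v y k)
/-- bias -/
noncomputable def b (w : Tor d M → ℂ) (y : Tor d M) : ℂ := beta c.σ c.N (c.r y) (c.G w y y) (w y)
/-- `E |τ|²` -/
noncomputable def m2 (w : Tor d M → ℂ) (y : Tor d M) : ℝ := avg c.N fun k => ‖c.τ w y k‖ ^ 2
/-- the constant that absorbs all constants -/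
noncomputable def κ : ℝ := (100 * d * c.C) ^ (10 * d)

structure OK : Prop where
  hd : 3 ≤ d
  C1 : 1 ≤ c.C
  σ0 : 0 < c.σ
  σ1 : c.κ * c.σ ≤ 1
  N1 : 1 ≤ c.σ ^ 2 * c.N
  r01 : ∀ x, 0 ≤ c.r x ∧ c.r x ≤ 1
  card : 100 ≤ Fintype.card (Tor d M)
  init : Init d M c.C c.σ c.E c.w0

/-- upper bound of the energy -/
def UB (w : Tor d M → ℂ) (ε : ℝ) : Prop := M6.UB c.E0 c.A w ε

/-- lower bound of the energy -/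
def LB (w : Tor d M → ℂ) (ε : ℝ) : Prop := M6.LB c.E0 c.A w ε

/-- capacity bound on `R`-separated sets -/
def CapR (R : ℕ) (a F : ℝ) : Prop := ∀ S : Finset (Tor d M), Sep R S → M6.Cap c.E0 c.μ S a F

end Cx

/-- open sites -/
noncomputable def opn (w : Tor d M → ℂ) : Finset (Tor d M) := by
  classical exact univ.filter fun x => gam w x ≠ 0

/-- time step -/
noncomputable def dt (d M : ℕ) [NeZero M] : ℝ := 1 / Fintype.card (Tor d M)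

/-- weight of a far increment, `∑_y tl x y ≤ 1` -/
noncomputable def tl (e : Ep) (x y : Tor d M) : ℝ :=
  Real.exp (-(e.ϑ / 2) * tdist y x) / (6 * d / e.ϑ) ^ d

/-- potential of the current level -/
noncomputable def sd (PS : Finset (Tor d M)) (β : ℝ) (p : Tor d M) : ℝ := if p ∈ PS then 1 else β

/-- the cell -/
def cel (q : ℕ × ℕ) : Finset ℕ := Ico q.1 (q.1 + q.2)

/-- cells after a lazy step -/
def celA (S : Tor d M → ℕ × ℕ) : Option (Tor d M × ℕ) → Tor d M → ℕ × ℕ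
  | none => S
  | some (y, k) => Function.update S y (k, 1)

/-- rules of the game `W cells potential` (= "`badFrac ≤ Ψ`") -/
structure Game (N rr : ℕ) (W : (Tor d M → ℕ × ℕ) → (Tor d M → ℝ) → Prop) : Prop where
  mono : ∀ {S π π'}, W S π → (∀ p, 0 ≤ π p) → (∀ p, π p ≤ π' p) → W S π'
  lazy : ∀ {S π} {π' : Option (Tor d M × ℕ) → Tor d M → ℝ} (A : Finset (Tor d M)),
    (∀ y ∈ A, S y = (0, N)) → (∀ p, LocA A N (dt d M) (tball p rr) (π p) fun ω => π' ω p) →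
    (∀ ω, okA A N ω → W (celA S ω) (π' ω)) → W S π
  mark : ∀ {S π} {π' : (Tor d M → ℕ) → Tor d M → ℝ} (m : Tor d M → ℕ), (∀ x, 0 < m x) →
    (∀ p, LocB m (tball p rr) (π p) fun ξ => π' ξ p) →
    (∀ ξ, (∀ x, ξ x < m x) → W S (π' ξ)) → W S π
  cut : ∀ {S π} {π' : (Tor d M → ℕ) → Tor d M → ℝ} (m len : Tor d M → ℕ), (∀ x, 0 < m x) →
    (∀ x, 0 < len x) → (∀ x, (S x).2 = m x * len x) →
    (∀ p, LocB m (tball p rr) (π p) fun ξ => π' ξ p) →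
    (∀ ξ, (∀ x, ξ x < m x) → W (fun x => ((S x).1 + ξ x * len x, len x)) (π' ξ)) → W S π

/-- freeze the ordinary ports near the new seeds `F` -/
def St.frz (s : St d M) (R : ℕ) (F : Finset (Tor d M)) : St d M :=
  { s with ord := s.ord \ nbhd F R, PS := s.PS ∪ F }

def CS.frz (s : CS d M) (R : ℕ) (F : Finset (Tor d M)) : CS d M :=
  { toSt := s.toSt.frz R F, A := s.A \ nbhd F R, n := s.n }

/-- one lazy step -/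
noncomputable def CS.next (c : Cx d M) (s : CS d M) : Option (Tor d M × ℕ) → CS d M
  | none => { s with n := s.n + 1 }
  | some (y, k) =>
    { w := cls1 s.w y (c.v y k), S := Function.update s.S y (k, 1), ord := s.ord.erase y,
      PS := s.PS, A := s.A.erase y, n := s.n + 1 }

/-- time -/
noncomputable def CS.t (s : CS d M) : ℝ := s.n * dt d M

/-- the phase is not over -/
def CS.run (e : Ep) (s : CS d M) : Prop := s.n < e.P * Fintype.card (Tor d M)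

/-- seeds are kept, forced ports are kept or captured -/
def Fol (e : Ep) (X : Finset (Tor d M)) (s s' : St d M) : Prop :=
  s.PS ⊆ s'.PS ∧ ∀ x ∈ X, x ∈ s.ord → x ∈ s'.ord ∨ x ∈ nbhd s'.PS (3 * e.ρ)

/-- the inequalities of one stage -/
structure Led (c : Cx d M) (e : Ep) (g : Sg) : Prop where
  ok : c.OK
  P_lo : c.κ ≤ e.P
  Q_lo : e.P ^ 6 ≤ e.Q
  q0 : 0 < e.q
  q_sq : e.q ^ 2 = e.Q * c.γ
  q_hi : e.Q * c.γ ≤ (e.P : ℝ) ^ 7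
  alt : (e.P : ℝ) ^ 3 * g.e' ≤ 1 ∨ (e.P : ℝ) ^ 5 ≤ e.Q * c.γ
  x0 : 0 < g.x'
  x_le : g.x' ≤ g.x
  x_ge : g.x ^ 4 ≤ 2 * g.x' ^ 4
  main : (e.P : ℝ) ^ 15 * e.Q * g.x ≤ 1
  X0 : 0 ≤ g.X
  X_inc : g.X + (e.P : ℝ) ^ 3 * g.x ≤ g.X'
  z0 : 0 ≤ g.z
  X_z : g.X' ≤ g.z ^ 2
  e0 : 0 ≤ g.e
  e_inc : g.e + (e.P : ℝ) ^ 3 * g.z ≤ g.e'
  e_hi : c.κ * g.e' ≤ 1
  D1 : 1 ≤ g.D
  R1 : 1 ≤ g.R
  Rρ : 2 * g.R ≤ e.ρ
  F0 : 0 ≤ g.F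
  F_le : (e.P : ℝ) ^ 6 * g.F ≤ c.γ * g.x ^ 4
  cap : c.CapR g.R (1 + g.e') g.F
  Ft0 : 0 ≤ e.Ft
  Ft_le : e.Ft ≤ c.γ * g.z ^ 2
  capT : c.CapR e.Rt 2 e.Ft
  four : c.γ * ∑ u ∈ univ.filter (fun u : Tor d M => u ≠ 0 ∧ e.Rt ≤ tdist u 0),
    ‖c.G0 u 0‖ ^ 4 * (1 + (c.σ ^ 2 * tdist u 0) ^ 2) ≤ g.z ^ 4
  A00 : 0 ≤ e.A0
  ϑ0 : 0 < e.ϑ
  ϑ1 : 4 * e.ϑ ≤ e.θ0
  θ1 : e.θ0 ≤ 1
  ϑG : e.ϑ ≤ c.σ ^ 2 / c.C
  ct : 8 * e.A0 * (e.ϑ / e.θ0) * (12 * d / e.θ0) ^ d * (1 + (e.P : ℝ) ^ 4 * D' e g) ≤ 1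
  B_K : 8 * (1 + (e.P : ℝ) ^ 4 * D' e g) / c.γ ≤ e.Bg
  B_x : 1 ≤ e.Bg * g.x'
  B_σ : c.C ≤ e.Bg * c.σ ^ 2
  B_ρ : (100 * d * c.C * e.ρ / e.ϑ) ^ (2 * d + 6) ≤ e.Bg
  ρσ : 1 ≤ c.σ ^ 2 * e.ρ
  tail : e.Bg ^ 40 * Real.exp (-e.ϑ * e.ρ / 4) ≤ 1
  τ0 : 0 ≤ e.τ
  τ_le : e.Bg ^ 5 * e.τ ≤ 1
  logv : (10 * e.P ^ 4 * e.ρ) ^ d ≤ 2 ^ e.P
  mult : (100 * (e.P : ℝ) ^ 3 * e.Q * e.ρ) ^ d ≤ Real.exp (e.P / 8)

/-- static facts of an epoch -/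
structure RefOK (c : Cx d M) (e : Ep) (f : Ref d M) : Prop where
  adm : Adm c.A f.wr
  near : ∀ x, gam f.wr x ≠ 0 → ‖f.wr x - c.w0‖ ≤ c.γ / 10
  sub : f.ord0 ⊆ f.T
  opn0 : f.ord0 ⊆ opn f.wr
  dT : Disjoint f.T (absb d M)
  sepT : Sep e.Rt f.T
  dec : ∀ a ∈ opn f.wr, ∀ b ∈ opn f.wr, ‖c.G f.wr a b‖ ≤ e.A0 * Real.exp (-e.θ0 * tdist a b)
  shield : ∀ x ∈ opn f.wr, x ∉ f.T → x ∉ absb d M → ∑ y ∈ f.ord0, ‖c.G f.wr x y‖ ^ 2 ≤ e.τ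
  cov : ∀ x ∈ opn f.wr, x ∉ f.ord0 → x ∉ absb d M → x ∈ nbhd f.P e.s

/-- combinatorial invariant -/
structure Bas (c : Cx d M) (e : Ep) (f : Ref d M) (s : St d M) : Prop where
  adm : Adm c.A s.w
  abs : ∀ x ∈ absb d M, s.w x = c.w0
  rng : ∀ x, 0 < (s.S x).2 ∧ (s.S x).1 + (s.S x).2 ≤ c.N
  cls : ∀ x, gam s.w x = 0 → (s.S x).2 = 1 ∧ s.w x = c.v x (s.S x).1
  len : ∀ x, gam s.w x ≠ 0 → ∃ a, e.a ≤ a ∧ (s.S x).2 = 2 ^ a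
  full : ∀ x ∈ s.ord, s.S x = (0, c.N)
  off : ∀ x, x ∉ f.ord0 → s.w x = f.wr x
  sub : s.ord ⊆ f.ord0
  opn : ∀ x ∈ s.ord, gam s.w x ≠ 0
  g2 : ∀ x ∈ f.ord0, gam s.w x ≠ 0 → x ∉ s.ord → x ∈ nbhd s.PS (3 * e.ρ)
  g3 : Disjoint s.ord (nbhd s.PS (3 * e.ρ))

/-- the invariant -/
structure Inv (c : Cx d M) (e : Ep) (f : Ref d M) (t : Th) (s : St d M) : Prop where
  bas : Bas c e f s
  sep : Sep t.R s.ord
  near : ∀ x, gam s.w x ≠ 0 → ‖s.w x - c.w0‖ ≤ t.e * c.γ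
  ent : ∀ a ∈ s.ord, ∀ b ∈ s.ord, a ≠ b → ‖c.G s.w a b‖ ^ 2 ≤ t.h
  four : ∀ a ∈ s.ord, c.γ * ∑ b ∈ s.ord.erase a, ‖c.G s.w a b‖ ^ 4 ≤ t.θ
  pair : ∀ a ∈ s.ord, ∀ b ∈ f.T, gam s.w b ≠ 0 → a ≠ b →
    ‖c.G s.w a b - c.G0 a b‖ ≤ t.X
  diag : ∀ b ∈ f.T, gam s.w b ≠ 0 → ‖c.G s.w b b - c.G0 0 0‖ ≤ t.e
  bias : ∀ a ∈ s.ord, ‖c.b s.w a‖ ≤ t.β * c.γ
  ub : c.UB s.w t.e
  lb : c.LB s.w t.e
  had : c.γ * ‖cmp (Matrix.hadamard (c.G s.w) (c.G s.w)) s.ord‖ ≤ t.e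
  nrm : ‖cmp (c.G s.w) (P.opn f.wr)‖ ≤ t.K
  dwl : ∀ a ∈ s.ord, ∑ x ∈ P.opn f.wr, ‖c.G s.w x a‖ ^ 2 ≤ t.D

/-- consequences of the invariant -/
structure Der (c : Cx d M) (e : Ep) (g : Sg) (f : Ref d M) (s : St d M) : Prop where
  gam_ge : ∀ x, gam s.w x ≠ 0 → 9 / 10 * c.γ ≤ gam s.w x
  gam_le : ∀ x, gam s.w x ≤ 11 / 10 * c.γ
  w_le : ∀ x, gam s.w x ≠ 0 → ‖s.w x‖ ≤ 2 * c.C * c.σ ^ 2
  sub0 : opn s.w ⊆ opn f.wr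
  g_le : ∀ b ∈ f.T, gam s.w b ≠ 0 → ‖c.G s.w b b‖ ≤ 2 * c.C
  e_le : ∀ a ∈ s.ord, ∀ b ∈ f.T, gam s.w b ≠ 0 → ‖c.G s.w a b‖ ≤ 2 * c.C
  iota : ∀ a ∈ s.ord, 1 / (4 * c.C) ≤ ∑ b ∈ univ.erase a, gam s.w b * ‖c.G s.w a b‖ ^ 2
  den : ∀ y ∈ s.ord, ∀ k < c.N, 1 + ((c.v y k : ℂ) - s.w y) * c.G s.w y y ≠ 0
  τ_le : ∀ y ∈ s.ord, ∀ k < c.N, ‖c.τ s.w y k‖ ^ 2 ≤ 4 * c.C * c.γ
  tw : TW e.ϑ e.Bg (cmp (c.G s.w) (opn f.wr))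
  dec : ∀ a ∈ opn f.wr, ∀ b ∈ opn f.wr, ‖c.G s.w a b‖ ≤ e.Bg * Real.exp (-e.ϑ * tdist a b)
  ker : ∀ u : Tor d M → ℝ, (∀ x, 0 ≤ u x) → c.γ * ∑ a ∈ s.ord, ∑ b ∈ s.ord.erase a,
    ‖c.G s.w a b‖ ^ 2 * (u a * u b) ≤
      20 * c.C ^ 2 * (g.e' * ∑ a ∈ s.ord, u a ^ 2 + g.F * (∑ a ∈ s.ord, u a) ^ 2)
  core : ∀ y ∈ s.ord, e.Bg * ∑ x ∈ (opn s.w \ f.T) \ absb d M, ‖c.G s.w y x‖ ^ 2 ≤ 1

/-- mass of the row `a` on the ports that are never closed in the phase -/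
noncomputable def nm (c : Cx d M) (s0 : CS d M) (w : Tor d M → ℂ) (a : Tor d M) : ℝ :=
  ∑ b ∈ univ \ s0.A, gam s0.w b * ‖c.G w a b‖ ^ 2

/-- start of the closing phase -/
structure Pre (c : Cx d M) (e : Ep) (g : Sg) (f : Ref d M) (s : CS d M) : Prop where
  inv : Inv c e f (th1 e g) s.toSt
  n0 : s.n = 0
  sub : s.A ⊆ s.ord
  sep : Sep (2 * g.R) (s.ord \ s.A)
  ent : ∀ a ∈ s.ord \ s.A, ∀ b ∈ s.ord \ s.A, a ≠ b → ‖c.G s.w a b‖ ^ 2 ≤ g.x' ^ 2 / e.q / 4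
  ns : ∀ a ∈ s.ord, c.γ * ∑ b ∈ (s.ord \ s.A).erase a, ‖c.G s.w a b‖ ^ 4 ≤ g.x ^ 4 / 16
  nm : ∀ a ∈ s.ord, e.φ ≤ nm c s s.w a

/-- states reachable in the closing phase -/
structure Rch (c : Cx d M) (e : Ep) (f : Ref d M) (s0 s : CS d M) : Prop where
  bas : Bas c e f s.toSt
  sub : s.A ⊆ s.ord
  subA : s.A ⊆ s0.A
  subS : s.ord \ s.A ⊆ s0.ord \ s0.A
  same : ∀ x, gam s.w x ≠ 0 ∨ x ∉ s0.A → s.w x = s0.w x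
  PS : s0.PS ⊆ s.PS
  n_le : s.n ≤ e.P * Fintype.card (Tor d M)

/-- environment of the closing phase -/
structure Env (c : Cx d M) (e : Ep) (g : Sg) (f : Ref d M) (s0 s : CS d M) : Prop where
  rch : Rch c e f s0 s
  inv : Inv c e f (th2 e g) s.toSt
  der : Der c e g f s.toSt
  na : ∀ a ∈ s.ord, bt e s.t * (c.γ * ∑ b ∈ s.A.erase a, ‖c.G s.w a b‖ ^ 4) ≤ 12 * g.x ^ 4
  ns : ∀ a ∈ s.ord, c.γ * ∑ b ∈ (s.ord \ s.A).erase a, ‖c.G s.w a b‖ ^ 4 ≤ g.x ^ 4 / 2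
  entS : ∀ a ∈ s.ord \ s.A, ∀ b ∈ s.ord \ s.A, a ≠ b → ‖c.G s.w a b‖ ^ 2 ≤ g.x' ^ 2 / e.q
  ly : ∀ y ∈ s.ord, ‖c.b s.w y‖ ≤ c.m2 s.w y * (Be e g * nm c s0 s.w y)
  dw : ∀ y ∈ s.ord, ∑ x ∈ opn f.wr, ‖c.G s.w x y‖ ^ 2 ≤ Bw e g * nm c s0 s.w y

/-- a family of monitors: hidden relation `R state potentials` -/
def FamOK (c : Cx d M) (e : Ep) (Rc Ev : CS d M → Prop) (s0 : CS d M) (Out : CS d M → Prop)
    (β : ℝ) : Prop :=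
  ∃ R : CS d M → (Tor d M → ℝ) → Prop, (∃ π, R s0 π ∧ ∀ p, π p ≤ β) ∧
    (∀ s π, R s π → (∀ p, 0 ≤ π p) ∧ (Rc s → Out s)) ∧
    (∀ s π F, R s π → R (s.frz (3 * e.ρ) F) π) ∧
    ∀ s π, Ev s → s.run e → R s π → (∀ p, π p < 1 ∨ Disjoint (tball p (3 * e.ρ)) s.ord) →
      ∃ π' : Option (Tor d M × ℕ) → Tor d M → ℝ,
        (∀ p, LocA s.A c.N (dt d M) (tball p (3 * e.ρ)) (π p) fun ω => π' ω p) ∧
        ∀ ω, okA s.A c.N ω → R (s.next c ω) (π' ω)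

/-- a family of monitors of the closing phase started at `s0` -/
def Fam (c : Cx d M) (e : Ep) (g : Sg) (f : Ref d M) (s0 : CS d M) (Out : CS d M → Prop) : Prop :=
  FamOK c e (Rch c e f s0) (Env c e g f s0) s0 Out (Real.exp (-(e.P : ℝ) / 3))

section Out

variable (c : Cx d M) (e : Ep) (g : Sg) (f : Ref d M) (s0 s : CS d M)

def OutP1 : Prop := ∀ a ∈ s.ord, ∀ b ∈ s.ord, a ≠ b → tdist b a ≤ e.ρ →
  ‖c.G s.w a b - c.G s0.w a b‖ ≤ nu e g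
def OutP2 : Prop := ∀ a ∈ s.ord, ∀ b ∈ f.T, gam s.w b ≠ 0 → a ≠ b → tdist b a ≤ e.ρ →
  ‖c.G s.w a b - c.G s0.w a b‖ ≤ (e.P : ℝ) ^ 3 * g.x / 2
def OutDg : Prop := ∀ b ∈ f.T, gam s.w b ≠ 0 →
  ‖c.G s.w b b - c.G s0.w b b‖ ≤ (e.P : ℝ) ^ 3 * g.z / 2
def OutLy : Prop := ∀ a ∈ s.ord,
  ‖c.G s.w a a - c.G s0.w a a‖ ≤ (1 + e.φ / e.P) * (Be e g * (nm c s0 s.w a - e.φ / 4))
def OutDw : Prop := ∀ a ∈ s.ord, ∑ x ∈ opn f.wr, ‖c.G s.w x a‖ ^ 2 ≤ Bw e g * nm c s0 s.w a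
def OutNA : Prop := ∀ a ∈ s.ord,
  bt e s.t * (c.γ * ∑ b ∈ s.A.erase a, ‖c.G s.w a b‖ ^ 4) ≤ 12 * g.x ^ 4
def OutNS : Prop := ∀ a ∈ s.ord,
  c.γ * ∑ b ∈ (s.ord \ s.A).erase a, ‖c.G s.w a b‖ ^ 4 ≤ g.x ^ 4 / 2
def OutNr : Prop := ‖cmp (c.G s.w) (opn f.wr)‖ ≤ (e.P : ℝ) ^ 4 * D' e g
def OutHd : Prop := c.γ * ‖cmp (Matrix.hadamard (c.G s.w) (c.G s.w)) s.ord‖ ≤ g.e'
def OutEn : Prop := c.UB s.w g.e' ∧ c.LB s.w g.e'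

end Out

/-- parameters of a release -/
structure Rp where
  /-- level of the old seeds -/
  k : ℕ
  R : ℕ
  J : ℕ
  ε : ℝ
  zr : ℝ

/-- the inequalities of the release at the end of the epoch `e` (virtual stage `g`); `e2, g2` start
the next epoch -/
structure LedR (c : Cx d M) (ρ : Rad) (e : Ep) (g : Sg) (u : Rp) (e2 : Ep) (g2 : Sg) : Prop where
  led : Led c e g
  m1 : 1 ≤ ρ.m (u.k + 1)
  R_lo : 2 * ρ.r u.k + 1 ≤ 10 * u.R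
  Rc : 30 * ρ.m (u.k + 1) * u.R ≤ ρ.Rc (u.k + 1)
  R_ge : e.s + u.J * e.ρ + 3 * e.ρ ≤ u.R
  s2 : 40 * ρ.m (u.k + 1) * u.R ≤ e2.s
  N_eq : ∃ W, e.a ≤ W ∧ c.N = 2 ^ W
  a2 : e2.a + e.P = e.a
  B_η : (c.N : ℝ) ≤ e.Bg * (c.σ * 2 ^ e2.a)
  B_R : (100 * d * ρ.m (u.k + 1) * u.R / e.ϑ) ^ (2 * d + 6) ≤ e.Bg
  ε0 : 1 ≤ e.Bg * u.ε
  J_lo : 60 * (ρ.m (u.k + 1) * vol d M (2 * ρ.r u.k + e.s)) * Real.log e.Bg < u.ε * u.J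
  J_hi : (e.P : ℝ) ^ 2 * (u.J : ℝ) ^ 2 * (g.x ^ 2 / e.q) ≤ u.ε ^ 2
  J_P : (u.J : ℝ) ≤ Real.exp (e.P / 8)
  zr0 : 0 ≤ u.zr
  zr : (100 * ρ.m (u.k + 1) : ℝ) ^ d * (u.ε + g.F * u.J) ≤ c.γ ^ 2 * u.zr ^ 2
  e_inc : g.e + e.P * u.zr ≤ g2.e
  e2_hi : c.κ * g2.e ≤ 1
  ε_x : e.P * u.ε ≤ c.γ ^ 2 * g2.x ^ 4
  x2 : 2 * g.x ≤ g2.x
  x21 : g2.x ≤ 1
  q2 : 0 < e2.q
  x2q : 10 * e2.q * g2.x ^ 2 ≤ 1
  G0x : c.C / c.σ ^ 2 * Real.exp (-(c.σ ^ 2 / c.C) * g.R) ≤ g2.x ^ 2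
  X2 : 3 * g2.x ^ 2 ≤ g2.X
  P2 : e.P ≤ e2.P
  Q2 : e.Q ≤ e2.Q
  D2 : e.P ≤ c.γ * g2.D
  R2 : g2.R = g.R
  Rt2 : e2.Rt = g.R
  A2 : 6 ≤ c.γ * e2.A0
  θ20 : 0 ≤ e2.θ0
  θ2 : e2.θ0 * (100 * ρ.m (u.k + 1) * u.R * Real.log e.Bg) ≤ 1
  τ2 : e.Bg ^ 30 * Real.exp (-e.ϑ * e.ρ / 2) ≤ e2.τ

/-- the inequalities at the very start -/
structure Led0 (c : Cx d M) (e : Ep) (g : Sg) : Prop where
  led : Led c e g
  N_eq : ∃ W, e.a ≤ W ∧ c.N = 2 ^ W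
  R1 : g.R = 1
  Rt1 : e.Rt = 1
  h_lo : c.C ^ 2 ≤ g.x ^ 2 / e.q
  θ_lo : c.C ^ 2 * c.σ ≤ g.x ^ 4
  e_lo : c.κ * c.σ ≤ g.e
  D_lo : c.C ≤ c.γ * g.D
  A_lo : c.C / c.σ ^ 2 ≤ e.A0
  θ0_le : e.θ0 ≤ c.σ ^ 2 / c.C

/-- initial reference and state -/
def ref0 (c : Cx d M) : Ref d M := ⟨fun _ => c.w0, (absb d M)ᶜ, (absb d M)ᶜ, ∅⟩
def st0 (c : Cx d M) : St d M := ⟨fun _ => c.w0, fun _ => (0, c.N), (absb d M)ᶜ, ∅⟩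

/-- the whole schedule: epoch `k ≤ K` (level `k+1` of the witness recursion) has the stages
`sg k 0, …, sg k (n k - 1)` and the virtual stage `sg k (n k)` -/
structure Sched (c : Cx d M) (ρ : Rad) (k1 K : ℕ) (ep : ℕ → Ep) (n : ℕ → ℕ) (sg : ℕ → ℕ → Sg)
    (rp : ℕ → Rp) (b : ℕ → ℝ) (τ : ℝ) : Prop where
  led0 : Led0 c (ep 0) (sg 0 0)
  led : ∀ k ≤ K, ∀ j ≤ n k, Led c (ep k) (sg k j)
  nxt : ∀ k ≤ K, ∀ j < n k, th3 (ep k) (sg k j) = th0 (ep k) (sg k (j + 1))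
  rel : ∀ k < K, LedR c ρ (ep k) (sg k (n k)) (rp k) (ep (k + 1)) (sg (k + 1) 0) ∧ (rp k).k = k
  ρ_le : ∀ k, 10 * (ep k).ρ ≤ ρ.r (k + 1)
  s_le : ∀ k, (ep k).s ≤ ρ.r (k + 1)
  b0 : ∀ k, 0 ≤ b k
  bud : ∀ k ≤ K, (n k + 1 : ℝ) * Real.exp (-((ep k).P : ℝ) / 4) ≤ b (k + 1)
  hrec : ∀ k, (vol d M (ρ.Rc (k + 1)) * (2 * b k)) ^ ρ.m (k + 1) ≤ b (k + 1)
  hlow : ∑ k ∈ range k1, vol d M (ρ.r (k + 1)) * (2 * b k) ≤ 1 / 2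
  hhigh : ∑ k ∈ Ico (k1 - 1) (K + 2), vol d M (ρ.r (k + 1)) * (2 * b k) ≤ τ
  k1_le : k1 ≤ K
  last : M < 2 * (sg K (n K)).R
  r_ge : M ≤ ρ.r (K + 1)

end Crest.Agent.N334.AC.P
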