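import Crest.Agent.N334.AC.P.Der
import Crest.Agent.N334.AC.M6.Key

/-! # S0520 part P: start and end (leaf; fill the sorries, keep the statements)
`init0`: fields of `Init` (`four`, `bias` with `Sml.beta_approx`, `rr`, Ward, `Adm.norm_cmp`).
`final`: `ord = {x}` (`Sep.subsingleton`), every other core site is closed (`cov`, `g2`), so `s.w = wObs v w0 x (s.w x)` for every
digit field in the cells; `M6.LB.final`; `cavg_eq_zero`. -/

set_option autoImplicit false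

open Finset Complex
open scoped Matrix.Norms.L2Operator Matrix

namespace Crest.Agent.N334.AC.P

variable {d M : ℕ} [NeZero M] {c : Cx d M} {e : Ep} {g : Sg} {f : Ref d M}

namespace Ends

lemma sep_one (S : Finset (Tor d M)) : Sep 1 S := fun _ _ _ _ hxy =>
  Nat.one_le_iff_ne_zero.2 fun h => hxy (tdist_eq_zero.1 h)

lemma not_mem_nbhd (R : ℕ) (x : Tor d M) : x ∉ nbhd (∅ : Finset (Tor d M)) R := fun h => by
  obtain ⟨b, hb, -⟩ := mem_nbhd.1 h
  exact notMem_empty b hb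

lemma C_pow (h : c.OK) {k : ℕ} (hk : k ≤ 30) : 100 * c.C ^ k ≤ 10 ^ 60 * c.C ^ 30 := by
  have h1 := h.C1
  exact mul_le_mul (by norm_num) (pow_le_pow_right₀ h1 hk) (by positivity) (by positivity)

lemma σ_le_one (h : c.OK) : c.σ ≤ 1 := by
  have h1 := h.σ_le
  have h2 := C_pow h (Nat.zero_le 30)
  have h3 := h.σ0
  nlinarith

lemma γ_small (h : c.OK) : 100 * c.γ ≤ 1 := by
  have h1 := h.γ_le
  have h2 := C_pow h (Nat.zero_le 30)
  have h3 := h.γ0
  nlinarith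

lemma γC (h : c.OK) : c.γ * (c.C / c.σ) ≤ c.C ^ 2 * c.σ := by
  have h1 := h.C1
  have h2 := h.σ0
  calc c.γ * (c.C / c.σ) ≤ c.C * c.σ ^ 2 * (c.C / c.σ) :=
        mul_le_mul_of_nonneg_right h.γ_hi (by positivity)
    _ = _ := by field_simp

lemma refOK (L : Led0 c e g) : RefOK c e (ref0 c) where
  adm := L.led.ok.init.adm
  near _ _ := by
    have := L.led.ok.γ0
    change ‖c.w0 - c.w0‖ ≤ _
    rw [sub_self, norm_zero]
    positivity
  sub := Subset.rfl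
  opn0 _ _ := mem_opn.2 L.led.ok.γ0.ne'
  dT := disjoint_compl_left
  sepT := L.Rt1 ▸ sep_one _
  dec a _ b _ := by
    refine (L.led.ok.init.decay a b).trans (mul_le_mul L.A_lo (Real.exp_le_exp.2 ?_)
      (Real.exp_pos _).le L.led.A00)
    exact mul_le_mul_of_nonneg_right (neg_le_neg L.θ0_le) (Nat.cast_nonneg _)
  shield _ _ h1 h2 := absurd (mem_compl.2 h2) h1
  cov _ _ h1 h2 := absurd (mem_compl.2 h2) h1

lemma bas0 (L : Led0 c e g) : Bas c e (ref0 c) (st0 c) where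
  adm := L.led.ok.init.adm
  abs _ _ := rfl
  rng _ := ⟨L.led.ok.N0, (zero_add _).le⟩
  cls _ h := absurd h L.led.ok.γ0.ne'
  len _ _ := L.N_eq
  full _ _ := rfl
  off _ _ := rfl
  sub := Subset.rfl
  opn _ _ := L.led.ok.γ0.ne'
  g2 _ h1 _ h2 := absurd h1 h2
  g3 := disjoint_right.2 fun x hx => absurd hx (not_mem_nbhd _ x)

lemma bias0 (L : Led0 c e g) (a : Tor d M) :
    ‖c.b (fun _ => c.w0) a‖ ≤ (e.P : ℝ) ^ 6 * e.Q * g.x ^ 2 * c.γ := by
  have ok := L.led.ok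
  have hC := ok.C1
  have hσ := ok.σ0
  have hγ := ok.γ0
  have h1 := (ok.sml hC (by linarith)).beta_approx (ok.r01 a) (ok.G0_le a a) ok.init.w_le
  have h2 : ‖c.w0 + (c.σ ^ 2 / 3 : ℝ) * c.G0 a a‖ ≤ c.C * c.σ ^ 3 := by
    rw [ok.G0_diag]
    exact ok.init.bias
  have h3 : ‖c.b (fun _ => c.w0) a‖ ≤ 10 * c.C ^ 2 * c.σ ^ 3 + c.C * c.σ ^ 3 := by
    have e1 : c.b (fun _ => c.w0) a = (beta c.σ c.N (c.r a) (c.G0 a a) c.w0 + c.w0 +
        (c.σ ^ 2 / 3 : ℝ) * c.G0 a a) - (c.w0 + (c.σ ^ 2 / 3 : ℝ) * c.G0 a a) := by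
      change beta c.σ c.N (c.r a) (c.G0 a a) c.w0 = _
      ring
    rw [e1]
    exact (norm_sub_le _ _).trans (add_le_add h1 h2)
  have h4 : c.C * c.σ ≤ g.x ^ 2 := by
    refine (pow_le_pow_iff_left₀ (by positivity) (by positivity) two_ne_zero).1 ?_
    have h5 := σ_le_one ok
    calc (c.C * c.σ) ^ 2 = c.C ^ 2 * c.σ * c.σ := by ring
      _ ≤ c.C ^ 2 * c.σ := mul_le_of_le_one_right (by positivity) h5
      _ ≤ g.x ^ 4 := L.θ_lo
      _ = _ := by ring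
  have hP := L.led.P_ge
  have hP1 : (1 : ℝ) ≤ e.P := le_trans (by norm_num) hP
  have h5 : 100 * c.C ^ 2 ≤ (e.P : ℝ) ^ 6 * e.Q := by
    have h6 : (1 : ℝ) ≤ e.Q := (one_le_pow₀ hP1).trans L.led.Q_ge
    calc 100 * c.C ^ 2 ≤ e.P := (C_pow ok (by norm_num)).trans L.led.P1
      _ ≤ (e.P : ℝ) ^ 6 := le_self_pow₀ hP1 (by norm_num)
      _ ≤ _ := le_mul_of_one_le_right (by positivity) h6
  have h6 : c.C * c.σ ^ 3 ≤ c.C ^ 2 * c.σ ^ 3 :=
    mul_le_mul_of_nonneg_right (le_self_pow₀ hC two_ne_zero) (by positivity)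
  have h7 : c.C ^ 2 * c.σ ^ 3 ≤ c.C ^ 2 * (c.C * c.σ) * c.γ := by
    calc c.C ^ 2 * c.σ ^ 3 = c.C ^ 2 * c.σ * c.σ ^ 2 := by ring
      _ ≤ c.C ^ 2 * c.σ * (c.C * c.γ) := mul_le_mul_of_nonneg_left ok.γ_lo (by positivity)
      _ = _ := by ring
  have h8 : 100 * c.C ^ 2 * (c.C * c.σ) * c.γ ≤ (e.P : ℝ) ^ 6 * e.Q * g.x ^ 2 * c.γ := by
    gcongr
  have h9 : 0 ≤ c.C ^ 2 * c.σ ^ 3 := by positivity
  nlinarith

end Ends

theorem init0 (L : Led0 c e g) : RefOK c e (ref0 c) ∧ Inv c e (ref0 c) (th0 e g) (st0 c) := by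
  have ok := L.led.ok
  have hC := ok.C1
  have hσ := ok.σ0
  have hγ := ok.γ0
  have adm : Adm c.A fun _ => c.w0 := ok.init.adm
  have hE : ∀ ψ, 0 ≤ c.E0 ψ := fun ψ => En_nn _ ψ
  have hD : 0 ≤ g.D := zero_le_one.trans L.led.D1
  refine ⟨Ends.refOK L, Ends.bas0 L, ?_, fun _ _ => ?_, fun a _ b _ _ => ?_, fun a _ => ?_,
    fun a _ b _ _ _ => ?_, fun b _ _ => ?_, fun a _ => Ends.bias0 L a,
    (M6.UB.init _ _).mono hE L.led.e0, (M6.LB.init _ _).mono hE L.led.e0, ?_, ?_, fun a _ => ?_⟩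
  · change Sep g.R _
    rw [L.R1]
    exact Ends.sep_one _
  · change ‖c.w0 - c.w0‖ ≤ g.e * c.γ
    rw [sub_self, norm_zero]
    exact mul_nonneg L.led.e0 hγ.le
  · exact (pow_le_pow_left₀ (norm_nonneg _) (ok.G0_le a b) 2).trans L.h_lo
  · change c.γ * ∑ b ∈ _, ‖c.G0 a b‖ ^ 4 ≤ g.x ^ 4
    refine le_trans (mul_le_mul_of_nonneg_left ?_ hγ.le) ((Ends.γC ok).trans L.θ_lo)
    refine le_trans ?_ (M6.Ky.four ok.init a)
    refine (sum_le_sum_of_subset_of_nonneg (subset_univ _) fun _ _ _ => by positivity).trans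
      (le_of_eq (sum_congr rfl fun b _ => ?_))
    exact congrArg (fun z : ℂ => ‖z‖ ^ 4) (adm.G_comm a b)
  · change ‖c.G0 a b - c.G0 a b‖ ≤ g.X
    rw [sub_self, norm_zero]
    exact L.led.X0
  · change ‖c.G0 b b - c.G0 0 0‖ ≤ g.e
    rw [ok.G0_diag b, sub_self, norm_zero]
    exact L.led.e0
  · refine (mul_le_mul_of_nonneg_left ((norm_cmp_le _ _).trans ok.init.rr) hγ.le).trans
      ((Ends.γC ok).trans (le_trans ?_ L.e_lo))
    refine mul_le_mul_of_nonneg_right (le_trans ?_ ok.κ1) hσ.le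
    have := Ends.C_pow ok (by norm_num : 2 ≤ 30)
    nlinarith
  · refine (adm.norm_cmp hγ fun _ _ => le_rfl).trans ?_
    change _ ≤ (e.P : ℝ) ^ 4 * g.D
    have hP1 : (1 : ℝ) ≤ e.P := le_trans (by norm_num) L.led.P_ge
    refine le_trans ?_ (le_mul_of_one_le_left hD (one_le_pow₀ hP1))
    rw [div_le_iff₀' hγ]
    exact hC.trans L.D_lo
  · change ∑ x ∈ _, ‖c.G0 x a‖ ^ 2 ≤ g.D
    refine le_of_mul_le_mul_left (le_trans ?_ L.D_lo) hγ
    refine le_trans ?_ (((adm.ward_diag a).le.trans (im_le_norm _)).trans (ok.G0_le a a))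
    rw [mul_sum]
    refine (sum_le_sum_of_subset_of_nonneg (subset_univ _) fun _ _ _ => by positivity).trans
      (le_of_eq (sum_congr rfl fun b _ => ?_))
    exact congrArg (fun z : ℂ => c.γ * ‖z‖ ^ 2) (adm.G_comm b a)

theorem final (L : Led c e g) (hf : RefOK c e f) {s : St d M} (h : Inv c e f (th0 e g) s)
    (hP : f.P = ∅) (hPS : s.PS = ∅) (hM : M < 2 * g.R) {x : Tor d M} (hx : x ∈ s.ord) {R0 : ℕ}
    (hR : x ∈ tball (0 : Tor d M) R0) :
    badFrac c.σ c.E c.w0 (c.σ ^ 2 / (10 * c.C ^ 2)) R0 c.N c.r (fun z => cel (s.S z)) = 0 := by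
  have ok := L.ok
  have hC := ok.C1
  have hσ := ok.σ0
  have hγ := ok.γ0
  have hb := h.bas
  have hxa : x ∉ absb d M := disjoint_left.1 hf.dT (hf.sub (hb.sub hx))
  have hcl : ∀ z, z ≠ x → gam s.w z ≠ 0 → z ∈ absb d M := by
    intro z hz h0
    by_contra hza
    by_cases h1 : z ∈ f.ord0
    · refine Ends.not_mem_nbhd (3 * e.ρ) z (hPS ▸ hb.g2 z h1 h0 fun h2 => hz ?_)
      exact h.sep.subsingleton hM h2 hx
    · refine Ends.not_mem_nbhd e.s z (hP ▸ hf.cov z (mem_opn.2 ?_) h1 hza)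
      rwa [gam, ← hb.off z h1]
  have he' : 100 * g.e' ≤ 1 := by
    have h1 := L.e'_small
    have h2 := Ends.C_pow ok (Nat.zero_le 30)
    have h3 := L.le0.e_le
    have h4 : 0 ≤ g.e' := L.e0.trans h3
    nlinarith
  have he : g.e ≤ g.e' := L.le0.e_le
  have he0 := L.e0
  have hγ1 := Ends.γ_small ok
  have hn : ‖s.w x - c.w0‖ ≤ g.e * c.γ := h.near x (hb.opn x hx)
  have hn2 : g.e * c.γ ≤ c.γ / 100 := by nlinarith
  have hκ : c.σ ^ 2 / (10 * c.C ^ 2) ≤ c.μ / 10 := by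
    rw [div_le_div_iff₀ (by positivity) (by norm_num)]
    have h1 := mul_le_mul_of_nonneg_left ok.μ_lo (zero_le_one.trans hC)
    have h2 := ok.γ_lo
    nlinarith
  have hμ : 0 ≤ c.μ := by
    have : 0 ≤ c.σ ^ 2 / (10 * c.C ^ 2) := by positivity
    linarith
  have hF : g.F ≤ 1 := by
    have hP1 : (1 : ℝ) ≤ e.P := le_trans (by norm_num) L.P_ge
    have h1 : g.x ≤ 1 :=
      (le_mul_of_one_le_left L.x_pos.le (one_le_pow₀ hP1)).trans L.x_small
    have h2 : g.x ^ 4 ≤ 1 := pow_le_one₀ L.x_pos.le h1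
    have h3 : g.F ≤ (e.P : ℝ) ^ 6 * g.F := le_mul_of_one_le_left L.F0 (one_le_pow₀ hP1)
    have h4 := L.F_le
    nlinarith
  have hF0 := L.F0
  have hlb := M6.LB.final (S := {x}) h.lb hb.adm (show g.e ≤ 1 by linarith)
    (L.cap {x} fun a ha b hb' hab => absurd ((mem_singleton.1 ha).trans (mem_singleton.1 hb').symm)
      hab) (by linarith) (mem_singleton_self x) hxa (hb.opn x hx) hcl
  rw [badFrac, sum_eq_zero, zero_div]
  intro ω hω
  have hw : wObs (fun z => val c.σ c.N (c.r z) (ω z)) c.w0 x (s.w x) = s.w := by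
    funext z
    rw [wObs]
    split_ifs with h1 h2
    · exact (hb.abs z h1).symm
    · rw [h2]
    · obtain ⟨h3, h4⟩ := hb.cls z (by_contra fun h0 => h1 (hcl z h2 h0))
      have h5 := Fintype.mem_piFinset.1 hω z
      rw [cel, h3, mem_Ico] at h5
      rw [h4, show ω z = (s.S z).1 by omega]
      rfl
  refine if_pos ⟨x, hR, hxa, s.w x, ?_, ?_, ?_, ?_⟩
  · have h1 : ‖s.w x‖ ≤ ‖s.w x - c.w0‖ + ‖c.w0‖ := by simpa using norm_add_le (s.w x - c.w0) c.w0
    have h2 := ok.init.w_le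
    have h3 := ok.σ_le
    have h4 := Ends.C_pow ok (by norm_num : 1 ≤ 30)
    have h5 := Ends.σ_le_one ok
    have h6 : 100 * c.C * c.σ ≤ 1 := by
      rw [pow_one] at h4
      exact (mul_le_mul_of_nonneg_right h4 hσ.le).trans h3
    have h7 : c.C * c.σ ^ 2 ≤ c.C * c.σ := by
      rw [sq, ← mul_assoc]
      exact mul_le_of_le_one_right (by positivity) h5
    linarith
  · have h1 := (abs_le.1 ((abs_im_le_norm _).trans hn)).2
    rw [sub_im] at h1
    have h2 : c.γ = -c.w0.im := rfl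
    have h3 : c.σ ^ 2 / (10 * c.C ^ 2) ≤ c.γ / 10 := by
      rw [div_le_div_iff₀ (by positivity) (by norm_num)]
      have h4 := ok.γ_lo
      have h5 := mul_le_mul_of_nonneg_right (le_self_pow₀ hC two_ne_zero) hγ.le
      nlinarith
    linarith
  · rw [hw]
    exact hb.adm.inv
  · rw [hw]
    refine hκ.trans (le_trans ?_ hlb)
    change _ ≤ c.μ * (1 - g.e) / (1 + g.e' + g.F)
    rw [div_le_div_iff₀ (by norm_num) (by linarith), mul_assoc]
    exact mul_le_mul_of_nonneg_left (by linarith) hμ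

end Crest.Agent.N334.AC.P
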