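import Crest.Agent.N334.AC.P.Num

/-! # S0520 part P: the engine of the closing phase (leaf; fill the sorries, keep the statements)
`engine`: downward induction on `s.n` for the claim: `Rc s → R s π → (∀ p ∉ s.PS, π p + left s p < 1) →
W s.S (fun p => if p ∈ s.PS then 1 else β + π p + left s p)`, `left s p = if p ∈ s.A then exp (-(P - t)) else 0`
(`potL_locA`). A general state is first frozen at `F = {p | 1 ≤ π p + left s p}` (`Game.mono`). At `n = P·card` the
frozen state has `A = ∅`. `Cls.add/const/mono/le` through `exists_clsA`. -/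

set_option autoImplicit false
set_option linter.unusedSectionVars false

open Finset Complex
open scoped Matrix.Norms.L2Operator Matrix

namespace Crest.Agent.N334.AC.P

variable {d M : ℕ} [NeZero M] {c : Cx d M} {e : Ep} {g : Sg} {f : Ref d M}

variable {Rc Ev : CS d M → Prop} {s0 : CS d M} {O O' : CS d M → Prop} {β β' : ℝ}

theorem FamOK.and (hN : 0 < c.N) (h : FamOK c e Rc Ev s0 O β) (h' : FamOK c e Rc Ev s0 O' β') :
    FamOK c e Rc Ev s0 (fun s => O s ∧ O' s) (β + β') := by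
  have _ := hN
  obtain ⟨R, ⟨π0, a1, a2⟩, a3, a4, a5⟩ := h
  obtain ⟨R', ⟨π0', b1, b2⟩, b3, b4, b5⟩ := h'
  refine ⟨fun s π => ∃ π1 π2, R s π1 ∧ R' s π2 ∧ π = fun p => π1 p + π2 p,
    ⟨_, ⟨π0, π0', a1, b1, rfl⟩, fun p => add_le_add (a2 p) (b2 p)⟩, ?_, ?_, ?_⟩
  · rintro s _ ⟨π1, π2, h1, h2, rfl⟩
    exact ⟨fun p => add_nonneg ((a3 s π1 h1).1 p) ((b3 s π2 h2).1 p),
      fun hs => ⟨(a3 s π1 h1).2 hs, (b3 s π2 h2).2 hs⟩⟩
  · rintro s _ F ⟨π1, π2, h1, h2, rfl⟩
    exact ⟨π1, π2, a4 s π1 F h1, b4 s π2 F h2, rfl⟩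
  · rintro s _ hE hr ⟨π1, π2, h1, h2, rfl⟩ hp
    obtain ⟨ρ1, c1, c2⟩ := a5 s π1 hE hr h1 fun p => (hp p).imp_left fun h =>
      lt_of_le_of_lt (le_add_of_nonneg_right ((b3 s π2 h2).1 p)) h
    obtain ⟨ρ2, d1, d2⟩ := b5 s π2 hE hr h2 fun p => (hp p).imp_left fun h =>
      lt_of_le_of_lt (le_add_of_nonneg_left ((a3 s π1 h1).1 p)) h
    exact ⟨fun ω p => ρ1 ω p + ρ2 ω p, fun p => (c1 p).add (d1 p),
      fun ω hω => ⟨ρ1 ω, ρ2 ω, c2 ω hω, d2 ω hω, rfl⟩⟩

theorem FamOK.mono (h : FamOK c e Rc Ev s0 O β) (hO : ∀ s, Rc s → O s → O' s) (hβ : β ≤ β') :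
    FamOK c e Rc Ev s0 O' β' := by
  obtain ⟨R, ⟨π0, a1, a2⟩, a3, a4, a5⟩ := h
  exact ⟨R, ⟨π0, a1, fun p => (a2 p).trans hβ⟩,
    fun s π h => ⟨(a3 s π h).1, fun hs => hO s hs ((a3 s π h).2 hs)⟩, a4, a5⟩

namespace Eng

/-- leftover potential -/
noncomputable def left (e : Ep) (s : CS d M) (p : Tor d M) : ℝ :=
  if p ∈ s.A then Real.exp (-(e.P - s.t)) else 0

/-- total potential -/
noncomputable def pot (e : Ep) (β : ℝ) (s : CS d M) (π : Tor d M → ℝ) (p : Tor d M) : ℝ :=
  if p ∈ s.PS then 1 else β + π p + left e s p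

theorem left_nonneg (s : CS d M) (p : Tor d M) : 0 ≤ left e s p := by
  unfold left
  split_ifs
  exacts [(Real.exp_pos _).le, le_rfl]

theorem pot_nonneg (hβ : 0 ≤ β) (s : CS d M) {π : Tor d M → ℝ} (hπ : ∀ p, 0 ≤ π p) (p : Tor d M) :
    0 ≤ pot e β s π p := by
  unfold pot
  split_ifs
  exacts [zero_le_one, add_nonneg (add_nonneg hβ (hπ p)) (left_nonneg s p)]

theorem left_frz (s : CS d M) (R : ℕ) (F : Finset (Tor d M)) (p : Tor d M) :
    left e (s.frz R F) p ≤ left e s p := by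
  by_cases h : p ∈ (s.frz R F).A
  · have h' : p ∈ s.A := (mem_sdiff.1 h).1
    rw [left, left, if_pos h, if_pos h', frz_t]
  · rw [left, if_neg h]
    exact left_nonneg s p

theorem locA_const {A U : Finset (Tor d M)} {N : ℕ} (hN : 0 < N) {δ a : ℝ} (ha : 0 ≤ a) :
    LocA A N δ U a fun _ => a :=
  ⟨a, fun _ => 0, ha, le_rfl, fun _ _ _ _ => ha, fun _ _ _ _ _ => le_rfl,
    fun _ _ => by rw [avg_const hN, add_zero, mul_one], by simp⟩

theorem left_locA (hN : 0 < c.N) (s : CS d M) (p : Tor d M) (rr : ℕ) :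
    LocA s.A c.N (dt d M) (tball p rr) (left e s p) fun ω => left e (s.next c ω) p := by
  by_cases h : p ∈ s.A
  · have h1 := potL_locA (A := s.A) (U := tball p rr) hN (dt := dt d M) (T := e.P) (t := s.t)
      dt_pos.le (mem_inter.2 ⟨h, self_mem_tball p rr⟩)
    rw [left, if_pos h]
    convert h1 using 2 with ω
    rw [left, next_t]
    rcases ω with _ | ⟨y, k⟩
    · simp [CS.next, h]
    · by_cases hy : y = p
      · simp [CS.next, hy]
      · simp [CS.next, hy, Ne.symm hy, h]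
  · rw [left, if_neg h]
    convert locA_const (A := s.A) (U := tball p rr) hN (δ := dt d M) (le_refl 0) using 2 with ω
    rcases ω with _ | ⟨y, k⟩ <;> simp [left, CS.next, h]

theorem next_PS (s : CS d M) (ω : Option (Tor d M × ℕ)) : (s.next c ω).PS = s.PS := by
  rcases ω with _ | ⟨y, k⟩ <;> rfl

theorem next_S (s : CS d M) (ω : Option (Tor d M × ℕ)) : (s.next c ω).S = celA s.S ω := by
  rcases ω with _ | ⟨y, k⟩ <;> rfl

theorem next_n (s : CS d M) (ω : Option (Tor d M × ℕ)) : (s.next c ω).n = s.n + 1 := by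
  rcases ω with _ | ⟨y, k⟩ <;> rfl

end Eng

open Eng in
theorem engine (hN : 0 < c.N) {rr : ℕ} {W : (Tor d M → ℕ × ℕ) → (Tor d M → ℝ) → Prop}
    (G : Game c.N rr W) (hr : 3 * e.ρ ≤ rr) (hF : FamOK c e Rc Ev s0 O β') (h0 : Rc s0) (hn : s0.n = 0)
    (hev : ∀ s, Rc s → O s → Ev s)
    (hnext : ∀ s ω, Ev s → s.run e → okA s.A c.N ω → Rc (s.next c ω))
    (hfrz : ∀ s F, Rc s → Rc (s.frz (3 * e.ρ) F))
    (hst : ∀ s, Rc s → s.A ⊆ s.ord ∧ (∀ y ∈ s.A, s.S y = (0, c.N)) ∧
      Disjoint s.ord (nbhd s.PS (3 * e.ρ)))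
    (hβ : 0 ≤ β) (post : ∀ s, Ev s → s.A = ∅ → W s.S (sd s.PS β)) :
    W s0.S (sd s0.PS (β + β' + Real.exp (-(e.P : ℝ)))) := by
  classical
  obtain ⟨R, ⟨π0, a1, a2⟩, a3, a4, a5⟩ := hF
  -- reduction to frozen states
  have red : ∀ n, (∀ s π, s.n = n → Rc s → R s π → (∀ p ∉ s.PS, π p + left e s p < 1) →
      W s.S (pot e β s π)) → ∀ s π, s.n = n → Rc s → R s π → W s.S (pot e β s π) := by
    intro n H s π hs hc hR
    have hπ := (a3 s π hR).1
    set F : Finset (Tor d M) := univ.filter fun p => 1 ≤ π p + left e s p with hF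
    have hPS : ∀ p, p ∈ (s.frz (3 * e.ρ) F).PS ↔ p ∈ s.PS ∨ 1 ≤ π p + left e s p := fun p => by
      simp [CS.frz, St.frz, hF]
    refine G.mono (H (s.frz (3 * e.ρ) F) π hs (hfrz s F hc) (a4 s π F hR) fun p hp => ?_)
      (pot_nonneg hβ _ hπ) fun p => ?_
    · have h1 := not_le.1 fun h => hp ((hPS p).2 (Or.inr h))
      linarith [left_frz (e := e) s (3 * e.ρ) F p]
    · unfold pot
      by_cases h1 : p ∈ s.PS
      · rw [if_pos h1, if_pos ((hPS p).2 (Or.inl h1))]
      · rw [if_neg h1]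
        split_ifs with h2
        · linarith [((hPS p).1 h2).resolve_left h1]
        · linarith [left_frz (e := e) s (3 * e.ρ) F p]
  have hnb : ∀ s, Rc s → ∀ p ∈ s.PS, Disjoint (tball p (3 * e.ρ)) s.ord := fun s hc p hp =>
    ((hst s hc).2.2.mono_right fun x hx => mem_nbhd.2 ⟨p, hp, mem_tball.1 hx⟩).symm
  have key : ∀ j n, n + j = e.P * Fintype.card (Tor d M) →
      ∀ s π, s.n = n → Rc s → R s π → W s.S (pot e β s π) := by
    intro j
    induction j with
    | zero =>
      intro n hn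
      refine red n fun s π hs hc hR hlt => ?_
      have hπ := (a3 s π hR).1
      have ht : s.t = e.P := by
        have h1 : (Fintype.card (Tor d M) : ℝ) ≠ 0 := Nat.cast_ne_zero.2 Fintype.card_ne_zero
        rw [CS.t, hs, ← add_zero n, hn, dt]
        push_cast
        field_simp
      have hA : s.A = ∅ := eq_empty_of_forall_notMem fun p hp => by
        have h1 : p ∉ s.PS := fun h =>
          disjoint_left.1 (hnb s hc p h) (self_mem_tball p _) ((hst s hc).1 hp)
        have h2 := hlt p h1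
        rw [left, if_pos hp, ht, sub_self, neg_zero, Real.exp_zero] at h2
        linarith [hπ p]
      refine G.mono (post s (hev s hc ((a3 s π hR).2 hc)) hA) (fun p => ?_) fun p => ?_
      · unfold sd
        split_ifs
        exacts [zero_le_one, hβ]
      · unfold sd pot
        split_ifs
        exacts [le_rfl, by linarith [hπ p, left_nonneg (e := e) s p]]
    | succ j ih =>
      intro n hn
      refine red n fun s π hs hc hR hlt => ?_
      have hE := hev s hc ((a3 s π hR).2 hc)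
      have hrun : s.run e := by
        unfold CS.run
        omega
      obtain ⟨π', b1, b2⟩ := a5 s π hE hrun hR fun p => by
        by_cases hp : p ∈ s.PS
        · exact Or.inr (hnb s hc p hp)
        · exact Or.inl (by linarith [hlt p hp, left_nonneg (e := e) s p])
      refine G.lazy (π' := fun ω => pot e β (s.next c ω) (π' ω)) s.A (hst s hc).2.1 (fun p => ?_)
        fun ω hω => ?_
      · simp only [pot, next_PS]
        by_cases hp : p ∈ s.PS
        · simp only [if_pos hp]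
          exact locA_const hN zero_le_one
        · simp only [if_neg hp]
          exact ((locA_const hN hβ).add ((b1 p).mono hN (tball_mono p hr))).add (left_locA hN s p rr)
      · rw [← next_S (c := c)]
        exact ih (n + 1) (by omega) _ _ (by rw [next_n, hs]) (hnext s ω hE hrun hω) (b2 ω hω)
  refine G.mono (key _ 0 (zero_add _) s0 π0 hn h0 a1) (pot_nonneg hβ _ (a3 s0 π0 a1).1) fun p => ?_
  unfold sd pot
  split_ifs
  · exact le_rfl
  · have h1 : left e s0 p ≤ Real.exp (-(e.P : ℝ)) := by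
      unfold left
      split_ifs
      · rw [CS.t, hn]; simp
      · exact (Real.exp_pos _).le
    linarith [a2 p]

end Crest.Agent.N334.AC.P
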