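import Crest.Agent.N334.AC.P.SelA

/-! # S0520 part P (helper20): `ℓ²` forms of the selection monitors (after helper36's `SelA`) -/

set_option autoImplicit false
set_option linter.unusedSectionVars false

open Finset Function

namespace Crest.Agent.N334.AC

namespace SelA

variable {Λ : Type} [Fintype Λ] [DecidableEq Λ] {n : ℕ} {U : Finset Λ} {S K t Z : ℝ}

/-- lower tail of a quadratic function -/
lemma quad_tail2 (hn : 0 < n) {m : Λ → ℝ} {A : Λ → Λ → ℝ} (h0 : ∀ b, 0 ≤ m b)
    (hS : ∑ b, m b ^ 2 ≤ S) (A0 : ∀ b k, 0 ≤ A b k) (Ad : ∀ b, A b b = 0)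
    (hK0 : 0 ≤ K) (Ar : ∀ b, ∑ k, A b k ≤ K) (Ac : ∀ k, ∑ b, A b k ≤ K) (hK : 4 * K ≤ n)
    (hU : ∀ b, b ∉ U → m b = 0) (hU' : ∀ b k, k ∉ U → m b * A b k = 0) (ht : 0 < t) (hZ : 0 < Z)
    (h2 : Z * (4 * (K + 1) ^ 2 * S) ≤ t ^ 2) :
    LocB (fun _ => n) U (Real.exp (-Z)) fun ξ =>
      if ∑ b, m b * (io ξ b * (1 - ∑ k, A b k * io ξ k)) ≤ 3 / 4 / n * ∑ b, m b - t
      then 1 else 0 := by
  have mA : ∀ b k, 0 ≤ m b * A b k := fun b k => mul_nonneg (h0 b) (A0 b k)
  have r : ∀ b, ∑ k, m b * A b k ≤ m b * K := fun b =>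
    (mul_sum _ _ _).symm.trans_le (mul_le_mul_of_nonneg_left (Ar b) (h0 b))
  refine locB_imp (locB_tail (m := fun _ => n)
    (f := fun ξ => ∑ b, (∑ k, m b * A b k * (io ξ b * io ξ k) + -m b * io ξ b))
    (c := fun x => ∑ k, m x * A x k + ∑ b, m b * A b x + m x)
    (fun _ => hn) ht hZ (fun ξ ξ' h => sum_congr rfl fun b _ => ?_) (fun ξ x v => ?_)
    ((mul_le_mul_of_nonneg_left ?_ hZ.le).trans h2)) fun ξ h => ?_
  · by_cases hb : b ∈ U
    · have e : io ξ b = io ξ' b := by rw [io, io, h b hb]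
      rw [e]
      congr 1
      refine sum_congr rfl fun k _ => ?_
      by_cases hk : k ∈ U
      · rw [io.eq_1 ξ k, io.eq_1 ξ' k, h k hk]
      · rw [hU' b k hk, zero_mul, zero_mul]
    · simp [hU b hb]
  · rw [← sum_sub_distrib]
    refine (abs_sum_le_sum_abs _ _).trans ((sum_le_sum (g := fun b =>
      ∑ k, m b * A b k * ((if b = x then 1 else 0) + if k = x then 1 else 0)
        + m b * if b = x then 1 else 0) fun b _ => ?_).trans (le_of_eq ?_))
    · rw [add_sub_add_comm, ← sum_sub_distrib]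
      refine (abs_add_le _ _).trans (add_le_add
        ((abs_sum_le_sum_abs _ _).trans (sum_le_sum fun k _ => ?_)) ?_)
      · rw [← mul_sub, abs_mul, abs_of_nonneg (mA b k)]
        exact mul_le_mul_of_nonneg_left (io_upd2 ξ x v b k) (mA b k)
      · rw [← mul_sub, abs_mul, abs_neg, abs_of_nonneg (h0 b)]
        exact mul_le_mul_of_nonneg_left (io_upd ξ x v b) (h0 b)
    · simp only [mul_add, sum_add_distrib, mul_ite, mul_one, mul_zero, sum_ite_eq', mem_univ,
        if_true]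
      rw [sum_comm]
      simp only [sum_ite_eq', mem_univ, if_true]
  · have a1 : ∀ x, (∑ k, m x * A x k + ∑ b, m b * A b x + m x) ^ 2 ≤
        2 * (K + 1) ^ 2 * m x ^ 2 + 2 * K * ∑ b, m b ^ 2 * A b x := fun x => by
      have b1 : (∑ b, m b * A b x) ^ 2 ≤ (∑ b, A b x) * ∑ b, m b ^ 2 * A b x :=
        sum_sq_le_sum_mul_sum_of_sq_le_mul _ (fun b _ => A0 b x)
          (fun b _ => mul_nonneg (sq_nonneg _) (A0 b x)) fun b _ => le_of_eq (by ring)
      have b2 := mul_le_mul_of_nonneg_right (Ac x)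
        (sum_nonneg fun b (_ : b ∈ univ) => mul_nonneg (sq_nonneg (m b)) (A0 b x))
      have b3 : (∑ k, m x * A x k + m x) ^ 2 ≤ (m x * (K + 1)) ^ 2 :=
        pow_le_pow_left₀ (add_nonneg (sum_nonneg fun k _ => mA x k) (h0 x)) (by linarith [r x]) 2
      nlinarith [sq_nonneg (∑ k, m x * A x k + m x - ∑ b, m b * A b x)]
    have a2 : ∑ x, ∑ b, m b ^ 2 * A b x ≤ K * S := by
      rw [sum_comm]
      refine le_trans (sum_le_sum fun b _ => ?_) ((mul_sum _ _ _).symm.trans_le
        (mul_le_mul_of_nonneg_left hS hK0))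
      rw [← mul_sum, mul_comm K]
      exact mul_le_mul_of_nonneg_left (Ar b) (sq_nonneg _)
    have hS0 := (sum_nonneg fun b _ => sq_nonneg (m b)).trans hS
    refine (sum_le_univ_sum_of_nonneg fun k => sq_nonneg _).trans
      ((sum_le_sum fun x _ => a1 x).trans ?_)
    rw [sum_add_distrib, ← mul_sum, ← mul_sum]
    have a3 := mul_le_mul_of_nonneg_left hS (show 0 ≤ 2 * (K + 1) ^ 2 by positivity)
    have a4 := mul_le_mul_of_nonneg_left a2 (show 0 ≤ 2 * K by positivity)
    nlinarith [mul_nonneg hK0 hS0]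
  · have hn' : (0 : ℝ) < n := by exact_mod_cast hn
    have a1 : ∑ b, (∑ k, m b * A b k * (io ξ b * io ξ k) + -m b * io ξ b)
        = -∑ b, m b * (io ξ b * (1 - ∑ k, A b k * io ξ k)) := by
      rw [← sum_neg_distrib]
      refine sum_congr rfl fun b _ => ?_
      rw [mul_sub, mul_sub, mul_sum, mul_sum, neg_sub, mul_one, neg_mul, sub_eq_add_neg]
      congr 1
      exact sum_congr rfl fun k _ => by ring
    have a2 : avgP (fun _ => n) (fun ξ : Λ → ℕ =>
        ∑ b, (∑ k, m b * A b k * (io ξ b * io ξ k) + -m b * io ξ b))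
          ≤ ∑ b, -(3 / 4 / n * m b) := by
      simp only [avgP_sum, avgP_add, avgP_mul, io, avgP_ind (m := fun _ : Λ => n) fun _ => hn]
      refine sum_le_sum fun b _ => ?_
      have b1 : ∑ k, m b * A b k * avgP (fun _ => n) (fun ξ : Λ → ℕ =>
          (if ξ b = 0 then (1 : ℝ) else 0) * if ξ k = 0 then 1 else 0)
          = (∑ k, m b * A b k) * (1 / n * (1 / n)) := by
        rw [sum_mul]
        refine sum_congr rfl fun k _ => ?_
        by_cases hk : b = k
        · rw [← hk, Ad, mul_zero, zero_mul, zero_mul]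
        · rw [avgP_ind₂ (fun _ => hn) hk]
      have b2 := mul_le_mul_of_nonneg_right ((r b).trans (mul_le_mul_of_nonneg_left
        (show K ≤ n / 4 by linarith) (h0 b))) (show (0 : ℝ) ≤ 1 / n * (1 / n) by positivity)
      have b3 : m b * (n / 4) * (1 / n * (1 / n)) + -m b * (1 / n) = -(3 / 4 / n * m b) := by
        field_simp
        ring
      rw [b1]
      linarith
    rw [sum_neg_distrib, ← mul_sum] at a2
    rw [a1]
    linarith

end SelA

open SelA

variable {d M : ℕ} [NeZero M]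
variable {Ord X : Finset (Tor d M)} {π : Tor d M → Tor d M → ℝ} {s L n0 : ℕ} {h h' Θ K tl : ℝ}

open Classical in
theorem SelH.loc1' (H : SelH Ord X π s L n0 h h' Θ K tl) {a : Tor d M} (ha : a ∈ Ord)
    {m : Tor d M → ℝ} {c t Z : ℝ} (hm0 : ∀ b, 0 ≤ m b) (hc : 0 ≤ c)
    (hm : ∀ b ∈ Ord, b ≠ a → m b ≤ c * π a b) (ht : 0 < t)
    (hZ : 0 < Z) (h1 : c * ((K + 1) * h + tl) ≤ t * n0) 
    (h2 : Z * (4 * (K + 1) ^ 2 * (c ^ 2 * Θ)) ≤ t ^ 2) :
    LocB (fun _ => n0) (tball a (2 * L)) (Real.exp (-Z)) fun ξ =>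
      if ∑ b ∈ (sel Ord X π s L h' ξ).erase a, m b < 3 / 4 / n0 * ∑ b ∈ Ord.erase a, m b - 2 * t
      then 1 else 0 := by
  have hK := (H.K_pos (H.Θ0 ha)).le
  have hn := H.n0_pos (H.Θ0 ha)
  have hn' : (0 : ℝ) < n0 := by exact_mod_cast hn
  have hch := mul_nonneg hc H.hh
  set B := ((elig Ord X π s h').erase a).filter fun b => tdist b a ≤ L with hB
  have memB : ∀ {b}, b ∈ B → b ∈ elig Ord X π s h' ∧ b ≠ a ∧ tdist b a ≤ L := fun hb =>
    ⟨mem_of_mem_erase (mem_filter.1 hb).1, ne_of_mem_erase (mem_filter.1 hb).1, (mem_filter.1 hb).2⟩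
  have hmh : ∀ b ∈ Ord, b ≠ a → m b ≤ c * h := fun b hb hne =>
    (hm b hb hne).trans (mul_le_mul_of_nonneg_left (H.ent a ha b hb hne.symm) hc)
  have sB : ∀ f : Tor d M → ℝ, ∑ b, (if b ∈ B then m b else 0) * f b = ∑ b ∈ B, m b * f b :=
    fun f => by simp only [ite_mul, zero_mul, sum_ite_mem, univ_inter]
  have sB1 : ∑ b, (if b ∈ B then m b else 0) = ∑ b ∈ B, m b := by rw [sum_ite_mem, univ_inter]
  refine locB_imp (quad_tail2 (m := fun b => if b ∈ B then m b else 0) (A := A1 Ord X π s L h') hn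
    (fun b => ite_nonneg (hm0 b) le_rfl) ?_ A1_nonneg (fun b => ?_) hK
    (sum_A1_le H hK) (fun k => ?_) H.hn (fun b hb => if_neg fun h => hb ?_) (fun b k hk => ?_)
    ht hZ h2) fun ξ hξ => ?_
  · simp only [ite_pow, ne_eq, OfNat.ofNat_ne_zero, not_false_eq_true, zero_pow, sum_ite_mem,
      univ_inter]
    refine le_trans ?_ (mul_le_mul_of_nonneg_left (H.two a ha) (sq_nonneg c))
    rw [mul_sum]
    refine (sum_le_sum fun b hb => ?_).trans (sum_le_sum_of_subset_of_nonneg (fun b hb =>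
      mem_erase.2 ⟨(memB hb).2.1, (mem_elig.1 (memB hb).1).1.1⟩) fun b _ _ => by positivity)
    rw [← mul_pow]
    exact pow_le_pow_left₀ (hm0 b) (hm b (mem_elig.1 (memB hb).1).1.1 (memB hb).2.1) 2
  · exact if_neg fun h => notMem_erase _ _ h.2
  · simpa only [A1_symm H _ k] using sum_A1_le H hK k
  · have := (memB h).2.2
    exact mem_tball.2 (by omega)
  · by_cases hb : b ∈ B
    · have a1 := (memB hb).2.2
      have a2 := tdist_triangle k b a
      have a3 := H.sL
      rw [mem_tball] at hk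
      rw [A1, A0, if_neg (show ¬tdist k b < 2 * s by omega), if_neg (show ¬tdist k b ≤ L by omega),
        add_zero, ite_self, mul_zero]
    · rw [if_neg hb, zero_mul]
  · have a1 : ∑ b ∈ B, m b * (io ξ b * (1 - ∑ k, A1 Ord X π s L h' b k * io ξ k))
        ≤ ∑ b ∈ (sel Ord X π s L h' ξ).erase a, m b := by
      refine (sum_le_sum (g := fun b => if b ∈ sel Ord X π s L h' ξ then m b else 0)
        fun b hb => ?_).trans ?_
      · have b1 : 0 ≤ ∑ k, A1 Ord X π s L h' b k * io ξ k :=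
          sum_nonneg fun k _ => mul_nonneg (A1_nonneg b k) (io0 ξ k)
        by_cases b2 : ξ b = 0
        · rw [io, if_pos b2, one_mul]
          split_ifs with b3
          · exact mul_le_of_le_one_right (hm0 b) (by linarith)
          · exact mul_nonpos_of_nonneg_of_nonpos (hm0 b)
              (sub_nonpos.2 (one_le_conf H (memB hb).1 b2 b3))
        · rw [io, if_neg b2, zero_mul, mul_zero]
          exact ite_nonneg (hm0 b) le_rfl
      · rw [← sum_filter]
        exact sum_le_sum_of_subset_of_nonneg (fun b hb => mem_erase.2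
          ⟨(memB (mem_filter.1 hb).1).2.1, (mem_filter.1 hb).2⟩) fun b _ _ => hm0 b
    have a2 : ∑ b ∈ Ord.erase a, m b ≤ ∑ b ∈ B, m b + c * ((K + 1) * h + tl) := by
      have b1 := mul_le_mul_of_nonneg_right (card_bad H hK a) hch
      have b2 := mul_le_mul_of_nonneg_left (H.far a ha) hc
      have b3 : ∑ b ∈ Ord.erase a, m b ≤ ∑ b ∈ Ord, ((if b ∈ B then m b else 0)
          + (if tdist b a ≤ L ∧ b ∉ elig Ord X π s h' then c * h else 0)
          + if L < tdist b a then c * π a b else 0) := by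
        have n1 : ∀ b, 0 ≤ if b ∈ B then m b else 0 := fun b => ite_nonneg (hm0 b) le_rfl
        have n2 : ∀ b, 0 ≤ if tdist b a ≤ L ∧ b ∉ elig Ord X π s h' then c * h else 0 :=
          fun b => ite_nonneg hch le_rfl
        have n3 : ∀ b, 0 ≤ if L < tdist b a then c * π a b else 0 :=
          fun b => ite_nonneg (mul_nonneg hc (H.π0 a b)) le_rfl
        refine (sum_le_sum fun b hb => ?_).trans (sum_le_sum_of_subset_of_nonneg (erase_subset a _)
          fun b _ _ => add_nonneg (add_nonneg (n1 b) (n2 b)) (n3 b))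
        obtain ⟨c1, c2⟩ := mem_erase.1 hb
        by_cases c3 : L < tdist b a
        · rw [if_pos c3]
          linarith [n1 b, n2 b, hm b c2 c1]
        by_cases c4 : b ∈ elig Ord X π s h'
        · rw [if_pos (show b ∈ B from mem_filter.2 ⟨mem_erase.2 ⟨c1, c4⟩, not_lt.1 c3⟩)]
          linarith [n2 b, n3 b]
        · rw [if_pos (And.intro (not_lt.1 c3) c4)]
          linarith [n1 b, n3 b, hmh b c2 c1]
      rw [sum_add_distrib, sum_add_distrib, ← sum_filter _ fun _ => c * h,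
        ← sum_filter _ fun b => c * π a b, sum_const, nsmul_eq_mul, ← mul_sum] at b3
      have b4 := (sum_le_univ_sum_of_nonneg (s := Ord) (f := fun b => if b ∈ B then m b else 0)
        fun b => ite_nonneg (hm0 b) le_rfl).trans_eq sB1
      linarith
    have a3 := mul_le_mul_of_nonneg_left (a2.trans (add_le_add le_rfl h1))
      (show (0 : ℝ) ≤ 3 / 4 / n0 by positivity)
    have a4 : 3 / 4 / (n0 : ℝ) * (t * n0) = 3 / 4 * t := by field_simp
    rw [sB, sB1]
    linarith

open Classical in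
theorem SelH.loc3 (H : SelH Ord X π s L n0 h h' Θ K tl) {a : Tor d M} (ha : a ∈ Ord) {t Z : ℝ}
    (ht : 0 < t) (hZ : 0 < Z) (h2 : Z * (h ^ 2 * Θ) ≤ t ^ 2) :
    LocB (fun _ => n0) (tball a L) (Real.exp (-Z)) fun ξ =>
      if h ^ 2 + Θ / n0 + t + tl < ∑ k ∈ (sel Ord X π s L h' ξ).erase a, π a k ^ 2 then 1 else 0 := by
  set B := (Ord.erase a).filter fun k => tdist k a ≤ L with hB
  have hh : ∀ k ∈ Ord.erase a, π a k ^ 2 ≤ h ^ 2 := fun k hk => pow_le_pow_left₀ (H.π0 a k)
    (H.ent a ha k (mem_of_mem_erase hk) (ne_of_mem_erase hk).symm) 2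
  refine locB_imp (lin_tail (w := fun k => if k ∈ B then π a k ^ 2 else 0) (μ := h ^ 2)
    (S := Θ) (H.n0_pos (H.Θ0 ha)) (fun k => ite_nonneg (sq_nonneg _) le_rfl)
    (fun k hk => if_neg fun h : k ∈ B => hk (mem_tball.2 (mem_filter.1 h).2)) (by positivity)
    (fun k => ?_) ?_ ht hZ h2) fun ξ hξ => ?_
  · split_ifs with hk
    · exact hh k (mem_filter.1 hk).1
    · positivity
  · rw [sum_ite_mem, univ_inter]
    exact (sum_le_sum_of_subset_of_nonneg (filter_subset _ _) fun k _ _ => sq_nonneg _).trans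
      (H.two a ha)
  · have a0 := erase_subset_erase a (H.X_sub ξ).2
    have a1 := far_sq H ha (a0.trans (erase_subset _ _))
    set S := ((sel Ord X π s L h' ξ).erase a).filter fun k => tdist k a ≤ L
    have a2 : ∑ k ∈ S.filter (· ∈ X), π a k ^ 2 ≤ h ^ 2 := by
      refine (sum_le_card_nsmul _ _ (h ^ 2) fun k hk =>
        hh k (a0 (mem_filter.1 (mem_filter.1 hk).1).1)).trans ?_
      rw [nsmul_eq_mul]
      refine mul_le_of_le_one_left (by positivity) (Nat.cast_le_one.2 (card_le_one.2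
        fun x hx y hy => X_eq H (a := a) (mem_filter.1 hx).2 (mem_filter.1 hy).2 ?_ ?_))
      · have := (mem_filter.1 (mem_filter.1 hx).1).2
        omega
      · have := (mem_filter.1 (mem_filter.1 hy).1).2
        omega
    have a3 : ∑ k ∈ S.filter (· ∉ X), π a k ^ 2 ≤
        ∑ k, (if k ∈ B then π a k ^ 2 else 0) * io ξ k := by
      refine (sum_le_sum fun k hk => ?_).trans (sum_le_univ_sum_of_nonneg fun k =>
        mul_nonneg (ite_nonneg (sq_nonneg _) le_rfl) (io0 ξ k))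
      obtain ⟨k1, k2⟩ := mem_filter.1 hk
      obtain ⟨k3, k4⟩ := mem_filter.1 k1
      obtain ⟨-, k5, -⟩ := (mem_sel.1 (mem_of_mem_erase k3)).resolve_left k2
      rw [if_pos (show k ∈ B from mem_filter.2 ⟨a0 k3, k4⟩), io, if_pos k5, mul_one]
    rw [← sum_filter_add_sum_filter_not S (· ∈ X)] at a1
    linarith

end Crest.Agent.N334.AC
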