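import Crest.Agent.N334.AC.P.Der
import Crest.Agent.N334.AC.P.Eng
import Crest.Agent.N334.AC.P.Sel0

/-! # S0520 part P: the selection (leaf; fill the sorries, keep the statements)
Marks `ξ x < m = P Q`, marked = digit `0`. Conflict `b ~ k` (`b ≠ k` in `ord`): `tdist < 2R` or `|G b k|² > h'/4`,
`h' = x'²/q`; degree `≤ nc = 5^d + 288 Q ≤ PQ/4` (`card_sep_le`, `Inv.four`, `Led.γh`), range `≤ ρ` (`Der.dec`).
Survivors: `X ∩ ord`, and the marked `b ∈ ord \ X` with no neighbour in `X` and no marked neighbour. Two `locB_tail`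
monitors per row `a ∈ ord` (`Z = P`, support `tball a (2ρ)`): `γ ∑_{b near} ξ_b |G a b|⁴` (mean `≤ 9x⁴/(PQ)`,
`s = x⁴/64`, `c_b ≤ 16 x⁴/Q`) and minus `∑_{b near, eligible} I(b) ξ_b (1 - ∑_{k ~ b} ξ_k)`, `I(b) = γ_b |G a b|²`
(`s = φ`, `∑ c² ≤ 2(1+nc²) ∑ I²`; `Der.iota`; at most one point of `X` within `3ρ`, doomed mass `≤ (nc+1)·5γh`).
Rows that fail are the new seeds `F`; `s0 = (s, A = ord \ survivors, 0).frz (3ρ) F` (`Inv.frz`). -/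

set_option autoImplicit false

open Finset Complex
open scoped Matrix.Norms.L2Operator Matrix

namespace Crest.Agent.N334.AC.P

variable {d M : ℕ} [NeZero M] {c : Cx d M} {e : Ep} {g : Sg} {f : Ref d M}

theorem Bas.frz {s : St d M} (h : Bas c e f s) (F : Finset (Tor d M)) :
    Bas c e f (s.frz (3 * e.ρ) F) :=
  { h with
    full := fun x hx => h.full x (mem_sdiff.1 hx).1
    sub := sdiff_subset.trans h.sub
    opn := fun x hx => h.opn x (mem_sdiff.1 hx).1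
    g2 := fun x h1 h2 h3 => by
      by_cases h4 : x ∈ s.ord
      · exact nbhd_mono' subset_union_right le_rfl (not_not.1 fun h5 => h3 (mem_sdiff.2 ⟨h4, h5⟩))
      · exact nbhd_mono' subset_union_left le_rfl (h.g2 x h1 h2 h4)
    g3 := by
      change Disjoint (s.ord \ nbhd F (3 * e.ρ)) (nbhd (s.PS ∪ F) (3 * e.ρ))
      rw [nbhd_union, disjoint_union_right]
      exact ⟨h.g3.mono_left sdiff_subset, sdiff_disjoint⟩ }

theorem Inv.frz {t : Th} {s : St d M} (h : Inv c e f t s) (hγ : 0 ≤ c.γ) (F : Finset (Tor d M)) :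
    Inv c e f t (s.frz (3 * e.ρ) F) :=
  have hs : (s.frz (3 * e.ρ) F).ord ⊆ s.ord := sdiff_subset
  { h with
    bas := h.bas.frz F
    sep := h.sep.mono le_rfl hs
    ent := fun a ha b hb => h.ent a (hs ha) b (hs hb)
    four := fun a ha => le_trans (mul_le_mul_of_nonneg_left (sum_le_sum_of_subset_of_nonneg
      (erase_subset_erase a hs) fun _ _ _ => by positivity) hγ) (h.four a (hs ha))
    pair := fun a ha => h.pair a (hs ha)
    bias := fun a ha => h.bias a (hs ha)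
    had := le_trans (mul_le_mul_of_nonneg_left (norm_cmp_mono _ hs) hγ) h.had
    dwl := fun a ha => h.dwl a (hs ha) }

namespace Se

section Num

variable (L : Led c e g)
include L

lemma γ1 : c.γ ≤ 1 := by
  have h1 := L.ok.γ_le
  have h2 := one_le_pow₀ (n := 30) L.ok.C1
  have h3 := L.ok.γ0
  nlinarith

lemma P1 : (1 : ℝ) ≤ e.P := le_trans (by norm_num) L.P_ge

lemma PQ : (e.P : ℝ) ≤ e.Q := (le_self_pow₀ (P1 L) (by norm_num)).trans L.Q_ge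

lemma PB : (e.P : ℝ) ^ 7 ≤ e.Bg := by
  have h1 := (P1 L).trans (PQ L)
  have h2 := P1 L
  refine le_trans ?_ L.B_P
  rw [mul_assoc]
  exact le_mul_of_one_le_right (by positivity) (one_le_mul_of_one_le_of_one_le h1 L.D1)

lemma B1 : 1 ≤ e.Bg := le_trans (by norm_num) L.B_ge

lemma five : (5 : ℝ) ^ d ≤ e.Q := by
  have hd : (3 : ℝ) ≤ d := by exact_mod_cast L.ok.hd
  have h1 : (5 : ℝ) ^ d ≤ (100 * d : ℝ) ^ (5 * d) :=
    (pow_le_pow_left₀ (by norm_num) (by linarith) d).trans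
      (pow_le_pow_right₀ (by linarith) (by omega))
  have h2 : (1 : ℝ) ≤ 10 ^ 30 * c.C ^ 15 :=
    one_le_mul_of_one_le_of_one_le (by norm_num) (one_le_pow₀ L.ok.C1)
  exact h1.trans ((le_mul_of_one_le_right (by positivity) h2).trans (L.P2.trans (PQ L)))

lemma hK : 5 ^ d + 16 * (9 * g.x ^ 4 / c.γ) / (g.x' ^ 2 / e.q / 2) ^ 2 ≤ 1153 * (e.Q : ℝ) := by
  have h1 := L.ok.γ0
  have h2 := L.q0
  have h3 := L.x0
  have : 16 * (9 * g.x ^ 4 / c.γ) / (g.x' ^ 2 / e.q / 2) ^ 2 ≤ 1152 * (e.Q : ℝ) := by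
    have e1 : 16 * (9 * g.x ^ 4 / c.γ) / (g.x' ^ 2 / e.q / 2) ^ 2 =
        576 * (e.q ^ 2 / c.γ) * g.x ^ 4 / g.x' ^ 4 := by field_simp; ring
    rw [e1, L.q_sq, mul_div_cancel_right₀ _ h1.ne', div_le_iff₀ (by positivity)]
    nlinarith [mul_le_mul_of_nonneg_left L.x_ge (Nat.cast_nonneg (α := ℝ) e.Q)]
  linarith [five L]

lemma tlh : 1 / e.Bg ^ 28 ≤ g.x' ^ 2 / e.q / 2 / 4 := by
  have h1 := B1 L
  have h2 := L.q0
  have h3 : 1 ≤ (e.Bg * g.x') ^ 2 := one_le_pow₀ L.B_x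
  have h4 : (e.P : ℝ) ^ 4 ≤ e.Bg := (pow_le_pow_right₀ (P1 L) (by norm_num)).trans (PB L)
  have h5 : e.Bg ^ 2 ≤ e.Bg ^ 26 := pow_le_pow_right₀ h1 (by norm_num)
  have h6 : 8 * e.q ≤ e.Bg ^ 26 := by nlinarith [L.q_le, L.B_ge]
  rw [div_div, div_div, div_le_div_iff₀ (by positivity) (by positivity)]
  calc 1 * (e.q * (2 * 4)) ≤ e.Bg ^ 26 * 1 := by linarith
    _ ≤ e.Bg ^ 26 * (e.Bg * g.x') ^ 2 := by gcongr
    _ = _ := by ring

lemma tlx : 1 / e.Bg ^ 28 ≤ g.x ^ 4 / 64 := by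
  have h1 := B1 L
  have h3 : 1 ≤ (e.Bg * g.x) ^ 4 := one_le_pow₀ L.B_x'
  have h5 : e.Bg ≤ e.Bg ^ 24 := le_self_pow₀ h1 (by norm_num)
  rw [div_le_div_iff₀ (by positivity) (by positivity)]
  calc 1 * 64 ≤ e.Bg ^ 24 * 1 := by linarith [L.B_ge]
    _ ≤ e.Bg ^ 24 * (e.Bg * g.x) ^ 4 := by gcongr
    _ = _ := by ring

lemma n1 : 11 / 10 * c.γ * ((1153 * (e.Q : ℝ) + 1) * (4 * (g.x ^ 2 / e.q)) + 1 / e.Bg ^ 28) ≤
    e.φ * (e.P * e.Q : ℕ) := by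
  have h0 := L.ok.γ0
  have h1 := P1 L
  have h2 := h1.trans (PQ L)
  have h3 := L.q0
  have h4 := L.x_pos
  have hP := L.P_ge
  have e1 : e.φ * (e.P * e.Q : ℕ) = 1 / e.P := by rw [Ep.φ]; push_cast; field_simp
  have e2 : e.Q * c.γ * (g.x ^ 2 / e.q) = e.q * g.x ^ 2 := by rw [← L.q_sq]; field_simp
  have a0 : (e.P : ℝ) ^ 6 * g.x ≤ 1 :=
    le_trans (by gcongr; norm_num) L.x_small
  have a1 : e.q * g.x ^ 2 * e.P ^ 2 ≤ g.x := by
    calc _ ≤ (e.P : ℝ) ^ 4 * g.x ^ 2 * e.P ^ 2 := by gcongr; exact L.q_le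
      _ = e.P ^ 6 * g.x * g.x := by ring
      _ ≤ 1 * g.x := by gcongr
      _ = _ := one_mul _
  have a2 : g.x ≤ 1 := le_trans (le_mul_of_one_le_left h4.le (one_le_pow₀ h1)) a0
  have a3 : g.x ^ 4 * e.P ^ 2 ≤ 1 := by
    calc _ ≤ g.x ^ 1 * (e.P : ℝ) ^ 6 := by
          gcongr ?_ * ?_
          exacts [pow_le_pow_of_le_one h4.le a2 (by norm_num), pow_le_pow_right₀ h1 (by norm_num)]
      _ ≤ 1 := by linarith
  have a4 : c.γ * (1 / e.Bg ^ 28) ≤ g.x ^ 4 / 64 :=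
    (mul_le_of_le_one_left (by have := B1 L; positivity) (γ1 L)).trans (tlx L)
  have a5 : c.γ * (g.x ^ 2 / e.q) ≤ e.q * g.x ^ 2 := by
    rw [← e2]; gcongr; nlinarith
  have a6 : 11 / 10 * c.γ * ((1153 * (e.Q : ℝ) + 1) * (4 * (g.x ^ 2 / e.q)) + 1 / e.Bg ^ 28) ≤
      6000 * (e.q * g.x ^ 2) + g.x ^ 4 := by nlinarith [sq_nonneg (g.x ^ 2), mul_pos h3 (pow_pos h4 2)]
  rw [e1, le_div_iff₀ (by linarith)]
  refine (mul_le_mul_of_nonneg_right a6 (by linarith)).trans ?_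
  have a7 : 0 ≤ (6000 * (e.q * g.x ^ 2) + g.x ^ 4) * e.P := by positivity
  nlinarith

lemma n2 : (e.P : ℝ) * (4 * (1153 * (e.Q : ℝ) + 1) ^ 2 *
    ((11 / 10 * c.γ) ^ 2 * (9 * g.x ^ 4 / c.γ))) ≤ e.φ ^ 2 := by
  have h0 := L.ok.γ0
  have h1 := P1 L
  have h2 := h1.trans (PQ L)
  have h4 := L.x_pos
  have a1 : ((e.P : ℝ) ^ 15 * e.Q * g.x) ^ 4 ≤ 1 := pow_le_one₀ (by positivity) L.main
  have a2 : (10 : ℝ) ^ 60 ≤ e.P ^ 55 := L.P_ge.trans (le_self_pow₀ h1 (by norm_num))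
  rw [Ep.φ, div_pow, le_div_iff₀ (by positivity), one_pow]
  calc _ = (e.P : ℝ) ^ 5 * e.Q ^ 2 * g.x ^ 4 * (1089 / 25 * c.γ * (1153 * (e.Q : ℝ) + 1) ^ 2) := by
        field_simp; ring
    _ ≤ (e.P : ℝ) ^ 5 * e.Q ^ 2 * g.x ^ 4 * (1089 / 25 * 1 * (1154 * (e.Q : ℝ)) ^ 2) := by
        gcongr
        exacts [γ1 L, by linarith]
    _ ≤ (e.P : ℝ) ^ 5 * e.Q ^ 2 * g.x ^ 4 * (e.P ^ 55 * (e.Q : ℝ) ^ 2) := by
        gcongr _ * ?_
        rw [mul_pow, ← mul_assoc]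
        gcongr
        linarith
    _ = ((e.P : ℝ) ^ 15 * e.Q * g.x) ^ 4 := by ring
    _ ≤ 1 := a1

lemma n0 : 10 ^ 6 * (e.P : ℝ) ≤ e.Q := by
  have h1 := P1 L
  have a2 : (10 : ℝ) ^ 60 ≤ e.P ^ 5 := L.P_ge.trans (le_self_pow₀ h1 (by norm_num))
  nlinarith [L.Q_ge]

lemma hsq : (4 * (g.x ^ 2 / e.q)) ^ 2 = 16 * g.x ^ 4 / (e.Q * c.γ) := by
  rw [← L.q_sq]; ring

lemma n3 : (e.P : ℝ) * ((4 * (g.x ^ 2 / e.q)) ^ 2 * (9 * g.x ^ 4 / c.γ)) ≤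
    (g.x ^ 4 / (64 * c.γ)) ^ 2 := by
  have h0 := L.ok.γ0
  have h2 := (P1 L).trans (PQ L)
  have h4 := L.x_pos
  rw [hsq L]
  calc _ = (g.x ^ 4 / (64 * c.γ)) ^ 2 * (589824 * e.P / e.Q) := by field_simp; ring
    _ ≤ _ := mul_le_of_le_one_right (by positivity)
        ((div_le_one (by linarith)).2 (by linarith [n0 L, P1 L]))

lemma n4 : c.γ * ((4 * (g.x ^ 2 / e.q)) ^ 2 + 9 * g.x ^ 4 / c.γ / (e.P * e.Q : ℕ) +
    g.x ^ 4 / (64 * c.γ) + 1 / e.Bg ^ 28) ≤ g.x ^ 4 / 16 := by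
  have h0 := L.ok.γ0
  have h1 := P1 L
  have h2 := h1.trans (PQ L)
  have h4 := pow_pos L.x_pos 4
  have a4 : c.γ * (1 / e.Bg ^ 28) ≤ g.x ^ 4 / 64 :=
    (mul_le_of_le_one_left (by have := B1 L; positivity) (γ1 L)).trans (tlx L)
  have a1 : 16 / (e.Q : ℝ) ≤ 1 / 64 := by
    rw [div_le_div_iff₀ (by linarith) (by norm_num)]; linarith [n0 L]
  have a2 : 9 / ((e.P : ℝ) * e.Q) ≤ 1 / 64 := by
    rw [div_le_div_iff₀ (by positivity) (by norm_num)]; nlinarith [n0 L]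
  have e1 : c.γ * ((4 * (g.x ^ 2 / e.q)) ^ 2 + 9 * g.x ^ 4 / c.γ / (e.P * e.Q : ℕ) +
      g.x ^ 4 / (64 * c.γ) + 1 / e.Bg ^ 28) = g.x ^ 4 * (16 / (e.Q : ℝ)) +
        g.x ^ 4 * (9 / ((e.P : ℝ) * e.Q)) + g.x ^ 4 / 64 + c.γ * (1 / e.Bg ^ 28) := by
    rw [hsq L]; push_cast; field_simp
  nlinarith

lemma n5 : 3 * e.φ ≤ 3 / 4 / (e.P * e.Q : ℕ) * (1 / (4 * c.C)) := by
  have h1 := P1 L
  have h2 := h1.trans (PQ L)
  have h3 := L.ok.C1
  have h4 : c.C ≤ c.C ^ 30 := le_self_pow₀ h3 (by norm_num)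
  have e1 : 3 * e.φ = 3 / 4 / (e.P * e.Q : ℕ) * (4 / e.P) := by
    rw [Ep.φ]; push_cast; field_simp
  rw [e1]
  gcongr _ * ?_
  rw [div_le_div_iff₀ (by positivity) (by positivity)]
  linarith [L.P1]

lemma n6 : Real.exp (-(e.P : ℝ)) + Real.exp (-(e.P : ℝ)) ≤ Real.exp (-(e.P : ℝ) / 3) := by
  have h1 := Real.add_one_le_exp (2 * (e.P : ℝ) / 3)
  have h2 := L.P_ge
  rw [show -(e.P : ℝ) / 3 = 2 * e.P / 3 + -e.P by ring, Real.exp_add]
  nlinarith [Real.exp_pos (-(e.P : ℝ))]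

end Num

lemma selH (L : Led c e g) (hf : RefOK c e f) {s : St d M} (h : Inv c e f (th1 e g) s)
    {X : Finset (Tor d M)} (hX : Sep (10 * e.ρ) X) :
    SelH s.ord (X ∩ s.ord) (fun a b => ‖c.G s.w a b‖ ^ 2) g.R e.ρ (e.P * e.Q) (4 * (g.x ^ 2 / e.q))
      (g.x' ^ 2 / e.q / 2) (9 * g.x ^ 4 / c.γ) (1153 * e.Q) (1 / e.Bg ^ 28) where
  XO := inter_subset_right
  sepO := h.sep
  s1 := L.R1
  sL := L.Rρ
  sepX := hX.mono (by have := L.ρ_pos; omega) inter_subset_left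
  π0 := fun _ _ => sq_nonneg _
  symm := fun a b => by rw [Cx.G, h.bas.adm.G_comm]
  ent := h.ent
  two := fun a ha => by
    rw [le_div_iff₀' L.ok.γ0]
    simp only [← pow_mul]
    exact h.four a ha
  far := fun a ha => by
    have hB := B1 L
    have hd := (der L hf L.le1 h).dec
    have ho : s.ord ⊆ opn f.wr := h.bas.sub.trans hf.opn0
    have h1 : ∑ b ∈ s.ord.filter (fun b => e.ρ < tdist b a), ‖c.G s.w a b‖ ^ 2 ≤
        e.Bg ^ 2 * ∑ x ∈ univ.filter (fun x => e.ρ < tdist x a), Real.exp (-e.ϑ * tdist x a) := by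
      rw [mul_sum]
      refine (sum_le_sum fun b hb => ?_).trans (sum_le_sum_of_subset_of_nonneg
        (filter_subset_filter _ (subset_univ _)) fun _ _ _ => by positivity)
      refine (pow_le_pow_left₀ (norm_nonneg _) (hd a (ho ha) b (ho (mem_filter.1 hb).1)) 2).trans ?_
      rw [mul_pow, tdist_comm a b, sq (Real.exp _)]
      gcongr
      refine mul_le_of_le_one_left (Real.exp_pos _).le (Real.exp_le_one_iff.2 ?_)
      have := L.ϑ0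
      rw [neg_mul, neg_nonpos]; positivity
    rw [le_div_iff₀ (by positivity)]
    refine (mul_le_mul_of_nonneg_right h1 (by positivity)).trans (le_of_eq_of_le ?_ (L.far3 a))
    ring
  tl1 := (div_le_one (by have := B1 L; positivity)).2 (one_le_pow₀ (B1 L))
  tlh := tlh L
  hh := by have := L.q0; positivity
  h0 := by have := L.q0; have := L.x0; positivity
  hK := hK L
  hn := by
    have := L.P_ge
    push_cast
    nlinarith [Nat.cast_nonneg (α := ℝ) e.Q]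

end Se

open Se in
theorem select (L : Led c e g) (hf : RefOK c e f) {s : St d M} (h : Inv c e f (th1 e g) s)
    {X : Finset (Tor d M)} (hX : Sep (10 * e.ρ) X) {rr : ℕ}
    {W : (Tor d M → ℕ × ℕ) → (Tor d M → ℝ) → Prop} (G : Game c.N rr W) (hr : 3 * e.ρ ≤ rr) {β : ℝ}
    (hβ : 0 ≤ β) (post : ∀ s0 : CS d M, Pre c e g f s0 → Fol e X s s0.toSt → Disjoint X s0.A →
      W s0.S (sd s0.PS β)) :
    W s.S (sd s.PS (β + Real.exp (-(e.P : ℝ) / 3))) := by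
  classical
  have H := selH L hf h hX
  have D := der L hf L.le1 h
  have hγ := L.ok.γ0
  have hP : (0 : ℝ) < e.P := zero_lt_one.trans_le (P1 L)
  have hn : 0 < e.P * e.Q := by
    have := (P1 L).trans (PQ L)
    exact_mod_cast (show (0 : ℝ) < e.P * e.Q by positivity)
  obtain ⟨C, hok, hmem⟩ := exists_clsB (fun _ : Tor d M => e.P * e.Q) fun _ => hn
  obtain ⟨sl, hsl⟩ : ∃ sl, sl = sel s.ord (X ∩ s.ord) (fun a b => ‖c.G s.w a b‖ ^ 2) g.R e.ρ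
    (g.x' ^ 2 / e.q / 2) := ⟨_, rfl⟩
  obtain ⟨b1, hb1⟩ : ∃ b1 : Tor d M → (Tor d M → ℕ) → Prop, b1 = fun a ξ =>
    ∑ b ∈ (sl ξ).erase a, gam s.w b * ‖c.G s.w a b‖ ^ 2 < 3 / 4 / (e.P * e.Q : ℕ) *
      ∑ b ∈ s.ord.erase a, gam s.w b * ‖c.G s.w a b‖ ^ 2 - 2 * e.φ := ⟨_, rfl⟩
  obtain ⟨b2, hb2⟩ : ∃ b2 : Tor d M → (Tor d M → ℕ) → Prop, b2 = fun a ξ =>
    (4 * (g.x ^ 2 / e.q)) ^ 2 + 9 * g.x ^ 4 / c.γ / (e.P * e.Q : ℕ) + g.x ^ 4 / (64 * c.γ) +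
      1 / e.Bg ^ 28 < ∑ k ∈ (sl ξ).erase a, (‖c.G s.w a k‖ ^ 2) ^ 2 := ⟨_, rfl⟩
  have hs : ∀ ξ, X ∩ s.ord ⊆ sl ξ ∧ sl ξ ⊆ s.ord := hsl ▸ H.X_sub
  have hm0 : ∀ a b, 0 ≤ gam s.w b * ‖c.G s.w a b‖ ^ 2 := fun a b =>
    mul_nonneg (h.bas.adm.diss b) (sq_nonneg _)
  refine G.mark (π' := fun ξ p => if p ∈ s.PS then 1 else β + if p ∈ s.ord then
    (if b1 p ξ then 1 else 0) + if b2 p ξ then 1 else 0 else 0) (fun _ => e.P * e.Q) (fun _ => hn)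
    (fun p => ?_) fun ξ _ => ?_
  · rw [← hmem, sd]
    split_ifs with h1 h2
    · exact C.const _ _ zero_le_one
    · refine C.add (C.const _ _ hβ) (C.le (C.add (C.mono (tball_mono p (r := 2 * e.ρ) (by omega)) ?_)
        (C.mono (tball_mono p (r := e.ρ) (by omega)) ?_)) (n6 L) fun _ _ => ⟨by positivity, le_rfl⟩)
      · rw [hmem, hb1, hsl]
        exact H.loc1' h2 (hm0 p) (c := 11 / 10 * c.γ) (by positivity)
          (fun b _ _ => mul_le_mul_of_nonneg_right (D.gam_le b) (sq_nonneg _)) L.φ_pos hP (n1 L) (n2 L)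
      · rw [hmem, hb2, hsl]
        exact H.loc3 h2 (by have := L.x_pos; positivity) hP (n3 L)
    · exact C.le (C.const _ _ (add_nonneg hβ (Real.exp_pos _).le)) le_rfl fun _ _ =>
        ⟨by linarith, by linarith [Real.exp_pos (-(e.P : ℝ) / 3)]⟩
  set F := s.ord.filter fun p => b1 p ξ ∨ b2 p ξ
  set s0 := (⟨s, s.ord \ sl ξ, 0⟩ : CS d M).frz (3 * e.ρ) F
  have o1 : ∀ a ∈ s0.ord, a ∈ s.ord ∧ ¬b1 a ξ ∧ ¬b2 a ξ := fun a ha => by
    obtain ⟨a1, a2⟩ := mem_sdiff.1 ha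
    exact ⟨a1, not_or.1 fun h' => a2 (mem_nbhd.2 ⟨a, mem_filter.2 ⟨a1, h'⟩, by simp [tdist_self]⟩)⟩
  have o2 : s0.A ⊆ s.ord \ sl ξ := sdiff_subset
  have o3 : s0.ord \ s0.A ⊆ sl ξ := fun a ha => by
    obtain ⟨a1, a2⟩ := mem_sdiff.1 ha
    obtain ⟨a3, a4⟩ := mem_sdiff.1 a1
    exact not_not.1 fun h' => a2 (mem_sdiff.2 ⟨mem_sdiff.2 ⟨a3, h'⟩, a4⟩)
  refine G.mono (post s0 ⟨h.frz hγ.le F, rfl, sdiff_subset_sdiff sdiff_subset subset_rfl,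
    (hsl ▸ H.sep ξ).mono le_rfl o3, fun a ha b hb hab => ?_, fun a ha => ?_, fun a ha => ?_⟩
    ⟨subset_union_left, fun x _ hx => ?_⟩ ?_) (fun p => ite_nonneg zero_le_one hβ) fun p => ?_
  · have a1 := H.entry ξ (hsl ▸ o3 ha) (hsl ▸ o3 hb) hab
    have a2 := tlh L
    change ‖c.G s.w a b‖ ^ 2 ≤ _
    linarith
  · have a1 := (o1 a ha).2.2
    simp only [hb2, not_lt, ← pow_mul] at a1
    refine le_trans (mul_le_mul_of_nonneg_left ((sum_le_sum_of_subset_of_nonneg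
      (erase_subset_erase a o3) fun _ _ _ => by positivity).trans a1) hγ.le) (n4 L)
  · obtain ⟨a0, a1, -⟩ := o1 a ha
    simp only [hb1, not_lt] at a1
    have a2 := D.iota a a0
    have a3 : ∑ b ∈ univ.erase a, gam s.w b * ‖c.G s.w a b‖ ^ 2 ≤
        ∑ b ∈ s.ord.erase a, gam s.w b * ‖c.G s.w a b‖ ^ 2 +
          ∑ b ∈ univ \ s.ord, gam s.w b * ‖c.G s.w a b‖ ^ 2 := by
      rw [← sum_union (disjoint_sdiff.mono_left (erase_subset _ _))]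
      exact sum_le_sum_of_subset_of_nonneg (fun b hb => by
        have := ne_of_mem_erase hb
        by_cases h' : b ∈ s.ord <;> simp [*]) fun b _ _ => hm0 a b
    have a4 : ∑ b ∈ (sl ξ).erase a, gam s.w b * ‖c.G s.w a b‖ ^ 2 +
        ∑ b ∈ univ \ s.ord, gam s.w b * ‖c.G s.w a b‖ ^ 2 ≤ nm c s0 s0.w a := by
      rw [← sum_union (disjoint_sdiff.mono_left ((erase_subset _ _).trans (hs ξ).2))]
      refine sum_le_sum_of_subset_of_nonneg (fun b hb => mem_sdiff.2 ⟨mem_univ _, fun h' => ?_⟩)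
        fun b _ _ => hm0 a b
      obtain ⟨c1, c2⟩ := mem_sdiff.1 (o2 h')
      exact (mem_union.1 hb).elim (fun h'' => c2 (mem_of_mem_erase h''))
        fun h'' => (mem_sdiff.1 h'').2 c1
    have a5 : 0 ≤ ∑ b ∈ univ \ s.ord, gam s.w b * ‖c.G s.w a b‖ ^ 2 :=
      sum_nonneg fun b _ => hm0 a b
    have a6 : (3 / 4 / (e.P * e.Q : ℕ) : ℝ) ≤ 1 := by
      have : (1 : ℝ) ≤ (e.P * e.Q : ℕ) := by exact_mod_cast hn
      rw [div_le_one (by linarith)]; linarith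
    have a7 := mul_le_mul_of_nonneg_left (a2.trans a3)
      (show (0 : ℝ) ≤ 3 / 4 / (e.P * e.Q : ℕ) by positivity)
    have a8 := mul_le_of_le_one_left a5 a6
    linarith [n5 L]
  · by_cases h' : x ∈ nbhd F (3 * e.ρ)
    · exact Or.inr (nbhd_mono' subset_union_right le_rfl h')
    · exact Or.inl (mem_sdiff.2 ⟨hx, h'⟩)
  · exact disjoint_left.2 fun x hx h' => (mem_sdiff.1 (o2 h')).2
      ((hs ξ).1 (mem_inter.2 ⟨hx, (mem_sdiff.1 (o2 h')).1⟩))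
  · change (if p ∈ s.PS ∪ F then 1 else β) ≤ _
    by_cases h1 : p ∈ s.PS
    · rw [if_pos h1, if_pos (mem_union_left _ h1)]
    rw [if_neg h1]
    by_cases h2 : p ∈ F
    · obtain ⟨a1, a2⟩ := mem_filter.1 h2
      rw [if_pos (mem_union_right _ h2), if_pos a1]
      rcases a2 with a2 | a2 <;> rw [if_pos a2] <;> split_ifs <;> linarith
    · rw [if_neg fun h' => (mem_union.1 h').elim h1 h2]
      exact le_add_of_nonneg_right (by positivity)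

end Crest.Agent.N334.AC.P
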