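import Crest.Agent.N334.AC.P.Der
import Crest.Agent.N334.AC.P.Sel

/-! # S0520 part P: closure of the environment (leaf; fill the sorries, keep the statements)
`env_of`: first `tw_of` (from `OutNr`), far pairs by decay at `s` (`Led.far1`, `Led.G0_dec`), then `Inv (th2)`, `der`.
`ly`: `τ - τ⁰ = -τ τ⁰ ΔG`, so `|b - b⁰| ≤ m2 (1 + 2σ|ΔG|)|ΔG|`; `m2 ≥ γ/(8C)` (`Adm.tau_id` or `Nw.Pre.e2_iota`, or
`E|τ|² ≥ σ²/4`); `nm ≤ Im G_aa ≤ 2C`; `Be φ = P²x²`. -/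

set_option autoImplicit false
set_option maxHeartbeats 400000

open Finset Complex
open scoped Matrix.Norms.L2Operator Matrix

namespace Crest.Agent.N334.AC.P

variable {d M : ℕ} [NeZero M] {c : Cx d M} {e : Ep} {g : Sg} {f : Ref d M}

variable {s0 s : CS d M}

namespace EnvH

theorem bas_frz {t : St d M} (h : Bas c e f t) (F : Finset (Tor d M)) :
    Bas c e f (t.frz (3 * e.ρ) F) where
  adm := h.adm
  abs := h.abs
  rng := h.rng
  cls := h.cls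
  len := h.len
  full := fun x hx => h.full x (mem_sdiff.1 hx).1
  off := h.off
  sub := sdiff_subset.trans h.sub
  opn := fun x hx => h.opn x (mem_sdiff.1 hx).1
  g2 := fun x hx hg hn => by
    change x ∈ nbhd (t.PS ∪ F) (3 * e.ρ)
    rw [nbhd_union, mem_union]
    by_cases h1 : x ∈ t.ord
    · right
      by_contra h2
      exact hn (mem_sdiff.2 ⟨h1, h2⟩)
    · exact Or.inl (h.g2 x hx hg h1)
  g3 := by
    change Disjoint (t.ord \ nbhd F (3 * e.ρ)) (nbhd (t.PS ∪ F) (3 * e.ρ))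
    rw [nbhd_union, disjoint_union_right]
    exact ⟨h.g3.mono_left sdiff_subset, sdiff_disjoint⟩

/-! ### scalar facts -/

section Sc

variable {C σ r : ℝ} {N : ℕ} {a a' w : ℂ}

theorem beta_rel (h : Sml C σ N) (hr : 0 ≤ r ∧ r ≤ 1) (hg : ‖a‖ ≤ C) (hg' : ‖a'‖ ≤ C)
    (hw : ‖w‖ ≤ C * σ ^ 2) :
    ‖beta σ N r a' w - beta σ N r a w‖ ≤ (1 + 2 * σ * ‖a' - a‖) * ‖a' - a‖ *
      avg N fun k => ‖tau a' w (val σ N r k)‖ ^ 2 := by
  have hσ := h.σ0
  rw [beta, beta, ← TauH.avgV_sub, ← avg_mul]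
  refine (norm_avgV_le _ _).trans (avg_mono fun k hk => ?_)
  have hv := abs_val_le hσ.le hr hk
  have hd := h.den hg hw hv
  have hd' := h.den hg' hw hv
  have h1 := h.tau_le hg hw hv
  have e1 : tau a' w (val σ N r k) - tau a w (val σ N r k) =
      -(tau a' w (val σ N r k) ^ 2 * (a' - a) * (1 + tau a w (val σ N r k) * (a' - a))) := by
    rw [tau, tau]; field_simp; ring
  have h2 : ‖1 + tau a w (val σ N r k) * (a' - a)‖ ≤ 1 + 2 * σ * ‖a' - a‖ := by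
    refine (norm_add_le _ _).trans ?_
    rw [norm_one, norm_mul]
    gcongr
  rw [e1, norm_neg, norm_mul, norm_mul, norm_pow]
  calc _ ≤ ‖tau a' w (val σ N r k)‖ ^ 2 * ‖a' - a‖ * (1 + 2 * σ * ‖a' - a‖) := by gcongr
    _ = _ := by ring

theorem tau_sq_ge (h : Sml C σ N) (hr : 0 ≤ r ∧ r ≤ 1) (hg : ‖a‖ ≤ C) (hw : ‖w‖ ≤ C * σ ^ 2) :
    σ ^ 2 / 8 ≤ avg N fun k => ‖tau a w (val σ N r k)‖ ^ 2 := by
  have hσ := h.σ0
  have h1 : ∀ k < N, 9 / 20 * val σ N r k ^ 2 + -(σ ^ 2 / 1000) ≤ ‖tau a w (val σ N r k)‖ ^ 2 := by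
    intro k hk
    have hv := abs_val_le hσ.le hr hk
    have hd := h.den hg hw hv
    have hu := TauH.u_le h hw hv
    have hw' := TauH.w_le h hw
    have hC := TauH.Cs h
    set v := val σ N r k
    have h2 : ‖1 + ((v : ℂ) - w) * a‖ ≤ 101 / 100 := by
      refine (norm_add_le _ _).trans ?_
      rw [norm_one, norm_mul]
      have := mul_le_mul hu hg (norm_nonneg _) (by positivity)
      nlinarith
    have h3 : ‖(v : ℂ) - w‖ = ‖tau a w v‖ * ‖1 + ((v : ℂ) - w) * a‖ := by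
      rw [← norm_mul, tau, div_mul_cancel₀ _ hd]
    have h4 : ‖(v : ℂ) - w‖ ≤ 101 / 100 * ‖tau a w v‖ := by
      rw [h3, mul_comm]; gcongr
    have h5 : |v| ≤ ‖(v : ℂ) - w‖ + ‖w‖ := by
      have := norm_add_le ((v : ℂ) - w) w
      rwa [sub_add_cancel, Complex.norm_real, Real.norm_eq_abs] at this
    have h6 : |v| ≤ 101 / 100 * ‖tau a w v‖ + σ / 1000 := by linarith
    have h7 : v ^ 2 ≤ (101 / 100 * ‖tau a w v‖ + σ / 1000) ^ 2 := by
      rw [← sq_abs]; exact pow_le_pow_left₀ (abs_nonneg _) h6 2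
    nlinarith [sq_nonneg (101 / 100 * ‖tau a w v‖ - σ / 1000), sq_nonneg σ, sq_nonneg ‖tau a w v‖]
  refine le_trans ?_ (avg_mono h1)
  rw [avg_add, avg_mul, avg_const h.N_pos]
  have h2 := (abs_le.1 (TauH.abs_avg_val_sq h hr)).1
  have h3 := TauH.s1 h
  have h4 : σ ^ 4 ≤ σ ^ 2 / 1000 := by
    have : σ ^ 2 ≤ 1 / 1000 := by nlinarith
    nlinarith [sq_nonneg σ]
  nlinarith [sq_nonneg σ]

/-- the arithmetic of the Lyapunov bound -/
theorem ly_arith {b b0 m B n φ P δ s K : ℝ} (hb : b ≤ b0 + (1 + s * δ) * δ * m) (hm : 0 ≤ m)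
    (hB : 0 < B) (hφ : 0 < φ) (hP : 0 < P) (hδ0 : 0 ≤ δ) (hδ : δ ≤ (1 + φ / P) * (B * (n - φ / 4)))
    (hn : n ≤ K) (hK : 0 < K) (hs : 0 ≤ s) (h1 : φ ≤ P) (h2 : 32 * K ≤ P)
    (h3 : 64 * s * B * K ^ 2 ≤ φ) (h4 : 8 * b0 ≤ m * (B * φ)) : b ≤ m * (B * n) := by
  have hu : φ / P ≤ 1 := (div_le_one hP).2 h1
  have hu0 : 0 ≤ φ / P := by positivity
  have hn0 : 0 ≤ n - φ / 4 := by
    by_contra hc
    push Not at hc
    have : (1 + φ / P) * (B * (n - φ / 4)) < 0 := mul_neg_of_pos_of_neg (by positivity)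
      (mul_neg_of_pos_of_neg hB hc)
    linarith
  have hn1 : n - φ / 4 ≤ K := by linarith
  have hδ1 : δ ≤ 2 * (B * K) := hδ.trans (by gcongr; linarith)
  have hu1 : φ / P * K ≤ φ / 32 := by
    rw [div_mul_eq_mul_div, div_le_div_iff₀ hP (by norm_num)]; nlinarith
  have h5 : s * δ * (2 * K) ≤ φ / 16 := by
    have : s * δ * (2 * K) ≤ s * (2 * (B * K)) * (2 * K) := by gcongr
    nlinarith
  have h6 : (1 + φ / P) * (n - φ / 4) ≤ 2 * K := by nlinarith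
  have h7 : (1 + s * δ) * ((1 + φ / P) * (n - φ / 4)) ≤ n - φ / 8 := by
    have a1 : s * δ * ((1 + φ / P) * (n - φ / 4)) ≤ s * δ * (2 * K) := by gcongr
    have a2 : φ / P * (n - φ / 4) ≤ φ / P * K := by gcongr
    nlinarith
  have h8 : (1 + s * δ) * δ ≤ B * (n - φ / 8) := by
    calc (1 + s * δ) * δ ≤ (1 + s * δ) * ((1 + φ / P) * (B * (n - φ / 4))) := by gcongr
      _ = B * ((1 + s * δ) * ((1 + φ / P) * (n - φ / 4))) := by ring
      _ ≤ _ := by gcongr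
  have h9 := mul_le_mul_of_nonneg_right h8 hm
  nlinarith

end Sc

/-! ### far entries -/

theorem far_le (L : Led c e g) {u : ℝ} {t : ℕ} (ht : e.ρ ≤ t) (hu : u ≤ e.Bg * Real.exp (-e.ϑ * t)) :
    e.Bg ^ 2 * u ≤ 1 := by
  have hB : 1 ≤ e.Bg := le_trans (by norm_num) L.B_ge
  calc e.Bg ^ 2 * u ≤ e.Bg ^ 2 * (e.Bg * Real.exp (-e.ϑ * t)) := by gcongr
    _ = e.Bg ^ 3 * Real.exp (-e.ϑ * t) := by ring
    _ ≤ e.Bg ^ 40 * Real.exp (-e.ϑ * t) :=
      mul_le_mul_of_nonneg_right (pow_le_pow_right₀ hB (by norm_num)) (Real.exp_pos _).le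
    _ ≤ 1 := L.far1 ht

theorem far_x (L : Led c e g) {u : ℝ} (hu : e.Bg ^ 2 * u ≤ 1) : 2 * u ≤ g.x := by
  have hB := L.B_ge
  have h1 := L.B_x'
  have hx := L.x_pos
  by_contra hc
  push Not at hc
  have h2 : e.Bg ^ 2 * g.x ≤ e.Bg ^ 2 * (2 * u) := by gcongr
  nlinarith

theorem far_h (L : Led c e g) {u : ℝ} (h0 : 0 ≤ u) (hu : e.Bg ^ 2 * u ≤ 1) :
    u ^ 2 ≤ g.x' ^ 2 / e.q := by
  have hB : 1 ≤ e.Bg := le_trans (by norm_num) L.B_ge
  have hP : (1 : ℝ) ≤ e.P := le_trans (by norm_num) L.P_ge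
  have hQ : (1 : ℝ) ≤ e.Q := (one_le_pow₀ hP).trans L.Q_ge
  have hq : e.q ≤ e.Bg := by
    refine L.q_le.trans (le_trans ?_ L.B_P)
    calc (e.P : ℝ) ^ 4 ≤ (e.P : ℝ) ^ 7 := pow_le_pow_right₀ hP (by norm_num)
      _ ≤ (e.P : ℝ) ^ 7 * e.Q := le_mul_of_one_le_right (by positivity) hQ
      _ ≤ _ := le_mul_of_one_le_right (by positivity) L.D1
  have h1 : e.Bg * u ≤ g.x' := by
    have h2 : e.Bg * (e.Bg * u) ≤ e.Bg * g.x' := by nlinarith [L.B_x]
    exact le_of_mul_le_mul_left h2 (by linarith)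
  rw [le_div_iff₀ L.q0]
  have h3 := pow_le_pow_left₀ (by positivity) h1 2
  have h4 : u ^ 2 * e.q ≤ u ^ 2 * e.Bg ^ 2 := by
    gcongr
    nlinarith
  nlinarith

theorem h'_le (L : Led c e g) : g.x' ^ 2 / e.q ≤ g.x ^ 2 / e.q := by
  have := L.q0
  have := L.x0
  have := L.x_le
  gcongr

theorem nu_sq (L : Led c e g) : 4 * nu e g ^ 2 ≤ g.x' ^ 2 / e.q := by
  refine le_trans ?_ L.nu_h
  have : (4 : ℝ) ≤ (e.P : ℝ) ^ 2 := by nlinarith [L.P_ge]
  gcongr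

theorem ord_sub (h0 : Pre c e g f s0) (h : Rch c e f s0 s) : s.ord ⊆ s0.ord := fun x hx => by
  by_cases hA : x ∈ s.A
  · exact h0.sub (h.subA hA)
  · exact (mem_sdiff.1 (h.subS (mem_sdiff.2 ⟨hx, hA⟩))).1

theorem gam_same (h : Rch c e f s0 s) {x : Tor d M} (hx : gam s.w x ≠ 0 ∨ x ∉ s0.A) :
    gam s.w x = gam s0.w x := by
  unfold gam; rw [h.same x hx]

theorem nm_le (h : Rch c e f s0 s) (a : Tor d M) : nm c s0 s.w a ≤ ‖c.G s.w a a‖ := by
  have h1 := h.bas.adm.ward_diag a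
  calc nm c s0 s.w a = ∑ b ∈ univ \ s0.A, gam s.w b * ‖c.G s.w a b‖ ^ 2 :=
        sum_congr rfl fun b hb => by rw [gam_same h (Or.inr (mem_sdiff.1 hb).2)]
    _ ≤ ∑ b, gam s.w b * ‖c.G s.w a b‖ ^ 2 :=
        sum_le_sum_of_subset_of_nonneg sdiff_subset fun b _ _ =>
          mul_nonneg (h.bas.adm.diss b) (sq_nonneg _)
    _ = (c.G s.w a a).im := h1
    _ ≤ _ := (le_abs_self _).trans (Complex.abs_im_le_norm _)

theorem norm_le_add (u v : ℂ) : ‖u‖ ≤ ‖v‖ + ‖u - v‖ := by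
  have := norm_add_le v (u - v)
  rwa [add_sub_cancel] at this

end EnvH

open EnvH

theorem Pre.rch (h0 : Pre c e g f s0) : Rch c e f s0 s0 :=
  ⟨h0.inv.bas, h0.sub, Subset.rfl, Subset.rfl, fun _ _ => rfl, Subset.rfl, h0.n0 ▸ Nat.zero_le _⟩

theorem Rch.frz (h : Rch c e f s0 s) (F : Finset (Tor d M)) :
    Rch c e f s0 (s.frz (3 * e.ρ) F) where
  bas := bas_frz h.bas F
  sub := sdiff_subset_sdiff h.sub Subset.rfl
  subA := sdiff_subset.trans h.subA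
  subS := fun x hx => h.subS (by
    obtain ⟨h1, h2⟩ := mem_sdiff.1 hx
    obtain ⟨h3, h4⟩ := mem_sdiff.1 h1
    exact mem_sdiff.2 ⟨h3, fun h5 => h2 (mem_sdiff.2 ⟨h5, h4⟩)⟩)
  same := h.same
  PS := h.PS.trans subset_union_left
  n_le := h.n_le

theorem Env.next (L : Led c e g) (hf : RefOK c e f) (h : Env c e g f s0 s) (hr : s.run e)
    {ω : Option (Tor d M × ℕ)} (hω : okA s.A c.N ω) : Rch c e f s0 (s.next c ω) := by
  have _ := L
  have hR := h.rch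
  have hb := hR.bas
  rcases ω with _ | ⟨y, k⟩
  · exact ⟨hb, hR.sub, hR.subA, hR.subS, hR.same, hR.PS, hr⟩
  obtain ⟨hy, hk⟩ := hω
  have hyo := hR.sub hy
  have hw : ∀ x, x ≠ y → cls1 s.w y (c.v y k) x = s.w x := fun x hx => Function.update_of_ne hx _ _
  have hS : ∀ x, x ≠ y → Function.update s.S y (k, 1) x = s.S x := fun x hx =>
    Function.update_of_ne hx _ _
  have hg : ∀ x, gam (cls1 s.w y (c.v y k)) x ≠ 0 → x ≠ y := fun x hx e1 =>
    hx (e1 ▸ gam_cls_self _ _ _)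
  refine ⟨⟨hb.adm.close (h.der.den y hyo k hk), fun x hx => ?_, fun x => ?_, fun x hx => ?_,
    fun x hx => ?_, fun x hx => ?_, fun x hx => ?_, (erase_subset _ _).trans hb.sub, fun x hx => ?_,
    fun x hx h1 h2 => ?_, hb.g3.mono_left (erase_subset _ _)⟩, erase_subset_erase _ hR.sub,
    (erase_subset _ _).trans hR.subA, fun x hx => hR.subS ?_, fun x hx => ?_, hR.PS, hr⟩
  · have : x ≠ y := fun e1 => disjoint_left.1 hf.dT (hf.sub (hb.sub hyo)) (e1 ▸ hx)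
    exact (hw x this).trans (hb.abs x hx)
  · change 0 < (Function.update s.S y (k, 1) x).2 ∧
      (Function.update s.S y (k, 1) x).1 + (Function.update s.S y (k, 1) x).2 ≤ c.N
    by_cases e1 : x = y
    · subst e1; rw [Function.update_self]; exact ⟨one_pos, hk⟩
    · rw [hS x e1]; exact hb.rng x
  · change (Function.update s.S y (k, 1) x).2 = 1 ∧
      cls1 s.w y (c.v y k) x = c.v x (Function.update s.S y (k, 1) x).1
    by_cases e1 : x = y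
    · subst e1; rw [Function.update_self]; exact ⟨rfl, Function.update_self _ _ _⟩
    · rw [hS x e1, hw x e1]; exact hb.cls x ((gam_cls_ne _ _ e1).symm.trans hx)
  · have e1 := hg x hx
    change ∃ a, e.a ≤ a ∧ (Function.update s.S y (k, 1) x).2 = 2 ^ a
    rw [hS x e1]
    exact hb.len x fun h1 => hx ((gam_cls_ne _ _ e1).trans h1)
  · exact (hS x (mem_erase.1 hx).1).trans (hb.full x (mem_erase.1 hx).2)
  · exact (hw x fun e1 => hx (e1 ▸ hb.sub hyo)).trans (hb.off x hx)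
  · exact fun h1 => hb.opn x (mem_erase.1 hx).2 ((gam_cls_ne _ _ (mem_erase.1 hx).1).symm.trans h1)
  · have e1 := hg x h1
    exact hb.g2 x hx (fun h3 => h1 ((gam_cls_ne _ _ e1).trans h3)) fun h3 => h2 (mem_erase.2 ⟨e1, h3⟩)
  · obtain ⟨h1, h2⟩ := mem_sdiff.1 hx
    obtain ⟨h3, h4⟩ := mem_erase.1 h1
    exact mem_sdiff.2 ⟨h4, fun h5 => h2 (mem_erase.2 ⟨h3, h5⟩)⟩
  · have e1 : x ≠ y := hx.elim (hg x) fun h1 e1 => h1 (e1 ▸ hR.subA hy)
    exact (hw x e1).trans (hR.same x (hx.imp_left fun h1 h2 => h1 ((gam_cls_ne _ _ e1).trans h2)))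

theorem env_of (L : Led c e g) (hf : RefOK c e f) (h0 : Pre c e g f s0) (h : Rch c e f s0 s)
    (p1 : OutP1 c e g s0 s) (p2 : OutP2 c e g f s0 s) (dg : OutDg c e g f s0 s) (ly : OutLy c e g s0 s)
    (dw : OutDw c e g f s0 s) (na : OutNA c e g s) (ns : OutNS c g s) (nr : OutNr c e g f s)
    (hd : OutHd c g s) (en : OutEn c g s) : Env c e g f s0 s := by
  have hb := h.bas
  have i0 := h0.inv
  have ok := L.ok
  have hso := ord_sub h0 h
  have hγ := ok.γ0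
  have hC := ok.C1
  have hσ := ok.σ0
  have hx := L.x_pos
  have hP := L.P_ge
  have hP0 : (0 : ℝ) < e.P := lt_of_lt_of_le (by norm_num) hP
  have hP1 : (1 : ℝ) ≤ e.P := le_trans (by norm_num) hP
  have hQ : (1 : ℝ) ≤ e.Q := (one_le_pow₀ hP1).trans L.Q_ge
  have hz := L.z0
  have hC30 : c.C ^ 2 ≤ c.C ^ 30 := pow_le_pow_right₀ hC (by norm_num)
  have hC2 : c.C ≤ c.C ^ 2 := le_self_pow₀ hC (by norm_num)
  have hCP : 10 ^ 60 * c.C ^ 2 ≤ (e.P : ℝ) := le_trans (by gcongr) L.P1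
  have hex : g.e + g.x ≤ g.e' := by
    have : 0 ≤ (e.P : ℝ) ^ 3 * g.z / 2 := by positivity
    linarith [L.e_x_le]
  have he1 : g.e' ≤ 1 := by
    have h1 := L.e'_small
    have h2 : 0 ≤ g.e' := by linarith [L.e0]
    have h3 : (1 : ℝ) ≤ 10 ^ 60 * c.C ^ 30 := by nlinarith
    nlinarith
  have hnear : ∀ x, gam s.w x ≠ 0 → ‖s.w x - c.w0‖ ≤ g.e' * c.γ := fun x hx' => by
    rw [h.same x (Or.inl hx')]
    exact (i0.near x (gam_same h (Or.inl hx') ▸ hx')).trans (mul_le_mul_of_nonneg_right hex hγ.le)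
  have hdec := (tw_of L hf hb hnear nr).2
  have ho1 : ∀ a ∈ s.ord, a ∈ opn f.wr := fun a ha => hf.opn0 (hb.sub ha)
  have ho2 : ∀ b, gam s.w b ≠ 0 → b ∈ opn f.wr := fun b hb' => by
    by_cases h1 : b ∈ f.ord0
    · exact hf.opn0 h1
    · rw [mem_opn]
      unfold gam at hb' ⊢
      rwa [← hb.off b h1]
  have hfar : ∀ a ∈ opn f.wr, ∀ b ∈ opn f.wr, ¬ tdist b a ≤ e.ρ → e.Bg ^ 2 * ‖c.G s.w a b‖ ≤ 1 :=
    fun a ha b hb' ht => far_le L (t := tdist a b) (by rw [tdist_comm]; omega) (hdec a ha b hb')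
  have hT : ∀ a ∈ s.ord, a ∈ f.T := fun a ha => hf.sub (hb.sub ha)
  have hdiag : ∀ b ∈ f.T, gam s.w b ≠ 0 → ‖c.G s.w b b - c.G0 0 0‖ ≤ g.e' := fun b hb1 hb2 => by
    have h1 := dg b hb1 hb2
    have h2 : ‖c.G s0.w b b - c.G0 0 0‖ ≤ g.e + g.x := i0.diag b hb1 (gam_same h (Or.inl hb2) ▸ hb2)
    have h3 := norm_sub_le_norm_sub_add_norm_sub (c.G s.w b b) (c.G s0.w b b) (c.G0 0 0)
    linarith [L.e_x_le]
  have hGa : ∀ a ∈ s.ord, ‖c.G s.w a a‖ ≤ 2 * c.C := fun a ha => by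
    linarith [norm_le_add (c.G s.w a a) (c.G0 0 0), hdiag a (hT a ha) (hb.opn a ha), ok.G0_le 0 0]
  have hnm : ∀ a ∈ s.ord, nm c s0 s.w a ≤ 2 * c.C := fun a ha => (nm_le h a).trans (hGa a ha)
  have d0 := der L hf L.le1 i0
  have sml : Sml (2 * c.C) c.σ c.N := ok.sml (by linarith) (by linarith)
  have hwa : ∀ a ∈ s.ord, ‖s.w a‖ ≤ 2 * c.C * c.σ ^ 2 := fun a ha => by
    rw [h.same a (Or.inl (hb.opn a ha))]
    exact d0.w_le a (i0.bas.opn a (hso ha))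
  have hBe : 0 < Be e g := by unfold Be; positivity
  have hφ := L.φ_pos
  have hly : ∀ y ∈ s.ord, ‖c.b s.w y‖ ≤ c.m2 s.w y * (Be e g * nm c s0 s.w y) := fun y hy => by
    have hy0 := hso hy
    have hw := h.same y (Or.inl (hb.opn y hy))
    have g0 := d0.g_le y (hT y hy) (i0.bas.opn y hy0)
    have h1 := beta_rel sml (ok.r01 y) g0 (hGa y hy) (hwa y hy)
    have h2 : c.σ ^ 2 / 8 ≤ c.m2 s.w y := tau_sq_ge sml (ok.r01 y) (hGa y hy) (hwa y hy)
    have h3 : ‖beta c.σ c.N (c.r y) (c.G s0.w y y) (s.w y)‖ ≤ g.x ^ 2 * c.γ := by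
      rw [hw]; exact i0.bias y hy0
    have h4 := norm_le_add (c.b s.w y) (beta c.σ c.N (c.r y) (c.G s0.w y y) (s.w y))
    have hφ1 : e.φ * ((e.P : ℝ) ^ 2 * e.Q) = 1 := by unfold Ep.φ; field_simp
    have hPQ : (1 : ℝ) ≤ (e.P : ℝ) ^ 2 * e.Q := one_le_mul_of_one_le_of_one_le (one_le_pow₀ hP1) hQ
    refine ly_arith (b0 := g.x ^ 2 * c.γ) (s := 2 * c.σ) (K := 2 * c.C) (P := e.P) (φ := e.φ)
      (δ := ‖c.G s.w y y - c.G s0.w y y‖) (le_trans h4 (add_le_add h3 h1)) (by nlinarith) hBe hφ hP0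
      (norm_nonneg _) (ly y hy) (hnm y hy) (by linarith) (by linarith) (by nlinarith) (by nlinarith)
      ?_ ?_
    · have a1 : (e.P : ℝ) ^ 3 * e.Q * g.x ≤ 1 := by
        refine le_trans ?_ L.main
        have : (e.P : ℝ) ^ 3 ≤ (e.P : ℝ) ^ 15 := pow_le_pow_right₀ hP1 (by norm_num)
        gcongr
      have a2 : ((e.P : ℝ) ^ 3 * e.Q * g.x) ^ 2 ≤ 1 := pow_le_one₀ (by positivity) a1
      have a3 : 512 * (c.C ^ 2 * c.σ) ≤ 1 := by
        have := ok.σ_le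
        have : c.C ^ 2 * c.σ ≤ c.C ^ 30 * c.σ := by gcongr
        nlinarith [mul_pos (pow_pos (lt_of_lt_of_le one_pos hC) 2) hσ]
      have a4 : 64 * (2 * c.σ) * Be e g * (2 * c.C) ^ 2 * ((e.P : ℝ) ^ 2 * e.Q) ≤
          e.φ * ((e.P : ℝ) ^ 2 * e.Q) := by
        rw [hφ1]
        calc _ = 512 * (c.C ^ 2 * c.σ) * ((e.P : ℝ) ^ 3 * e.Q * g.x) ^ 2 := by unfold Be; ring
          _ ≤ 1 * 1 := by gcongr
          _ = 1 := one_mul _
      exact le_of_mul_le_mul_right a4 (by linarith)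
    · rw [L.Be_φ]
      have a1 : 64 * c.γ ≤ c.σ ^ 2 * (e.P : ℝ) ^ 2 := by
        have a2 : 64 * c.C ≤ (e.P : ℝ) ^ 2 := by nlinarith
        calc 64 * c.γ ≤ 64 * (c.C * c.σ ^ 2) := by linarith [ok.γ_hi]
          _ = c.σ ^ 2 * (64 * c.C) := by ring
          _ ≤ _ := by gcongr
      calc 8 * (g.x ^ 2 * c.γ) = 64 * c.γ / 8 * g.x ^ 2 := by ring
        _ ≤ c.σ ^ 2 * (e.P : ℝ) ^ 2 / 8 * g.x ^ 2 := by gcongr
        _ = c.σ ^ 2 / 8 * ((e.P : ℝ) ^ 2 * g.x ^ 2) := by ring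
        _ ≤ _ := by gcongr
  have hh := h'_le L
  have hnu := nu_sq L
  have hh0 : 0 ≤ g.x' ^ 2 / e.q := div_nonneg (sq_nonneg _) L.q0.le
  have hP3 : 2 * g.x ≤ (e.P : ℝ) ^ 3 * g.x := by
    have : (e.P : ℝ) ≤ (e.P : ℝ) ^ 3 := le_self_pow₀ hP1 (by norm_num)
    gcongr; linarith
  have inv : Inv c e f (th2 e g) s.toSt := by
    refine ⟨hb, i0.sep.mono le_rfl hso, hnear, fun a ha b hb' hab => ?_, fun a ha => ?_,
      fun a ha b hb1 hb2 hab => ?_, hdiag, fun a ha => ?_, en.1, en.2, hd, nr, fun a ha => ?_⟩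
    · change _ ≤ 9 * (g.x ^ 2 / e.q)
      by_cases ht : tdist b a ≤ e.ρ
      · have h1 := p1 a ha b hb' hab ht
        have h2 : ‖c.G s0.w a b‖ ^ 2 ≤ 4 * (g.x ^ 2 / e.q) := i0.ent a (hso ha) b (hso hb') hab
        have h3 : ‖c.G s.w a b‖ ≤ ‖c.G s0.w a b‖ + nu e g :=
          (norm_le_add _ (c.G s0.w a b)).trans (by linarith)
        have h4 := pow_le_pow_left₀ (norm_nonneg _) h3 2
        nlinarith [sq_nonneg (‖c.G s0.w a b‖ - nu e g)]
      · have := far_h L (norm_nonneg _) (hfar a (ho1 a ha) b (ho1 b hb') ht)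
        linarith
    · change _ ≤ 13 * g.x ^ 4
      have h1 := na a ha
      have h2 := ns a ha
      have h3 := one_le_bt L (t_nonneg s)
      have h4 : s.ord.erase a = s.A.erase a ∪ (s.ord \ s.A).erase a := by
        rw [← erase_union_distrib, union_sdiff_of_subset h.sub]
      have h5 : 0 ≤ c.γ * ∑ b ∈ s.A.erase a, ‖c.G s.w a b‖ ^ 4 := by positivity
      have h6 := le_mul_of_one_le_left h5 h3
      rw [h4, sum_union (disjoint_sdiff.mono (erase_subset _ _) (erase_subset _ _)), mul_add]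
      have h7 : 0 ≤ g.x ^ 4 := by positivity
      linarith
    · change _ ≤ g.X'
      have hX := L.X_inc
      have hX0 := L.X0
      by_cases ht : tdist b a ≤ e.ρ
      · have h1 := p2 a ha b hb1 hb2 hab ht
        have h2 : ‖c.G s0.w a b - c.G0 a b‖ ≤ g.X + g.x :=
          i0.pair a (hso ha) b hb1 (gam_same h (Or.inl hb2) ▸ hb2) hab
        have h3 := norm_sub_le_norm_sub_add_norm_sub (c.G s.w a b) (c.G s0.w a b) (c.G0 a b)
        linarith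
      · have h1 := far_x L (hfar a (ho1 a ha) b (ho2 b hb2) ht)
        have h2 := far_x L (far_le L (t := tdist a b) (by rw [tdist_comm]; omega) (L.G0_dec a b))
        have h3 := norm_sub_le (c.G s.w a b) (c.G0 a b)
        linarith
    · change _ ≤ (e.P : ℝ) ^ 5 * e.Q * g.x ^ 2 * c.γ
      have h1 : c.m2 s.w a ≤ c.σ ^ 2 / 3 * (21 / 20) := sml.tau_sq (ok.r01 a) (hGa a ha) (hwa a ha)
      have h2 : c.m2 s.w a ≤ c.C * c.γ := by linarith [ok.γ_lo, sq_nonneg c.σ]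
      have h3 : 0 ≤ c.m2 s.w a :=
        le_trans (by positivity) (tau_sq_ge sml (ok.r01 a) (hGa a ha) (hwa a ha))
      calc ‖c.b s.w a‖ ≤ c.m2 s.w a * (Be e g * nm c s0 s.w a) := hly a ha
        _ ≤ c.m2 s.w a * (Be e g * (2 * c.C)) := by have := hnm a ha; gcongr
        _ ≤ c.C * c.γ * (Be e g * (2 * c.C)) := by gcongr
        _ = 2 * c.C ^ 2 * (Be e g * c.γ) := by ring
        _ ≤ e.P * (Be e g * c.γ) := by gcongr; nlinarith
        _ = _ := by unfold Be; ring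
    · change _ ≤ D' e g
      have hD : 0 ≤ g.D := zero_le_one.trans L.D1
      calc _ ≤ Bw e g * nm c s0 s.w a := dw a ha
        _ ≤ Bw e g * (2 * c.C) := mul_le_mul_of_nonneg_left (hnm a ha) (by unfold Bw; positivity)
        _ = 12 * c.C * ((e.P : ℝ) ^ 2 * e.Q * g.D) := by unfold Bw; ring
        _ ≤ e.P * ((e.P : ℝ) ^ 2 * e.Q * g.D) := by gcongr; nlinarith
        _ = _ := by unfold D'; ring
  refine ⟨h, inv, der L hf L.le2 inv, na, ns, fun a ha b hb' hab => ?_, hly, dw⟩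
  have ha1 := (mem_sdiff.1 ha).1
  have hb1 := (mem_sdiff.1 hb').1
  by_cases ht : tdist b a ≤ e.ρ
  · have h1 := p1 a ha1 b hb1 hab ht
    have h2 := h0.ent a (h.subS ha) b (h.subS hb') hab
    have h3 : ‖c.G s.w a b‖ ≤ ‖c.G s0.w a b‖ + nu e g :=
      (norm_le_add _ (c.G s0.w a b)).trans (by linarith)
    have h4 := pow_le_pow_left₀ (norm_nonneg _) h3 2
    nlinarith [sq_nonneg (‖c.G s0.w a b‖ - nu e g)]
  · exact far_h L (norm_nonneg _) (hfar a (ho1 a ha1) b (ho1 b hb1) ht)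

theorem Env.post (L : Led c e g) (hf : RefOK c e f) (h0 : Pre c e g f s0) (h : Env c e g f s0 s)
    (hA : s.A = ∅) {X : Finset (Tor d M)} (hX : Disjoint X s0.A) :
    Inv c e f (th3 e g) s.toSt ∧ Fol e X s0.toSt s.toSt := by
  have _ := hf
  have i := h.inv
  have hR := h.rch
  have hS : s.ord \ s.A = s.ord := by rw [hA, sdiff_empty]
  refine ⟨⟨i.bas, h0.sep.mono le_rfl (hS ▸ hR.subS), i.near, fun a ha b hb hab => ?_, fun a ha => ?_,
    i.pair, i.diag, fun a ha => ?_, i.ub, i.lb, i.had, i.nrm, i.dwl⟩, hR.PS, fun x hx hx0 => ?_⟩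
  · exact h.entS a (hS.symm ▸ ha) b (hS.symm ▸ hb) hab
  · have h1 := h.ns a ha
    rw [hS] at h1
    change _ ≤ g.x' ^ 4
    linarith [L.x_ge]
  · refine (i.bias a ha).trans ?_
    change (e.P : ℝ) ^ 5 * e.Q * g.x ^ 2 * c.γ ≤ (e.P : ℝ) ^ 6 * e.Q * g.x' ^ 2 * c.γ
    have h1 : g.x ^ 2 ≤ e.P * g.x' ^ 2 := by
      have h2 := pow_le_pow_left₀ L.x_pos.le L.x_le2 2
      have h3 : 4 * g.x' ^ 2 ≤ e.P * g.x' ^ 2 := by
        gcongr; exact le_trans (by norm_num) L.P_ge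
      linarith [mul_pow 2 g.x' 2]
    have := L.ok.γ0
    calc _ ≤ (e.P : ℝ) ^ 5 * e.Q * (e.P * g.x' ^ 2) * c.γ := by gcongr
      _ = _ := by ring
  · have hxA : x ∉ s0.A := disjoint_left.1 hX hx
    by_cases h1 : x ∈ s.ord
    · exact Or.inl h1
    · refine Or.inr (i.bas.g2 x (h0.inv.bas.sub hx0) ?_ h1)
      rw [gam_same hR (Or.inr hxA)]
      exact h0.inv.bas.opn x hx0

end Crest.Agent.N334.AC.P
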