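import Crest.Agent.N334.AC.P.Gen
import Crest.Agent.N334.AC.P.Der
import Crest.Agent.N334.AC.P.One

/-! # S0520 part P: Lyapunov monitor of the dwell time (leaf; fill the sorries, keep the statements)
Rows `a ∈ ord`, `Q = (d_a - Bw·nm a)/D`, `Q s0 ≤ -3` (`Bw φ = 6D`), `a = 0`, `J` = linear part only: the quadratic part
`|τ|²|G_ay|²(d_y - Bw·nm y)` is `≤ 0` by `Env.dw`. `z_y = ∑_{x ∈ O0} conj(G_xa) G_xy`: `|z_y| ≤ D'`,
`∑_y γ_y|z_y|² ≤ ‖cmp G O0‖ d_a ≤ P⁴D'²` (Ward). QV by `One.split` with `e = x²`. -/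

set_option autoImplicit false

open Finset Complex
open scoped Matrix.Norms.L2Operator Matrix

namespace Crest.Agent.N334.AC.P

variable {d M : ℕ} [NeZero M] {c : Cx d M} {e : Ep} {g : Sg} {f : Ref d M}

namespace Dw

variable {s0 s : CS d M} {a y : Tor d M}

/-- dwell time -/
noncomputable def dw (c : Cx d M) (f : Ref d M) (w : Tor d M → ℂ) (a : Tor d M) : ℝ :=
  ∑ x ∈ opn f.wr, ‖c.G w x a‖ ^ 2

/-- linear coefficient of the dwell time -/
noncomputable def zz (c : Cx d M) (f : Ref d M) (w : Tor d M → ℂ) (a y : Tor d M) : ℂ :=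
  ∑ x ∈ opn f.wr, (starRingEnd ℂ) (c.G w x a) * c.G w x y

/-- linear coefficient of the mass -/
noncomputable def uu (c : Cx d M) (s0 : CS d M) (w : Tor d M → ℂ) (a y : Tor d M) : ℂ :=
  ∑ b ∈ univ \ s0.A, (gam s0.w b : ℂ) * (starRingEnd ℂ) (c.G w a b) * c.G w y b

lemma dw_step {w : Tor d M → ℂ} (h : Adm c.A w) {k : ℕ}
    (hy : 1 + ((c.v y k : ℂ) - w y) * c.G w y y ≠ 0) (a : Tor d M) :
    dw c f (cls1 w y (c.v y k)) a = dw c f w a - 2 * (c.τ w y k * c.G w a y * zz c f w a y).re +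
      ‖c.τ w y k * c.G w a y‖ ^ 2 * dw c f w y := by
  have h1 := One.quad_step (opn f.wr) (fun _ => 1) (fun x => c.G w x a) (fun x => c.G w x y)
    (c.τ w y k * c.G w a y)
  simp only [one_mul, ofReal_one] at h1
  rw [dw, dw, dw, zz, ← h1]
  refine sum_congr rfl fun x _ => ?_
  rw [Cx.G, h.close_G hy, h.G_sym y a, mul_right_comm]
  rfl

lemma nm_step {w : Tor d M → ℂ} (h : Adm c.A w) {k : ℕ}
    (hy : 1 + ((c.v y k : ℂ) - w y) * c.G w y y ≠ 0) (a : Tor d M) :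
    nm c s0 (cls1 w y (c.v y k)) a = nm c s0 w a - 2 * (c.τ w y k * c.G w a y * uu c s0 w a y).re +
      ‖c.τ w y k * c.G w a y‖ ^ 2 * nm c s0 w y := by
  rw [nm, nm, nm, uu, ← One.quad_step]
  refine sum_congr rfl fun x _ => ?_
  rw [Cx.G, h.close_G hy]
  rfl

lemma gam_same (h : Env c e g f s0 s) {b : Tor d M} (hb : b ∈ univ \ s0.A) :
    gam s0.w b = gam s.w b := by
  rw [gam, gam, h.rch.same b (Or.inr (mem_sdiff.1 hb).2)]

lemma row_le (hf : RefOK c e f) (h : Env c e g f s0 s) (ha : a ∈ s.ord) :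
    ∑ b, gam s.w b * ‖c.G s.w a b‖ ^ 2 ≤ 2 * c.C :=
  (h.rch.bas.adm.ward_diag a).trans_le ((im_le_norm _).trans
    (h.der.g_le a (hf.sub (h.rch.bas.sub ha)) (h.rch.bas.opn a ha)))

lemma nm_le (hf : RefOK c e f) (h : Env c e g f s0 s) (ha : a ∈ s.ord) :
    nm c s0 s.w a ≤ 2 * c.C := by
  rw [nm, sum_congr rfl fun b hb => by rw [gam_same h hb]]
  exact (sum_le_univ_sum_of_nonneg fun b =>
    mul_nonneg (h.rch.bas.adm.diss b) (sq_nonneg _)).trans (row_le hf h ha)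

lemma dw_nonneg (w : Tor d M → ℂ) (a : Tor d M) : 0 ≤ dw c f w a :=
  sum_nonneg fun _ _ => sq_nonneg _

lemma zz_le (h : Env c e g f s0 s) (ha : a ∈ s.ord) (hy : y ∈ s.ord) :
    ‖zz c f s.w a y‖ ≤ D' e g := by
  have h1 := One.quad_lin_sq (opn f.wr) (ω := fun _ => 1) (fun _ _ => zero_le_one)
    (fun x => c.G s.w x a) fun x => c.G s.w x y
  simp only [one_mul, ofReal_one] at h1
  have h2 : dw c f s.w a ≤ D' e g := h.inv.dwl a ha
  have h3 : dw c f s.w y ≤ D' e g := h.inv.dwl y hy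
  have h4 := (dw_nonneg _ _).trans h2
  exact (abs_le_of_sq_le_sq' (h1.trans ((mul_le_mul h2 h3 (dw_nonneg _ _) h4).trans_eq
    (sq _).symm)) h4).2

lemma uu_le (L : Led c e g) (hf : RefOK c e f) (h : Env c e g f s0 s) (ha : a ∈ s.ord)
    (hy : y ∈ s.ord) : ‖uu c s0 s.w a y‖ ≤ 2 * c.C := by
  have h0 : ∀ b ∈ univ \ s0.A, 0 ≤ gam s0.w b := fun b hb =>
    (h.rch.bas.adm.diss b).trans_eq (gam_same h hb).symm
  have h1 := One.quad_lin_sq (univ \ s0.A) h0 (fun x => c.G s.w a x) fun x => c.G s.w y x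
  have h4 : 0 ≤ 2 * c.C := by linarith [L.ok.C1]
  exact (abs_le_of_sq_le_sq' (h1.trans ((mul_le_mul (nm_le hf h ha) (nm_le hf h hy)
    (sum_nonneg fun b hb => mul_nonneg (h0 b hb) (sq_nonneg _)) h4).trans_eq (sq _).symm)) h4).2

lemma zz_sum (h : Env c e g f s0 s) (ha : a ∈ s.ord) :
    ∑ y, gam s.w y * ‖zz c f s.w a y‖ ^ 2 ≤ (e.P : ℝ) ^ 4 * D' e g * D' e g := by
  have hA := h.rch.bas.adm
  set v : Tor d M → ℂ := cut (opn f.wr) fun x => (starRingEnd ℂ) (c.G s.w x a) with hv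
  have e1 : ∀ y, zz c f s.w a y = (Gm c.A s.w *ᵥ v) y := fun y => by
    rw [zz, Matrix.mulVec, dotProduct, ← sum_subset (subset_univ (opn f.wr))]
    · refine sum_congr rfl fun x hx => ?_
      rw [hA.G_sym y x, mul_comm]
      simp [hv, cut, hx, Cx.G]
    · intro x _ hx
      simp [hv, cut, hx]
  have e2 : nsq v = dw c f s.w a := by
    rw [hv, nsq_cut]
    simp [dw]
  simp only [e1]
  rw [hA.G_ward]
  refine (Jp.im_le (Bs.supp_cut _ _)).trans ?_
  rw [e2]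
  exact mul_le_mul h.inv.nrm (h.inv.dwl a ha) (dw_nonneg _ _) ((norm_nonneg _).trans h.inv.nrm)

lemma uu_sum (hf : RefOK c e f) (h : Env c e g f s0 s) (ha : a ∈ s.ord) :
    ∑ y, gam s.w y * ‖uu c s0 s.w a y‖ ^ 2 ≤ 2 * c.C := by
  have hA := h.rch.bas.adm
  have h1 := One.mass_lin_nsq hA.wardK (univ \ s0.A) fun b => (√(gam s.w b) : ℂ) * c.G s.w a b
  refine le_trans (le_of_eq (sum_congr rfl fun y _ => ?_)) (h1.trans (le_trans (le_of_eq
    (sum_congr rfl fun b hb => ?_)) (nm_le hf h ha)))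
  · have e1 : ∑ b ∈ univ \ s0.A, (starRingEnd ℂ) ((√(gam s.w b) : ℂ) * c.G s.w a b) *
        Km c.A s.w y b = (√(gam s.w y) : ℂ) * uu c s0 s.w a y := by
      rw [uu, mul_sum]
      refine sum_congr rfl fun b hb => ?_
      have e2 : (gam s.w b : ℂ) = √(gam s.w b) * √(gam s.w b) := by
        rw [← ofReal_mul, Real.mul_self_sqrt (hA.diss b)]
      rw [gam_same h hb, map_mul, conj_ofReal, Km]
      simp only [Cx.G]
      linear_combination (-(√(gam s.w y) * (starRingEnd ℂ) (Gm c.A s.w a b) * Gm c.A s.w y b)) * e2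
    rw [e1, norm_mul, mul_pow, norm_real, Real.norm_eq_abs, sq_abs, Real.sq_sqrt (hA.diss y)]
  · rw [gam_same h hb, norm_mul, mul_pow, norm_real, Real.norm_eq_abs, sq_abs,
      Real.sq_sqrt (hA.diss b)]

/-- the normalised linear coefficient -/
noncomputable def η (c : Cx d M) (e : Ep) (g : Sg) (f : Ref d M) (s0 : CS d M) (w : Tor d M → ℂ)
    (a y : Tor d M) : ℂ :=
  (((e.P : ℝ) ^ 5 * e.Q * g.D : ℝ) : ℂ)⁻¹ * (zz c f w a y - (Bw e g : ℝ) * uu c s0 w a y)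

lemma nums (L : Led c e g) : 1 ≤ c.C ∧ 10 ^ 60 * c.C ≤ (e.P : ℝ) ∧ (1 : ℝ) ≤ e.Q := by
  have h1 := L.ok.C1
  have h2 : c.C ≤ c.C ^ 30 := le_self_pow₀ h1 (by norm_num)
  have h3 := L.P1
  exact ⟨h1, by linarith, (one_le_pow₀ (by linarith)).trans L.Q_ge⟩

lemma η_le (L : Led c e g) (hf : RefOK c e f) (h : Env c e g f s0 s) (ha : a ∈ s.ord)
    (hy : y ∈ s.ord) : ‖η c e g f s0 s.w a y‖ ≤ 1 := by
  obtain ⟨h1, h2, h3⟩ := nums L
  have h4 := L.D1
  have hP : (1 : ℝ) ≤ e.P := by linarith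
  have hB : 0 ≤ Bw e g := by rw [Bw]; positivity
  rw [η, norm_mul, norm_inv, norm_real, Real.norm_of_nonneg (by positivity),
    inv_mul_le_iff₀ (by positivity), mul_one]
  refine (norm_sub_le _ _).trans ?_
  rw [norm_mul, norm_real, Real.norm_of_nonneg hB]
  refine (add_le_add (zz_le h ha hy) (mul_le_mul_of_nonneg_left (uu_le L hf h ha hy) hB)).trans ?_
  have h5 : (e.P : ℝ) + 12 * c.C ≤ (e.P : ℝ) ^ 3 := by nlinarith [mul_le_mul hP hP zero_le_one (by linarith)]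
  have h6 := mul_le_mul_of_nonneg_left h5 (show 0 ≤ (e.P : ℝ) ^ 2 * e.Q * g.D by positivity)
  rw [D', Bw]
  linarith

lemma η_sum (L : Led c e g) (hf : RefOK c e f) (h : Env c e g f s0 s) (ha : a ∈ s.ord) :
    ∑ y, gam s.w y * ‖η c e g f s0 s.w a y‖ ^ 2 ≤ 3 := by
  obtain ⟨h1, h2, h3⟩ := nums L
  have h4 := L.D1
  have hP : (1 : ℝ) ≤ e.P := by linarith
  have hB : 0 ≤ Bw e g := by rw [Bw]; positivity
  have h5 : ∀ y, gam s.w y * ‖η c e g f s0 s.w a y‖ ^ 2 ≤ (((e.P : ℝ) ^ 5 * e.Q * g.D) ^ 2)⁻¹ *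
      (2 * (gam s.w y * ‖zz c f s.w a y‖ ^ 2) +
        2 * Bw e g ^ 2 * (gam s.w y * ‖uu c s0 s.w a y‖ ^ 2)) := fun y => by
    rw [η, norm_mul, norm_inv, norm_real, Real.norm_of_nonneg (by positivity), mul_pow, inv_pow,
      mul_left_comm]
    refine mul_le_mul_of_nonneg_left ?_ (by positivity)
    have h6 := norm_sub_le (zz c f s.w a y) ((Bw e g : ℝ) * uu c s0 s.w a y)
    rw [norm_mul, norm_real, Real.norm_of_nonneg hB] at h6
    have h7 : ‖zz c f s.w a y - (Bw e g : ℝ) * uu c s0 s.w a y‖ ^ 2 ≤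
        2 * ‖zz c f s.w a y‖ ^ 2 + 2 * Bw e g ^ 2 * ‖uu c s0 s.w a y‖ ^ 2 := by
      nlinarith [pow_le_pow_left₀ (norm_nonneg _) h6 2,
        sq_nonneg (‖zz c f s.w a y‖ - Bw e g * ‖uu c s0 s.w a y‖)]
    linarith [mul_le_mul_of_nonneg_left h7 (h.rch.bas.adm.diss y)]
  refine (sum_le_sum fun y _ => h5 y).trans ?_
  rw [← mul_sum, sum_add_distrib, ← mul_sum, ← mul_sum, inv_mul_le_iff₀ (by positivity)]
  have h6 := mul_le_mul_of_nonneg_left (uu_sum hf h ha) (show 0 ≤ 2 * Bw e g ^ 2 by positivity)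
  have h7 : 144 * c.C ≤ (e.P : ℝ) ^ 6 := le_trans (by linarith) (le_self_pow₀ hP (by norm_num))
  have h8 := mul_le_mul_of_nonneg_left h7 (show 0 ≤ ((e.P : ℝ) ^ 2 * e.Q * g.D) ^ 2 by positivity)
  have h9 := zz_sum h ha
  rw [D'] at h9
  rw [Bw] at h6 ⊢
  linarith

/-- jumps which are linear in `τ G_ay` with coefficients of size `P⁵ Q` -/
lemma lin_jumps (L : Led c e g) (hf : RefOK c e f) (h : Env c e g f s0 s) (ha : a ∈ s.ord)
    {η : Tor d M → ℂ} (η1 : ∀ y ∈ s.ord, ‖η y‖ ≤ 1) (η2 : ∑ y, gam s.w y * ‖η y‖ ^ 2 ≤ 3)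
    {J : Tor d M → ℕ → ℝ} (hJ0 : ∀ k, J a k = 0) (hJ : ∀ y ≠ a, ∀ k,
      J y k = -(2 * ((e.P : ℝ) ^ 5 * e.Q)) * (c.τ s.w y k * (c.G s.w a y * η y)).re)
    {U : Finset (Tor d M)} (hU : U ⊆ s.ord) :
    (∀ y ∈ s.ord, ∀ k < c.N, e.ρ ≤ tdist y a → J y k ≤ tl e a y) ∧
    (∀ y ∈ U, ∀ k < c.N, (e.P : ℝ) * |J y k| ≤ 1) ∧ ∑ y ∈ U, avg c.N (J y) ≤ 1 / (4 * e.P) ∧
    (e.P : ℝ) * ∑ y ∈ U, avg c.N (fun k => J y k ^ 2) ≤ 1 / (4 * e.P) := by
  obtain ⟨h1, h2, h3⟩ := nums L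
  have hP : (1 : ℝ) ≤ e.P := by linarith
  have hγ := L.ok.γ0
  have hx := L.x_pos
  have hN := L.ok.N0
  set T : ℝ := (e.P : ℝ) ^ 5 * e.Q with hT
  have hT0 : 0 < T := by positivity
  have hg : ∀ y ∈ s.ord, c.γ ≤ 10 / 9 * gam s.w y := fun y hy => by
    linarith [h.der.gam_ge y (h.rch.bas.opn y hy)]
  have hE : U.erase a ⊆ s.ord := (erase_subset _ _).trans hU
  have hs : ∀ {u : Tor d M → ℝ} {B : ℝ}, ∑ y, gam s.w y * u y ^ 2 ≤ B →
      ∑ y ∈ U.erase a, c.γ * u y ^ 2 ≤ 10 / 9 * B := fun {u B} hB => by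
    refine (sum_le_sum fun y hy => mul_le_mul_of_nonneg_right (hg y (hE hy)) (sq_nonneg _)).trans ?_
    simp only [mul_assoc, ← mul_sum]
    exact mul_le_mul_of_nonneg_left ((sum_le_univ_sum_of_nonneg fun y =>
      mul_nonneg (h.rch.bas.adm.diss y) (sq_nonneg _)).trans hB) (by norm_num)
  have hsp : ∑ y ∈ U.erase a, ‖c.G s.w a y‖ ^ 2 * (c.γ * ‖η y‖ ^ 2) ≤ 17 * g.x ^ 2 := by
    refine (One.split (U.erase a) (c.G s.w a) (e := g.x ^ 2) (si := c.γ) (by positivity)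
      (fun y _ => by positivity) (fun y hy => mul_le_of_le_one_right hγ.le
        (pow_le_one₀ (norm_nonneg _) (η1 y (hE hy)))) (hs η2)).trans ?_
    have h4 : c.γ * ∑ y ∈ U.erase a, ‖c.G s.w a y‖ ^ 4 ≤ 13 * g.x ^ 4 :=
      (mul_le_mul_of_nonneg_left (sum_le_sum_of_subset_of_nonneg (erase_subset_erase a hU)
        fun _ _ _ => by positivity) hγ.le).trans (h.inv.four a ha)
    have h5 : (∑ y ∈ U.erase a, ‖c.G s.w a y‖ ^ 4) / g.x ^ 2 * c.γ ≤ 13 * g.x ^ 2 := by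
      rw [div_mul_eq_mul_div, div_le_iff₀ (by positivity)]
      linarith
    nlinarith [sq_nonneg g.x]
  have habs : ∀ y ≠ a, ∀ k, |J y k| ≤ 2 * T * (‖c.τ s.w y k‖ * (‖c.G s.w a y‖ * ‖η y‖)) :=
    fun y hy k => by
      rw [hJ y hy, abs_mul, abs_neg, abs_of_pos (by positivity), ← norm_mul, ← norm_mul]
      exact mul_le_mul_of_nonneg_left (abs_re_le_norm _) (by positivity)
  have hsq : ∀ y ∈ U.erase a, ∀ k < c.N,
      J y k ^ 2 ≤ 16 * c.C * T ^ 2 * (‖c.G s.w a y‖ ^ 2 * (c.γ * ‖η y‖ ^ 2)) := fun y hy k hk => by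
    have h4 := pow_le_pow_left₀ (abs_nonneg _) (habs y (ne_of_mem_erase hy) k) 2
    have h5 := mul_le_mul_of_nonneg_left (h.der.τ_le y (hE hy) k hk)
      (show 0 ≤ 4 * T ^ 2 * (‖c.G s.w a y‖ * ‖η y‖) ^ 2 by positivity)
    rw [sq_abs] at h4
    linarith
  have hmain : 1088 * c.C * (e.P : ℝ) ^ 2 * T ^ 2 * g.x ^ 2 ≤ 1 := by
    have h4 : 1088 * c.C ≤ (e.P : ℝ) ^ 18 := le_trans (by linarith) (le_self_pow₀ hP (by norm_num))
    have h5 := mul_le_mul_of_nonneg_right h4 (show 0 ≤ (e.P : ℝ) ^ 2 * T ^ 2 * g.x ^ 2 by positivity)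
    have h6 := pow_le_one₀ (by positivity) L.main (n := 2)
    rw [hT] at h5 ⊢
    linarith
  have hCT : 0 ≤ 16 * c.C * T ^ 2 := by positivity
  refine ⟨fun y hy k hk hρ => ?_, fun y hy k hk => ?_, ?_, ?_⟩
  · by_cases hya : y = a
    · rw [hya, hJ0]
      exact L.tl_nonneg _ _
    have hτ : ‖c.τ s.w y k‖ ≤ 1 := by
      have h4 := L.ok.γ_le
      have h5 : c.C * c.γ ≤ c.C ^ 30 * c.γ :=
        mul_le_mul_of_nonneg_right (le_self_pow₀ h1 (by norm_num)) hγ.le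
      have h6 : 0 ≤ c.C * c.γ := by positivity
      exact (abs_le_of_sq_le_sq' (by linarith [h.der.τ_le y hy k hk]) zero_le_one).2
    have ho : ∀ z ∈ s.ord, z ∈ opn f.wr := fun z hz => hf.opn0 (h.rch.bas.sub hz)
    have hG : ‖c.G s.w a y‖ ≤ e.Bg * Real.exp (-e.ϑ * tdist y a) := by
      rw [Cx.G, h.rch.bas.adm.G_sym]
      exact h.der.dec y (ho y hy) a (ho a ha)
    have hB := L.B_ge
    have hTB : 2 * T ≤ e.Bg ^ 29 := by
      have h4 : 2 * 1 ≤ (e.P : ℝ) ^ 2 * g.D :=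
        mul_le_mul (by nlinarith) L.D1 zero_le_one (by positivity)
      have h5 := mul_le_mul_of_nonneg_right h4 hT0.le
      have h6 := L.B_P
      have h7 : e.Bg ≤ e.Bg ^ 29 := le_self_pow₀ (by linarith) (by norm_num)
      rw [hT] at h5 ⊢
      linarith
    refine (le_abs_self _).trans ((habs y hya k).trans (le_trans ?_ (L.far2 hρ)))
    calc _ ≤ e.Bg ^ 29 * (1 * (e.Bg * Real.exp (-e.ϑ * tdist y a) * 1)) := by
          have := η1 y hy
          gcongr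
      _ = _ := by ring
  · by_cases hya : y = a
    · rw [hya, hJ0, abs_zero, mul_zero]
      exact zero_le_one
    have hy' := mem_erase.2 ⟨hya, hy⟩
    have h4 := (single_le_sum (f := fun y => ‖c.G s.w a y‖ ^ 2 * (c.γ * ‖η y‖ ^ 2))
      (fun y _ => by positivity) hy').trans hsp
    have h5 := mul_le_mul_of_nonneg_left ((hsq y hy' k hk).trans
      (mul_le_mul_of_nonneg_left h4 hCT)) (sq_nonneg (e.P : ℝ))
    have h6 : 0 ≤ c.C * (e.P : ℝ) ^ 2 * T ^ 2 * g.x ^ 2 := by positivity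
    refine (abs_le_of_sq_le_sq' ?_ zero_le_one).2
    rw [mul_pow, sq_abs]
    linarith
  · rw [← sum_erase U (a := a) (by simp [avg, hJ0])]
    have h4 : ∀ y ∈ U.erase a, avg c.N (J y) ≤
        T ^ 2 * g.x ^ 2 * (c.γ * ‖c.G s.w a y‖ ^ 2 + c.γ * ‖η y‖ ^ 2) := fun y hy => by
      rw [funext (hJ y (ne_of_mem_erase hy)), avg_mul, avg_re, avgV_mul]
      have h5 : ‖c.b s.w y‖ ≤ T * g.x ^ 2 * c.γ := h.inv.bias y (hE hy)
      have h6 := (abs_le.1 ((abs_re_le_norm (c.b s.w y * (c.G s.w a y * η y))).trans_eq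
        (by rw [norm_mul, norm_mul]))).1
      have h7 := mul_le_mul_of_nonneg_right h5
        (mul_nonneg (norm_nonneg (c.G s.w a y)) (norm_nonneg (η y)))
      have h8 := mul_le_mul_of_nonneg_left (h7.trans' (neg_le.1 h6)) hT0.le
      have h9 := mul_nonneg (show 0 ≤ T ^ 2 * g.x ^ 2 * c.γ by positivity)
        (sq_nonneg (‖c.G s.w a y‖ - ‖η y‖))
      change -(2 * T) * (c.b s.w y * (c.G s.w a y * η y)).re ≤ _
      linarith
    refine (sum_le_sum h4).trans ?_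
    rw [← mul_sum, sum_add_distrib, le_div_iff₀ (by positivity)]
    have h5 := mul_le_mul_of_nonneg_left (add_le_add (hs (row_le hf h ha)) (hs η2))
      (show 0 ≤ T ^ 2 * g.x ^ 2 * (4 * e.P) by positivity)
    have h6 : (10 / 9 * (2 * c.C) + 10 / 9 * 3) * (4 * e.P) ≤ 1088 * c.C * (e.P : ℝ) ^ 2 := by
      nlinarith [mul_le_mul_of_nonneg_left hP (show 0 ≤ c.C * e.P by positivity),
        mul_le_mul_of_nonneg_right h1 (show (0 : ℝ) ≤ e.P by positivity)]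
    have h7 := mul_le_mul_of_nonneg_left h6 (show 0 ≤ T ^ 2 * g.x ^ 2 by positivity)
    linarith
  · rw [← sum_erase U (a := a) (by simp [avg, hJ0]), le_div_iff₀ (by positivity)]
    have h4 := sum_le_sum fun y hy => (avg_mono (hsq y hy)).trans_eq (avg_const hN _)
    rw [← mul_sum] at h4
    have h5 := mul_le_mul_of_nonneg_left (h4.trans (mul_le_mul_of_nonneg_left hsp hCT))
      (show (0 : ℝ) ≤ 4 * e.P ^ 2 by positivity)
    linarith

end Dw

open Dw in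
theorem fam_dw (L : Led c e g) (hf : RefOK c e f) {s0 : CS d M} (h0 : Pre c e g f s0) :
    Fam c e g f s0 (OutDw c e g f s0) := by
  have hD : 0 < g.D := zero_lt_one.trans_le L.D1
  have hB : 0 ≤ Bw e g := by rw [Bw]; positivity
  refine (fam_scalar L h0.n0 (fun s hs => hs.rch.sub) id (fun a s => a ∈ s.ord)
    (fun a s => (dw c f s.w a - Bw e g * nm c s0 s.w a) / g.D) (fun p => ?_)
    (fun a s F h => ⟨(mem_sdiff.1 h).1, le_rfl⟩) (fun a s ω h => ?_) fun a s h _ ha => ?_).mono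
    (fun s hs h a ha => ?_) le_rfl
  · refine le_trans ?_ (Real.one_le_exp (by positivity))
    refine Nat.cast_le_one.2 (card_le_one.2 fun a ha b hb => ?_)
    simp only [mem_filter, id] at ha hb
    exact ha.2.1.trans hb.2.1.symm
  · rcases ω with _ | ⟨y, k⟩
    exacts [h, mem_of_mem_erase h]
  · obtain ⟨j1, j2, j3, j4⟩ := lin_jumps L hf h ha (fun y hy => η_le L hf h ha hy)
      (η_sum L hf h ha) (J := fun y k => if y = a then 0 else -(2 * ((e.P : ℝ) ^ 5 * e.Q)) *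
        (c.τ s.w y k * (c.G s.w a y * η c e g f s0 s.w a y)).re) (fun k => if_pos rfl)
      (fun y hy k => if_neg hy) ((inter_subset_left (s₂ := tball a (2 * e.ρ))).trans h.rch.sub)
    refine ⟨0, _, by norm_num, Or.inl le_rfl, (add_zero _).ge, fun y hy k hk hl => ?_, j2, ?_, j4⟩
    · have hy' := h.rch.sub hy
      have hne : y ≠ a := (ne_of_mem_erase hl).symm
      have hd := h.der.den y hy' k hk
      have key : (dw c f (cls1 s.w y (c.v y k)) a - Bw e g * nm c s0 (cls1 s.w y (c.v y k)) a) / g.D ≤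
          (dw c f s.w a - Bw e g * nm c s0 s.w a) / g.D + 0 + -(2 * ((e.P : ℝ) ^ 5 * e.Q)) *
            (c.τ s.w y k * (c.G s.w a y * η c e g f s0 s.w a y)).re := by
        obtain ⟨h1, h2, h3⟩ := nums L
        have hP : (0 : ℝ) < e.P := by linarith
        have e1 : c.τ s.w y k * (c.G s.w a y * η c e g f s0 s.w a y) =
            ((((e.P : ℝ) ^ 5 * e.Q * g.D)⁻¹ : ℝ) : ℂ) * (c.τ s.w y k * c.G s.w a y * zz c f s.w a y -
              (Bw e g : ℝ) * (c.τ s.w y k * c.G s.w a y * uu c s0 s.w a y)) := by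
          rw [η, ofReal_inv]
          ring
        have e2 : dw c f s.w y ≤ Bw e g * nm c s0 s.w y := h.dw y hy'
        have e3 := mul_le_mul_of_nonneg_left e2 (sq_nonneg ‖c.τ s.w y k * c.G s.w a y‖)
        rw [e1, re_ofReal_mul, sub_re, re_ofReal_mul, dw_step h.rch.bas.adm hd,
          nm_step h.rch.bas.adm hd, add_zero, div_le_iff₀ hD, add_mul, div_mul_cancel₀ _ hD.ne']
        field_simp
        linarith
      refine key.trans (add_le_add_right ?_ _)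
      split_ifs with h1
      · exact le_rfl
      · have := j1 y hy' k hk (by
          have : ¬tdist y a ≤ 2 * e.ρ := fun h2 => h1 (mem_filter.2 ⟨mem_univ _, h2⟩)
          omega)
        rwa [if_neg hne] at this
    · rw [zero_add, div_eq_mul_one_div]
      exact mul_le_mul_of_nonneg_left j3 dt_pos.le
  · have ha0 : a ∈ s0.ord := by
      by_cases hA : a ∈ s.A
      · exact h0.sub (hs.subA hA)
      · exact (mem_sdiff.1 (hs.subS (mem_sdiff.2 ⟨ha, hA⟩))).1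
    have h1 : dw c f s0.w a ≤ 3 * g.D := h0.inv.dwl a ha0
    have h2 := mul_le_mul_of_nonneg_left (h0.nm a ha0) hB
    have h3 : (dw c f s.w a - Bw e g * nm c s0 s.w a) / g.D ≤
      (dw c f s0.w a - Bw e g * nm c s0 s0.w a) / g.D + 3 := h a ha
    rw [L.Bw_φ] at h2
    rw [div_add' _ _ _ hD.ne', div_le_div_iff_of_pos_right hD] at h3
    change dw c f s.w a ≤ _
    linarith

end Crest.Agent.N334.AC.P
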