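import Crest.Agent.N334.AC.P.Gen
import Crest.Agent.N334.AC.P.Der
import Crest.Agent.N334.AC.M6.Glue
import Crest.Agent.N334.AC.M6.Mon
import Crest.Agent.N334.AC.M6.Key

/-! # S0520 part P: monitor M6 (helper73)
`fam_ghost` with `M6.Track`, `mon_locA`, `glue`, `L = ρ`, `T = f.T` (`Led.capT`, `RefOK.sepT`), core = the other open
sites (`Der.core`), `h ≈ γ z²`, `r = γ|G0|²` (`Inv.pair`, `Led.four`), relative QV `≤ C' z²`, scale `1/(P² z)`. -/

set_option autoImplicit false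

open Finset Complex
open scoped Matrix.Norms.L2Operator Matrix

namespace Crest.Agent.N334.AC.P

variable {d M : ℕ} [NeZero M] {c : Cx d M} {e : Ep} {g : Sg} {f : Ref d M}

namespace FEn

/-- near profile -/
noncomputable def pr (c : Cx d M) (e : Ep) (g : Sg) (u : Tor d M) : ℝ :=
  if (u ≠ 0 ∧ e.Rt ≤ tdist u 0) ∧ g.z ^ 2 < ‖c.G0 u 0‖ ^ 2 then 4 * c.γ * ‖c.G0 u 0‖ ^ 2 else 0

/-- scale of the monitor -/
noncomputable def sc (e : Ep) (g : Sg) : ℝ := 1 / ((e.P : ℝ) ^ 2 * g.z)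

theorem E0_nn (ψ : Tor d M → ℝ) : 0 ≤ c.E0 ψ := En_nn _ _

section Num

variable (L : Led c e g)
include L

theorem P_one : (1 : ℝ) ≤ e.P := le_trans (by norm_num) L.P_ge

theorem x_z2 : g.x ≤ g.z ^ 2 := by
  have h1 := le_mul_of_one_le_left L.x_pos.le (one_le_pow₀ (n := 3) (P_one L))
  linarith [L.X0, L.X_inc, L.X_z]

theorem z_pos : 0 < g.z := L.x_pos.trans_le L.x_le_z

theorem e'_le : g.e' ≤ 1 := by
  have h1 := L.e_x_le
  have h2 : 0 ≤ (e.P : ℝ) ^ 3 * g.z := by have := z_pos L; positivity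
  have h3 : (1 : ℝ) ≤ c.C ^ 30 := one_le_pow₀ L.ok.C1
  have h4 := L.e'_small
  have h5 : 0 ≤ g.e' := by linarith [L.e0, L.x_pos]
  nlinarith [mul_le_mul_of_nonneg_right h3 h5]

theorem z_le : g.z ≤ 1 :=
  (le_mul_of_one_le_left L.z0 (one_le_pow₀ (P_one L))).trans (L.z_small.trans (e'_le L))

theorem sc_pos : 0 < sc e g := by
  have := z_pos L
  have := P_one L
  unfold sc; positivity

theorem σ_one : 100 * c.C * c.σ ≤ 1 := by
  have h1 := L.ok.σ_le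
  have h2 : c.C ≤ c.C ^ 30 := le_self_pow₀ L.ok.C1 (by norm_num)
  have h3 := mul_le_mul_of_nonneg_right h2 L.ok.σ0.le
  have h4 : 0 ≤ c.C ^ 30 * c.σ := by have := L.ok.C1; have := L.ok.σ0; positivity
  linarith

theorem γ_σ : c.γ ≤ c.C * c.σ := by
  have h1 := σ_one L
  have h2 := L.ok.C1
  have h3 := L.ok.σ0
  refine L.ok.γ_hi.trans ?_
  gcongr
  nlinarith

theorem C_P {a : ℝ} {n : ℕ} (ha : a ≤ 10 ^ 60) (hn : n ≤ 30) : a * c.C ^ n ≤ e.P := by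
  have := L.ok.C1
  refine le_trans ?_ L.P1
  exact mul_le_mul ha (pow_le_pow_right₀ this hn) (by positivity) (by positivity)

theorem μ_ge : c.σ ^ 2 / c.C ^ 2 ≤ c.μ := M6.mu0_ge L.ok.init (by linarith [L.ok.C1])

theorem μ_pos : 0 < c.μ := by
  have := L.ok.C1
  have := L.ok.σ0
  exact lt_of_lt_of_le (by positivity) (μ_ge L)

theorem pr_nn (u : Tor d M) : 0 ≤ pr c e g u := by
  have := L.ok.γ0
  unfold pr; split_ifs <;> positivity

theorem pr_w : ∑ u, pr c e g u ^ 2 * (1 + (c.σ ^ 2 * tdist u 0) ^ 2) ≤ 16 * c.γ * g.z ^ 4 := by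
  have hγ := L.ok.γ0
  refine le_trans ?_ (mul_le_mul_of_nonneg_left L.four (by positivity : 0 ≤ 16 * c.γ))
  rw [sum_filter, mul_sum, mul_sum]
  refine sum_le_sum fun u _ => ?_
  unfold pr
  by_cases h1 : u ≠ 0 ∧ e.Rt ≤ tdist u 0
  · rw [if_pos h1]
    split_ifs
    · exact le_of_eq (by ring)
    · rw [zero_pow two_ne_zero, zero_mul]; positivity
  · rw [if_neg h1, if_neg fun h => h1 h.1]; simp

theorem pr_sq : ∑ u, pr c e g u ^ 2 ≤ 16 * c.γ * g.z ^ 4 :=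
  le_trans (sum_le_sum fun _ _ => le_mul_of_one_le_right (sq_nonneg _)
    (le_add_of_nonneg_right (sq_nonneg _))) (pr_w L)

theorem pr_sum : ∑ u, pr c e g u ≤ 4 * g.z ^ 2 := by
  have hγ := L.ok.γ0
  have hz := z_pos L
  refine le_of_mul_le_mul_right ?_ (by positivity : 0 < 4 * c.γ * g.z ^ 2)
  rw [sum_mul]
  refine le_trans (sum_le_sum fun u _ => ?_) ((pr_sq L).trans (le_of_eq (by ring)))
  unfold pr
  split_ifs with h
  · rw [sq (4 * c.γ * _)]; gcongr _ * (_ * ?_); exact h.2.le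
  · simp

theorem pr_le (u : Tor d M) : pr c e g u ≤ 4 * c.C * c.σ * g.z ^ 2 := by
  have hC := L.ok.C1
  have hσ := L.ok.σ0
  refine le_of_sq_le_sq (((single_le_sum (f := fun u => pr c e g u ^ 2) (fun _ _ => sq_nonneg _)
    (mem_univ u)).trans (pr_sq L)).trans ?_) (by positivity)
  calc _ ≤ 16 * (c.C ^ 2 * c.σ ^ 2) * g.z ^ 4 := by
        gcongr; exact L.ok.γ_hi.trans (by gcongr; exact le_self_pow₀ hC two_ne_zero)
    _ = _ := by ring

theorem pr_form (φ : Tor d M → ℝ) : ∑ y, ∑ x, pr c e g (x - y) ^ 2 * (φ x - φ y) ^ 2 ≤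
    16 * c.C ^ 2 * g.z ^ 4 * c.E0 φ := by
  have hC := L.ok.C1
  have hσ := L.ok.σ0
  have hE := E0_nn (c := c) φ
  have e2 : ∑ y, ∑ x, pr c e g (x - y) ^ 2 * (φ x - φ y) ^ 2 =
      ∑ u, pr c e g u ^ 2 * ∑ y, (φ (y + u) - φ y) ^ 2 := by
    simp only [mul_sum]
    rw [sum_comm (s := univ) (t := univ) (f := fun u y => pr c e g u ^ 2 * (φ (y + u) - φ y) ^ 2)]
    refine sum_congr rfl fun y _ => ?_
    rw [← Equiv.sum_comp (Equiv.addLeft y)]
    exact sum_congr rfl fun u _ => by rw [Equiv.coe_addLeft, add_sub_cancel_left]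
  rw [e2]
  calc _ ≤ ∑ u, pr c e g u ^ 2 * (1 + (c.σ ^ 2 * tdist u 0) ^ 2) * (c.C / c.σ ^ 2 * c.E0 φ) := by
        refine sum_le_sum fun u _ => ?_
        rw [mul_assoc]
        exact mul_le_mul_of_nonneg_left ((L.ok.init.poin φ u).trans (le_of_eq (by
          unfold Cx.E0 Cx.A; ring))) (sq_nonneg _)
    _ ≤ 16 * (c.C * c.σ ^ 2) * g.z ^ 4 * (c.C / c.σ ^ 2 * c.E0 φ) := by
        rw [← sum_mul]
        refine mul_le_mul_of_nonneg_right ((pr_w L).trans ?_) (by positivity)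
        gcongr; exact L.ok.γ_hi
    _ = _ := by field_simp

theorem capU : M6.Cap c.E0 c.μ univ 2 1 := by
  refine (M6.cap_one L.ok.init one_pos le_rfl).mono E0_nn subset_rfl (by norm_num) ?_
  have h1 := σ_one L
  have h2 := L.ok.C1
  have h3 := L.ok.σ0
  have h4 : c.σ ≤ 1 := by nlinarith
  have h5 : c.σ ^ 3 ≤ c.σ := pow_le_of_le_one h3.le h4 (by norm_num)
  have h6 : c.C * c.σ ^ 3 ≤ c.C * c.σ := by gcongr
  linarith

theorem jump_num : (e.P : ℝ) * (sc e g * (2 * c.C * c.σ) * M6.lamC 2 (c.γ * g.z ^ 2) 2 1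
    (12 * c.C * c.σ * g.z ^ 2) (2 * c.γ * g.z ^ 2) (2 * c.C) / c.μ) ≤ 1 := by
  have hC := L.ok.C1
  have hσ := L.ok.σ0
  have hγ := L.ok.γ0
  have hz := z_pos L
  have hP := P_one L
  have hs := sc_pos L
  have h1 : c.γ * g.z ^ 2 ≤ c.C * c.σ * g.z ^ 2 := by gcongr; exact γ_σ L
  have h2 : 0 ≤ c.C * c.σ * g.z ^ 2 := by positivity
  have h3 : M6.lamC 2 (c.γ * g.z ^ 2) 2 1 (12 * c.C * c.σ * g.z ^ 2) (2 * c.γ * g.z ^ 2) (2 * c.C) ≤
      64 * c.C * (c.C * c.σ * g.z ^ 2) := by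
    have h4 := mul_le_mul_of_nonneg_right hC h2
    have h5 := mul_le_mul_of_nonneg_left h1 (show 0 ≤ c.C by linarith)
    unfold M6.lamC; nlinarith
  calc _ ≤ (e.P : ℝ) * (sc e g * (2 * c.C * c.σ) * (64 * c.C * (c.C * c.σ * g.z ^ 2)) /
        (c.σ ^ 2 / c.C ^ 2)) := by gcongr; exact μ_ge L
    _ = 128 * c.C ^ 5 * g.z / e.P := by rw [sc]; field_simp; ring
    _ ≤ _ := by
      rw [div_le_one (by linarith)]
      exact (mul_le_of_le_one_right (by positivity) (z_le L)).trans (C_P L (by norm_num) (by norm_num))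

theorem drift_num : sc e g * (2 * (2 * ((e.P : ℝ) ^ 5 * e.Q * g.x ^ 2)) * (1 + 1)) ≤
    1 / (4 * e.P) := by
  have hz := z_pos L
  have hP := L.P_ge
  have hx := L.x_pos
  have h1 := L.main
  rw [le_div_iff₀ (by positivity)]
  calc _ = 32 * (e.P : ℝ) ^ 4 * e.Q * g.x * (g.x / g.z) := by rw [sc]; field_simp; ring
    _ ≤ (e.P : ℝ) ^ 11 * (e.P : ℝ) ^ 4 * e.Q * g.x * 1 := by
      gcongr
      · exact le_trans (by linarith) (le_self_pow₀ (P_one L) (by norm_num))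
      · exact (div_le_one hz).2 L.x_le_z
    _ ≤ 1 := by linarith

theorem qv_num : (e.P : ℝ) * (sc e g ^ 2 * (2 / c.μ) * (2 * (5 * c.C) *
    M6.qC 2 (c.γ * g.z ^ 2) 2 1 (8 * c.γ * g.z ^ 2) (2 * c.γ * g.z ^ 2) (1 / (4 * c.C)) (2 * c.C)
      (4 * c.C * c.γ) (4 * g.z ^ 2) (16 * c.γ * g.z ^ 4) * (1 + 1) +
    8 * 2 * (2 * c.C * c.σ) ^ 2 * (16 * c.C ^ 2 * g.z ^ 4))) ≤ 1 / (4 * e.P) := by
  have hC := L.ok.C1
  have hσ := L.ok.σ0
  have hγ := L.ok.γ0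
  have hz := z_pos L
  have hP := P_one L
  have hz4 : g.z ^ 4 ≤ g.z ^ 2 := pow_le_pow_of_le_one hz.le (z_le L) (by norm_num)
  have h1 : M6.qC 2 (c.γ * g.z ^ 2) 2 1 (8 * c.γ * g.z ^ 2) (2 * c.γ * g.z ^ 2) (1 / (4 * c.C))
      (2 * c.C) (4 * c.C * c.γ) (4 * g.z ^ 2) (16 * c.γ * g.z ^ 4) =
      54 * (c.γ * g.z ^ 2) + 258 * (c.C * (c.γ * g.z ^ 2)) + 1024 * (c.C * (c.γ * g.z ^ 4)) := by
    unfold M6.qC; field_simp; ring
  have h2 : c.γ * g.z ^ 2 ≤ c.C * (c.γ * g.z ^ 2) := le_mul_of_one_le_left (by positivity) hC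
  have h3 : c.C * (c.γ * g.z ^ 4) ≤ c.C * (c.γ * g.z ^ 2) := by gcongr
  have h4 : c.C * (c.γ * g.z ^ 2) ≤ c.C * (c.C * c.σ ^ 2 * g.z ^ 2) := by gcongr; exact L.ok.γ_hi
  rw [h1, le_div_iff₀ (by positivity)]
  calc _ ≤ (e.P : ℝ) * (sc e g ^ 2 * (2 / (c.σ ^ 2 / c.C ^ 2)) * (2 * (5 * c.C) *
        (2000 * (c.C * (c.C * c.σ ^ 2 * g.z ^ 2))) * (1 + 1) +
        8 * 2 * (2 * c.C * c.σ) ^ 2 * (16 * c.C ^ 2 * g.z ^ 2))) * (4 * e.P) := by
        gcongr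
        · exact μ_ge L
        · nlinarith [show 0 ≤ c.C * (c.γ * g.z ^ 2) by positivity]
    _ = (320000 * c.C ^ 5 + 8192 * c.C ^ 6) / (e.P : ℝ) ^ 2 := by rw [sc]; field_simp; ring
    _ ≤ 1 := by
      rw [div_le_one (by positivity)]
      have h5 := C_P L (a := 640000) (n := 5) (by norm_num) (by norm_num)
      have h6 := C_P L (a := 16384) (n := 6) (by norm_num) (by norm_num)
      have h7 : (e.P : ℝ) ≤ (e.P : ℝ) ^ 2 := le_self_pow₀ hP two_ne_zero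
      linarith

theorem glue_num : M6.glueC d c.σ c.C e.ρ (sc e g) 2 (e.Bg ^ 2) e.ϑ ≤ (e.P : ℝ) ^ 3 * g.z / 2 := by
  have hC := L.ok.C1
  have hσ := L.ok.σ0
  have hz := z_pos L
  have hP := P_one L
  have hB := L.B_ge
  have hϑ := L.ϑ0
  have hρ : (2 : ℝ) ≤ e.ρ := by exact_mod_cast L.ρ_pos
  have hd : (3 : ℝ) ≤ d := by exact_mod_cast L.ok.hd
  have h1 : (c.C * e.ρ / e.ϑ) ^ (d + 3) ≤ e.Bg := by
    have h2 : 1 ≤ c.C * e.ρ / e.ϑ := by
      rw [le_div_iff₀ hϑ]; nlinarith [L.ϑ_le]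
    refine (pow_le_pow_right₀ h2 (show d + 3 ≤ 2 * d + 6 by omega)).trans (le_trans ?_ L.B_ρ)
    gcongr
    exact le_mul_of_one_le_left (by linarith) (by linarith)
  have h2 : (c.C * e.ρ / e.ϑ) ^ (d + 3) / c.σ ^ 2 ≤ e.Bg * e.Bg := by
    rw [div_le_iff₀ (by positivity), mul_assoc]
    exact h1.trans (le_mul_of_one_le_right (by positivity) (hC.trans L.B_σ))
  have h3 : Real.exp (-e.ϑ * e.ρ / 2) ≤ Real.exp (-e.ϑ * e.ρ / 4) :=
    Real.exp_le_exp.2 (by nlinarith)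
  have h4 : 8 * e.Bg ^ 5 * Real.exp (-e.ϑ * e.ρ / 4) ≤ 1 := by
    refine le_trans ?_ L.tail
    gcongr
    calc 8 * e.Bg ^ 5 ≤ e.Bg * e.Bg ^ 5 := by gcongr; linarith
      _ = e.Bg ^ 6 := by ring
      _ ≤ _ := pow_le_pow_right₀ (by linarith) (by norm_num)
  have h5 : 1 ≤ e.Bg * ((e.P : ℝ) ^ 3 * g.z) := L.B_x'.trans (by
    gcongr; exact L.x_le_z.trans (le_mul_of_one_le_left hz.le (one_le_pow₀ hP)))
  have h6 : 2 * e.Bg ^ 2 * Real.exp (-e.ϑ * e.ρ / 4) * (e.Bg * e.Bg) ≤ (e.P : ℝ) ^ 3 * g.z / 4 := by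
    refine le_of_mul_le_mul_left ?_ (show 0 < e.Bg by linarith)
    linarith
  have h7 : c.C * 2 / sc e g ≤ (e.P : ℝ) ^ 3 * g.z / 4 := by
    have h8 := C_P L (a := 8) (n := 1) (by norm_num) (by norm_num)
    calc _ = 8 * c.C ^ 1 * ((e.P : ℝ) ^ 2 * g.z / 4) := by rw [sc]; field_simp; ring
      _ ≤ e.P * ((e.P : ℝ) ^ 2 * g.z / 4) := by gcongr
      _ = _ := by ring
  calc _ ≤ c.C * 2 / sc e g + 2 * e.Bg ^ 2 * Real.exp (-e.ϑ * e.ρ / 4) * (e.Bg * e.Bg) := by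
        unfold M6.glueC; gcongr
    _ ≤ _ := by linarith

end Num

section State

variable (L : Led c e g) (hf : RefOK c e f) {s : St d M} (hI : Inv c e f (th2 e g) s)
  (hD : Der c e g f s) {y : Tor d M} (hy : y ∈ s.ord)
include L hD

theorem gam2 (b : Tor d M) : gam s.w b ≤ 2 * c.γ := by linarith [hD.gam_le b, L.ok.γ0]

include hy

theorem τ_le {k : ℕ} (hk : k < c.N) : ‖M6.tau c.A s.w y (c.v y k)‖ ≤ 2 * c.C * c.σ := by
  have hC := L.ok.C1
  have hσ := L.ok.σ0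
  refine le_of_sq_le_sq ((hD.τ_le y hy k hk).trans ?_) (by positivity)
  calc _ ≤ 4 * c.C * (c.C * c.σ ^ 2) := by gcongr; exact L.ok.γ_hi
    _ = _ := by ring

include hI

theorem track {w0 : Tor d M → ℂ} {Xs : M6.Rec d M} (h : M6.Track c.A w0 s.w Xs (e.Bg ^ 2) e.ϑ)
    {k : ℕ} (hk : k < c.N) : M6.Track c.A w0 (cls1 s.w y (c.v y k)) (M6.addX c.A s.w Xs y (c.v y k))
      (e.Bg ^ 2) e.ϑ := by
  have hγ := L.ok.γ0
  refine h.close hI.bas.adm (hI.bas.opn y hy) (hD.den y hy k hk) (cI := e.Bg ^ 2) (fun b _ => ?_)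
    (sq_nonneg _) (mul_le_of_le_one_left (sq_nonneg _) ((τ_le L hD hy hk).trans ?_))
  · by_cases hb : gam s.w b = 0
    · rw [hb, zero_mul]; positivity
    have h1 := hD.dec b (hD.sub0 (mem_opn.2 hb)) y (hD.sub0 (mem_opn.2 (hI.bas.opn y hy)))
    have h2 : gam s.w b ≤ 1 := by
      have h3 := L.ok.γ_le
      have h4 := mul_le_mul_of_nonneg_right (one_le_pow₀ (n := 30) L.ok.C1) hγ.le
      linarith [gam2 L hD b]
    calc _ ≤ 1 * (e.Bg * Real.exp (-e.ϑ * tdist b y)) ^ 2 := by gcongr; exact h1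
      _ = _ := by rw [one_mul, mul_pow, ← Real.exp_nat_mul]; congr 2; push_cast; ring
  · have := L.ok.C1
    have := L.ok.σ0
    linarith [σ_one L, show 0 ≤ c.C * c.σ by positivity]

include hf

theorem row (p : Tor d M) : M6.Row c.A s.w y (M6.Qp e.ρ p) f.T ((opn s.w \ f.T) \ absb d M)
    (fun b => pr c e g (b - y)) (8 * c.γ * g.z ^ 2) (12 * c.C * c.σ * g.z ^ 2) (2 * c.γ * g.z ^ 2)
    (1 / (4 * c.C)) (2 * c.C) (4 * c.C * c.γ) (4 * g.z ^ 2) (16 * c.γ * g.z ^ 4) := by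
  have hC := L.ok.C1
  have hσ := L.ok.σ0
  have hγ := L.ok.γ0
  have hz := z_pos L
  have hA := hI.bas.adm
  have hyT : y ∈ f.T := hf.sub (hI.bas.sub hy)
  have hent : ∀ b ∈ f.T, b ≠ y →
      gam s.w b * ‖Gm c.A s.w b y‖ ^ 2 ≤ 8 * c.γ * g.z ^ 2 + pr c e g (b - y) := by
    intro b hb hby
    have h0 := pr_nn L (b - y)
    by_cases hg : gam s.w b = 0
    · rw [hg, zero_mul]; positivity
    have h1 : ‖Gm c.A s.w b y - c.G0 (b - y) 0‖ ≤ g.z := by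
      rw [M6.Gm_comm hA, ← show c.G0 b y = c.G0 (b - y) 0 from L.ok.init.transl b y,
        show c.G0 b y = c.G0 y b from M6.Gm_comm L.ok.init.adm b y]
      exact (hI.pair y hy b hb hg hby.symm).trans
        (L.X_z.trans (pow_le_of_le_one hz.le (z_le L) two_ne_zero))
    have h2 : ‖Gm c.A s.w b y‖ ≤ g.z + ‖c.G0 (b - y) 0‖ := by
      linarith [norm_sub_norm_le (Gm c.A s.w b y) (c.G0 (b - y) 0)]
    have h3 : ‖Gm c.A s.w b y‖ ^ 2 ≤ 2 * g.z ^ 2 + 2 * ‖c.G0 (b - y) 0‖ ^ 2 := by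
      nlinarith [pow_le_pow_left₀ (norm_nonneg _) h2 2, sq_nonneg (g.z - ‖c.G0 (b - y) 0‖)]
    refine (mul_le_mul (gam2 L hD b) h3 (sq_nonneg _) (by positivity)).trans ?_
    unfold pr
    split_ifs with h4
    · nlinarith [show 0 ≤ c.γ * g.z ^ 2 by positivity]
    · have h5 : ‖c.G0 (b - y) 0‖ ^ 2 ≤ g.z ^ 2 := not_lt.1 fun h => h4
        ⟨⟨sub_ne_zero.2 hby, by rw [tdist_sub]; exact hf.sepT b hb y hyT hby⟩, h⟩
      nlinarith [mul_le_mul_of_nonneg_left h5 hγ.le]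
  refine ⟨fun b hb _ hg => ?_, fun b _ hb hby => hent b hb hby, fun b _ hb hby =>
    (hent b hb hby).trans ?_, ?_, ?_, ?_, fun b _ hb _ => ?_, fun b => pr_nn L _, ?_, ?_,
    by positivity, by positivity, by positivity, by positivity⟩
  · by_cases hT : b ∈ f.T
    · exact Or.inl hT
    · exact Or.inr (mem_sdiff.2 ⟨mem_sdiff.2 ⟨mem_opn.2 hg, hT⟩, (mem_sdiff.1 hb).2⟩)
  · have h1 : c.γ * g.z ^ 2 ≤ c.C * c.σ * g.z ^ 2 := by gcongr; exact γ_σ L
    linarith [pr_le L (b - y)]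
  · have hB : 0 < e.Bg := lt_of_lt_of_le (by norm_num) L.B_ge
    have h1 : ∑ x ∈ (opn s.w \ f.T) \ absb d M, ‖c.G s.w y x‖ ^ 2 ≤ g.z ^ 2 :=
      le_of_mul_le_mul_left ((hD.core y hy).trans (L.B_x'.trans (by gcongr; exact x_z2 L))) hB
    calc _ ≤ ∑ b ∈ (opn s.w \ f.T) \ absb d M, gam s.w b * ‖Gm c.A s.w b y‖ ^ 2 :=
          sum_le_sum_of_subset_of_nonneg ((erase_subset _ _).trans inter_subset_right)
            fun b _ _ => mul_nonneg (hA.diss b) (sq_nonneg _)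
      _ ≤ ∑ b ∈ (opn s.w \ f.T) \ absb d M, 2 * c.γ * ‖c.G s.w y b‖ ^ 2 :=
          sum_le_sum fun b _ => by
            rw [M6.Gm_comm hA b y]
            exact mul_le_mul_of_nonneg_right (gam2 L hD b) (sq_nonneg _)
      _ ≤ _ := by rw [← mul_sum]; gcongr
  · refine (hD.iota y hy).trans (le_of_eq ?_)
    rw [← M6.ward_diag hA y, ← add_sum_erase _ _ (mem_univ y), add_sub_cancel_left]
    exact sum_congr rfl fun b _ => by rw [M6.Gm_comm hA b y]; rfl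
  · exact (le_abs_self _).trans ((abs_im_le_norm _).trans (hD.g_le y hyT (hI.bas.opn y hy)))
  · by_cases hg : gam s.w b = 0
    · rw [hg, zero_mul]; positivity
    have h1 : (Gm c.A s.w b b).im ≤ 2 * c.C :=
      (le_abs_self _).trans ((abs_im_le_norm _).trans (hD.g_le b hb hg))
    calc _ ≤ gam s.w b * (2 * c.C) := mul_le_mul_of_nonneg_left h1 (hA.diss b)
      _ ≤ 2 * c.γ * (2 * c.C) := by gcongr; exact gam2 L hD b
      _ = _ := by ring
  · exact (Equiv.sum_comp (Equiv.subRight y) (pr c e g)).le.trans (pr_sum L)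
  · exact (Equiv.sum_comp (Equiv.subRight y) fun u => pr c e g u ^ 2).le.trans (pr_sq L)

end State

end FEn

open FEn in
theorem fam_en (L : Led c e g) (hf : RefOK c e f) {s0 : CS d M} (h0 : Pre c e g f s0) :
    Fam c e g f s0 (OutEn c g) := by
  have hC := L.ok.C1
  have hσ := L.ok.σ0
  have hγ := L.ok.γ0
  have hz := z_pos L
  have hP := P_one L
  have hs := sc_pos L
  have hB : (Fintype.card (tball (0 : Tor d M) (3 * e.ρ)) : ℝ) = vol d M (3 * e.ρ) := by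
    rw [Fintype.card_coe, card_tball]
  obtain ⟨n, hn⟩ := M6.exists_Nrm L.ok.init (by linarith) hσ e.ρ (tball (0 : Tor d M) (3 * e.ρ)) hB.ge
  have hT : M6.Cap c.E0 c.μ f.T 2 (c.γ * g.z ^ 2) :=
    (L.capT f.T hf.sepT).mono E0_nn subset_rfl le_rfl L.Ft_le
  refine (fam_ghost L h0.n0 (hB.le.trans (vol_mono (by omega)))
    (fun s Xs => M6.Track c.A s0.w s.w Xs (e.Bg ^ 2) e.ϑ) (fun s Xs ω => M6.stepX c.A s.w c.v Xs ω)
    (fun Xs p => M6.mon (n p) (sc e g) e.ρ Xs p) 0 ⟨M6.Track.init _ _ _ _, fun p => M6.mon_zero _ _ _⟩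
    (fun _ _ _ h => h) fun s Xs hE _ hTr _ => ⟨fun ω hω => ?_, fun p => ?_⟩).mono
    (fun s hs ⟨Xs, hTr, hb⟩ => ?_) le_rfl
  · rcases ω with _ | ⟨y, k⟩
    · exact ⟨hTr, fun p => ⟨by simp [M6.stepX], fun _ => rfl⟩⟩
    have hy := hE.rch.sub hω.1
    refine ⟨track L hE.inv hE.der hy hTr hω.2, fun p => ⟨?_, fun hd => M6.mon_addX_of_not_mem
      (fun h => disjoint_left.1 hd (tball_mono p (by omega) h) hy) _ _⟩⟩
    by_cases hp : y ∈ tball p e.ρ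
    · rw [M6.stepX, M6.mon_addX_of_mem hp, add_sub_cancel_left]
      have hR := row L hf hE.inv hE.der hy p
      have hl := hR.lam_nonneg hE.inv.bas.adm (a := 2) (F := c.γ * g.z ^ 2) (a' := 2) (F' := 1)
        zero_le_two (by positivity) zero_le_two zero_le_one
      have hμ := μ_pos L
      refine (M6.norm_jump_le (hn p) (M6.disjoint_Qp _ p) hR hE.inv.bas.adm hμ E0_nn hT (capU L)
        zero_le_two (by positivity) zero_le_two zero_le_one hs.le _).trans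
        (le_trans ?_ ((le_mul_of_one_le_left (by positivity) hP).trans (jump_num L)))
      gcongr
      exact τ_le L hE.der hy hω.2
    · rw [M6.stepX, M6.mon_addX_of_not_mem hp, sub_self, norm_zero]; exact zero_le_one
  · have ho : ∀ y ∈ s.A ∩ tball p e.ρ, y ∈ s.ord := fun y hy => hE.rch.sub (mem_inter.1 hy).1
    have hg : ∀ y ∈ s.A ∩ tball p e.ρ, 9 / 10 * c.γ ≤ gam s.w y := fun y hy =>
      hE.der.gam_ge y (hE.inv.bas.opn y (ho y hy))
    refine LocA.mono L.ok.N0 (tball_mono p (by omega)) (M6.mon_locA (ε := 1) L.ok.N0 dt_pos.le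
      (by linarith) (by linarith) (hn p) hE.inv.bas.adm (μ_pos L) E0_nn hT (capU L) zero_le_two
      (by positivity) zero_le_two zero_le_one hs.le (M6.UB.mono hE.inv.ub E0_nn (e'_le L)) zero_le_one
      (by positivity) (by positivity) (by positivity) (by positivity)
      (fun y hy => row L hf hE.inv hE.der (ho y hy) p) (fun y hy k hk => τ_le L hE.der (ho y hy) hk)
      (fun y hy => ?_) (fun y hy => (hE.inv.bias y (ho y hy)).trans ?_) (fun φ _ => pr_form L φ)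
      (jump_num L) (drift_num L) (qv_num L))
    · refine (avg_mono (g := fun _ => 4 * c.C * c.γ) fun k hk => hE.der.τ_le y (ho y hy) k hk).trans ?_
      rw [avg_const L.ok.N0]
      nlinarith [mul_le_mul_of_nonneg_left (hg y hy) (show 0 ≤ c.C by linarith), mul_pos hγ hγ,
        show 0 ≤ c.C * c.γ by positivity]
    · have h1 : 0 ≤ (e.P : ℝ) ^ 5 * e.Q * g.x ^ 2 := by positivity
      have h2 := mul_le_mul_of_nonneg_left (show c.γ ≤ 2 * gam s.w y by linarith [hg y hy]) h1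
      exact h2.trans (le_of_eq (by ring))
  · obtain ⟨χ, cp, hcut⟩ := L.ok.init.cut e.ρ L.ρσ
    have hη : ∀ ψ, Van ψ → |ψ ⬝ᵥ (∑ y, Xs y) *ᵥ ψ| ≤ (e.P : ℝ) ^ 3 * g.z / 2 * c.E0 ψ := fun ψ hψ =>
      (M6.glue hTr.loc hcut hn (sc_pos L) (sq_nonneg _) L.ϑ0 (by linarith [L.ϑ_le]) hb hψ).trans
        (mul_le_mul_of_nonneg_right (glue_num L) (E0_nn ψ))
    exact ⟨(hTr.UB h0.inv.ub hη).mono E0_nn L.e_x_le,
      (hTr.LB (fun a ha => by rw [gam, hs.bas.abs a ha]; exact hγ.ne') h0.inv.lb hη).mono E0_nn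
        L.e_x_le⟩

end Crest.Agent.N334.AC.P
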