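import Crest.Agent.N334.AC.P.Der
import Crest.Agent.N334.AC.Nw.After
import Crest.Agent.N334.AC.M6.Key

/-! # S0520 part P: the Newton step (helper74)
`Nw.Pre.early'` with `C_N = 4C`, `b = (10/9) P⁶ Q x²`, `n = P`, `L = P²ρ`, `b2 = 1/2`; `δ = 8 n b ≤ nu`.
Then `Jmp.*`. -/

set_option autoImplicit false

open Finset Complex
open scoped Matrix.Norms.L2Operator Matrix

namespace Crest.Agent.N334.AC.P

variable {d M : ℕ} [NeZero M] {c : Cx d M} {e : Ep} {g : Sg} {f : Ref d M}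

namespace Nt

theorem P_one (L : Led c e g) : (1 : ℝ) ≤ e.P := le_trans (by norm_num) L.P_ge

theorem C_P (L : Led c e g) : 10 ^ 6 * c.C ^ 3 ≤ (e.P : ℝ) := by
  have := L.ok.C1
  refine le_trans ?_ L.P1
  gcongr <;> norm_num

theorem x_one (L : Led c e g) : g.x ≤ 1 := by
  have h1 : (1 : ℝ) ≤ (e.P : ℝ) ^ 21 := one_le_pow₀ (P_one L)
  nlinarith [L.x_small, L.x_pos]

theorem nu0 (e : Ep) (g : Sg) : 0 ≤ nu e g := by unfold nu; positivity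

theorem nu1 (L : Led c e g) : 100 * c.C * (e.P : ℝ) ^ 2 * nu e g ≤ g.x := by
  have h1 := L.ok.C1
  have h2 := P_one L
  have h3 := nu0 e g
  have h4 : 100 * c.C ≤ (e.P : ℝ) := by
    have : c.C ≤ c.C ^ 3 := le_self_pow₀ h1 (by norm_num)
    linarith [C_P L]
  refine le_trans ?_ L.nu_le
  calc _ ≤ (e.P : ℝ) * (e.P : ℝ) ^ 2 * nu e g := by gcongr
    _ = (e.P : ℝ) ^ 3 * nu e g := by ring
    _ ≤ _ := by gcongr; norm_num

theorem nu2 (L : Led c e g) : 100 * c.C * nu e g ≤ g.x := by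
  have h1 := L.ok.C1
  have h2 : (1 : ℝ) ≤ (e.P : ℝ) ^ 2 := one_le_pow₀ (P_one L)
  have h3 := nu0 e g
  refine le_trans ?_ (nu1 L)
  calc _ = 100 * c.C * 1 * nu e g := by ring
    _ ≤ _ := by gcongr

theorem nu3 (L : Led c e g) : 100 * nu e g ≤ g.x := by
  nlinarith [nu2 L, L.ok.C1, nu0 e g]

theorem d_P (L : Led c e g) : 100 * d * c.C ^ 2 ≤ (e.P : ℝ) := by
  have h1 := L.ok.C1
  have hd : (3 : ℝ) ≤ d := by exact_mod_cast L.ok.hd
  have h2 : (100 * d : ℝ) ≤ (100 * d : ℝ) ^ (5 * d) :=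
    le_self_pow₀ (by linarith) (by have := L.ok.hd; omega)
  have h3 : c.C ^ 2 ≤ 10 ^ 30 * c.C ^ 15 := by
    have : c.C ^ 2 ≤ c.C ^ 15 := by gcongr; norm_num
    nlinarith [pow_pos (zero_lt_one.trans_le h1) 15]
  refine le_trans ?_ L.P2
  gcongr

theorem tail1 (L : Led c e g) :
    e.Bg ^ 2 * (2 / e.ϑ) * Real.exp (-e.ϑ * e.ρ / 2) * (3 * d / e.ϑ) ^ d ≤ 1 := by
  have hϑ := L.ϑ0
  have hϑ1 := L.ϑ_le
  have hd : (3 : ℝ) ≤ d := by exact_mod_cast L.ok.hd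
  have hB : 1 ≤ e.Bg := le_trans (by norm_num) L.B_ge
  have h1 : 1 ≤ 100 * d / e.ϑ := by rw [le_div_iff₀ hϑ]; linarith
  have h2 : 2 / e.ϑ * (3 * d / e.ϑ) ^ d ≤ e.Bg := by
    refine le_trans ?_ L.B_ϑ
    rw [two_mul d, pow_add]
    gcongr
    · refine le_trans ?_ (le_self_pow₀ h1 (by have := L.ok.hd; omega))
      gcongr; linarith
    · norm_num
  have h3 : Real.exp (-e.ϑ * e.ρ / 2) ≤ Real.exp (-e.ϑ * e.ρ / 4) := by
    have : 0 ≤ e.ϑ * e.ρ := by positivity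
    exact Real.exp_le_exp.2 (by linarith)
  calc _ = e.Bg ^ 2 * (2 / e.ϑ * (3 * d / e.ϑ) ^ d) * Real.exp (-e.ϑ * e.ρ / 2) := by ring
    _ ≤ e.Bg ^ 2 * e.Bg * Real.exp (-e.ϑ * e.ρ / 4) := by gcongr
    _ = e.Bg ^ 3 * Real.exp (-e.ϑ * e.ρ / 4) := by ring
    _ ≤ e.Bg ^ 40 * Real.exp (-e.ϑ * e.ρ / 4) := by gcongr; norm_num
    _ ≤ 1 := L.tail

theorem vol1 (L : Led c e g) :
    64 * vol d M (2 * e.P * (e.P ^ 2 * e.ρ)) * (1 / 2 : ℝ) ^ (2 * e.P) ≤ 1 := by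
  have hP : 6 ≤ e.P := by
    have : ((6 : ℕ) : ℝ) ≤ e.P := le_trans (by norm_num) L.P_ge
    exact_mod_cast this
  have hρ := L.ρ_pos
  have h1 : 2 * (2 * e.P * (e.P ^ 2 * e.ρ)) + 1 ≤ 10 * e.P ^ 4 * e.ρ := by
    have h2 : 1 ≤ e.P ^ 3 * e.ρ := Nat.mul_pos (Nat.pow_pos (by omega)) (by omega)
    have h3 : e.P ^ 3 * e.ρ ≤ e.P * (e.P ^ 3 * e.ρ) := Nat.le_mul_of_pos_left _ (by omega)
    calc _ = 4 * (e.P ^ 3 * e.ρ) + 1 := by ring
      _ ≤ 10 * (e.P * (e.P ^ 3 * e.ρ)) := by omega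
      _ = _ := by ring
  have h2 : vol d M (2 * e.P * (e.P ^ 2 * e.ρ)) ≤ (2 : ℝ) ^ e.P := by
    refine (vol_le _).trans ?_
    exact_mod_cast (Nat.pow_le_pow_left h1 d).trans L.logv
  have h3 : (64 : ℝ) ≤ 2 ^ e.P := by
    calc (64 : ℝ) = 2 ^ 6 := by norm_num
      _ ≤ _ := by gcongr; norm_num
  have h4 : 0 ≤ vol d M (2 * e.P * (e.P ^ 2 * e.ρ)) := zero_le_one.trans (one_le_vol _)
  calc _ ≤ 2 ^ e.P * 2 ^ e.P * (1 / 2 : ℝ) ^ (2 * e.P) := by gcongr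
    _ = 1 := by rw [← pow_add, ← two_mul, ← mul_pow]; norm_num

/-- the retuning exists -/
theorem solve (L : Led c e g) (hf : RefOK c e f) {s : St d M} (h : Inv c e f (th0 e g) s) :
    ∃ w', Nw.Post c.A s.w s.ord (4 * c.C) c.σ c.N c.r (nu e g) w' := by
  have D := der L hf L.le0 h
  have hC := L.ok.C1
  have hγ := L.ok.γ0
  have hσ := L.ok.σ0
  have hP := P_one L
  have hx := L.x_pos
  have hν := nu3 L
  have hx1 := x_one L
  have hT : ∀ a ∈ s.ord, a ∈ f.T := fun a ha => hf.sub (h.bas.sub ha)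
  have hσ1 : c.C ^ 2 * c.σ ≤ 1 / 1000 ∧ c.σ ≤ 1 / 1000 :=
    (Nw.sml_Cσ (L.ok.sml hC (by linarith))).2
  set b : ℝ := 10 / 9 * ((e.P : ℝ) ^ 6 * e.Q * g.x ^ 2) with hb
  have hb0 : 0 ≤ b := by positivity
  have hδ : 8 * (e.P : ℝ) * b ≤ nu e g := by
    have h9 : (9 : ℝ) ≤ e.P := le_trans (by norm_num) L.P_ge
    calc _ = 80 / 9 * ((e.P : ℝ) ^ 7 * e.Q * g.x ^ 2) := by rw [hb]; ring
      _ ≤ e.P * ((e.P : ℝ) ^ 7 * e.Q * g.x ^ 2) := by gcongr; linarith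
      _ = _ := by rw [nu]; ring
  have pre : Nw.Pre c.A s.w s.ord (4 * c.C) c.σ c.N c.r b :=
    { adm := h.bas.adm
      sml := L.ok.sml (by linarith) (by linarith)
      r01 := L.ok.r01
      gam_pos := fun a ha => lt_of_lt_of_le (by positivity) (D.gam_ge a (h.bas.opn a ha))
      G_le := fun a ha => (D.g_le a (hT a ha) (h.bas.opn a ha)).trans (by linarith)
      w_le := fun a ha => (D.w_le a (h.bas.opn a ha)).trans (by linarith)
      b0 := hb0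
      b1 := by nlinarith
      bias := fun a ha => by
        have h1 := D.gam_ge a (h.bas.opn a ha)
        calc _ ≤ (e.P : ℝ) ^ 6 * e.Q * g.x ^ 2 * c.γ := h.bias a ha
          _ = b * (9 / 10 * c.γ) := by rw [hb]; ring
          _ ≤ _ := by gcongr }
  have he : c.C * g.e ≤ 1 / 2 := by
    have h1 : g.e ≤ g.e' := L.le0.e_le
    have h2 : c.C ≤ c.C ^ 30 := le_self_pow₀ hC (by norm_num)
    have h3 := L.e'_small
    have h4 := L.e0
    nlinarith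
  obtain ⟨w', hw⟩ := pre.early' (g := 9 / 10 * c.γ) (b7 := g.e / c.γ) (b2 := 1 / 2)
    (L := e.P ^ 2 * e.ρ) (D := e.ρ) (n := e.P) (by positivity)
    (fun a ha => ⟨D.gam_ge a (h.bas.opn a ha), (D.gam_le a).trans (by linarith)⟩)
    (h.bas.sub.trans hf.opn0) D.tw L.ϑ0 (L.ϑ_le.trans (by norm_num)) (by exact_mod_cast hP)
    (Nat.mul_pos (Nat.pow_pos (by exact_mod_cast hP)) (by have := L.ρ_pos; omega))
    (by rw [le_div_iff₀' hγ]; exact h.had)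
    (by
      have h1 : c.σ ^ 2 * (g.e / c.γ) ≤ c.C * g.e := by
        have := L.e0
        rw [← mul_div_assoc, div_le_iff₀ hγ]
        nlinarith [L.ok.γ_lo]
      nlinarith [hσ1.1, hσ1.2])
    (by nlinarith)
    (by
      have hρ : (1 : ℝ) ≤ e.ρ := by exact_mod_cast (show 1 ≤ e.ρ by have := L.ρ_pos; omega)
      have h1 : c.σ ^ 2 * (4 * c.C / (9 / 10 * c.γ)) ≤ 5 * c.C ^ 2 := by
        rw [← mul_div_assoc, div_le_iff₀ (by positivity)]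
        nlinarith [L.ok.γ_lo, mul_pos (zero_lt_one.trans_le hC) hγ]
      have h2 : c.σ ^ 2 ≤ c.C ^ 2 * e.ρ := by nlinarith [hσ1.2, one_le_pow₀ (n := 2) hC]
      calc _ ≤ 8 * (e.P : ℝ) * d * c.σ ^ 2 * (e.ρ * (4 * c.C / (9 / 10 * c.γ)) + 1) := by
            gcongr; exact tail1 L
        _ = 8 * (e.P : ℝ) * d * (e.ρ * (c.σ ^ 2 * (4 * c.C / (9 / 10 * c.γ))) + c.σ ^ 2) := by ring
        _ ≤ 8 * (e.P : ℝ) * d * (e.ρ * (5 * c.C ^ 2) + c.C ^ 2 * e.ρ) := by gcongr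
        _ = e.P * (48 * d * c.C ^ 2) * e.ρ := by ring
        _ ≤ e.P * e.P * e.ρ := by
            gcongr
            refine le_trans ?_ (d_P L)
            gcongr; norm_num
        _ = _ := by push_cast; ring)
    (vol1 L)
  exact ⟨w', hw.mono (by linarith) hδ (by linarith)⟩

theorem four_add (x y : ℝ) : (x + y) ^ 4 ≤ 8 * x ^ 4 + 8 * y ^ 4 := by
  nlinarith [sq_nonneg (x - y), sq_nonneg (x + y), sq_nonneg (x ^ 2 - y ^ 2),
    mul_nonneg (sq_nonneg (x - y)) (sq_nonneg (x + y)), sq_nonneg ((x - y) ^ 2)]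

end Nt

open Nt in
theorem newton (L : Led c e g) (hf : RefOK c e f) {s : St d M} (h : Inv c e f (th0 e g) s) :
    ∃ w', Inv c e f (th1 e g) { s with w := w' } := by
  obtain ⟨w', J, hoff, hbias⟩ := solve L hf h
  have D := der L hf L.le0 h
  have hC := L.ok.C1
  have hγ := L.ok.γ0
  have hx := L.x_pos
  have hx1 := x_one L
  have hν0 := nu0 e g
  have hν1 := nu1 L
  have hν2 := nu2 L
  have hν3 := nu3 L
  have hνh := L.nu_h
  set ν := nu e g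
  have hT : ∀ a ∈ s.ord, a ∈ f.T := fun a ha => hf.sub (h.bas.sub ha)
  have o1 : ∀ a, gam w' a ≠ 0 → gam s.w a ≠ 0 := fun a ha h0 => ha (le_antisymm
    (by simpa [h0] using (J.gam_le a).2) (J.adm'.diss a))
  have o2 : ∀ a, gam s.w a ≠ 0 → gam w' a ≠ 0 := fun a ha => ne_of_gt (lt_of_lt_of_le
    (mul_pos (by linarith) ((h.bas.adm.diss a).lt_of_ne' ha)) (J.gam_le a).1)
  have im : ∀ b ∈ f.T, gam s.w b ≠ 0 → (Gm c.A s.w b b).im ≤ 2 * c.C := fun b hb h0 =>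
    (le_abs_self _).trans ((abs_im_le_norm _).trans (D.g_le b hb h0))
  have imo : ∀ a ∈ s.ord, (Gm c.A s.w a a).im ≤ 2 * c.C := fun a ha =>
    im a (hT a ha) (h.bas.opn a ha)
  have dsq : ∀ a ∈ f.T, gam s.w a ≠ 0 → ∀ b ∈ f.T, gam s.w b ≠ 0 →
      ‖c.G w' a b - c.G s.w a b‖ ^ 2 ≤ 8 * (c.C * ν) ^ 2 := fun a ha h0 b hb h1 => by
    refine (J.entry a b).trans ?_
    calc _ ≤ 2 * ν ^ 2 * (2 * c.C * (2 * c.C)) := by
          gcongr
          exacts [Jp.im_diag h.bas.adm b, im a ha h0, im b hb h1]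
      _ = _ := by ring
  have hCν : 0 ≤ c.C * ν := by positivity
  have dx : ∀ a ∈ f.T, gam s.w a ≠ 0 → ∀ b ∈ f.T, gam s.w b ≠ 0 →
      ‖c.G w' a b - c.G s.w a b‖ ≤ g.x := fun a ha h0 b hb h1 =>
    (pow_le_pow_iff_left₀ (norm_nonneg _) hx.le two_ne_zero).1
      ((dsq a ha h0 b hb h1).trans (by nlinarith))
  have E0 : ∀ ψ, 0 ≤ c.E0 ψ := fun ψ => En_nn _ _
  have he1 : g.e ≤ 1 := by
    have h1 : g.e ≤ g.e' := L.le0.e_le
    have h2 := one_le_pow₀ (n := 30) hC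
    nlinarith [L.e'_small, L.e0]
  refine ⟨w',
    { bas :=
      { adm := J.adm'
        abs := fun a ha => (hoff a fun h1 => disjoint_left.1 hf.dT (hT a h1) ha).trans (h.bas.abs a ha)
        rng := h.bas.rng
        cls := fun a ha => ?_
        len := fun a ha => h.bas.len a (o1 a ha)
        full := h.bas.full
        off := fun a ha => (hoff a fun h1 => ha (h.bas.sub h1)).trans (h.bas.off a ha)
        sub := h.bas.sub
        opn := fun a ha => o2 a (h.bas.opn a ha)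
        g2 := fun a ha h0 => h.bas.g2 a ha (o1 a h0)
        g3 := h.bas.g3 }
      sep := h.sep
      near := fun a ha => ?_
      ent := fun a ha b hb hab => ?_
      four := fun a ha => ?_
      pair := fun a ha b hb h0 hab => ?_
      diag := fun b hb h0 => ?_
      bias := fun a ha => ?_
      ub := ?_
      lb := ?_
      had := ?_
      nrm := ?_
      dwl := fun a ha => ?_ }⟩
  · have h0 : gam s.w a = 0 := by_contra fun h0 => o2 a h0 ha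
    exact ⟨(h.bas.cls a h0).1, (hoff a fun h1 => h.bas.opn a h1 h0).trans (h.bas.cls a h0).2⟩
  · have h1 : ‖s.w a - c.w0‖ ≤ g.e * c.γ := h.near a (o1 a ha)
    have h2 : ‖w' a - s.w a‖ ≤ ν * (11 / 10 * c.γ) := (J.le a).trans (by gcongr; exact D.gam_le a)
    have h3 := norm_sub_le_norm_sub_add_norm_sub (w' a) (s.w a) c.w0
    show ‖w' a - c.w0‖ ≤ (g.e + g.x) * c.γ
    nlinarith
  · have h1 : ‖c.G s.w a b‖ ^ 2 ≤ g.x ^ 2 / e.q := h.ent a ha b hb hab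
    have h2 := dsq a (hT a ha) (h.bas.opn a ha) b (hT b hb) (h.bas.opn b hb)
    have h3 : 8 * (c.C * ν) ^ 2 ≤ g.x ^ 2 / e.q := by
      have h4 : 8 * c.C ^ 2 ≤ (e.P : ℝ) ^ 2 := by
        have h5 : c.C ≤ c.C ^ 3 := le_self_pow₀ hC (by norm_num)
        nlinarith [C_P L]
      have := L.q0
      have := L.x0
      calc _ = 8 * c.C ^ 2 * ν ^ 2 := by ring
        _ ≤ (e.P : ℝ) ^ 2 * ν ^ 2 := by gcongr
        _ ≤ g.x' ^ 2 / e.q := hνh
        _ ≤ _ := by gcongr; exact L.x_le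
    have h4 := norm_le_norm_add_norm_sub' (c.G w' a b) (c.G s.w a b)
    show ‖c.G w' a b‖ ^ 2 ≤ 4 * (g.x ^ 2 / e.q)
    calc _ ≤ (‖c.G s.w a b‖ + ‖c.G w' a b - c.G s.w a b‖) ^ 2 := by gcongr
      _ ≤ _ := by nlinarith [sq_nonneg (‖c.G s.w a b‖ - ‖c.G w' a b - c.G s.w a b‖)]
  · have h1 : c.γ * ∑ b ∈ s.ord.erase a, ‖c.G s.w a b‖ ^ 4 ≤ g.x ^ 4 := h.four a ha
    have h2 : ∑ b ∈ s.ord.erase a, gam s.w b * ‖c.G w' a b - c.G s.w a b‖ ^ 2 ≤ 4 * c.C * ν ^ 2 := by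
      refine (sum_le_univ_sum_of_nonneg fun b =>
        mul_nonneg (h.bas.adm.diss b) (sq_nonneg _)).trans ((J.row a).trans ?_)
      nlinarith [imo a ha, sq_nonneg ν]
    have h3 : ∀ b ∈ s.ord.erase a, c.γ * ‖c.G w' a b‖ ^ 4 ≤ 8 * (c.γ * ‖c.G s.w a b‖ ^ 4) +
        72 * (c.C * ν) ^ 2 * (gam s.w b * ‖c.G w' a b - c.G s.w a b‖ ^ 2) := fun b hb => by
      have hb' := mem_of_mem_erase hb
      have h4 := dsq a (hT a ha) (h.bas.opn a ha) b (hT b hb') (h.bas.opn b hb')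
      have h5 := D.gam_ge b (h.bas.opn b hb')
      have h6 := norm_le_norm_add_norm_sub' (c.G w' a b) (c.G s.w a b)
      set u := ‖c.G w' a b - c.G s.w a b‖
      have h7 : c.γ * u ^ 4 ≤ 9 * (c.C * ν) ^ 2 * (gam s.w b * u ^ 2) :=
        calc _ = u ^ 2 * (c.γ * u ^ 2) := by ring
          _ ≤ 8 * (c.C * ν) ^ 2 * (10 / 9 * gam s.w b * u ^ 2) := by gcongr; linarith
          _ ≤ _ := by
            have : 0 ≤ (c.C * ν) ^ 2 * (gam s.w b * u ^ 2) :=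
              mul_nonneg (sq_nonneg _) (mul_nonneg (h.bas.adm.diss b) (sq_nonneg _))
            nlinarith
      calc _ ≤ c.γ * (‖c.G s.w a b‖ + u) ^ 4 := by gcongr
        _ ≤ c.γ * (8 * ‖c.G s.w a b‖ ^ 4 + 8 * u ^ 4) := by gcongr; exact four_add _ _
        _ ≤ _ := by linarith
    have h4 : 72 * (c.C * ν) ^ 2 * (4 * c.C * ν ^ 2) ≤ g.x ^ 4 :=
      calc _ = 288 * (c.C * ν) ^ 2 * (c.C * 1 * ν ^ 2) := by ring
        _ ≤ 10 ^ 8 * (c.C * ν) ^ 2 * (c.C * c.C * ν ^ 2) := by gcongr; norm_num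
        _ = (100 * c.C * ν) ^ 4 := by ring
        _ ≤ _ := by gcongr
    show c.γ * ∑ b ∈ s.ord.erase a, ‖c.G w' a b‖ ^ 4 ≤ 9 * g.x ^ 4
    rw [mul_sum]
    refine (sum_le_sum h3).trans ?_
    rw [sum_add_distrib, ← mul_sum, ← mul_sum, ← mul_sum]
    have : 72 * (c.C * ν) ^ 2 * ∑ b ∈ s.ord.erase a, gam s.w b * ‖c.G w' a b - c.G s.w a b‖ ^ 2 ≤
      72 * (c.C * ν) ^ 2 * (4 * c.C * ν ^ 2) := by gcongr
    linarith
  · have h1 : ‖c.G s.w a b - c.G0 a b‖ ≤ g.X := h.pair a ha b hb (o1 b h0) hab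
    have h2 := dx a (hT a ha) (h.bas.opn a ha) b hb (o1 b h0)
    have h3 := norm_sub_le_norm_sub_add_norm_sub (c.G w' a b) (c.G s.w a b) (c.G0 a b)
    show ‖c.G w' a b - c.G0 a b‖ ≤ g.X + g.x
    linarith
  · have h1 : ‖c.G s.w b b - c.G0 0 0‖ ≤ g.e := h.diag b hb (o1 b h0)
    have h2 := dx b hb (o1 b h0) b hb (o1 b h0)
    have h3 := norm_sub_le_norm_sub_add_norm_sub (c.G w' b b) (c.G s.w b b) (c.G0 0 0)
    show ‖c.G w' b b - c.G0 0 0‖ ≤ g.e + g.x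
    linarith
  · show ‖c.b w' a‖ ≤ g.x ^ 2 * c.γ
    calc _ ≤ ν ^ 2 * (4 * c.C) * c.σ ^ 2 := hbias a ha
      _ ≤ ν ^ 2 * (4 * c.C) * (c.C * c.γ) := by gcongr; exact L.ok.γ_lo
      _ = (2 * (c.C * ν)) ^ 2 * c.γ := by ring
      _ ≤ _ := by gcongr; linarith
  · exact (M6.UB.jmp h.ub E0 he1 (by positivity) J.En_le).mono E0
      (show g.e + 2 * (10 * ν) ≤ g.e + g.x by linarith)
  · exact (M6.LB.jmp h.lb E0 L.e0 (by positivity) (by linarith) o1 J.le_En).mono E0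
      (show g.e + 10 * ν ≤ g.e + g.x by linarith)
  · have h1 : c.γ * ‖cmp (Matrix.hadamard (c.G s.w) (c.G s.w)) s.ord‖ ≤ g.e := h.had
    have h2 := J.had (Q := s.ord) (g := 9 / 10 * c.γ) (c := 2 * c.C) (by positivity) (by positivity)
      fun a ha => ⟨D.gam_ge a (h.bas.opn a ha), imo a ha⟩
    have h3 : c.γ * (4 * ν * (2 * c.C) / (9 / 10 * c.γ)) = 80 / 9 * (c.C * ν) := by
      field_simp; ring
    have h4 := mul_le_mul_of_nonneg_left h2 hγ.le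
    show c.γ * ‖cmp (Matrix.hadamard (Gm c.A w') (Gm c.A w')) s.ord‖ ≤ g.e + g.x
    rw [mul_add, h3] at h4
    exact h4.trans (add_le_add h1 (by linarith))
  · have h1 : ‖cmp (Gm c.A s.w) (opn f.wr)‖ ≤ (e.P : ℝ) ^ 4 * g.D := h.nrm
    show ‖cmp (Gm c.A w') (opn f.wr)‖ ≤ 2 * ((e.P : ℝ) ^ 4 * g.D)
    refine (J.block _).trans ?_
    gcongr
    linarith
  · have h1 : ‖cmp (Gm c.A s.w) (opn f.wr)‖ ≤ (e.P : ℝ) ^ 4 * g.D := h.nrm
    have h2 : ∑ x ∈ opn f.wr, ‖Gm c.A s.w x a‖ ^ 2 ≤ g.D := h.dwl a ha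
    have hD := L.D1
    have h3 : 4 * ν ^ 2 * ‖cmp (Gm c.A s.w) (opn f.wr)‖ * (Gm c.A s.w a a).im ≤ g.D :=
      calc _ ≤ 4 * ν ^ 2 * ((e.P : ℝ) ^ 4 * g.D) * (2 * c.C) := by
            gcongr
            exacts [Jp.im_diag h.bas.adm a, imo a ha]
        _ = 8 * (c.C * 1) * ((e.P : ℝ) ^ 2 * ν) ^ 2 * g.D := by ring
        _ ≤ 10 ^ 4 * (c.C * c.C) * ((e.P : ℝ) ^ 2 * ν) ^ 2 * g.D := by gcongr; norm_num
        _ = (100 * c.C * (e.P : ℝ) ^ 2 * ν) ^ 2 * g.D := by ring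
        _ ≤ 1 ^ 2 * g.D := by gcongr; linarith
        _ = _ := by ring
    show ∑ x ∈ opn f.wr, ‖Gm c.A w' x a‖ ^ 2 ≤ 3 * g.D
    linarith [J.dwell (opn f.wr) a]

end Crest.Agent.N334.AC.P
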