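import Crest.Agent.N334.AC.P.Gen
import Crest.Agent.N334.AC.P.Newt
import Crest.Agent.N334.AC.M7.Main

/-! # S0520 part P: monitor M7 (helper74)
`fam_ghost` with `M7.Track7`, `mon7_locA`, `glue7`, `Track7.norm_le`, `L = ρ`, scale `γ/(P² x)`. -/

set_option autoImplicit false

open Finset Complex
open scoped Matrix.Norms.L2Operator Matrix

namespace Crest.Agent.N334.AC.P

variable {d M : ℕ} [NeZero M] {c : Cx d M} {e : Ep} {g : Sg} {f : Ref d M}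

namespace Hd

open Nt M7

/-- scale of the monitor -/
noncomputable def sc (c : Cx d M) (e : Ep) (g : Sg) : ℝ := c.γ / ((e.P : ℝ) ^ 2 * g.x)
/-- bound of `|τ|` -/
noncomputable def t1 (c : Cx d M) : ℝ := √(4 * c.C * c.γ)
/-- bound of an entry -/
noncomputable def cs1 (e : Ep) (g : Sg) : ℝ := √(9 * (g.x ^ 2 / e.q))

/-- index set of a block -/
abbrev Bl (d M : ℕ) [NeZero M] (r : ℕ) : Type := {u : Tor d M // u ∈ tball (0 : Tor d M) r}

/-- the block around `p` -/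
def em (r : ℕ) (p : Tor d M) : Bl d M r → Tor d M := fun u => u.1 + p

theorem em_inj (r : ℕ) (p : Tor d M) : Function.Injective (em r p) := fun _ _ h =>
  Subtype.ext (add_right_cancel h)

theorem em_cov (r : ℕ) (p : Tor d M) : tball p r ⊆ univ.image (em r p) := fun x hx =>
  mem_image.2 ⟨⟨x - p, mem_tball.2 (by rw [tdist_sub]; exact mem_tball.1 hx)⟩, mem_univ _,
    sub_add_cancel x p⟩

theorem card_Bl (r : ℕ) : (Fintype.card (Bl d M r) : ℝ) = vol d M r := by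
  rw [Fintype.card_coe, vol]

theorem sc_pos (L : Led c e g) : 0 < sc c e g := by
  have := L.ok.γ0
  have := L.x_pos
  have := P_one L
  unfold sc; positivity

theorem t1_sq (L : Led c e g) : t1 c ^ 2 = 4 * c.C * c.γ := by
  have := L.ok.γ0
  have := L.ok.C1
  exact Real.sq_sqrt (by positivity)

theorem Cγ (L : Led c e g) : 10 ^ 6 * c.C ^ 3 * c.γ ≤ 1 := by
  have := L.ok.γ0
  have := L.ok.C1
  refine le_trans ?_ L.ok.γ_le
  gcongr <;> norm_num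

theorem Cγ1 (L : Led c e g) : 10 ^ 6 * (c.C * c.γ) ≤ 1 := by
  have h1 : c.C ≤ c.C ^ 3 := le_self_pow₀ L.ok.C1 (by norm_num)
  nlinarith [Cγ L, L.ok.γ0]

theorem num1 (L : Led c e g) : (e.P : ℝ) * (sc c e g * (2 * t1 c * cs1 e g ^ 2 / (9 / 10 * c.γ) +
    2 * t1 c ^ 2 * (13 * g.x ^ 4 / c.γ))) ≤ 1 := by
  have hγ := L.ok.γ0
  have hC := L.ok.C1
  have hx := L.x_pos
  have hx1 := x_one L
  have hP := P_one L
  have hq := L.q0
  have hs := sc_pos L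
  have h1 : t1 c ≤ e.q := by
    refine (pow_le_pow_iff_left₀ (Real.sqrt_nonneg _) hq.le two_ne_zero).1 ?_
    have h2 : c.C ≤ c.C ^ 3 := le_self_pow₀ hC (by norm_num)
    have h3 : (e.P : ℝ) ≤ (e.P : ℝ) ^ 6 := le_self_pow₀ hP (by norm_num)
    show t1 c ^ 2 ≤ _
    rw [t1_sq L, L.q_sq]
    gcongr
    linarith [C_P L, L.Q_ge]
  have h2 : cs1 e g ^ 2 = 9 * (g.x ^ 2 / e.q) := Real.sq_sqrt (by positivity)
  have h3 : 2 * t1 c * cs1 e g ^ 2 / (9 / 10 * c.γ) ≤ 20 * (g.x ^ 2 / c.γ) :=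
    calc _ ≤ 2 * e.q * cs1 e g ^ 2 / (9 / 10 * c.γ) := by gcongr
      _ = _ := by rw [h2]; field_simp; ring
  have h4 : 2 * t1 c ^ 2 * (13 * g.x ^ 4 / c.γ) ≤ g.x ^ 2 / c.γ :=
    calc _ = 104 * (c.C * c.γ) * g.x ^ 2 * (g.x ^ 2 / c.γ) := by rw [t1_sq L]; ring
      _ ≤ 1 * 1 ^ 2 * (g.x ^ 2 / c.γ) := by gcongr; linarith [Cγ1 L, mul_pos (zero_lt_one.trans_le hC) hγ]
      _ = _ := by ring
  calc _ ≤ (e.P : ℝ) * (sc c e g * (20 * (g.x ^ 2 / c.γ) + g.x ^ 2 / c.γ)) := by gcongr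
    _ = 21 * g.x / e.P := by rw [sc]; field_simp; ring
    _ ≤ 1 := by rw [div_le_one (by positivity)]; linarith [L.P_ge]

theorem num2 (L : Led c e g) : sc c e g * (2 * (10 / 9 * ((e.P : ℝ) ^ 5 * e.Q * g.x ^ 2)) *
    (2 * c.C) / (9 / 10 * c.γ)) ≤ 1 / (4 * e.P) := by
  have hγ := L.ok.γ0
  have hC := L.ok.C1
  have hx := L.x_pos
  have hP := P_one L
  have h2 : c.C ≤ c.C ^ 3 := le_self_pow₀ hC (by norm_num)
  rw [le_div_iff₀ (by positivity)]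
  calc _ = 1600 / 81 * c.C * ((e.P : ℝ) ^ 4 * e.Q * g.x) := by rw [sc]; field_simp; ring
    _ ≤ e.P * ((e.P : ℝ) ^ 14 * e.Q * g.x) := by gcongr; linarith [C_P L]; norm_num
    _ ≤ 1 := by linarith [L.main]

theorem num3 (L : Led c e g) : (e.P : ℝ) * (sc c e g ^ 2 * q7 (9 / 10 * c.γ) (2 * c.C)
    (13 * g.x ^ 4 / c.γ) (t1 c) (g.x ^ 2)) ≤ 1 / (4 * e.P) := by
  have hγ := L.ok.γ0
  have hC := L.ok.C1
  have hx := L.x_pos
  have hx1 := x_one L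
  have hP := P_one L
  have h4 : t1 c ^ 4 = (4 * c.C * c.γ) ^ 2 := by rw [← t1_sq L]; ring
  have h5 : c.C * c.γ * g.x ^ 2 ≤ 1 / 10 ^ 6 * 1 ^ 2 := by gcongr; linarith [Cγ1 L]
  rw [le_div_iff₀ (by positivity)]
  calc _ = 80 / 9 * c.C ^ 2 * (32 * (100 / 81 * 1 + 260 / 9 * c.C) +
        33280 / 9 * c.C * (c.C * c.γ * g.x ^ 2)) / (e.P : ℝ) ^ 2 := by
        rw [sc, q7, h4, t1_sq L]; field_simp; ring
    _ ≤ 80 / 9 * c.C ^ 2 * (32 * (100 / 81 * c.C + 260 / 9 * c.C) +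
        33280 / 9 * c.C * (1 / 10 ^ 6 * 1 ^ 2)) / (e.P : ℝ) ^ 2 := by gcongr
    _ ≤ 1 := by
        rw [div_le_one (by positivity)]
        nlinarith [C_P L, pow_pos (zero_lt_one.trans_le hC) 3]

theorem num4 (L : Led c e g) : 2 ^ d * (2 / sc c e g) + 4 * e.Bg ^ 4 * Real.exp (-e.ϑ * e.ρ / 2) *
    (6 * d / e.ϑ) ^ (2 * d) ≤ (e.P : ℝ) ^ 3 * g.z / 2 / c.γ := by
  have hγ := L.ok.γ0
  have hC := L.ok.C1
  have hx := L.x_pos
  have hP := P_one L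
  have hϑ := L.ϑ0
  have hxz := L.x_le_z
  have hB : 1 ≤ e.Bg := le_trans (by norm_num) L.B_ge
  have hd : (3 : ℝ) ≤ d := by exact_mod_cast L.ok.hd
  have h1 : (2 : ℝ) ^ d * 8 ≤ e.P := by
    refine le_trans ?_ L.P2
    gcongr
    · calc (2 : ℝ) ^ d ≤ (100 * d) ^ d := by gcongr; linarith
        _ ≤ _ := by gcongr; linarith; omega
    · nlinarith [one_le_pow₀ (n := 15) hC]
  have h2 : 2 ^ d * (2 / sc c e g) ≤ (e.P : ℝ) ^ 3 * g.z / 4 / c.γ :=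
    calc _ = 2 ^ d * 8 * ((e.P : ℝ) ^ 2 * g.x) / 4 / c.γ := by rw [sc]; field_simp; ring
      _ ≤ e.P * ((e.P : ℝ) ^ 2 * g.z) / 4 / c.γ := by gcongr
      _ = _ := by ring
  have h3 : Real.exp (-e.ϑ * e.ρ / 2) ≤ Real.exp (-e.ϑ * e.ρ / 4) := by
    have : 0 ≤ e.ϑ * e.ρ := by positivity
    exact Real.exp_le_exp.2 (by linarith)
  have h4 : (6 * d / e.ϑ) ^ (2 * d) ≤ e.Bg := le_trans (by gcongr; norm_num) L.B_ϑ
  have h5 : 16 * c.γ ≤ (e.P : ℝ) ^ 3 := by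
    have : (e.P : ℝ) ≤ (e.P : ℝ) ^ 3 := le_self_pow₀ hP (by norm_num)
    nlinarith [Cγ1 L, L.P_ge]
  have h6 : 4 * e.Bg ^ 4 * Real.exp (-e.ϑ * e.ρ / 2) * (6 * d / e.ϑ) ^ (2 * d) ≤ 4 * g.x :=
    calc _ ≤ 4 * e.Bg ^ 4 * Real.exp (-e.ϑ * e.ρ / 4) * e.Bg := by gcongr
      _ = 4 * (e.Bg ^ 5 * Real.exp (-e.ϑ * e.ρ / 4)) * 1 := by ring
      _ ≤ 4 * (e.Bg ^ 39 * Real.exp (-e.ϑ * e.ρ / 4)) * (e.Bg * g.x) := by
          gcongr; norm_num; exact L.B_x'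
      _ = 4 * g.x * (e.Bg ^ 40 * Real.exp (-e.ϑ * e.ρ / 4)) := by ring
      _ ≤ 4 * g.x * 1 := by gcongr; exact L.tail
      _ = _ := mul_one _
  have h7 : 4 * g.x ≤ (e.P : ℝ) ^ 3 * g.z / 4 / c.γ := by
    rw [le_div_iff₀ hγ]
    calc _ = 16 * c.γ * g.x / 4 := by ring
      _ ≤ _ := by gcongr
  calc _ ≤ (e.P : ℝ) ^ 3 * g.z / 4 / c.γ + (e.P : ℝ) ^ 3 * g.z / 4 / c.γ := add_le_add h2 (h6.trans h7)
    _ = _ := by ring

theorem blk_add {B : Type} (X Y : Matrix (Tor d M) (Tor d M) ℂ) (i : B → Tor d M) :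
    blk (X + Y) i univ = blk X i univ + blk Y i univ := by
  ext u v; simp [blk]

variable {s0 s : CS d M}

/-- sizes in the environment -/
theorem sizes (L : Led c e g) (hf : RefOK c e f) (E : Env c e g f s0 s) :
    Sz c.A s.w s.ord (9 / 10 * c.γ) (2 * c.C) ∧
    (∀ y ∈ s.ord, ∀ x ∈ s.ord.erase y, ‖Gm c.A s.w x y‖ ≤ cs1 e g) ∧
    (∀ y ∈ s.ord, ∑ x ∈ s.ord.erase y, ‖Gm c.A s.w x y‖ ^ 4 ≤ 13 * g.x ^ 4 / c.γ) ∧
    (∀ y ∈ s.ord, ∀ k < c.N, ‖tau (Gm c.A s.w y y) (s.w y) (c.v y k)‖ ≤ t1 c) ∧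
    ∀ y ∈ s.ord, ‖avgV c.N fun k => tau (Gm c.A s.w y y) (s.w y) (c.v y k) ^ 2‖ ≤ t1 c ^ 2 := by
  have hγ := L.ok.γ0
  have hC := L.ok.C1
  have b := E.inv.bas
  have hτ : ∀ y ∈ s.ord, ∀ k < c.N, ‖tau (Gm c.A s.w y y) (s.w y) (c.v y k)‖ ≤ t1 c :=
    fun y hy k hk => Real.le_sqrt_of_sq_le (E.der.τ_le y hy k hk)
  refine ⟨⟨b.adm, by positivity, by positivity, fun x hx => E.der.gam_ge x (b.opn x hx), fun x hx =>
    (le_abs_self _).trans ((abs_im_le_norm _).trans (E.der.g_le x (hf.sub (b.sub hx)) (b.opn x hx)))⟩,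
    fun y hy x hx => Real.le_sqrt_of_sq_le (E.inv.ent x (mem_of_mem_erase hx) y hy (ne_of_mem_erase hx)),
    fun y hy => ?_, hτ, fun y hy => (norm_avgV_le _ _).trans ((avg_mono fun k hk => ?_).trans
      (avg_const L.ok.N0 _).le)⟩
  · rw [le_div_iff₀' hγ, sum_congr rfl fun x _ => by rw [b.adm.G_sym x y]]
    exact E.inv.four y hy
  · rw [norm_pow]; gcongr; exact hτ y hy k hk

end Hd

open Nt Hd M7 in
theorem fam_hd (L : Led c e g) (hf : RefOK c e f) {s0 : CS d M} (h0 : Pre c e g f s0) :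
    Fam c e g f s0 (OutHd c g) := by
  have hγ := L.ok.γ0
  have hC := L.ok.C1
  have hx := L.x_pos
  have hP := P_one L
  have hs := sc_pos L
  have hB : 1 ≤ e.Bg := le_trans (by norm_num) L.B_ge
  have hz : 0 ≤ (e.P : ℝ) ^ 3 * g.z / 2 := by have := L.z0; positivity
  have he' : 0 < g.e' := by linarith [L.e_x_le, L.e0]
  have hρ : ∀ p : Tor d M, tball p e.ρ ⊆ tball p (3 * e.ρ) := fun p => tball_mono p (by omega)
  refine (fam_ghost (Rc := Rch c e f s0) (Ev := Env c e g f s0) L h0.n0 (B := Bl d M (2 * e.ρ))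
    ((card_Bl _).trans_le (vol_mono (by omega)))
    (fun s Ys => Track7 c.A s0.ord s0.w s.w s.ord Ys (g.e' / c.γ) (4 * e.Bg ^ 4) e.ϑ)
    (fun s Ys ω => step7 c.A s.w s.ord c.N c.v Ys ω)
    (fun Ys p => mon7 (em (2 * e.ρ) p) (sc c e g) e.ρ Ys p) 0
    ⟨Track7.init _ _ _ _ (by positivity) _, fun p => mon7_zero _ _ _ _⟩
    (fun s Ys F h => h.shrink sdiff_subset) fun s Ys E _ h _ => ?_).mono
    (fun s R ⟨Ys, h, hm⟩ => ?_) le_rfl
  · obtain ⟨z1, z2, z3, z4, z5⟩ := sizes L hf E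
    have b := E.inv.bas
    have hA := E.rch.sub
    refine ⟨fun ω hω => ?_, fun p => LocA.mono L.ok.N0 (hρ p) ?_⟩
    · rcases ω with _ | ⟨y, k⟩
      · exact ⟨h, fun p => ⟨by simp [step7], fun _ => rfl⟩⟩
      have hy := hA hω.1
      have ht : t1 c ^ 2 ≤ 1 := by rw [t1_sq L]; nlinarith [Cγ1 L]
      refine ⟨h.close b.adm hy (div_pos he' hγ) (E.der.den y hy k hω.2)
        (E.der.g_le y (hf.sub (b.sub hy)) (b.opn y hy)) ?_ ((z5 y hy).trans ht)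
        ((z4 y hy k hω.2).trans ((pow_le_one_iff_of_nonneg (Real.sqrt_nonneg _) two_ne_zero).1 ht))
        L.ϑ0.le hB (fun x hx z hz => E.der.dec x (hf.opn0 (b.sub hx)) z (hf.opn0 (b.sub hz))) le_rfl,
        fun p => ⟨?_, fun hd => ?_⟩⟩
      · have h2 : c.C ≤ c.C ^ 30 := le_self_pow₀ hC (by norm_num)
        calc _ ≤ t1 c ^ 2 * (g.e' / c.γ + (2 * c.C) ^ 2) := by gcongr; exact z5 y hy
          _ = 4 * (c.C * g.e') + 16 * (c.C ^ 3 * c.γ) := by rw [t1_sq L]; field_simp; ring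
          _ ≤ 1 := by nlinarith [L.e'_small, Cγ L]
      · rw [mon7_step, mon7, accUp, add_zero, blk_add, smul_add, add_sub_cancel_left, norm_smul,
          Complex.norm_real, Real.norm_of_nonneg hs.le]
        have h1 := z1.norm_Y7 (Real.sqrt_nonneg _) (z2 y hy) (z3 y hy) (z4 y hy k hω.2) (z5 y hy)
        have h2 : ‖if y ∈ tball p e.ρ then inc c.A s.w s.ord c.N c.v y k else 0‖ ≤
            2 * t1 c * cs1 e g ^ 2 / (9 / 10 * c.γ) + 2 * t1 c ^ 2 * (13 * g.x ^ 4 / c.γ) := by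
          split_ifs
          · exact h1
          · rw [norm_zero]; exact (norm_nonneg _).trans h1
        have h3 := mul_le_mul_of_nonneg_left ((norm_blk_le _ (em_inj (2 * e.ρ) p) univ).trans h2) hs.le
        have h4 := num1 L
        have h5 := (mul_nonneg hs.le (norm_nonneg _)).trans h3
        exact h3.trans ((le_mul_of_one_le_left h5 hP).trans h4)
      · rw [mon7_step, mon7, accUp, add_zero, if_neg fun h1 => disjoint_left.1 hd (hρ p h1) hy, add_zero]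
    · exact mon7_locA (em_inj _ p) L.ok.N0 dt_pos.le (by positivity) (by positivity) hs.le z1 hA
        (Real.sqrt_nonneg _) (by positivity) (by positivity) (by positivity)
        (fun y hy => z2 y (hA (mem_inter.1 hy).1)) (fun y hy => z3 y (hA (mem_inter.1 hy).1))
        (fun y hy => z4 y (hA (mem_inter.1 hy).1)) (fun y hy => by
          have hy' := hA (mem_inter.1 hy).1
          calc _ ≤ (e.P : ℝ) ^ 5 * e.Q * g.x ^ 2 * c.γ := E.inv.bias y hy'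
            _ = 10 / 9 * ((e.P : ℝ) ^ 5 * e.Q * g.x ^ 2) * (9 / 10 * c.γ) := by ring
            _ ≤ _ := by gcongr; exact z1.gam_ge y hy')
        (num1 L) (num2 L) (num3 L)
  · have h1 := (glue7 h.loc L.ϑ0 (L.ϑ_le.trans (by norm_num)) hs (em_inj _) (em_cov _) hm).trans (num4 L)
    have h2 : ‖cmp (RR c.A s0.w) s0.ord‖ ≤ (g.e + g.x) / c.γ := (le_div_iff₀' hγ).2 h0.inv.had
    have h3 : (g.e + g.x) / c.γ + (e.P : ℝ) ^ 3 * g.z / 2 / c.γ ≤ g.e' / c.γ := by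
      rw [← add_div]; gcongr; exact L.e_x_le
    exact (le_div_iff₀' hγ).1 ((h.norm_le R.bas.adm h2 h1 h3).trans h3)

end Crest.Agent.N334.AC.P
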