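import Crest.Agent.N334.AC.P.Gen
import Crest.Agent.N334.AC.P.Der
import Crest.Agent.N334.AC.P.One

/-! # S0520 part P: Lyapunov monitor of the diagonal (leaf; fill the sorries, keep the statements)
Finite set `Ω` of unit numbers, `card ≤ 100 P³Q`, `(1-η)|z| ≤ max Re (ω z)`, `η = φ/(2P)`. Rows `a ∈ ord`,
`Q = (Re (ω (G_aa - G⁰_aa)) - Be·nm a)/sc`, `sc = Be φ/4`, `Q s0 ≤ -4` (`Pre.nm`), `a = 0`, `J` = exact increment
(`One.quad_step`; `gam s0.w = gam s.w` off `s0.A` by `Rch.same`). Drift: `|G_ay|² (|b_y| - m2·Be·nm y) ≤ 0` by `Env.ly`,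
the linear part of `nm` by Ward (`One.mass_lin_nsq`). QV: `Inv.four`, `One.split`. -/

set_option autoImplicit false

open Finset Complex
open scoped Matrix.Norms.L2Operator Matrix

namespace Crest.Agent.N334.AC.P

variable {d M : ℕ} [NeZero M] {c : Cx d M} {e : Ep} {g : Sg} {f : Ref d M}

namespace Ly

/-- a net of directions -/
lemma net {n : ℕ} (hn : 0 < n) : ∃ ω : Fin (n + 1) → ℂ, (∀ j, ‖ω j‖ = 1) ∧
    ∀ z : ℂ, ∃ j, (1 - 32 / (n : ℝ) ^ 2) * ‖z‖ ≤ (ω j * z).re := by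
  have hn' : (0 : ℝ) < n := by exact_mod_cast hn
  refine ⟨fun j => exp ((4 - (j : ℕ) * (8 / n) : ℝ) * I), fun j => norm_exp_ofReal_mul_I _,
    fun z => ?_⟩
  have h1 := abs_le.1 ((abs_arg_le_pi z).trans Real.pi_le_four)
  have h0 : 0 ≤ (arg z + 4) * n / 8 := by have := h1.1; have : 0 ≤ arg z + 4 := by linarith
                                          positivity
  have hj : ⌊(arg z + 4) * n / 8⌋₊ < n + 1 := by
    rw [Nat.floor_lt h0]; push_cast; nlinarith [h1.2]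
  refine ⟨⟨_, hj⟩, ?_⟩
  have a1 := Nat.floor_le h0
  have a2 := Nat.lt_floor_add_one ((arg z + 4) * n / 8)
  simp only
  generalize (⌊(arg z + 4) * n / 8⌋₊ : ℝ) = j at *
  have e : exp ((4 - j * (8 / n) : ℝ) * I) * z =
      (‖z‖ : ℝ) * exp ((arg z + 4 - j * (8 / n) : ℝ) * I) := by
    conv_lhs => rw [← norm_mul_exp_arg_mul_I z]
    rw [mul_left_comm, ← exp_add]; congr 2; push_cast; ring
  have e2 : arg z + 4 - j * (8 / n) = ((arg z + 4) * n / 8 - j) * (8 / n) := by field_simp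
  rw [e, re_ofReal_mul, exp_ofReal_mul_I_re, mul_comm, e2]
  refine mul_le_mul_of_nonneg_left (le_trans ?_ Real.one_sub_sq_div_two_le_cos) (norm_nonneg _)
  have : ((arg z + 4) * n / 8 - j) ^ 2 ≤ 1 := by nlinarith
  have e3 : 32 / (n : ℝ) ^ 2 = (8 / n) ^ 2 / 2 := by field_simp; norm_num
  rw [e3, mul_pow]
  nlinarith [sq_nonneg (8 / (n : ℝ))]

/-- the increment of the monitor -/
noncomputable def inc (ω : ℂ) (B : ℝ) (t u l : ℂ) (n : ℝ) : ℝ :=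
  -(t * (ω * u ^ 2)).re + 2 * B * (t * (u * l)).re - B * (‖u‖ ^ 2 * n) * ‖t‖ ^ 2

lemma inc_abs {ω t u l : ℂ} {B n : ℝ} (hω : ‖ω‖ = 1) (hB : 0 ≤ B) (ht : ‖t‖ ≤ 1) (hn : 0 ≤ n)
    (hBn : B * n ≤ 1) : |inc ω B t u l n| ≤ 2 * ‖t‖ * ‖u‖ * (‖u‖ + B * ‖l‖) := by
  have h1 := abs_le.1 (abs_re_le_norm (t * (ω * u ^ 2)))
  have h2 := abs_le.1 (abs_re_le_norm (t * (u * l)))
  simp only [norm_mul, norm_pow, hω, one_mul] at h1 h2
  have h3 : B * (‖u‖ ^ 2 * n) * ‖t‖ ^ 2 ≤ ‖t‖ * ‖u‖ ^ 2 := by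
    calc _ = B * n * ‖t‖ * (‖t‖ * ‖u‖ ^ 2) := by ring
      _ ≤ 1 * 1 * (‖t‖ * ‖u‖ ^ 2) := by gcongr
      _ = _ := by ring
  have h4 : 0 ≤ B * (‖u‖ ^ 2 * n) * ‖t‖ ^ 2 := by positivity
  have h5 := mul_le_mul_of_nonneg_left h2.1 hB
  have h6 := mul_le_mul_of_nonneg_left h2.2 hB
  have h7 : 0 ≤ ‖t‖ * ‖u‖ ^ 2 := by positivity
  rw [inc, abs_le]
  constructor <;> linarith [h1.1, h1.2]

lemma avg_inc {ω u l : ℂ} {B n : ℝ} {N : ℕ} {t : ℕ → ℂ} (hω : ‖ω‖ = 1) (hB : 0 ≤ B)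
    (h : ‖avgV N t‖ ≤ avg N (fun k => ‖t k‖ ^ 2) * (B * n)) :
    avg N (fun k => inc ω B (t k) u l n) ≤ B * ‖avgV N t‖ * (‖u‖ ^ 2 + ‖l‖ ^ 2) := by
  have e : ∀ k, inc ω B (t k) u l n = (t k * (-(ω * u ^ 2) + (2 * B : ℝ) * (u * l))).re +
      -(B * (‖u‖ ^ 2 * n)) * ‖t k‖ ^ 2 := fun k => by
    rw [inc, mul_add, add_re, mul_neg, neg_re, mul_left_comm, mul_left_comm (t k) (2 * B : ℝ),
      re_ofReal_mul]
    ring
  simp only [e, avg_add, avg_mul, avg_re, avgV_mul]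
  have h1 := (re_le_norm (avgV N t * (-(ω * u ^ 2) + (2 * B : ℝ) * (u * l)))).trans_eq (norm_mul _ _)
  have h2 := norm_add_le (-(ω * u ^ 2)) ((2 * B : ℝ) * (u * l))
  simp only [norm_neg, norm_mul, norm_pow, hω, one_mul, norm_real, Real.norm_eq_abs, abs_two,
    abs_of_nonneg hB] at h2
  have h3 := mul_le_mul_of_nonneg_left h2 (norm_nonneg (avgV N t))
  have h4 := mul_le_mul_of_nonneg_left h (sq_nonneg ‖u‖)
  nlinarith [mul_nonneg (mul_nonneg hB (norm_nonneg (avgV N t))) (sq_nonneg (‖u‖ - ‖l‖))]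

lemma wardL {ι : Type} [Fintype ι] [DecidableEq ι] {A : Matrix ι ι ℂ} {w : ι → ℂ} (h : Adm A w)
    (Q : Finset ι) (a : ι) : ∑ y, gam w y * ‖∑ b ∈ Q, (gam w b : ℂ) * (starRingEnd ℂ) (Gm A w a b) *
      Gm A w y b‖ ^ 2 ≤ (Gm A w a a).im := by
  have h1 := One.mass_lin_nsq h.wardK Q fun b => (√(gam w b) : ℝ) * Gm A w a b
  have sq : ∀ (b : ι) (z : ℂ), ‖(√(gam w b) : ℝ) * z‖ ^ 2 = gam w b * ‖z‖ ^ 2 := fun b z => by
    rw [norm_mul, mul_pow, norm_real, Real.norm_of_nonneg (Real.sqrt_nonneg _),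
      Real.sq_sqrt (h.diss b)]
  refine le_trans (le_of_eq (sum_congr rfl fun y _ => ?_)) (h1.trans ?_)
  · rw [← sq, mul_sum]
    congr 2
    refine sum_congr rfl fun b _ => ?_
    have : ((√(gam w b) : ℝ) : ℂ) * (√(gam w b) : ℝ) = (gam w b : ℝ) := by
      rw [← ofReal_mul, Real.mul_self_sqrt (h.diss b)]
    rw [Km, map_mul, conj_ofReal, ← this]; ring
  · rw [← h.ward_diag a]
    simp only [sq]
    exact sum_le_sum_of_subset_of_nonneg (subset_univ Q) fun b _ _ =>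
      mul_nonneg (h.diss b) (by positivity)

/-- the linear coefficient of the mass -/
noncomputable def lc (c : Cx d M) (s0 : CS d M) (w : Tor d M → ℂ) (a y : Tor d M) : ℂ :=
  ∑ b ∈ univ \ s0.A, (gam s0.w b : ℂ) * (starRingEnd ℂ) (c.G w a b) * c.G w y b

/-- the monitor before normalisation -/
noncomputable def mon (c : Cx d M) (B : ℝ) (s0 : CS d M) (ω : ℂ) (a : Tor d M) (w : Tor d M → ℂ) :
    ℝ := (ω * (c.G w a a - c.G s0.w a a)).re - B * nm c s0 w a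

lemma mon_step {B : ℝ} {s0 : CS d M} {w : Tor d M → ℂ} (h : Adm c.A w) {y : Tor d M} {k : ℕ}
    (hy : 1 + ((c.v y k : ℂ) - w y) * c.G w y y ≠ 0) (ω : ℂ) (a : Tor d M) :
    mon c B s0 ω a (cls1 w y (c.v y k)) = mon c B s0 ω a w +
      inc ω B (c.τ w y k) (c.G w a y) (lc c s0 w a y) (nm c s0 w y) := by
  have h1 : ∀ b, c.G (cls1 w y (c.v y k)) a b = c.G w a b - c.τ w y k * c.G w a y * c.G w y b :=
    fun b => h.close_G hy a b
  have h2 : c.G w y a = c.G w a y := h.G_sym y a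
  have h3 : ω * (c.G w a a - c.τ w y k * c.G w a y * c.G w a y - c.G s0.w a a) =
      ω * (c.G w a a - c.G s0.w a a) - c.τ w y k * (ω * c.G w a y ^ 2) := by ring
  simp only [mon, nm, h1, One.quad_step, h2, h3]
  rw [sub_re, inc, lc, norm_mul, mul_assoc (c.τ w y k)]
  ring

variable {s0 s : CS d M}

lemma env (L : Led c e g) (hf : RefOK c e f) (h : Env c e g f s0 s) {a : Tor d M} (ha : a ∈ s.ord) :
    (∀ y ∈ s.ord, 0 ≤ nm c s0 s.w y ∧ nm c s0 s.w y ≤ 2 * c.C ∧ ‖lc c s0 s.w a y‖ ≤ 2 * c.C ∧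
      ‖c.G s.w a y‖ ≤ 2 * c.C) ∧ c.γ * ∑ y ∈ s.ord, ‖c.G s.w a y‖ ^ 2 ≤ 3 * c.C ∧
      c.γ * ∑ y ∈ s.ord, ‖lc c s0 s.w a y‖ ^ 2 ≤ 3 * c.C := by
  have hb := h.rch.bas
  have hC := L.ok.C1
  have hg : ∀ b ∈ univ \ s0.A, gam s0.w b = gam s.w b := fun b hb' => by
    rw [gam, gam, h.rch.same b (Or.inr (mem_sdiff.1 hb').2)]
  have him : ∀ y ∈ s.ord, (c.G s.w y y).im ≤ 2 * c.C := fun y hy =>
    (im_le_norm _).trans (h.der.g_le y (hf.sub (hb.sub hy)) (hb.opn y hy))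
  have hn : ∀ y ∈ s.ord, 0 ≤ nm c s0 s.w y ∧ nm c s0 s.w y ≤ 2 * c.C := fun y hy => by
    rw [nm, sum_congr rfl fun b hb' => by rw [hg b hb']]
    refine ⟨sum_nonneg fun b _ => mul_nonneg (hb.adm.diss b) (by positivity),
      le_trans ?_ ((hb.adm.ward_diag y).trans_le (him y hy))⟩
    exact sum_le_sum_of_subset_of_nonneg (subset_univ _) fun b _ _ =>
      mul_nonneg (hb.adm.diss b) (by positivity)
  have key : ∀ z : Tor d M → ℂ, ∑ y, gam s.w y * ‖z y‖ ^ 2 ≤ (c.G s.w a a).im →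
      c.γ * ∑ y ∈ s.ord, ‖z y‖ ^ 2 ≤ 3 * c.C := fun z hz => by
    have h1 : ∑ y ∈ s.ord, 9 / 10 * c.γ * ‖z y‖ ^ 2 ≤ ∑ y, gam s.w y * ‖z y‖ ^ 2 :=
      (sum_le_sum fun y hy => mul_le_mul_of_nonneg_right (h.der.gam_ge y (hb.opn y hy))
        (by positivity)).trans (sum_le_sum_of_subset_of_nonneg (subset_univ _) fun b _ _ =>
          mul_nonneg (hb.adm.diss b) (by positivity))
    rw [← mul_sum] at h1
    linarith [him a ha]
  refine ⟨fun y hy => ⟨(hn y hy).1, (hn y hy).2, ?_,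
    h.der.e_le a ha y (hf.sub (hb.sub hy)) (hb.opn y hy)⟩, key _ (hb.adm.ward_diag a).le, key _ ?_⟩
  · have h1 := One.quad_lin_sq (univ \ s0.A) (ω := gam s0.w)
      (fun b hb' => (hg b hb').symm ▸ hb.adm.diss b) (c.G s.w a) (c.G s.w y)
    refine (abs_le_of_sq_le_sq' (h1.trans ?_) (by linarith)).2
    rw [sq]
    exact mul_le_mul (hn a ha).2 (hn y hy).2 (hn y hy).1 (by linarith)
  · refine le_trans (le_of_eq (sum_congr rfl fun y _ => ?_)) (wardL hb.adm (univ \ s0.A) a)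
    rw [lc, sum_congr rfl fun b hb' => by rw [hg b hb']]
    rfl

lemma num (L : Led c e g) : 0 < Be e g ∧ 4 * c.C * Be e g ≤ g.x ∧ g.x ≤ 1 ∧ 4 * c.C * c.γ ≤ 1 ∧
    10 ^ 5 * c.C ^ 4 ≤ (e.P : ℝ) ∧ 96 * c.C * (Be e g * ((e.P : ℝ) ^ 4 * e.Q)) ≤ 1 := by
  have hC := L.ok.C1
  have hP := L.P_ge
  have hx := L.x_pos
  have hQ : (0 : ℝ) < e.Q := lt_of_lt_of_le (by positivity) L.Q_ge
  have c1 : c.C ≤ c.C ^ 30 := le_self_pow₀ hC (by norm_num)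
  have c4 : c.C ^ 4 ≤ c.C ^ 30 := pow_le_pow_right₀ hC (by norm_num)
  have p1 := L.P1
  have hm := L.main
  have p2 : ∀ n, n ≠ 0 → (e.P : ℝ) ≤ e.P ^ n := fun n hn => le_self_pow₀ (by linarith) hn
  refine ⟨by unfold Be; positivity, ?_, ?_, ?_, by linarith, ?_⟩
  · calc 4 * c.C * Be e g ≤ (e.P : ℝ) ^ 11 * Be e g :=
          mul_le_mul_of_nonneg_right (by linarith [p2 11 (by norm_num)]) (by unfold Be; positivity)
      _ = e.P ^ 15 * e.Q * g.x * g.x := by unfold Be; ring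
      _ ≤ 1 * g.x := by gcongr
      _ = _ := one_mul _
  · nlinarith [L.x_small, p2 21 (by norm_num)]
  · nlinarith [L.ok.γ_le, L.ok.γ0]
  · calc _ ≤ (e.P : ℝ) ^ 22 * (Be e g * ((e.P : ℝ) ^ 4 * e.Q)) :=
          mul_le_mul_of_nonneg_right (by linarith [p2 22 (by norm_num)]) (by unfold Be; positivity)
      _ = (e.P ^ 15 * e.Q * g.x) ^ 2 := by unfold Be; ring
      _ ≤ 1 := pow_le_one₀ (by positivity) hm

lemma sq_bd {j T U Λ B C γ x : ℝ} (hj : |j| ≤ 2 * T * U * (U + B * Λ)) (hT : T ^ 2 ≤ 4 * C * γ)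
    (hγ : 0 ≤ γ) (hC : 1 ≤ C) (hΛ0 : 0 ≤ Λ) (hΛ : Λ ≤ 2 * C) (hB0 : 0 ≤ B) (hB : 4 * C * B ≤ x) :
    j ^ 2 ≤ 64 * C * (γ * U ^ 4) + 128 * C ^ 3 * x ^ 4 * (γ * Λ ^ 2) := by
  have h1 : j ^ 2 ≤ (2 * T * U * (U + B * Λ)) ^ 2 := sq_le_sq' (abs_le.1 hj).1 (abs_le.1 hj).2
  have h2 : (U * (U + B * Λ)) ^ 2 ≤ 4 * U ^ 4 + 2 * (B * Λ) ^ 4 := by
    nlinarith [sq_nonneg (U ^ 2 - (B * Λ) ^ 2), sq_nonneg (U * (U - B * Λ)), sq_nonneg (U ^ 2),
      sq_nonneg ((B * Λ) ^ 2)]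
  have h3 : (B * Λ) ^ 4 ≤ x ^ 4 * ((2 * C) ^ 2 * Λ ^ 2) := by
    rw [mul_pow, show Λ ^ 4 = Λ ^ 2 * Λ ^ 2 by ring]
    have : B ≤ x := by nlinarith
    gcongr
  calc j ^ 2 ≤ 4 * (T ^ 2 * (U * (U + B * Λ)) ^ 2) := h1.trans_eq (by ring)
    _ ≤ 4 * (4 * C * γ * (4 * U ^ 4 + 2 * (x ^ 4 * ((2 * C) ^ 2 * Λ ^ 2)))) := by
        gcongr; linarith
    _ = _ := by ring

lemma step (L : Led c e g) (hf : RefOK c e f) (h : Env c e g f s0 s) {a : Tor d M} (ha : a ∈ s.ord)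
    {ω : ℂ} (hω : ‖ω‖ = 1) (U : Finset (Tor d M)) {sc : ℝ} (hsc : sc = (e.P : ℝ) ^ 2 * g.x ^ 2 / 4)
    {J : Tor d M → ℕ → ℝ} (hJ : ∀ y k, J y k = if y = a then 0 else sc⁻¹ *
      inc ω (Be e g) (c.τ s.w y k) (c.G s.w a y) (lc c s0 s.w a y) (nm c s0 s.w y)) :
    (∀ y ∈ s.A, ∀ k < c.N, e.ρ ≤ tdist y a → J y k ≤ tl e a y) ∧
    (∀ y ∈ s.A ∩ U, ∀ k < c.N, (e.P : ℝ) * |J y k| ≤ 1) ∧
    ∑ y ∈ s.A ∩ U, avg c.N (J y) ≤ 1 / (4 * e.P) ∧
    (e.P : ℝ) * ∑ y ∈ s.A ∩ U, avg c.N (fun k => J y k ^ 2) ≤ 1 / (4 * e.P) := by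
  obtain ⟨e1, e2, e3⟩ := env L hf h ha
  obtain ⟨n0, n1, n2, n3, n4, n5⟩ := num L
  have hC := L.ok.C1
  have hP := L.P_ge
  have hx := L.x_pos
  have hγ := L.ok.γ0
  have hA := h.rch.sub
  have hs0 : 0 < sc := by rw [hsc]; positivity
  have hτ : ∀ y ∈ s.A, ∀ k < c.N, ‖c.τ s.w y k‖ ≤ 1 := fun y hy k hk =>
    (abs_le_of_sq_le_sq' ((h.der.τ_le y (hA hy) k hk).trans (by linarith)) zero_le_one).2
  have hab := fun y (hy : y ∈ s.A) k (hk : k < c.N) =>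
    inc_abs (u := c.G s.w a y) (l := lc c s0 s.w a y) hω n0.le (hτ y hy k hk) (e1 y (hA hy)).1
      (by nlinarith [mul_le_mul_of_nonneg_left (e1 y (hA hy)).2.1 n0.le])
  set q : Tor d M → ℝ := fun y => if y = a then 0 else sc⁻¹ ^ 2 *
    (64 * c.C * (c.γ * ‖c.G s.w a y‖ ^ 4) +
      128 * c.C ^ 3 * g.x ^ 4 * (c.γ * ‖lc c s0 s.w a y‖ ^ 2)) with hq
  have q0 : ∀ y, 0 ≤ q y := fun y => by simp only [hq]; split_ifs <;> positivity
  have q1 : ∀ y ∈ s.A, ∀ k < c.N, J y k ^ 2 ≤ q y := fun y hy k hk => by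
    simp only [hq, hJ]
    split_ifs
    · simp
    · rw [mul_pow]
      exact mul_le_mul_of_nonneg_left (sq_bd (hab y hy k hk) (h.der.τ_le y (hA hy) k hk) hγ.le hC
        (norm_nonneg _) (e1 y (hA hy)).2.2.1 n0.le n1) (by positivity)
  have q2 : ∑ y ∈ s.A ∩ U, q y ≤ 1 / (4 * (e.P : ℝ) ^ 2) := by
    have h1 : ∑ y ∈ s.A ∩ U, q y ≤ ∑ y ∈ s.ord.erase a, q y := by
      rw [sum_erase _ (by simp [hq])]
      exact sum_le_sum_of_subset_of_nonneg (inter_subset_left.trans hA) fun y _ _ => q0 y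
    rw [sum_congr rfl fun y hy => if_neg (ne_of_mem_erase hy), ← mul_sum, sum_add_distrib,
      ← mul_sum, ← mul_sum, ← mul_sum, ← mul_sum] at h1
    have h2 : c.γ * ∑ y ∈ s.ord.erase a, ‖c.G s.w a y‖ ^ 4 ≤ 13 * g.x ^ 4 := h.inv.four a ha
    have h3 : c.γ * ∑ y ∈ s.ord.erase a, ‖lc c s0 s.w a y‖ ^ 2 ≤ 3 * c.C :=
      (mul_le_mul_of_nonneg_left (sum_le_sum_of_subset_of_nonneg (erase_subset _ _)
        fun _ _ _ => by positivity) hγ.le).trans e3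
    have c1 : c.C ≤ c.C ^ 4 := le_self_pow₀ hC (by norm_num)
    refine h1.trans ?_
    calc _ ≤ sc⁻¹ ^ 2 * (64 * c.C ^ 4 * (13 * g.x ^ 4) + 128 * c.C ^ 3 * g.x ^ 4 * (3 * c.C)) := by
          gcongr
      _ = 77824 * c.C ^ 4 / (e.P : ℝ) ^ 2 * (1 / (4 * (e.P : ℝ) ^ 2)) := by
          rw [hsc]; field_simp; ring
      _ ≤ _ := mul_le_of_le_one_left (by positivity) (div_le_one_of_le₀ (by nlinarith) (by positivity))
  refine ⟨fun y hy k hk hd => ?_, fun y hy k hk => ?_, ?_, ?_⟩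
  · rw [hJ]
    split_ifs
    · exact L.tl_nonneg _ _
    refine le_trans ?_ (L.far2 hd)
    have hb := h.rch.bas
    have hB := L.B_ge
    have h1 := h.der.dec y (hf.opn0 (hb.sub (hA hy))) a (hf.opn0 (hb.sub ha))
    rw [show c.G s.w y a = c.G s.w a y from hb.adm.G_sym y a] at h1
    have h2 : sc⁻¹ ≤ e.Bg ^ 2 := by
      rw [inv_le_iff_one_le_mul₀ hs0, hsc]
      have := one_le_pow₀ (n := 2) L.B_x'
      nlinarith [mul_le_mul_of_nonneg_left (show 4 ≤ (e.P : ℝ) ^ 2 by nlinarith)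
        (sq_nonneg (e.Bg * g.x))]
    have h3 : ‖c.G s.w a y‖ + Be e g * ‖lc c s0 s.w a y‖ ≤ 3 * c.C := by
      nlinarith [(e1 y (hA hy)).2.2.2, mul_le_mul_of_nonneg_left (e1 y (hA hy)).2.2.1 n0.le]
    have h4 : 6 * c.C ≤ e.Bg := by linarith [L.B_C, le_self_pow₀ hC (show 30 ≠ 0 by norm_num)]
    calc _ ≤ sc⁻¹ * (2 * ‖c.τ s.w y k‖ * ‖c.G s.w a y‖ *
            (‖c.G s.w a y‖ + Be e g * ‖lc c s0 s.w a y‖)) :=
          mul_le_mul_of_nonneg_left ((le_abs_self _).trans (hab y hy k hk)) (by positivity)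
      _ ≤ e.Bg ^ 2 * (2 * 1 * (e.Bg * Real.exp (-e.ϑ * tdist y a)) * (3 * c.C)) := by
          gcongr; exact hτ y hy k hk
      _ = e.Bg ^ 3 * (6 * c.C) * Real.exp (-e.ϑ * tdist y a) := by ring
      _ ≤ e.Bg ^ 29 * e.Bg * Real.exp (-e.ϑ * tdist y a) := by
          gcongr
          · linarith
          · norm_num
      _ = _ := by ring
  · have h1 := (q1 y (mem_inter.1 hy).1 k hk).trans
      ((single_le_sum (fun y _ => q0 y) hy).trans q2)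
    rw [le_div_iff₀ (by positivity)] at h1
    refine (abs_le_of_sq_le_sq' ?_ zero_le_one).2
    rw [mul_pow, sq_abs]
    nlinarith [mul_nonneg (sq_nonneg (e.P : ℝ)) (sq_nonneg (J y k))]
  · have h1 : ∀ y ∈ s.A ∩ U, avg c.N (J y) ≤ sc⁻¹ * (Be e g * ((e.P : ℝ) ^ 5 * e.Q * g.x ^ 2)) *
        (c.γ * (‖c.G s.w a y‖ ^ 2 + ‖lc c s0 s.w a y‖ ^ 2)) := fun y hy => by
      have hy' := hA (mem_inter.1 hy).1
      rw [funext (hJ y)]
      split_ifs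
      · rw [avg_const L.ok.N0]; positivity
      rw [avg_mul, mul_assoc]
      refine mul_le_mul_of_nonneg_left ((avg_inc hω n0.le (h.ly y hy')).trans ?_) (by positivity)
      have h2 : ‖avgV c.N (c.τ s.w y)‖ ≤ (e.P : ℝ) ^ 5 * e.Q * g.x ^ 2 * c.γ := h.inv.bias y hy'
      calc _ ≤ Be e g * ((e.P : ℝ) ^ 5 * e.Q * g.x ^ 2 * c.γ) *
            (‖c.G s.w a y‖ ^ 2 + ‖lc c s0 s.w a y‖ ^ 2) := by gcongr; exact h2
        _ = _ := by ring
    refine (sum_le_sum h1).trans ?_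
    rw [← mul_sum, ← mul_sum]
    have h2 : c.γ * ∑ y ∈ s.A ∩ U, (‖c.G s.w a y‖ ^ 2 + ‖lc c s0 s.w a y‖ ^ 2) ≤ 6 * c.C := by
      refine (mul_le_mul_of_nonneg_left (sum_le_sum_of_subset_of_nonneg
        (inter_subset_left.trans hA) fun _ _ _ => by positivity) hγ.le).trans ?_
      rw [sum_add_distrib]; linarith
    calc _ ≤ sc⁻¹ * (Be e g * ((e.P : ℝ) ^ 5 * e.Q * g.x ^ 2)) * (6 * c.C) := by gcongr
      _ = 96 * c.C * (Be e g * ((e.P : ℝ) ^ 4 * e.Q)) * (1 / (4 * e.P)) := by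
          rw [hsc]; field_simp; ring
      _ ≤ _ := mul_le_of_le_one_left (by positivity) n5
  · have h1 : ∑ y ∈ s.A ∩ U, avg c.N (fun k => J y k ^ 2) ≤ 1 / (4 * (e.P : ℝ) ^ 2) :=
      (sum_le_sum fun y hy => (avg_mono (q1 y (mem_inter.1 hy).1)).trans_eq
        (avg_const L.ok.N0 _)).trans q2
    exact (mul_le_mul_of_nonneg_left h1 (by positivity)).trans_eq (by field_simp)

end Ly

open Ly in
theorem fam_ly (L : Led c e g) (hf : RefOK c e f) {s0 : CS d M} (h0 : Pre c e g f s0) :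
    Fam c e g f s0 (OutLy c e g s0) := by
  have hP := L.P_ge
  have hx := L.x_pos
  have hQ : (e.P : ℝ) ^ 6 ≤ e.Q := L.Q_ge
  have hm : (100 : ℝ) ≤ (e.P : ℝ) ^ 3 * e.Q := by
    have h1 : (1 : ℝ) ≤ e.P ^ 3 := one_le_pow₀ (by linarith)
    have h2 : (e.P : ℝ) ≤ e.P ^ 6 := le_self_pow₀ (by linarith) (by norm_num)
    nlinarith
  have hn : ((e.P ^ 3 * e.Q : ℕ) : ℝ) = (e.P : ℝ) ^ 3 * e.Q := by push_cast; rfl
  obtain ⟨ω, hω, hnet⟩ := net (n := e.P ^ 3 * e.Q) (by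
    have : (0 : ℝ) < (e.P ^ 3 * e.Q : ℕ) := by rw [hn]; linarith
    exact_mod_cast this)
  obtain ⟨sc, hsc⟩ : ∃ sc, sc = (e.P : ℝ) ^ 2 * g.x ^ 2 / 4 := ⟨_, rfl⟩
  have hs0 : 0 < sc := by rw [hsc]; positivity
  obtain ⟨R, r1, r2, r3, r4⟩ := fam_scalar (Rc := Rch c e f s0) (Ev := Env c e g f s0) L h0.n0
    (fun s h => h.rch.sub) (ι := Tor d M × Fin (e.P ^ 3 * e.Q + 1)) Prod.fst
    (fun i s => i.1 ∈ s.ord) (fun i s => sc⁻¹ * mon c (Be e g) s0 (ω i.2) i.1 s.w)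
    (fun p => by
      refine le_trans ?_ L.mult_vol
      refine le_trans (Nat.cast_le.2 (card_le_card_of_injOn (t := univ) Prod.snd
        (fun _ _ => mem_univ _) fun i hi j hj h => Prod.ext ?_ h)) ?_
      · simp only [coe_filter, Set.mem_setOf_eq] at hi hj
        exact hi.2.1.trans hj.2.1.symm
      · rw [card_univ, Fintype.card_fin, Nat.cast_add, hn, Nat.cast_one]
        nlinarith [one_le_vol (d := d) (M := M) (10 * e.ρ)])
    (fun i s F h => ⟨(mem_sdiff.1 h).1, le_rfl⟩)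
    (fun i s o h => by
      rcases o with _ | ⟨y, k⟩
      exacts [h, mem_of_mem_erase h])
    (fun i s h _ ha => by
      obtain ⟨s1, s2, s3, s4⟩ := step L hf h ha (hω i.2) (tball i.1 (2 * e.ρ)) hsc fun _ _ => rfl
      refine ⟨0, _, by norm_num, Or.inl le_rfl, (add_zero _).ge, fun y hy k hk hl => ?_, s2, ?_, s4⟩
      · have hne : y ≠ i.1 := (ne_of_mem_erase hl).symm
        have e1 := mon_step (B := Be e g) (s0 := s0) h.rch.bas.adm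
          (h.der.den y (h.rch.sub hy) k hk) (ω i.2) i.1
        change sc⁻¹ * mon c (Be e g) s0 (ω i.2) i.1 (cls1 s.w y (c.v y k)) ≤ _
        rw [e1, mul_add, add_zero]
        refine add_le_add_right ?_ _
        have s5 := s1 y hy k hk
        simp only [if_neg hne] at s5 ⊢
        split_ifs with hb
        · exact le_rfl
        · exact s5 (by have := mt mem_tball.2 hb; omega)
      · rw [zero_add, div_eq_mul_one_div]
        exact mul_le_mul_of_nonneg_left s3 dt_pos.le)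
  refine ⟨R, r1, fun s π h => ⟨(r2 s π h).1, fun hs a ha => ?_⟩, r3, r4⟩
  obtain ⟨j, hj⟩ := hnet (c.G s.w a a - c.G s0.w a a)
  have h1 := (r2 s π h).2 hs (a, j) ha
  have ha0 : a ∈ s0.ord := by
    by_cases h : a ∈ s.A
    exacts [h0.sub (hs.subA h), (mem_sdiff.1 (hs.subS (mem_sdiff.2 ⟨ha, h⟩))).1]
  have h2 := mul_le_mul_of_nonneg_left (h0.nm a ha0) (num L).1.le
  have h3 := L.Be_φ
  have h4 := mul_le_mul_of_nonneg_left h1 hs0.le
  simp only [mul_add, mul_inv_cancel_left₀ hs0.ne', mon, sub_self, mul_zero, zero_re] at h4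
  have h5 : (1 - 32 / ((e.P : ℝ) ^ 3 * e.Q) ^ 2) * ‖c.G s.w a a - c.G s0.w a a‖ ≤
      Be e g * (nm c s0 s.w a - e.φ / 4) := by rw [← hn]; linarith
  have h6 : e.φ / e.P = 1 / ((e.P : ℝ) ^ 3 * e.Q) := by rw [Ep.φ]; field_simp
  rw [h6]
  generalize (e.P : ℝ) ^ 3 * e.Q = m at *
  have h7 : 1 ≤ (1 + 1 / m) * (1 - 32 / m ^ 2) := by
    have : (1 + 1 / m) * (1 - 32 / m ^ 2) - 1 = (m ^ 2 - 32 * m - 32) / m ^ 3 := by field_simp; ring
    have : 0 ≤ (m ^ 2 - 32 * m - 32) / m ^ 3 := div_nonneg (by nlinarith) (by positivity)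
    linarith
  exact (le_mul_of_one_le_left (norm_nonneg _) h7).trans
    ((mul_assoc _ _ _).trans_le (mul_le_mul_of_nonneg_left h5 (by positivity)))

end Crest.Agent.N334.AC.P
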