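import Mathlib

/-! # S0520 part P (helper78): numerical lemmas for the fourth moment monitors -/

set_option autoImplicit false

namespace Crest.Agent.N334.AC.P.FNh

/-- the numbers -/
structure Nm (C P Q γ x D r ρ m tg c4 ω NA NQ : ℝ) : Prop where
  C1 : 1 ≤ C
  hP : 10 ^ 60 * C ^ 5 ≤ P
  Q6 : P ^ 6 ≤ Q
  γ0 : 0 < γ
  γ1 : 10 ^ 60 * C ^ 5 * γ ≤ 1
  x0 : 0 < x
  main : P ^ 15 * Q * x ≤ 1
  hD : D = γ * x ^ 4
  r0 : 0 < r
  r4 : r ^ 4 * Q = 100 * D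
  ρ0 : 0 ≤ ρ
  ρ2 : ρ ^ 2 * γ ≤ 5 * C
  hm : m = 7 * ρ ^ 2 * (3 * C * γ) + 5 * c4
  tg0 : 0 ≤ tg
  tg1 : tg * γ ≤ 6 * C
  c40 : 0 ≤ c4
  c41 : c4 ≤ 320 * C ^ 2 * D
  ω1 : 1 ≤ ω
  ω2 : ω ≤ P ^ 2
  NA0 : 0 ≤ NA
  NQ0 : 0 ≤ NQ
  ωA : ω * NA ≤ 16 * D
  ωQ : ω * NQ ≤ 16 * D

namespace Nm

variable {C P Q γ x D r ρ m tg c4 ω NA NQ : ℝ} (h : Nm C P Q γ x D r ρ m tg c4 ω NA NQ)
include h

lemma Ck {k : ℕ} (hk : k ≤ 5) : C ^ k ≤ C ^ 5 := pow_le_pow_right₀ h.C1 hk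
lemma C5 : 1 ≤ C ^ 5 := one_le_pow₀ h.C1
lemma P60 : 10 ^ 60 ≤ P := by linarith [h.hP, h.C5]
lemma P1 : 1 ≤ P := by linarith [h.P60]
lemma Q1 : 1 ≤ Q := (one_le_pow₀ h.P1).trans h.Q6
lemma x1 : x ≤ 1 := le_trans (le_mul_of_one_le_left h.x0.le
  (one_le_mul_of_one_le_of_one_le (one_le_pow₀ h.P1) h.Q1)) h.main
lemma γ2 : 10 ^ 60 * γ ≤ 1 := by nlinarith [h.γ1, h.C5, h.γ0]
lemma γ3 : γ ≤ 1 := by linarith [h.γ2, h.γ0]
lemma D0 : 0 < D := by rw [h.hD]; exact mul_pos h.γ0 (pow_pos h.x0 4)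
lemma Dγ : D ≤ γ := by rw [h.hD]; exact mul_le_of_le_one_right h.γ0.le (pow_le_one₀ h.x0.le h.x1)
lemma r6 : r ^ 4 * P ^ 6 ≤ 100 * D :=
  (mul_le_mul_of_nonneg_left h.Q6 (pow_pos h.r0 4).le).trans h.r4.le
lemma m0 : 0 ≤ m := by
  have := h.C1; have := h.γ0; have := h.c40
  rw [h.hm]; positivity
lemma m1 : m ≤ 110 * C ^ 2 := by
  have h1 := mul_le_mul_of_nonneg_left h.ρ2 (show 0 ≤ 21 * C by linarith [h.C1])
  have h2 : 320 * D ≤ 1 := by linarith [h.Dγ, h.γ2, h.γ0]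
  have h3 := mul_le_mul_of_nonneg_left h2 (sq_nonneg C)
  rw [h.hm]
  linarith [h.c41]
lemma Cγ : 3 * C * γ ≤ 1 := by
  have := mul_le_mul_of_nonneg_right (h.Ck (k := 1) (by norm_num)) h.γ0.le
  have := mul_nonneg (zero_le_one.trans h.C5) h.γ0.le
  linarith [h.γ1]

lemma n1 {ℓ : ℝ} (hℓ : ℓ ^ 2 = r ^ 2 * (3 * C * γ) * NQ) :
    P * (ω * ((4 * ρ * ℓ + r ^ 3 * m) * r)) ≤ D / 64 := by
  have hP0 : 0 < P := by linarith [h.P1]
  have hC := h.C1; have hγ := h.γ0; have hD := h.D0; have hω := h.ω1; have hr := h.r0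
  have := h.NQ0; have := h.m0
  have h1 : P * (ω * (4 * ρ * ℓ * r)) ≤ D / 128 := by
    refine (abs_le_of_sq_le_sq' (le_of_mul_le_mul_right ?_ (pow_pos hP0 2)) (by positivity)).2
    have g1 : ρ ^ 2 * γ * C * ω * (ω * NQ) * (r ^ 4 * P ^ 4) ≤
        5 * C * C * P ^ 2 * (16 * D) * (r ^ 4 * P ^ 4) := by
      have := h.ρ2; have := h.ω2; have := h.ωQ
      gcongr
    have g2 := mul_le_mul_of_nonneg_left h.r6 (show 0 ≤ C ^ 2 * D by positivity)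
    have g3 : 10 ^ 12 * C ^ 2 ≤ P ^ 2 := by
      linarith [h.Ck (k := 2) (by norm_num), h.hP, h.C5, le_self_pow₀ h.P1 two_ne_zero]
    have g4 := mul_le_mul_of_nonneg_right g3 (sq_nonneg D)
    have g5 : 0 ≤ C ^ 2 * D ^ 2 := by positivity
    rw [show (P * (ω * (4 * ρ * ℓ * r))) ^ 2 = 16 * P ^ 2 * ω ^ 2 * ρ ^ 2 * r ^ 2 * ℓ ^ 2 by ring, hℓ]
    linarith
  have h2 : P * (ω * (r ^ 4 * m)) ≤ D / 128 := by
    refine le_of_mul_le_mul_right ?_ (pow_pos hP0 3)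
    have g1 : ω * m * (r ^ 4 * P ^ 4) ≤ P ^ 2 * (110 * C ^ 2) * (r ^ 4 * P ^ 4) := by
      gcongr
      exacts [h.ω2, h.m1]
    have g2 := mul_le_mul_of_nonneg_left h.r6 (sq_nonneg C)
    have g3 : 10 ^ 12 * C ^ 2 ≤ P ^ 3 := by
      linarith [h.Ck (k := 2) (by norm_num), h.hP, h.C5, le_self_pow₀ h.P1 three_ne_zero]
    have g4 := mul_le_mul_of_nonneg_right g3 hD.le
    have g5 : 0 ≤ C ^ 2 * D := by positivity
    linarith
  linarith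

lemma n2 : 2 * C * (2 * (γ * x ^ 2 * NQ) + 2 * (3 * C * γ * (NQ ^ 2 / (γ * x ^ 2)))) ≤
    (10 * C * P * γ * x ^ 3 / ω) ^ 2 := by
  have hC := h.C1; have hγ := h.γ0; have hx := h.x0; have hω := h.ω1; have := h.NQ0
  have hP := h.P1
  rw [div_pow, le_div_iff₀ (by positivity)]
  have g1 : ω * (ω * NQ) ≤ P ^ 2 * (16 * D) := by
    have := h.ω2; have := h.ωQ
    gcongr
  have g2 : (ω * NQ) ^ 2 / (γ * x ^ 2) ≤ 256 * γ * x ^ 6 := by
    rw [div_le_iff₀ (by positivity)]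
    refine (pow_le_pow_left₀ (by positivity) h.ωQ 2).trans (le_of_eq ?_)
    rw [h.hD]; ring
  have g3 := mul_le_mul_of_nonneg_left g1 (show 0 ≤ 4 * C * (γ * x ^ 2) by positivity)
  have g4 := mul_le_mul_of_nonneg_left g2 (show 0 ≤ 12 * C ^ 2 * γ by positivity)
  have g5 : 64 * C * P ^ 2 + 3072 * C ^ 2 ≤ 100 * C ^ 2 * P ^ 2 := by
    have : (100 : ℝ) ≤ P ^ 2 := by linarith [h.P60, le_self_pow₀ h.P1 two_ne_zero]
    linarith [mul_le_mul_of_nonneg_left this (sq_nonneg C),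
      mul_le_mul_of_nonneg_right (le_self_pow₀ hC two_ne_zero) (sq_nonneg P), sq_nonneg C]
  have g6 := mul_le_mul_of_nonneg_right g5 (show 0 ≤ γ ^ 2 * x ^ 6 by positivity)
  rw [h.hD] at g3
  have g7 : 2 * C * (2 * (γ * x ^ 2 * NQ) + 2 * (3 * C * γ * (NQ ^ 2 / (γ * x ^ 2)))) * ω ^ 2 =
      4 * C * (γ * x ^ 2) * (ω * (ω * NQ)) + 12 * C ^ 2 * γ * ((ω * NQ) ^ 2 / (γ * x ^ 2)) := by ring
  rw [g7]
  linarith

lemma n3 {e F t : ℝ} (he : 0 ≤ e) (he1 : 10 ^ 60 * C ^ 30 * e ≤ 1) (hF : 0 ≤ F)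
    (hF1 : P ^ 6 * F ≤ D) (ht1 : 1 ≤ t) (ht2 : t ≤ P) :
    ω * (4 * (2 * (P ^ 5 * Q * x ^ 2)) * (10 * C * P * γ * x ^ 3 / ω) +
      (4 * (2 * (P ^ 5 * Q * x ^ 2)) * (3 * C * γ) + 5 * c4) * NA +
      7 * tg * (25 * C ^ 2 * γ * e * (t * NA + NQ / t) +
        25 * C ^ 2 * γ * F * ((2 * C) ^ 2 * (t + 1 / t)))) ≤
      ω * (t * NA + NQ / t) / 10 ^ 4 + D / (128 * P) := by
  have hC := h.C1; have hγ := h.γ0; have hx := h.x0; have hω := h.ω1; have := h.NQ0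
  have hP1 := h.P1; have hD0 := h.D0; have hQ1 := h.Q1; have := h.NA0; have := h.tg0
  have := h.c40; have hx1 := h.x1; have hγ1 := h.γ3
  have hu : P ^ 7 * Q * x * P ≤ 1 := le_trans (by
    have := mul_le_mul_of_nonneg_right (pow_le_pow_right₀ hP1 (show 8 ≤ 15 by norm_num))
      (show 0 ≤ Q * x by positivity)
    linarith) h.main
  have hu' : 10 ^ 10 * C ^ 2 * (P ^ 7 * Q * x) ≤ 1 := by
    have := mul_le_mul_of_nonneg_right
      (show 10 ^ 10 * C ^ 2 ≤ P by linarith [h.Ck (k := 2) (by norm_num), h.hP, h.C5])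
      (show 0 ≤ P ^ 7 * Q * x by positivity)
    linarith
  have hCC : C ≤ C ^ 2 := le_self_pow₀ hC two_ne_zero
  have k1 : ω * (4 * (2 * (P ^ 5 * Q * x ^ 2)) * (10 * C * P * γ * x ^ 3 / ω)) ≤
      D / (512 * P) := by
    rw [le_div_iff₀ (by positivity)]
    have g1 := mul_le_mul_of_nonneg_right hu' hD0.le
    have g2 := mul_le_mul_of_nonneg_right hCC (show 0 ≤ P ^ 7 * Q * x * D by positivity)
    have g3 : 0 ≤ C ^ 2 * (P ^ 7 * Q * x * D) := by positivity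
    have g4 : ω * (4 * (2 * (P ^ 5 * Q * x ^ 2)) * (10 * C * P * γ * x ^ 3 / ω)) * (512 * P) =
        40960 * (C * (P ^ 7 * Q * x * D)) := by
      rw [h.hD]; field_simp; norm_num
    linarith
  have k2 : ω * ((4 * (2 * (P ^ 5 * Q * x ^ 2)) * (3 * C * γ) + 5 * c4) * NA) ≤ D / (512 * P) := by
    rw [le_div_iff₀ (by positivity)]
    have g1 : P ^ 6 * Q * x * (x * γ) ≤ P ^ 7 * Q * x * (1 * 1) := by
      gcongr; norm_num
    have g2 : P * 1 * x * (x ^ 3 * γ) ≤ P ^ 7 * Q * x * (1 * 1) := by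
      gcongr
      exacts [le_self_pow₀ hP1 (by norm_num), pow_le_one₀ hx.le hx1]
    have g3 := mul_le_mul hCC g1 (by positivity) (by positivity)
    have g4 := mul_le_mul_of_nonneg_left g2 (sq_nonneg C)
    have g5 := mul_le_mul_of_nonneg_left h.c41 (show 0 ≤ P by positivity)
    have g6 : (4 * (2 * (P ^ 5 * Q * x ^ 2)) * (3 * C * γ) + 5 * c4) * (8192 * P) ≤ 1 := by
      have g7 : 0 ≤ C ^ 2 * (P ^ 7 * Q * x) := by positivity
      rw [h.hD] at g5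
      linarith
    have g7 := mul_le_mul g6 h.ωA (by positivity) zero_le_one
    linarith
  have k3 : 7 * tg * (25 * C ^ 2 * γ * e) ≤ 1 / 10 ^ 4 := by
    have g1 := mul_le_mul_of_nonneg_left h.tg1 (show 0 ≤ C ^ 2 * e by positivity)
    have g2 := mul_le_mul_of_nonneg_right (pow_le_pow_right₀ hC (show 3 ≤ 30 by norm_num)) he
    have g3 : 0 ≤ C ^ 3 * e := by positivity
    linarith
  have k4 : ω * (7 * tg * (25 * C ^ 2 * γ * F * ((2 * C) ^ 2 * (t + 1 / t)))) ≤ D / (512 * P) := by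
    rw [le_div_iff₀ (by positivity)]
    have g1 : 1 / t ≤ P := ((div_le_one (by linarith)).2 ht1).trans hP1
    have g2 : ω * (tg * γ) * (t + 1 / t) * (C ^ 4 * F * P) ≤
        P ^ 2 * (6 * C) * (P + P) * (C ^ 4 * F * P) := by
      have := h.ω2; have := h.tg1
      gcongr
    have g3 : 10 ^ 10 * C ^ 5 ≤ P ^ 2 := by
      linarith [h.hP, h.C5, le_self_pow₀ h.P1 two_ne_zero]
    have g4 := mul_le_mul_of_nonneg_right g3 (show 0 ≤ P ^ 4 * F by positivity)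
    have g5 : 0 ≤ C ^ 5 * (P ^ 4 * F) := by positivity
    linarith
  have k5 := mul_le_mul_of_nonneg_right k3 (show 0 ≤ ω * (t * NA + NQ / t) by positivity)
  have k6 : D / (128 * P) = 4 * (D / (512 * P)) := by field_simp; norm_num
  have k7 : 0 ≤ D / (512 * P) := by positivity
  linarith

lemma n4a {e F : ℝ} (he : 0 ≤ e) (he1 : P ^ 3 * e ≤ 1) (hF : 0 ≤ F) (hF1 : P ^ 6 * F ≤ D) :
    P ^ 3 * (ω ^ 2 * (tg * ((25 * C ^ 2 * γ * e * (NA + NQ) +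
      2 * (25 * C ^ 2 * γ * F) * (2 * C) ^ 2) * NQ))) ≤ 10 ^ 6 * C ^ 5 * D ^ 2 := by
  have hC := h.C1; have hγ := h.γ0; have hω := h.ω1; have := h.NQ0
  have hP1 := h.P1; have hD0 := h.D0; have := h.NA0; have := h.tg0
  have g1 : tg * γ * C ^ 2 * (P ^ 3 * e) * ((ω * NA + ω * NQ) * (ω * NQ)) ≤
      6 * C * C ^ 2 * 1 * ((16 * D + 16 * D) * (16 * D)) := by
    have := h.tg1; have := h.ωA; have := h.ωQ
    gcongr
  have g2 : tg * γ * C ^ 4 * (P ^ 3 * ω * F) * (ω * NQ) ≤ 6 * C * C ^ 4 * D * (16 * D) := by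
    have : P ^ 3 * ω * F ≤ P ^ 4 * P ^ 2 * F := by
      gcongr
      exacts [by norm_num, h.ω2]
    have : P ^ 3 * ω * F ≤ D := by linarith
    have := h.tg1; have := h.ωQ
    gcongr
  have g3 := mul_le_mul_of_nonneg_right (h.Ck (k := 3) (by norm_num)) (sq_nonneg D)
  have g4 : 0 ≤ C ^ 5 * D ^ 2 := by positivity
  linarith

lemma n4b (hq : P ^ 5 ≤ Q * γ) :
    P ^ 3 * (ω ^ 2 * (tg * (2 * r ^ 4 * (NA + NQ)))) ≤ 10 ^ 6 * C ^ 5 * D ^ 2 := by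
  have hω := h.ω1; have := h.NQ0; have := h.r0
  have hP1 := h.P1; have hD0 := h.D0; have := h.NA0; have := h.tg0; have := h.C5
  have g1 : P ^ 3 * ω * (tg * r ^ 4) * (ω * NA + ω * NQ) ≤
      P ^ 3 * P ^ 2 * (tg * r ^ 4) * (16 * D + 16 * D) := by
    have := h.ω2; have := h.ωA; have := h.ωQ
    gcongr
  have g2 := mul_le_mul_of_nonneg_right hq (show 0 ≤ tg * r ^ 4 * D by positivity)
  have g3 := mul_le_mul_of_nonneg_right h.tg1 (sq_nonneg D)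
  have g4 : Q * γ * (tg * r ^ 4 * D) = 100 * (tg * γ * D ^ 2) := by
    linear_combination (γ * tg * D) * h.r4
  have g5 := mul_le_mul_of_nonneg_right (h.Ck (k := 1) (by norm_num)) (sq_nonneg D)
  have g6 : 0 ≤ C ^ 5 * D ^ 2 := by positivity
  linarith

lemma n4 {V : ℝ} (hV : P ^ 3 * (ω ^ 2 * (tg * V)) ≤ 10 ^ 6 * C ^ 5 * D ^ 2) :
    P * (ω ^ 2 * (32 * tg * V + 2 * (r ^ 2 * m) ^ 2 * NA)) ≤ D ^ 2 / (4096 * P) := by
  have hω := h.ω1; have := h.r0; have hC := h.C1; have := h.m0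
  have hP1 := h.P1; have hD0 := h.D0; have := h.NA0
  have k1 : P ^ 3 * (ω ^ 2 * ((r ^ 2 * m) ^ 2 * NA)) ≤ 10 ^ 8 * C ^ 5 * D ^ 2 := by
    have g1 : P ^ 3 * ω * r ^ 4 * m ^ 2 * (ω * NA) ≤
        P ^ 4 * P ^ 2 * r ^ 4 * (110 * C ^ 2) ^ 2 * (16 * D) := by
      have := h.ω2; have := h.m1; have := h.ωA
      gcongr
      norm_num
    have g2 := mul_le_mul_of_nonneg_left h.r6 (show 0 ≤ C ^ 4 * D by positivity)
    have g3 := mul_le_mul_of_nonneg_right (h.Ck (k := 4) (by norm_num)) (sq_nonneg D)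
    have g4 : 0 ≤ C ^ 5 * D ^ 2 := by positivity
    linarith
  rw [le_div_iff₀ (by positivity)]
  refine le_of_mul_le_mul_left ?_ (show 0 < P by positivity)
  have k3 := mul_le_mul_of_nonneg_right h.hP (sq_nonneg D)
  have k4 : 0 ≤ C ^ 5 * D ^ 2 := by positivity
  linarith

lemma n5 : P ^ 5 * r ^ 4 ≤ D / 10 ^ 4 := by
  refine le_of_mul_le_mul_left ?_ (show 0 < P by linarith [h.P1])
  linarith [mul_le_mul_of_nonneg_right h.P60 h.D0.le, h.r6, h.D0]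

end Nm

end Crest.Agent.N334.AC.P.FNh
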