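import Crest.Agent.N334.AC.P.MoB

/-! # S0520 part P (helper78): the fourth-moment monitor `N^S + ω N^A / 100` -/

set_option autoImplicit false

open Finset Complex
open scoped Matrix.Norms.L2Operator Matrix

namespace Crest.Agent.N334.AC.Mo

open One

variable {ι : Type} [Fintype ι] [DecidableEq ι]

/-- fourth moment of the row `a` on `Q` -/
noncomputable def N4 (A : Matrix ι ι ℂ) (w : ι → ℂ) (a : ι) (Q : Finset ι) : ℝ :=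
  ∑ b ∈ Q, ‖xr A w a b‖ ^ 4

/-- the bilinear KEY bound on `O` (conclusion of `M6.LB.key2`) -/
def Key (A : Matrix ι ι ℂ) (w : ι → ℂ) (O : Finset ι) (e F : ℝ) : Prop :=
  ∀ l l' : ι → ℝ, (∀ x, 0 ≤ l x) → (∀ x, 0 ≤ l' x) → (∀ x, x ∉ O → l x = 0) →
    (∀ x, x ∉ O → l' x = 0) → ∀ t : ℝ, 0 < t →
    ∑ x, ∑ z ∈ univ.erase x, ‖Km A w x z‖ ^ 2 * (l x * l' z) ≤
      e * (t * ∑ x, l x ^ 2 + (∑ x, l' x ^ 2) / t) + F * (t * (∑ x, l x) ^ 2 + (∑ x, l' x) ^ 2 / t)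

noncomputable def c4N (τ1 g ν : ℝ) : ℝ := τ1 ^ 2 * (τ1 / g) ^ 2 * ν

variable {A : Matrix ι ι ℂ} {w : ι → ℂ} {Ac Sv Q : Finset ι} {N : ℕ} {vv : ι → ℕ → ℝ}
  {τ1 t2 b g r ν c Cd i0 : ℝ} {a y : ι}

theorem N4_nonneg : 0 ≤ N4 A w a Q := sum_nonneg fun _ _ => by positivity

theorem N4_mono {Q' : Finset ι} (h : Q' ⊆ Q) : N4 A w a Q' ≤ N4 A w a Q :=
  sum_le_sum_of_subset_of_nonneg h fun _ _ _ => by positivity

namespace Nn

/-- overlap of the row with the kernel of `y` -/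
noncomputable def Pq (A : Matrix ι ι ℂ) (w : ι → ℂ) (a : ι) (Q : Finset ι) (y : ι) : ℝ :=
  ∑ b ∈ Q.erase y, ‖xr A w a b‖ ^ 2 * ‖Km A w y b‖ ^ 2

noncomputable def sk (A : Matrix ι ι ℂ) (w : ι → ℂ) (vv : ι → ℕ → ℝ) (a y : ι) (k : ℕ) : ℂ :=
  tk A w vv y k / (gam w y : ℝ) * xr A w a y

/-- linear part -/
noncomputable def li (A : Matrix ι ι ℂ) (w : ι → ℂ) (vv : ι → ℕ → ℝ) (a : ι) (Q : Finset ι) (y : ι)
    (k : ℕ) : ℝ := -4 * (sk A w vv a y k * lin Q (xr A w a) (Km A w y)).re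

/-- non-linear part -/
noncomputable def nl (A : Matrix ι ι ℂ) (w : ι → ℂ) (vv : ι → ℕ → ℝ) (a : ι) (Q : Finset ι) (y : ι)
    (k : ℕ) : ℝ := 7 * (‖sk A w vv a y k‖ ^ 2 * Pq A w a Q y) +
      5 * (‖sk A w vv a y k‖ ^ 4 * ∑ b ∈ Q.erase y, ‖Km A w y b‖ ^ 4)

theorem Pq_nonneg : 0 ≤ Pq A w a Q y := sum_nonneg fun _ _ => by positivity

theorem nl_nonneg (k : ℕ) : 0 ≤ nl A w vv a Q y k := by
  have := Pq_nonneg (A := A) (w := w) (a := a) (Q := Q) (y := y)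
  rw [nl]; positivity

theorem step (h : Ph A w Ac N vv τ1 t2 b g) (hy : y ∈ Ac) {k : ℕ} (hk : k < N) (Q : Finset ι) :
    N4 A (cls1 w y (vv y k)) a (Q.erase y) ≤ N4 A w a (Q.erase y) +
      li A w vv a (Q.erase y) y k + nl A w vv a Q y k := by
  have e : N4 A (cls1 w y (vv y k)) a (Q.erase y) =
      ∑ b ∈ Q.erase y, ‖xr A w a b - sk A w vv a y k * Km A w y b‖ ^ 4 :=
    sum_congr rfl fun b hb => by
      rw [xr_close h.adm (h.ne y hy k hk) (h.gam_pos hy) a (ne_of_mem_erase hb), sk]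
  have := four_step (Q.erase y) (xr A w a) (Km A w y) (sk A w vv a y k)
  rw [e, N4, li, nl, Pq]
  linarith

theorem lin_erase (h : Adm A w) (hK : gam w y * ‖Gm A w y y‖ ≤ c) :
    ‖lin (Q.erase y) (xr A w a) (Km A w y)‖ ≤
      ‖lin Q (xr A w a) (Km A w y)‖ + c * ‖xr A w a y‖ ^ 3 := by
  have hc : 0 ≤ c := (mul_nonneg (h.diss y) (norm_nonneg _)).trans hK
  by_cases hy : y ∈ Q
  · rw [lin, lin, ← sum_erase_add _ _ hy]
    refine (norm_le_add_norm_add _ (((‖xr A w a y‖ ^ 2 : ℝ) : ℂ) *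
      (starRingEnd ℂ) (xr A w a y) * Km A w y y)).trans ?_
    rw [add_comm, norm_mul, norm_mul, norm_conj, norm_real, Real.norm_of_nonneg (sq_nonneg _),
      h.K_diag, norm_mul, norm_real, Real.norm_of_nonneg (h.diss y)]
    have := mul_le_mul_of_nonneg_left hK (show 0 ≤ ‖xr A w a y‖ ^ 3 by positivity)
    linarith
  · rw [erase_eq_of_notMem hy]
    exact le_add_of_nonneg_right (by positivity)

theorem sk_le (h : Ph A w Ac N vv τ1 t2 b g) (hy : y ∈ Ac) {k : ℕ} (hk : k < N) :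
    ‖sk A w vv a y k‖ ≤ τ1 / g * ‖xr A w a y‖ := by
  rw [sk, norm_mul]
  exact mul_le_mul_of_nonneg_right (h.rel_le hy hk) (norm_nonneg _)

theorem sk_sq (h : Ph A w Ac N vv τ1 t2 b g) (hy : y ∈ Ac) {z : ℝ} (hz : 0 ≤ z) :
    avg N (fun k => ‖sk A w vv a y k‖ ^ 2 * z) ≤ t2 / g * (‖xr A w a y‖ ^ 2 * z) := by
  have e : ∀ k, ‖sk A w vv a y k‖ ^ 2 * z =
      ‖xr A w a y‖ ^ 2 * z * ‖tk A w vv y k / (gam w y : ℝ)‖ ^ 2 := fun k => by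
    rw [sk, norm_mul]; ring
  simp only [e, avg_mul]
  rw [mul_comm (t2 / g)]
  exact mul_le_mul_of_nonneg_left (h.rel_sq hy) (by positivity)

theorem over_le (h : Adm A w) (hx : ∀ b ∈ Q, ‖xr A w a b‖ ≤ r) (hK : gam w y * ‖Gm A w y y‖ ≤ c) :
    ∑ b ∈ Q, ‖xr A w a b‖ ^ 2 * ‖Km A w y b‖ ^ 2 ≤ r ^ 2 * c := by
  have h1 : ∑ b ∈ Q, ‖Km A w y b‖ ^ 2 ≤ c := (sum_K_le h Q y).trans
    ((mul_le_mul_of_nonneg_left (im_le_norm _) (h.diss y)).trans hK)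
  refine le_trans ?_ (mul_le_mul_of_nonneg_left h1 (sq_nonneg r))
  rw [mul_sum]
  exact sum_le_sum fun b hb => by gcongr; exact hx b hb

theorem four_le' (h : Ph A w Ac N vv τ1 t2 b g) (hy : y ∈ Ac) {k : ℕ} (hk : k < N)
    (hν : N4 A w y (Q.erase y) ≤ ν) :
    ‖sk A w vv a y k‖ ^ 4 * ∑ b ∈ Q.erase y, ‖Km A w y b‖ ^ 4 ≤ c4N τ1 g ν * ‖xr A w a y‖ ^ 4 := by
  have hγ := h.gam_pos hy
  have e : ∑ b ∈ Q.erase y, ‖Km A w y b‖ ^ 4 = gam w y ^ 2 * N4 A w y (Q.erase y) := by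
    rw [N4, mul_sum]
    exact sum_congr rfl fun b _ => by
      rw [show ‖Km A w y b‖ ^ 4 = (‖Km A w y b‖ ^ 2) ^ 2 by ring, K_sq_xr h.adm]; ring
  have e2 : ‖tk A w vv y k / (gam w y : ℝ)‖ * gam w y = ‖tk A w vv y k‖ := by
    rw [norm_div, norm_real, Real.norm_of_nonneg hγ.le, div_mul_cancel₀ _ hγ.ne']
  have h1 := h.rel_le hy hk
  have h2 := h.τle y hy k hk
  have h3 := N4_nonneg (A := A) (w := w) (a := y) (Q := Q.erase y)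
  rw [e, sk, norm_mul, c4N]
  calc _ = (‖tk A w vv y k / (gam w y : ℝ)‖ * gam w y) ^ 2 * ‖tk A w vv y k / (gam w y : ℝ)‖ ^ 2 *
        N4 A w y (Q.erase y) * ‖xr A w a y‖ ^ 4 := by ring
    _ ≤ _ := by rw [e2]; gcongr

theorem nl_le (h : Ph A w Ac N vv τ1 t2 b g) (hy : y ∈ Ac) {k : ℕ} (hk : k < N) (hc : 0 ≤ c)
    (hx : ∀ b ∈ Q, ‖xr A w a b‖ ≤ r) (hxy : ‖xr A w a y‖ ≤ r) (hK : gam w y * ‖Gm A w y y‖ ≤ c)
    (hν : N4 A w y (Q.erase y) ≤ ν) : nl A w vv a Q y k ≤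
      r ^ 2 * (7 * (τ1 / g) ^ 2 * c + 5 * c4N τ1 g ν) * ‖xr A w a y‖ ^ 2 := by
  have h1 : Pq A w a Q y ≤ r ^ 2 * c := over_le h.adm (fun b hb => hx b (mem_of_mem_erase hb)) hK
  have h2 := four_le' (a := a) h hy hk hν
  have h3 : ‖sk A w vv a y k‖ ^ 2 * Pq A w a Q y ≤ (τ1 / g * ‖xr A w a y‖) ^ 2 * (r ^ 2 * c) := by
    have := Pq_nonneg (A := A) (w := w) (a := a) (Q := Q) (y := y)
    gcongr
    exact sk_le h hy hk
  have h4 : 0 ≤ c4N τ1 g ν := by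
    have := N4_nonneg.trans hν
    rw [c4N]; positivity
  have h5 : c4N τ1 g ν * ‖xr A w a y‖ ^ 4 ≤ c4N τ1 g ν * (r ^ 2 * ‖xr A w a y‖ ^ 2) := by
    rw [show ‖xr A w a y‖ ^ 4 = ‖xr A w a y‖ ^ 2 * ‖xr A w a y‖ ^ 2 by ring]
    gcongr
  rw [nl]
  linarith

theorem li_sq (k : ℕ) : li A w vv a Q y k ^ 2 ≤
    16 * (‖sk A w vv a y k‖ ^ 2 * ‖lin Q (xr A w a) (Km A w y)‖ ^ 2) := by
  have := abs_re_le_norm (sk A w vv a y k * lin Q (xr A w a) (Km A w y))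
  have h2 := pow_le_pow_left₀ (abs_nonneg _) this 2
  rw [sq_abs, norm_mul, mul_pow] at h2
  rw [li]
  linarith

theorem li_le (h : Ph A w Ac N vv τ1 t2 b g) (hy : y ∈ Ac) {k : ℕ} (hk : k < N) {ℓ : ℝ}
    (hx : ∀ b ∈ Q, ‖xr A w a b‖ ≤ r) (hK : gam w y * ‖Gm A w y y‖ ≤ c) (hc : 0 ≤ c)
    (hν : N4 A w a Q ≤ ν) (hℓ0 : 0 ≤ ℓ) (hℓ : r ^ 2 * c * ν ≤ ℓ ^ 2) :
    |li A w vv a Q y k| ≤ 4 * (τ1 / g) * ℓ * ‖xr A w a y‖ := by
  have h1 : ‖lin Q (xr A w a) (Km A w y)‖ ≤ ℓ := (abs_le_of_sq_le_sq' ((lin_sq _ _ _).trans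
    ((mul_le_mul (over_le h.adm hx hK) hν N4_nonneg (by positivity)).trans hℓ)) hℓ0).2
  have h2 := abs_re_le_norm (sk A w vv a y k * lin Q (xr A w a) (Km A w y))
  have h3 := mul_le_mul (sk_le (a := a) h hy hk) h1 (norm_nonneg _)
    (mul_nonneg (div_nonneg h.τ0 h.g0.le) (norm_nonneg _))
  rw [norm_mul] at h2
  rw [li, abs_mul, abs_neg, abs_of_pos (show (0 : ℝ) < 4 by norm_num)]
  linarith

theorem li_avg (h : Ph A w Ac N vv τ1 t2 b g) (hy : y ∈ Ac) : avg N (li A w vv a Q y) ≤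
    4 * b * (‖xr A w a y‖ * ‖lin Q (xr A w a) (Km A w y)‖) := by
  have := (abs_le.1 (h.rel_re hy (xr A w a y * lin Q (xr A w a) (Km A w y)))).1
  rw [norm_mul] at this
  have e : li A w vv a Q y = fun k => -4 * (tk A w vv y k / (gam w y : ℝ) *
      (xr A w a y * lin Q (xr A w a) (Km A w y))).re := by
    funext k; rw [li, sk, mul_assoc]
  rw [e, avg_mul]
  linarith

theorem nl_avg (h : Ph A w Ac N vv τ1 t2 b g) (hy : y ∈ Ac) (hν : N4 A w y (Q.erase y) ≤ ν) :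
    avg N (nl A w vv a Q y) ≤ 7 * (t2 / g) * (‖xr A w a y‖ ^ 2 * Pq A w a Q y) +
      5 * c4N τ1 g ν * ‖xr A w a y‖ ^ 4 := by
  have h1 := sk_sq (a := a) h hy (Pq_nonneg (A := A) (w := w) (a := a) (Q := Q) (y := y))
  have h2 := (avg_mono fun k hk => four_le' (a := a) h hy hk hν).trans (avg_const h.N0 _).le
  unfold nl
  rw [avg_add, avg_mul, avg_mul]
  linarith

/-- KEY applied to the row -/
theorem key_row {O : Finset ι} {e F t : ℝ} (h : Adm A w) (hK : Key A w O e F) (hF : 0 ≤ F)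
    (hA : Ac ⊆ O) (hQ : Q ⊆ O) (hi : (Gm A w a a).im ≤ i0) (ht : 0 < t) :
    ∑ y ∈ Ac, ‖xr A w a y‖ ^ 2 * Pq A w a Q y ≤
      e * (t * N4 A w a Ac + N4 A w a Q / t) + F * (i0 ^ 2 * (t + 1 / t)) := by
  have := hK (fun x => if x ∈ Ac then ‖xr A w a x‖ ^ 2 else 0)
    (fun x => if x ∈ Q then ‖xr A w a x‖ ^ 2 else 0)
    (fun x => by split_ifs <;> positivity) (fun x => by split_ifs <;> positivity)
    (fun x hx => if_neg fun h => hx (hA h)) (fun x hx => if_neg fun h => hx (hQ h)) t ht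
  have e1 : ∀ S : Finset ι, ∑ x, (if x ∈ S then ‖xr A w a x‖ ^ 2 else 0) ^ 2 = N4 A w a S :=
    fun S => by simp [N4, ← pow_mul]
  have e2 : ∀ S : Finset ι, (∑ x, if x ∈ S then ‖xr A w a x‖ ^ 2 else 0) ^ 2 ≤ i0 ^ 2 := fun S => by
    rw [sum_ite_mem, univ_inter]
    exact pow_le_pow_left₀ (sum_nonneg fun _ _ => by positivity) ((sum_xr_le h S a).trans hi) 2
  have e3 : ∑ y ∈ Ac, ‖xr A w a y‖ ^ 2 * Pq A w a Q y = ∑ x, ∑ z ∈ univ.erase x,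
      ‖Km A w x z‖ ^ 2 * ((if x ∈ Ac then ‖xr A w a x‖ ^ 2 else 0) *
        if z ∈ Q then ‖xr A w a z‖ ^ 2 else 0) := by
    rw [← sum_subset (subset_univ Ac) fun x _ hx => by simp [hx]]
    refine sum_congr rfl fun x hx => ?_
    rw [Pq, mul_sum, ← sum_subset (erase_subset_erase x (subset_univ Q))]
    · exact sum_congr rfl fun z hz => by rw [if_pos hx, if_pos (mem_of_mem_erase hz)]; ring
    · intro z hz hz'
      rw [if_neg (fun h => hz' (mem_erase.2 ⟨ne_of_mem_erase hz, h⟩)), mul_zero, mul_zero]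
  rw [e1, e1] at this
  rw [e3]
  refine this.trans (add_le_add le_rfl (mul_le_mul_of_nonneg_left ?_ hF))
  have h1 := mul_le_mul_of_nonneg_left (e2 Ac) ht.le
  have h2 := div_le_div_of_nonneg_right (e2 Q) ht.le
  rw [mul_add, mul_one_div]
  linarith

/-- the jump of the fourth moment on `Q` -/
noncomputable def JQ (A : Matrix ι ι ℂ) (w : ι → ℂ) (vv : ι → ℕ → ℝ) (a : ι) (Q : Finset ι) (y : ι)
    (k : ℕ) : ℝ := li A w vv a (Q.erase y) y k + nl A w vv a Q y k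

/-- drift -/
theorem JQ_avg {S O : Finset ι} {e F t Bq : ℝ} (h : Ph A w Ac N vv τ1 t2 b g) (hS : S ⊆ Ac)
    (hK : Key A w O e F) (hF : 0 ≤ F) (hA : Ac ⊆ O) (hQ : Q ⊆ O) (hi : (Gm A w a a).im ≤ i0)
    (ht : 0 < t) (hc0 : 0 ≤ c) (hν0 : 0 ≤ ν) (hc : ∀ y ∈ Ac, gam w y * ‖Gm A w y y‖ ≤ c)
    (hν : ∀ y ∈ Ac, N4 A w y (Q.erase y) ≤ ν)
    (hB : ∑ y ∈ Ac, ‖xr A w a y‖ * ‖lin Q (xr A w a) (Km A w y)‖ ≤ Bq) :
    ∑ y ∈ S, avg N (JQ A w vv a Q y) ≤ 4 * b * Bq + (4 * b * c + 5 * c4N τ1 g ν) * N4 A w a Ac +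
      7 * (t2 / g) * (e * (t * N4 A w a Ac + N4 A w a Q / t) + F * (i0 ^ 2 * (t + 1 / t))) := by
  have hb := h.b0
  have htg : 0 ≤ t2 / g := div_nonneg h.t0 h.g0.le
  have hc4 : 0 ≤ c4N τ1 g ν := by rw [c4N]; positivity
  have g0 : ∀ y ∈ Ac, avg N (JQ A w vv a Q y) ≤
      4 * b * (‖xr A w a y‖ * ‖lin Q (xr A w a) (Km A w y)‖) +
      (4 * b * c + 5 * c4N τ1 g ν) * ‖xr A w a y‖ ^ 4 +
      7 * (t2 / g) * (‖xr A w a y‖ ^ 2 * Pq A w a Q y) := fun y hy => by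
    have g1 := li_avg (a := a) (Q := Q.erase y) h hy
    have g2 := nl_avg (a := a) h hy (hν y hy)
    have g3 := mul_le_mul_of_nonneg_left (lin_erase (a := a) (Q := Q) h.adm (hc y hy))
      (show 0 ≤ 4 * b * ‖xr A w a y‖ by positivity)
    unfold JQ
    rw [avg_add]
    linarith
  refine (sum_le_sum fun y hy => g0 y (hS hy)).trans
    ((sum_le_sum_of_subset_of_nonneg hS fun y _ _ => ?_).trans ?_)
  · have := Pq_nonneg (A := A) (w := w) (a := a) (Q := Q) (y := y)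
    positivity
  · simp only [sum_add_distrib, ← mul_sum]
    have k1 := mul_le_mul_of_nonneg_left (key_row (a := a) h.adm hK hF hA hQ hi ht)
      (show 0 ≤ 7 * (t2 / g) by positivity)
    have k2 := mul_le_mul_of_nonneg_left hB (show 0 ≤ 4 * b by positivity)
    rw [N4]
    rw [N4] at k1
    linarith

/-- quadratic variation -/
theorem JQ_sq {S : Finset ι} {V : ℝ} (h : Ph A w Ac N vv τ1 t2 b g) (hS : S ⊆ Ac) (hc0 : 0 ≤ c)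
    (hxA : ∀ y ∈ Ac, ‖xr A w a y‖ ≤ r) (hxQ : ∀ y ∈ Q, ‖xr A w a y‖ ≤ r)
    (hc : ∀ y ∈ Ac, gam w y * ‖Gm A w y y‖ ≤ c) (hν : ∀ y ∈ Ac, N4 A w y (Q.erase y) ≤ ν)
    (hV : ∑ y ∈ Ac, ‖xr A w a y‖ ^ 2 * ‖lin (Q.erase y) (xr A w a) (Km A w y)‖ ^ 2 ≤ V) :
    ∑ y ∈ S, avg N (fun k => JQ A w vv a Q y k ^ 2) ≤ 32 * (t2 / g) * V +
      2 * (r ^ 2 * (7 * (τ1 / g) ^ 2 * c + 5 * c4N τ1 g ν)) ^ 2 * N4 A w a Ac := by
  have htg : 0 ≤ t2 / g := div_nonneg h.t0 h.g0.le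
  have g0 : ∀ y ∈ Ac, avg N (fun k => JQ A w vv a Q y k ^ 2) ≤
      32 * (t2 / g) * (‖xr A w a y‖ ^ 2 * ‖lin (Q.erase y) (xr A w a) (Km A w y)‖ ^ 2) +
      2 * (r ^ 2 * (7 * (τ1 / g) ^ 2 * c + 5 * c4N τ1 g ν)) ^ 2 * ‖xr A w a y‖ ^ 4 := fun y hy => by
    have g1 : ∀ k < N, JQ A w vv a Q y k ^ 2 ≤
        32 * (‖sk A w vv a y k‖ ^ 2 * ‖lin (Q.erase y) (xr A w a) (Km A w y)‖ ^ 2) +
        2 * (r ^ 2 * (7 * (τ1 / g) ^ 2 * c + 5 * c4N τ1 g ν)) ^ 2 * ‖xr A w a y‖ ^ 4 := fun k hk => by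
      have r1 := pow_le_pow_left₀ (nl_nonneg k)
        (nl_le h hy hk hc0 hxQ (hxA y hy) (hc y hy) (hν y hy)) 2
      have r2 := li_sq (A := A) (w := w) (vv := vv) (a := a) (Q := Q.erase y) (y := y) k
      rw [JQ]
      nlinarith [sq_nonneg (li A w vv a (Q.erase y) y k - nl A w vv a Q y k)]
    refine (avg_mono g1).trans ?_
    rw [avg_add, avg_mul, avg_const h.N0]
    linarith [sk_sq (a := a) h hy (sq_nonneg ‖lin (Q.erase y) (xr A w a) (Km A w y)‖)]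
  refine (sum_le_sum fun y hy => g0 y (hS hy)).trans
    ((sum_le_sum_of_subset_of_nonneg hS fun y _ _ => by positivity).trans ?_)
  simp only [sum_add_distrib, ← mul_sum]
  rw [N4]
  exact add_le_add (mul_le_mul_of_nonneg_left hV (by positivity)) le_rfl

/-- size of a jump -/
theorem JQ_le (h : Ph A w Ac N vv τ1 t2 b g) (hy : y ∈ Ac) {k : ℕ} (hk : k < N) {ℓ : ℝ}
    (hc0 : 0 ≤ c) (hxy : ‖xr A w a y‖ ≤ r) (hxQ : ∀ y ∈ Q, ‖xr A w a y‖ ≤ r)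
    (hc : gam w y * ‖Gm A w y y‖ ≤ c) (hν : N4 A w y (Q.erase y) ≤ ν) (hℓ0 : 0 ≤ ℓ)
    (hℓ : r ^ 2 * c * N4 A w a Q ≤ ℓ ^ 2) : |JQ A w vv a Q y k| ≤
      (4 * (τ1 / g) * ℓ + r ^ 3 * (7 * (τ1 / g) ^ 2 * c + 5 * c4N τ1 g ν)) * ‖xr A w a y‖ := by
  have g1 := li_le (Q := Q.erase y) h hy hk (fun b hb => hxQ b (mem_of_mem_erase hb)) hc hc0
    (N4_mono (erase_subset _ _)) hℓ0 hℓ
  have g2 := nl_le h hy hk hc0 hxQ hxy hc hν
  have g3 : 0 ≤ 7 * (τ1 / g) ^ 2 * c + 5 * c4N τ1 g ν := by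
    have := N4_nonneg.trans hν
    rw [c4N]; positivity
  have g4 : r ^ 2 * (7 * (τ1 / g) ^ 2 * c + 5 * c4N τ1 g ν) * ‖xr A w a y‖ ^ 2 ≤
      r ^ 2 * (7 * (τ1 / g) ^ 2 * c + 5 * c4N τ1 g ν) * (r * ‖xr A w a y‖) := by
    rw [sq ‖xr A w a y‖]; gcongr
  refine (abs_add_le _ _).trans ?_
  rw [abs_of_nonneg (nl_nonneg k)]
  linarith

/-- early epochs: through KEY -/
theorem V_key {O : Finset ι} {e F : ℝ} (h : Adm A w) (hK : Key A w O e F) (hF : 0 ≤ F)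
    (hA : Ac ⊆ O) (hQ : Q ⊆ O) (hi : (Gm A w a a).im ≤ i0) :
    ∑ y ∈ Ac, ‖xr A w a y‖ ^ 2 * ‖lin (Q.erase y) (xr A w a) (Km A w y)‖ ^ 2 ≤
      (e * (N4 A w a Ac + N4 A w a Q) + 2 * F * i0 ^ 2) * N4 A w a Q := by
  have k1 := key_row (a := a) h hK hF hA hQ hi one_pos
  have g0 : ∀ y ∈ Ac, ‖xr A w a y‖ ^ 2 * ‖lin (Q.erase y) (xr A w a) (Km A w y)‖ ^ 2 ≤
      ‖xr A w a y‖ ^ 2 * Pq A w a Q y * N4 A w a Q := fun y _ => by
    rw [mul_assoc]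
    exact mul_le_mul_of_nonneg_left ((lin_sq _ _ _).trans (mul_le_mul_of_nonneg_left
      (N4_mono (erase_subset _ _)) Pq_nonneg)) (sq_nonneg _)
  refine (sum_le_sum g0).trans ?_
  rw [← sum_mul]
  refine mul_le_mul_of_nonneg_right ?_ N4_nonneg
  simp only [one_mul, div_one] at k1
  linarith

/-- late epochs: `‖K‖ ≤ 1` -/
theorem V_crude (h : Adm A w) (hc1 : c ≤ 1) (hxA : ∀ y ∈ Ac, ‖xr A w a y‖ ≤ r)
    (hxQ : ∀ y ∈ Q, ‖xr A w a y‖ ≤ r) (hc : ∀ y ∈ Ac, gam w y * ‖Gm A w y y‖ ≤ c) :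
    ∑ y ∈ Ac, ‖xr A w a y‖ ^ 2 * ‖lin (Q.erase y) (xr A w a) (Km A w y)‖ ^ 2 ≤
      2 * r ^ 4 * (N4 A w a Ac + N4 A w a Q) := by
  have k1 := (sum_le_univ_sum_of_nonneg (s := Ac) fun _ => sq_nonneg _).trans
    (lin_nsq_crude h.wardK (xr A w a) fun b hb => pow_le_pow_left₀ (norm_nonneg _) (hxQ b hb) 2)
  have g0 : ∀ y ∈ Ac, ‖xr A w a y‖ ^ 2 * ‖lin (Q.erase y) (xr A w a) (Km A w y)‖ ^ 2 ≤
      2 * r ^ 2 * ‖lin Q (xr A w a) (Km A w y)‖ ^ 2 + 2 * r ^ 4 * ‖xr A w a y‖ ^ 4 := fun y hy => by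
    have g1 := (lin_erase (a := a) (Q := Q) h (hc y hy)).trans (add_le_add_right
      (mul_le_of_le_one_left (show 0 ≤ ‖xr A w a y‖ ^ 3 by positivity) hc1) _)
    have g2 := pow_le_pow_left₀ (norm_nonneg _) g1 2
    have g3 := pow_le_pow_left₀ (norm_nonneg _) (hxA y hy) 2
    have g4 := pow_le_pow_left₀ (norm_nonneg _) (hxA y hy) 4
    have g5 : ‖lin (Q.erase y) (xr A w a) (Km A w y)‖ ^ 2 ≤
        2 * ‖lin Q (xr A w a) (Km A w y)‖ ^ 2 + 2 * ‖xr A w a y‖ ^ 6 := by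
      nlinarith [sq_nonneg (‖lin Q (xr A w a) (Km A w y)‖ - ‖xr A w a y‖ ^ 3)]
    have g6 := mul_le_mul_of_nonneg_left g5 (sq_nonneg ‖xr A w a y‖)
    have g7 := mul_le_mul_of_nonneg_right g3 (sq_nonneg ‖lin Q (xr A w a) (Km A w y)‖)
    have g8 := mul_le_mul_of_nonneg_right g4 (show 0 ≤ ‖xr A w a y‖ ^ 4 by positivity)
    linarith
  refine (sum_le_sum g0).trans ?_
  have k2 := mul_le_mul_of_nonneg_left k1 (sq_nonneg r)
  simp only [sum_add_distrib, ← mul_sum, N4]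
  linarith

/-- bias sum, size split at level `√E` -/
theorem B_split (h : Adm A w) (hi : (Gm A w a a).im ≤ i0) (hc0 : 0 ≤ c)
    (hc : ∀ b ∈ Q, gam w b * ‖Gm A w b b‖ ≤ c) {E Bq : ℝ} (hE : 0 < E) (hB0 : 0 ≤ Bq)
    (hB : i0 * (2 * (E * N4 A w a Q) + 2 * (c * (N4 A w a Q ^ 2 / E))) ≤ Bq ^ 2) :
    ∑ y ∈ Ac, ‖xr A w a y‖ * ‖lin Q (xr A w a) (Km A w y)‖ ≤ Bq := by
  have hc' : ∀ b ∈ Q, (Km A w b b).im ≤ c := fun b hb => (im_le_norm _).trans <| by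
    rw [h.K_diag, norm_mul, norm_real, Real.norm_of_nonneg (h.diss b)]
    exact hc b hb
  refine (abs_le_of_sq_le_sq' ((lin_bias h.wardK hc0 hc' (Real.sqrt_pos.2 hE) (xr A w a)
    (xr A w a) Ac).trans (le_trans ?_ hB)) hB0).2
  rw [div_pow, Real.sq_sqrt hE.le]
  exact mul_le_mul_of_nonneg_right ((sum_xr_le h Ac a).trans hi) (by positivity)

end Nn

end Crest.Agent.N334.AC.Mo
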