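import Crest.Agent.N334.AC.P.Der
import Crest.Agent.N334.AC.P.MoN
import Crest.Agent.N334.AC.P.FN1

/-! # S0520 part P (helper78): jumps of the fourth moments in the environment -/

set_option autoImplicit false

open Finset Complex
open scoped Matrix.Norms.L2Operator Matrix

namespace Crest.Agent.N334.AC.P.FNh

open Mo Mo.Nn One

variable {d M : ℕ} [NeZero M] {c : Cx d M} {e : Ep} {g : Sg} {f : Ref d M} {s0 s : CS d M}
  {a : Tor d M} {Q : Finset (Tor d M)}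

lemma N4_up {w : Tor d M → ℂ} (h : Adm c.A w) {k : ℝ} (hk : ∀ b ∈ Q, gam w b ≤ k * c.γ) :
    N4 c.A w a Q ≤ k ^ 2 * c.γ * (c.γ * ∑ b ∈ Q, ‖c.G w a b‖ ^ 4) := by
  rw [N4, mul_sum, mul_sum]
  refine sum_le_sum fun b hb => ?_
  have := mul_le_mul_of_nonneg_right (pow_le_pow_left₀ (h.diss b) (hk b hb) 2)
    (show 0 ≤ ‖c.G w a b‖ ^ 4 by positivity)
  rw [show ‖xr c.A w a b‖ ^ 4 = (‖xr c.A w a b‖ ^ 2) ^ 2 by ring, xr_sq h]
  change (gam w b * ‖c.G w a b‖ ^ 2) ^ 2 ≤ _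
  linarith

lemma N4_lo {w : Tor d M → ℂ} (h : Adm c.A w) {k : ℝ} (h0 : 0 ≤ k * c.γ)
    (hk : ∀ b ∈ Q, k * c.γ ≤ gam w b) :
    k ^ 2 * c.γ * (c.γ * ∑ b ∈ Q, ‖c.G w a b‖ ^ 4) ≤ N4 c.A w a Q := by
  rw [N4, mul_sum, mul_sum]
  refine sum_le_sum fun b hb => ?_
  have := mul_le_mul_of_nonneg_right (pow_le_pow_left₀ h0 (hk b hb) 2)
    (show 0 ≤ ‖c.G w a b‖ ^ 4 by positivity)
  rw [show ‖xr c.A w a b‖ ^ 4 = (‖xr c.A w a b‖ ^ 2) ^ 2 by ring, xr_sq h]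
  change _ ≤ (gam w b * ‖c.G w a b‖ ^ 2) ^ 2
  linarith

lemma ph (L : Led c e g) (E : Env c e g f s0 s) : Ph c.A s.w s.ord c.N c.v √(4 * c.C * c.γ)
    (5 * c.C) (2 * ((e.P : ℝ) ^ 5 * e.Q * g.x ^ 2)) (9 / 10 * c.γ) := by
  have hγ := L.ok.γ0
  have hC := L.ok.C1
  have hg : ∀ y ∈ s.ord, 9 / 10 * c.γ ≤ gam s.w y := fun y hy =>
    E.der.gam_ge y (E.rch.bas.opn y hy)
  refine ⟨E.rch.bas.adm, L.ok.N0, by positivity, Real.sqrt_nonneg _, by positivity, by positivity,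
    E.der.den, hg, fun y hy k hk => Real.le_sqrt_of_sq_le (E.der.τ_le y hy k hk), fun y hy => ?_,
    fun y hy => ?_⟩
  · refine ((avg_mono (E.der.τ_le y hy)).trans_eq (avg_const L.ok.N0 _)).trans ?_
    nlinarith [hg y hy]
  · have h1 : ‖c.b s.w y‖ ≤ (e.P : ℝ) ^ 5 * e.Q * g.x ^ 2 * c.γ := E.inv.bias y hy
    have h2 := mul_le_mul_of_nonneg_left (show c.γ ≤ 2 * gam s.w y by linarith [hg y hy])
      (show 0 ≤ (e.P : ℝ) ^ 5 * e.Q * g.x ^ 2 by positivity)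
    exact h1.trans (by linarith)

lemma key (L : Led c e g) (E : Env c e g f s0 s) :
    Key c.A s.w s.ord (25 * c.C ^ 2 * c.γ * g.e') (25 * c.C ^ 2 * c.γ * g.F) := by
  intro l l' h0 h0' hl hl' t ht
  have hγ := L.ok.γ0
  have hA := E.rch.bas.adm
  have he : 0 ≤ g.e' := le_trans (by have := L.z0; positivity) L.z_small
  have hF := L.F0
  have k1 := E.der.ker (fun x => t * l x + l' x) fun x => by have := h0 x; have := h0' x; positivity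
  set S := ∑ x ∈ s.ord, ∑ z ∈ s.ord.erase x, ‖c.G s.w x z‖ ^ 2 * (l x * l' z) with hS
  have e1 : ∑ x ∈ s.ord, ∑ z ∈ s.ord.erase x, ‖c.G s.w x z‖ ^ 2 * (l' x * l z) = S := by
    rw [hS, sum_comm' (t' := s.ord) (s' := fun z => s.ord.erase z)]
    · exact sum_congr rfl fun x _ => sum_congr rfl fun z _ => by
        rw [Cx.G, hA.G_sym z x, mul_comm (l' z)]
    · intro x z
      simp only [mem_erase]
      tauto
  have k2 : 2 * t * S ≤ ∑ x ∈ s.ord, ∑ z ∈ s.ord.erase x,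
      ‖c.G s.w x z‖ ^ 2 * ((t * l x + l' x) * (t * l z + l' z)) := by
    rw [two_mul, add_mul]
    nth_rewrite 2 [← e1]
    rw [hS, mul_sum, mul_sum, ← sum_add_distrib]
    refine sum_le_sum fun x _ => ?_
    rw [mul_sum, mul_sum, ← sum_add_distrib]
    refine sum_le_sum fun z _ => ?_
    have := mul_nonneg (sq_nonneg ‖c.G s.w x z‖) (add_nonneg
      (mul_nonneg (sq_nonneg t) (mul_nonneg (h0 x) (h0 z))) (mul_nonneg (h0' x) (h0' z)))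
    linarith
  have k3 : ∑ x ∈ s.ord, (t * l x + l' x) ^ 2 ≤ 2 * (t ^ 2 * ∑ x, l x ^ 2 + ∑ x, l' x ^ 2) := by
    rw [mul_sum, ← sum_add_distrib, mul_sum]
    refine (sum_le_univ_sum_of_nonneg fun _ => sq_nonneg _).trans (sum_le_sum fun x _ => ?_)
    nlinarith [sq_nonneg (t * l x - l' x)]
  have k4 : (∑ x ∈ s.ord, (t * l x + l' x)) ^ 2 ≤ 2 * (t ^ 2 * (∑ x, l x) ^ 2 + (∑ x, l' x) ^ 2) := by
    have h1 : ∑ x ∈ s.ord, (t * l x + l' x) ≤ t * ∑ x, l x + ∑ x, l' x := by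
      rw [mul_sum, ← sum_add_distrib]
      exact sum_le_univ_sum_of_nonneg fun x => by have := h0 x; have := h0' x; positivity
    have h2 := pow_le_pow_left₀ (sum_nonneg fun x _ => by
      have := h0 x; have := h0' x; positivity) h1 2
    nlinarith [sq_nonneg (t * ∑ x, l x - ∑ x, l' x)]
  have k5 : ∑ x, ∑ z ∈ univ.erase x, ‖Km c.A s.w x z‖ ^ 2 * (l x * l' z) ≤ 5 / 4 * c.γ ^ 2 * S := by
    rw [← sum_subset (subset_univ s.ord) fun x _ hx => by simp [hl x hx], hS, mul_sum]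
    refine sum_le_sum fun x _ => ?_
    rw [← sum_subset (erase_subset_erase x (subset_univ s.ord)) fun z hz hz' => by
      rw [hl' z fun h => hz' (mem_erase.2 ⟨ne_of_mem_erase hz, h⟩), mul_zero, mul_zero], mul_sum]
    refine sum_le_sum fun z _ => ?_
    have h1 := mul_le_mul (E.der.gam_le x) (E.der.gam_le z) (hA.diss z) (by positivity)
    have h2 := mul_le_mul_of_nonneg_right (show gam s.w x * gam s.w z ≤ 5 / 4 * c.γ ^ 2 by nlinarith)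
      (mul_nonneg (sq_nonneg ‖c.G s.w x z‖) (mul_nonneg (h0 x) (h0' z)))
    rw [hA.K_sq]
    change gam s.w x * gam s.w z * ‖c.G s.w x z‖ ^ 2 * _ ≤ _
    linarith
  have k6 : c.γ * (2 * t * S) ≤ 20 * c.C ^ 2 * (g.e' * (2 * (t ^ 2 * ∑ x, l x ^ 2 + ∑ x, l' x ^ 2)) +
      g.F * (2 * (t ^ 2 * (∑ x, l x) ^ 2 + (∑ x, l' x) ^ 2))) :=
    (mul_le_mul_of_nonneg_left k2 hγ.le).trans (k1.trans (by gcongr))
  refine k5.trans (le_of_mul_le_mul_left ?_ ht)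
  have k7 := mul_le_mul_of_nonneg_left k6 (show 0 ≤ 5 / 8 * c.γ by positivity)
  field_simp
  field_simp at k7
  nlinarith

noncomputable def rr (c : Cx d M) (e : Ep) (g : Sg) : ℝ := √(10 * (c.γ * (g.x ^ 2 / e.q)))
noncomputable def ρρ (c : Cx d M) : ℝ := √(4 * c.C * c.γ) / (9 / 10 * c.γ)
noncomputable def cc (c : Cx d M) (g : Sg) : ℝ :=
  c4N √(4 * c.C * c.γ) (9 / 10 * c.γ) (16 * (c.γ * g.x ^ 4))

omit [NeZero M] in
lemma rr_sq (hγ : 0 < c.γ) (hq : 0 < e.q) : rr c e g ^ 2 = 10 * (c.γ * (g.x ^ 2 / e.q)) :=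
  Real.sq_sqrt (by positivity)

lemma nm (L : Led c e g) {ω NA NQ : ℝ} (hω1 : 1 ≤ ω) (hω2 : ω ≤ (e.P : ℝ) ^ 2) (hA0 : 0 ≤ NA)
    (hQ0 : 0 ≤ NQ) (hωA : ω * NA ≤ 16 * (c.γ * g.x ^ 4)) (hωQ : ω * NQ ≤ 16 * (c.γ * g.x ^ 4)) :
    Nm c.C e.P e.Q c.γ g.x (c.γ * g.x ^ 4) (rr c e g) (ρρ c)
      (7 * ρρ c ^ 2 * (3 * c.C * c.γ) + 5 * cc c g) (5 * c.C / (9 / 10 * c.γ)) (cc c g) ω NA NQ := by
  have hC := L.ok.C1
  have hγ := L.ok.γ0
  have hx := L.x_pos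
  have hq := L.q0
  have h1 : c.C ^ 5 ≤ c.C ^ 30 := pow_le_pow_right₀ hC (by norm_num)
  have hQ : (0 : ℝ) < e.Q := lt_of_lt_of_le (pow_pos (by linarith [L.P_ge]) 6) L.Q_ge
  have h2 := mul_pos hγ (show 0 < c.C by linarith)
  have hρ2 : ρρ c ^ 2 * c.γ ≤ 5 * c.C := by
    rw [ρρ, div_pow, Real.sq_sqrt (by positivity), div_mul_eq_mul_div, div_le_iff₀ (by positivity)]
    linarith [mul_pos hγ h2]
  refine ⟨hC, by linarith [L.P1], L.Q_ge, hγ,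
    by linarith [L.ok.γ_le, mul_le_mul_of_nonneg_right h1 hγ.le], hx, L.main, rfl,
    Real.sqrt_pos.2 (by positivity), ?_, by rw [ρρ]; positivity, hρ2, rfl, by positivity, ?_,
    by rw [cc, c4N]; positivity, ?_, hω1, hω2, hA0, hQ0, hωA, hωQ⟩
  · have := L.γh
    rw [eq_div_iff hQ.ne'] at this
    rw [show rr c e g ^ 4 = (rr c e g ^ 2) ^ 2 by ring, rr_sq hγ hq, ← this]; ring
  · rw [div_mul_eq_mul_div, div_le_iff₀ (by positivity)]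
    linarith
  · rw [cc, c4N, Real.sq_sqrt (by positivity), ← ρρ]
    linarith [mul_le_mul_of_nonneg_left hρ2 (show 0 ≤ 64 * c.C * (c.γ * g.x ^ 4) by positivity)]

section Env

variable (L : Led c e g) (hf : RefOK c e f) (E : Env c e g f s0 s)
include L hf E

lemma Kd {y : Tor d M} (hy : y ∈ s.ord) : gam s.w y * ‖Gm c.A s.w y y‖ ≤ 3 * c.C * c.γ := by
  have := mul_pos L.ok.γ0 (show 0 < c.C by linarith [L.ok.C1])
  exact (mul_le_mul (E.der.gam_le y) (E.der.g_le y (hf.sub (E.rch.bas.sub hy)) (E.rch.bas.opn y hy))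
    (norm_nonneg _) (by linarith [L.ok.γ0])).trans (by linarith)

omit L in
lemma im_le (ha : a ∈ s.ord) : (Gm c.A s.w a a).im ≤ 2 * c.C :=
  (im_le_norm _).trans (E.der.g_le a (hf.sub (E.rch.bas.sub ha)) (E.rch.bas.opn a ha))

omit hf in
lemma xr_le (ha : a ∈ s.ord) {y : Tor d M} (hy : y ∈ s.ord.erase a) :
    ‖xr c.A s.w a y‖ ≤ rr c e g := Real.le_sqrt_of_sq_le <| by
  have hγ := L.ok.γ0
  have hq := L.q0
  have h1 : ‖c.G s.w a y‖ ^ 2 ≤ 9 * (g.x ^ 2 / e.q) :=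
    E.inv.ent a ha y (mem_of_mem_erase hy) (ne_of_mem_erase hy).symm
  have h2 := mul_le_mul (E.der.gam_le y) h1 (sq_nonneg _) (by positivity)
  have h3 : 0 ≤ c.γ * (g.x ^ 2 / e.q) := by positivity
  rw [xr_sq E.rch.bas.adm]
  exact h2.trans (by linarith)

omit hf in
lemma row_le (hQ : Q ⊆ s.ord) {y : Tor d M} (hy : y ∈ s.ord) :
    N4 c.A s.w y (Q.erase y) ≤ 16 * (c.γ * g.x ^ 4) := by
  have h1 := (N4_mono (erase_subset_erase y hQ)).trans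
    (N4_up (a := y) E.rch.bas.adm fun b _ => E.der.gam_le b)
  have h2 : c.γ * ∑ b ∈ s.ord.erase y, ‖c.G s.w y b‖ ^ 4 ≤ 13 * g.x ^ 4 := E.inv.four y hy
  have h3 := mul_le_mul_of_nonneg_left h2 L.ok.γ0.le
  have h4 := mul_pos L.ok.γ0 (pow_pos L.x_pos 4)
  linarith

lemma xr_far (ha : a ∈ s.ord) {y : Tor d M} (hy : y ∈ s.ord) :
    ‖xr c.A s.w a y‖ ≤ e.Bg * Real.exp (-e.ϑ * tdist y a) := by
  have ho : ∀ z ∈ s.ord, z ∈ opn f.wr := fun z hz => hf.opn0 (E.rch.bas.sub hz)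
  have h1 := E.der.dec y (ho y hy) a (ho a ha)
  have h2 : 10 ^ 60 * c.γ ≤ 1 := by
    linarith [L.ok.γ_le, mul_le_mul_of_nonneg_right (one_le_pow₀ (n := 30) L.ok.C1) L.ok.γ0.le]
  refine (abs_le_of_sq_le_sq' ?_ ((norm_nonneg _).trans h1)).2
  rw [xr_sq E.rch.bas.adm, E.rch.bas.adm.G_sym]
  refine (mul_le_of_le_one_left (sq_nonneg _) (by linarith [E.der.gam_le y, L.ok.γ0])).trans ?_
  exact pow_le_pow_left₀ (norm_nonneg _) h1 2

lemma xr_tl (ha : a ∈ s.ord) {y : Tor d M} (hy : y ∈ s.ord) (hρ : e.ρ ≤ tdist y a) :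
    ‖xr c.A s.w a y‖ ≤ rr c e g * tl e a y := by
  have hγ := L.ok.γ0
  have hq := L.q0
  have hB := L.B_ge
  have hP1 : (1 : ℝ) ≤ e.P := by linarith [L.P_ge]
  have hr0 : 0 ≤ rr c e g := Real.sqrt_nonneg _
  have h1 : 1 ≤ rr c e g * e.Bg ^ 2 := by
    refine (abs_le_of_sq_le_sq' ?_ (by positivity)).2
    have g1 : e.q ≤ e.Bg := by
      have g2 : (e.P : ℝ) ^ 4 * 1 ≤ (e.P : ℝ) ^ 4 * ((e.P : ℝ) ^ 3 * e.Q * g.D) :=
        mul_le_mul_of_nonneg_left (one_le_mul_of_one_le_of_one_le (one_le_mul_of_one_le_of_one_le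
          (one_le_pow₀ hP1) ((one_le_pow₀ hP1).trans L.Q_ge)) L.D1) (by positivity)
      linarith [L.q_le, L.B_P]
    have g2 : 1 * 1 ^ 2 * 1 ≤ e.Bg * c.γ * (e.Bg * g.x) ^ 2 * (e.Bg / e.q) := by
      have := L.B_γ
      have := L.B_x'
      have : 1 ≤ e.Bg / e.q := (one_le_div hq).2 g1
      gcongr
    rw [mul_pow, rr_sq hγ hq]
    have g3 : e.Bg * c.γ * (e.Bg * g.x) ^ 2 * (e.Bg / e.q) =
      c.γ * (g.x ^ 2 / e.q) * (e.Bg ^ 2) ^ 2 := by ring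
    linarith
  refine (xr_far L hf E ha hy).trans (le_trans ?_ (mul_le_mul_of_nonneg_left (L.far2 hρ) hr0))
  have g1 : e.Bg * 1 * 1 ≤ e.Bg * (rr c e g * e.Bg ^ 2) * e.Bg ^ 27 := by
    have : 1 ≤ e.Bg ^ 27 := one_le_pow₀ (by linarith)
    gcongr
  have := mul_le_mul_of_nonneg_right g1 (Real.exp_pos (-e.ϑ * tdist y a)).le
  linarith

lemma xr_four (ha : a ∈ s.ord) {y : Tor d M} (hy : y ∈ s.ord) (hρ : e.ρ ≤ tdist y a) :
    e.Bg ^ 30 * ‖xr c.A s.w a y‖ ^ 4 ≤ tl e a y := by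
  have h0 := xr_far L hf E ha hy
  have h1 := L.far1 hρ
  have h2 := Real.exp_pos (-e.ϑ * tdist y a)
  have h5 := L.far2 hρ
  generalize Real.exp (-e.ϑ * tdist y a) = u at *
  have hB1 : 1 ≤ e.Bg := by linarith [L.B_ge]
  have h3 : e.Bg ^ 2 * u ≤ 1 :=
    (mul_le_mul_of_nonneg_right (pow_le_pow_right₀ hB1 (by norm_num)) h2.le).trans h1
  refine le_trans (mul_le_mul_of_nonneg_left ((pow_le_pow_left₀ (norm_nonneg _) h0 4).trans ?_)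
    (by positivity)) h5
  have h4 : u ≤ 1 := (le_mul_of_one_le_left h2.le (one_le_pow₀ hB1)).trans h3
  calc (e.Bg * u) ^ 4 = (e.Bg ^ 2 * u) ^ 2 * u * u := by ring
    _ ≤ 1 ^ 2 * 1 * u := by gcongr
    _ = u := by ring

/-- the four estimates -/
lemma bun (ha : a ∈ s.ord) (hQ : Q ⊆ s.ord.erase a) {ω : ℝ} (hω1 : 1 ≤ ω)
    (hω2 : ω ≤ (e.P : ℝ) ^ 2) (hωA : ω * N4 c.A s.w a (s.A.erase a) ≤ 16 * (c.γ * g.x ^ 4))
    (hωQ : ω * N4 c.A s.w a Q ≤ 16 * (c.γ * g.x ^ 4)) :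
    (∀ y ∈ s.A.erase a, ∀ k < c.N,
      (e.P : ℝ) * (ω * |JQ c.A s.w c.v a Q y k|) ≤ c.γ * g.x ^ 4 / 64) ∧
    (∀ y ∈ s.A.erase a, ∀ k < c.N, e.ρ ≤ tdist y a →
      ω * |JQ c.A s.w c.v a Q y k| ≤ c.γ * g.x ^ 4 / 64 * tl e a y) ∧
    (∀ S ⊆ s.A.erase a, ∀ t : ℝ, 1 ≤ t → t ≤ e.P → ω * ∑ y ∈ S, avg c.N (JQ c.A s.w c.v a Q y) ≤
      ω * (t * N4 c.A s.w a (s.A.erase a) + N4 c.A s.w a Q / t) / 10 ^ 4 +
        c.γ * g.x ^ 4 / (128 * e.P)) ∧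
    (∀ S ⊆ s.A.erase a, (e.P : ℝ) * (ω ^ 2 * ∑ y ∈ S, avg c.N fun k => JQ c.A s.w c.v a Q y k ^ 2) ≤
      (c.γ * g.x ^ 4) ^ 2 / (4096 * e.P)) ∧
    ∀ y ∈ s.A.erase a, (e.P : ℝ) ^ 5 * ‖xr c.A s.w a y‖ ^ 4 ≤ c.γ * g.x ^ 4 / 10 ^ 4 := by
  have n := nm L hω1 hω2 N4_nonneg N4_nonneg hωA hωQ
  have hC := n.C1; have hγ := n.γ0; have hx := n.x0; have hP1 := n.P1; have hr0 := n.r0
  have hρ0 := n.ρ0; have hm0 := n.m0
  have hA := E.rch.bas.adm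
  have hAo : s.A.erase a ⊆ s.ord.erase a := erase_subset_erase a E.rch.sub
  have hAo' : s.A.erase a ⊆ s.ord := hAo.trans (erase_subset _ _)
  have hQo : Q ⊆ s.ord := hQ.trans (erase_subset _ _)
  have H := (ph L E).mono hAo'
  have hF := L.F0
  have he : 0 ≤ g.e' := le_trans (by have := L.z0; positivity) L.z_small
  have hKd := fun y (hy : y ∈ s.A.erase a) => Kd L hf E (hAo' hy)
  have hxA := fun y (hy : y ∈ s.A.erase a) => xr_le L E ha (hAo hy)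
  have hxQ := fun y (hy : y ∈ Q) => xr_le L E ha (hQ hy)
  have hν := fun y (hy : y ∈ s.A.erase a) => row_le L E hQo (hAo' hy)
  have hi := im_le hf E ha
  have hc0 : 0 ≤ 3 * c.C * c.γ := by positivity
  obtain ⟨ℓ, hℓ0, hℓ2⟩ : ∃ ℓ, 0 ≤ ℓ ∧ ℓ ^ 2 = rr c e g ^ 2 * (3 * c.C * c.γ) * N4 c.A s.w a Q :=
    ⟨_, Real.sqrt_nonneg _, Real.sq_sqrt (mul_nonneg (by positivity) N4_nonneg)⟩
  have hJ : ∀ y ∈ s.A.erase a, ∀ k < c.N, |JQ c.A s.w c.v a Q y k| ≤ (4 * ρρ c * ℓ + rr c e g ^ 3 *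
      (7 * ρρ c ^ 2 * (3 * c.C * c.γ) + 5 * cc c g)) * ‖xr c.A s.w a y‖ := fun y hy k hk =>
    JQ_le H hy hk hc0 (hxA y hy) hxQ (hKd y hy) (hν y hy) hℓ0 hℓ2.ge
  have hjc := n.n1 hℓ2
  refine ⟨fun y hy k hk => le_trans ?_ hjc, fun y hy k hk hρ' => ?_, fun S hS t ht1 ht2 => ?_,
    fun S hS => ?_, fun y hy => ?_⟩
  · have := (hJ y hy k hk).trans (mul_le_mul_of_nonneg_left (hxA y hy) (by positivity))
    gcongr
  · have h3 := (hJ y hy k hk).trans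
      (mul_le_mul_of_nonneg_left (xr_tl L hf E ha (hAo' hy) hρ') (by positivity))
    have h5 := mul_le_mul_of_nonneg_right
      ((le_mul_of_one_le_left (by positivity) hP1).trans hjc) (L.tl_nonneg a y)
    have h6 := mul_le_mul_of_nonneg_left h3 (zero_le_one.trans hω1)
    linarith
  · have hBq := B_split (Ac := s.A.erase a) hA hi hc0 (fun b hb => Kd L hf E (hQo hb))
      (by positivity) (by positivity) n.n2
    exact (mul_le_mul_of_nonneg_left (JQ_avg H hS (key L E) (by positivity) hAo' hQo hi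
      (show 0 < t by linarith) hc0 (by positivity) hKd hν hBq) (zero_le_one.trans hω1)).trans
      (n.n3 he L.e'_small hF L.F_le ht1 ht2)
  · obtain ⟨V, hV, hV'⟩ : ∃ V, ∑ y ∈ s.A.erase a, ‖xr c.A s.w a y‖ ^ 2 *
        ‖lin (Q.erase y) (xr c.A s.w a) (Km c.A s.w y)‖ ^ 2 ≤ V ∧ (e.P : ℝ) ^ 3 *
        (ω ^ 2 * (5 * c.C / (9 / 10 * c.γ) * V)) ≤ 10 ^ 6 * c.C ^ 5 * (c.γ * g.x ^ 4) ^ 2 := by
      rcases L.alt with h | h
      · exact ⟨_, V_key hA (key L E) (by positivity) hAo' hQo hi, n.n4a he h hF L.F_le⟩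
      · exact ⟨_, V_crude hA n.Cγ hxA hxQ hKd, n.n4b h⟩
    refine le_trans ?_ (n.n4 hV')
    have k0 := JQ_sq H hS hc0 hxA hxQ hKd hν hV
    gcongr
    exact k0
  · exact (mul_le_mul_of_nonneg_left (pow_le_pow_left₀ (norm_nonneg _) (hxA y hy) 4)
      (by positivity)).trans n.n5

end Env

end Crest.Agent.N334.AC.P.FNh
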