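import Crest.Agent.N334.AC.P.Gen
import Crest.Agent.N334.AC.P.Der
import Crest.Agent.N334.AC.P.FN0
import Crest.Agent.N334.AC.P.FNs

/-! # S0520 part P: monitors of the fourth moments (leaf; fill the sorries, keep the statements)
`na`: `Q = bt(t) γ N^A/x⁴`, `Q s0 ≤ 9`, `a = (bt(t+dt) - bt t) γ N^A/x⁴ ≤ (3/5) dt bt γ N^A/x⁴`, `J` = `bt(t+dt) γ/x⁴` times
(`One.four_step` bound minus the removed term `|G_ay|⁴`). Quadratic term by `Der.ker` with `u = |G_a·|² 1_{A\a}`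
(`∑u ≤ 3C/γ`, `Led.F_le`), bias by `One.lin_bias`, QV of the linear term: `Led.alt`, case `P³e' ≤ 1`: `One.lin_sq` + `ker`;
case `P⁵ ≤ Qγ`: `|G_ay|² ≤ 9h`, `One.lin_nsq_crude`, `Led.γh`.
`ns`: `Q = 16 γ N^S/x⁴ - R(t)`, `R(t) = 1 - e^{-t/4} + t/P ≤ 2`, `a = R(t) - R(t+dt)`; bilinear `ker` by `u + λ u'`,
`N^A ≤ 12x⁴/bt`, `bt^{-1/2} ≤ e^{-t/4} + 1/P`. -/

set_option autoImplicit false

open Finset Complex
open scoped Matrix.Norms.L2Operator Matrix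

namespace Crest.Agent.N334.AC.P

variable {d M : ℕ} [NeZero M] {c : Cx d M} {e : Ep} {g : Sg} {f : Ref d M}

variable {s0 : CS d M}

namespace FNh

open Mo Mo.Nn

variable {s : CS d M} {a : Tor d M}

lemma bt_step (L : Led c e g) {t δ : ℝ} (ht : 0 ≤ t) (hδ : 0 ≤ δ) :
    bt e (t + δ) * (1 - δ / 2) ≤ bt e t := by
  have h0 : 0 ≤ bt e (t + δ) := zero_le_one.trans (one_le_bt L (by linarith))
  refine le_min ?_ ((mul_le_of_le_one_right h0 (by linarith)).trans (bt_le _))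
  have h1 : 1 - δ / 2 ≤ Real.exp (-(δ / 2)) := by linarith [Real.add_one_le_exp (-(δ / 2))]
  calc _ ≤ bt e (t + δ) * Real.exp (-(δ / 2)) := mul_le_mul_of_nonneg_left h1 h0
    _ ≤ Real.exp ((t + δ) / 2) * Real.exp (-(δ / 2)) :=
        mul_le_mul_of_nonneg_right (min_le_left _ _) (Real.exp_pos _).le
    _ = _ := by rw [← Real.exp_add]; congr 1; ring

lemma gam0 (L : Led c e g) (h0 : Pre c e g f s0) {b : Tor d M} (hb : gam s0.w b ≠ 0) :
    99 / 100 * c.γ ≤ gam s0.w b ∧ gam s0.w b ≤ 101 / 100 * c.γ := by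
  have h1 : ‖s0.w b - c.w0‖ ≤ (g.e + g.x) * c.γ := h0.inv.near b hb
  have h2 := abs_le.1 ((abs_im_le_norm _).trans h1)
  have h3 : g.e + g.x ≤ 1 / 100 := by
    have := L.e_x_le
    have h4 : 0 ≤ (e.P : ℝ) ^ 3 * g.z := by have := L.z0; positivity
    have h5 := mul_le_mul_of_nonneg_right (one_le_pow₀ (n := 30) L.ok.C1)
      (h4.trans L.z_small)
    linarith [L.e'_small, h4.trans L.z_small]
  have h4 := mul_le_mul_of_nonneg_right h3 L.ok.γ0.le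
  rw [sub_im] at h2
  rw [gam]
  have h5 : c.γ = -c.w0.im := rfl
  constructor <;> linarith [h2.1, h2.2]

lemma ord0 (h0 : Pre c e g f s0) (hs : Rch c e f s0 s) (ha : a ∈ s.ord) : a ∈ s0.ord := by
  by_cases hA : a ∈ s.A
  · exact h0.sub (hs.subA hA)
  · exact (mem_sdiff.1 (hs.subS (mem_sdiff.2 ⟨ha, hA⟩))).1

lemma out_lo (L : Led c e g) (h0 : Pre c e g f s0) (hs : Rch c e f s0 s) {Q : Finset (Tor d M)}
    (hQ : Q ⊆ s.ord) :
    (99 / 100) ^ 2 * c.γ * (c.γ * ∑ b ∈ Q, ‖c.G s.w a b‖ ^ 4) ≤ N4 c.A s.w a Q :=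
  N4_lo hs.bas.adm (by linarith [L.ok.γ0]) fun b hb => by
    have h1 := hs.bas.opn b (hQ hb)
    have h2 : gam s.w b = gam s0.w b := by rw [gam, gam, hs.same b (Or.inl h1)]
    rw [h2] at h1 ⊢
    exact (gam0 L h0 h1).1

lemma in_up (L : Led c e g) (h0 : Pre c e g f s0) {Q : Finset (Tor d M)} (hQ : Q ⊆ s0.ord) :
    N4 c.A s0.w a Q ≤ (101 / 100) ^ 2 * c.γ * (c.γ * ∑ b ∈ Q, ‖c.G s0.w a b‖ ^ 4) :=
  N4_up h0.inv.bas.adm fun b hb => (gam0 L h0 (h0.inv.bas.opn b (hQ hb))).2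

lemma NA_le (L : Led c e g) (E : Env c e g f s0 s) (ha : a ∈ s.ord) :
    bt e s.t * N4 c.A s.w a (s.A.erase a) ≤ 15 * (c.γ * g.x ^ 4) := by
  have h1 := mul_le_mul_of_nonneg_left (N4_up (a := a) (Q := s.A.erase a) E.rch.bas.adm
    fun b _ => E.der.gam_le b) (zero_le_one.trans (one_le_bt L (t_nonneg s)))
  have h2 := mul_le_mul_of_nonneg_left (E.na a ha) L.ok.γ0.le
  have h3 := mul_pos L.ok.γ0 (pow_pos L.x_pos 4)
  linarith

lemma far_sum (L : Led c e g) (hf : RefOK c e f) (E : Env c e g f s0 s) (ha : a ∈ s.ord) :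
    (e.P : ℝ) ^ 3 * (N4 c.A s.w a (s.A.erase a) -
      ∑ y ∈ (s.A ∩ tball a (2 * e.ρ)).erase a, ‖xr c.A s.w a y‖ ^ 4) ≤ c.γ * g.x ^ 4 / 64 := by
  have hB := L.B_ge
  have hP1 : (1 : ℝ) ≤ e.P := by linarith [L.P_ge]
  have h1 : N4 c.A s.w a (s.A.erase a) - ∑ y ∈ (s.A ∩ tball a (2 * e.ρ)).erase a,
      ‖xr c.A s.w a y‖ ^ 4 = ∑ y ∈ s.A.erase a \ tball a (2 * e.ρ), ‖xr c.A s.w a y‖ ^ 4 := by
    rw [N4, ← sum_inter_add_sum_sdiff (s.A.erase a) (tball a (2 * e.ρ)), erase_inter, add_sub_cancel_left]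
  have h2 : e.Bg ^ 30 * ∑ y ∈ s.A.erase a \ tball a (2 * e.ρ), ‖xr c.A s.w a y‖ ^ 4 ≤ 1 := by
    rw [mul_sum]
    refine le_trans (sum_le_sum fun y hy => ?_)
      ((sum_le_univ_sum_of_nonneg fun y => L.tl_nonneg a y).trans (L.sum_tl a))
    refine xr_four L hf E ha (E.rch.sub (mem_of_mem_erase (mem_sdiff.1 hy).1)) ?_
    have := (mem_sdiff.1 hy).2
    rw [mem_tball] at this
    omega
  have h3 : 1 * 1 ^ 4 ≤ e.Bg * c.γ * (e.Bg * g.x) ^ 4 := by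
    have := L.B_γ
    have := L.B_x'
    gcongr
  have h4 : (e.P : ℝ) ^ 3 ≤ e.Bg := by
    have g2 : (e.P : ℝ) ^ 3 * 1 ≤ (e.P : ℝ) ^ 3 * ((e.P : ℝ) ^ 4 * e.Q * g.D) :=
      mul_le_mul_of_nonneg_left (one_le_mul_of_one_le_of_one_le (one_le_mul_of_one_le_of_one_le
        (one_le_pow₀ hP1) ((one_le_pow₀ hP1).trans L.Q_ge)) L.D1) (by positivity)
    linarith [L.B_P]
  have h5 : (64 : ℝ) ≤ e.Bg ^ 24 := le_trans (by linarith) (le_self_pow₀ (by linarith) (by norm_num))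
  rw [h1]
  have h6 : 0 ≤ ∑ y ∈ s.A.erase a \ tball a (2 * e.ρ), ‖xr c.A s.w a y‖ ^ 4 := by positivity
  generalize ∑ y ∈ s.A.erase a \ tball a (2 * e.ρ), ‖xr c.A s.w a y‖ ^ 4 = u at *
  have h7 : 64 * (e.P : ℝ) ^ 3 * u * 1 ≤ e.Bg ^ 24 * e.Bg * u * (e.Bg * c.γ * (e.Bg * g.x) ^ 4) := by
    gcongr
    linarith
  have h8 := mul_le_mul_of_nonneg_right h2 (mul_pos L.ok.γ0 (pow_pos L.x_pos 4)).le
  linarith

lemma not_ball {y : Tor d M} (h : y ∉ tball a (2 * e.ρ)) : e.ρ ≤ tdist y a := by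
  rw [mem_tball] at h
  omega

lemma na_step (L : Led c e g) (hf : RefOK c e f) (E : Env c e g f s0 s) (ha : a ∈ s.ord) :
    ∃ (a' : ℝ) (J : Tor d M → ℕ → ℝ), a' ≤ 1 / 2 ∧
      2 / (c.γ * g.x ^ 4) * (bt e (s.t + dt d M) * N4 c.A s.w a (s.A.erase a)) ≤
        2 / (c.γ * g.x ^ 4) * (bt e s.t * N4 c.A s.w a (s.A.erase a)) + a' ∧
      (∀ y ∈ s.A, ∀ k < c.N, y ≠ a → 2 / (c.γ * g.x ^ 4) * (bt e (s.t + dt d M) *
        N4 c.A (cls1 s.w y (c.v y k)) a ((s.A.erase y).erase a)) ≤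
        2 / (c.γ * g.x ^ 4) * (bt e s.t * N4 c.A s.w a (s.A.erase a)) + a' +
          if y ∈ tball a (2 * e.ρ) then J y k else tl e a y) ∧
      (∀ y ∈ s.A ∩ tball a (2 * e.ρ), ∀ k < c.N, (e.P : ℝ) * |J y k| ≤ 1) ∧
      a' + dt d M * ∑ y ∈ s.A ∩ tball a (2 * e.ρ), avg c.N (J y) ≤ dt d M / (4 * e.P) ∧
      (e.P : ℝ) * ∑ y ∈ s.A ∩ tball a (2 * e.ρ), avg c.N (fun k => J y k ^ 2) ≤ 1 / (4 * e.P) := by
  have hγ := L.ok.γ0
  have hD : 0 < c.γ * g.x ^ 4 := mul_pos hγ (pow_pos L.x_pos 4)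
  have hP1 : (1 : ℝ) ≤ e.P := by linarith [L.P_ge]
  have hN := L.ok.N0
  have hδ := (dt_pos (d := d) (M := M)).le
  have hδ1 := L.ok.dt_le
  have b1 := bt_step L (t_nonneg s) hδ
  have b2 := one_le_bt L (add_nonneg (t_nonneg s) hδ)
  have b3 := bt_le (e := e) (s.t + dt d M)
  have nA := N4_nonneg (A := c.A) (w := s.w) (a := a) (Q := s.A.erase a)
  have b4 := mul_le_mul_of_nonneg_right b1 nA
  have b5 := NA_le L E ha
  have b6 := mul_le_mul_of_nonneg_right hδ1 (mul_nonneg (zero_le_one.trans b2) nA)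
  have b7 : bt e (s.t + dt d M) * N4 c.A s.w a (s.A.erase a) ≤ 16 * (c.γ * g.x ^ 4) := by linarith
  obtain ⟨j1, j2, j3, j4, j5⟩ := bun L hf E ha (erase_subset_erase a E.rch.sub) b2 b3 b7 b7
  have fs := far_sum L hf E ha
  generalize bt e (s.t + dt d M) = ω' at *
  generalize hD' : c.γ * g.x ^ 4 = D at *
  have hω0 : 0 ≤ ω' := by linarith
  have h2D : 0 ≤ 2 / D := by positivity
  have hS : (s.A ∩ tball a (2 * e.ρ)).erase a ⊆ s.A.erase a :=
    erase_subset_erase a inter_subset_left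
  have hx4 : ∀ y ∈ s.A.erase a, (e.P : ℝ) ^ 2 * (ω' * ‖xr c.A s.w a y‖ ^ 4) ≤ D / 10 ^ 4 :=
    fun y hy => le_trans (by
      have : (e.P : ℝ) ^ 2 * ω' ≤ (e.P : ℝ) ^ 3 * (e.P : ℝ) ^ 2 := by gcongr; norm_num
      have := mul_le_mul_of_nonneg_right this (show 0 ≤ ‖xr c.A s.w a y‖ ^ 4 by positivity)
      linarith) (j5 y hy)
  refine ⟨2 / D * ((ω' - bt e s.t) * N4 c.A s.w a (s.A.erase a)), fun y k => if y = a then 0 else
    2 / D * (ω' * (JQ c.A s.w c.v a (s.A.erase a) y k - ‖xr c.A s.w a y‖ ^ 4)), ?_, le_of_eq (by ring),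
    fun y hy k hk hne => ?_, fun y hy k hk => ?_, ?_, ?_⟩
  · rw [div_mul_eq_mul_div, div_le_iff₀ hD]
    linarith
  · have hy' : y ∈ s.A.erase a := mem_erase.2 ⟨hne, hy⟩
    have k1 := step (a := a) (ph L E) (E.rch.sub hy) hk (s.A.erase a)
    have k2 : N4 c.A s.w a ((s.A.erase a).erase y) + ‖xr c.A s.w a y‖ ^ 4 =
      N4 c.A s.w a (s.A.erase a) := sum_erase_add _ _ hy'
    have k3 : ω' * N4 c.A (cls1 s.w y (c.v y k)) a ((s.A.erase y).erase a) ≤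
        ω' * (N4 c.A s.w a (s.A.erase a) +
          (JQ c.A s.w c.v a (s.A.erase a) y k - ‖xr c.A s.w a y‖ ^ 4)) :=
      mul_le_mul_of_nonneg_left (by rw [erase_right_comm, JQ]; linarith) hω0
    have k4 := mul_le_mul_of_nonneg_left k3 h2D
    simp only [if_neg hne]
    split_ifs with h1
    · linarith
    · have k5 := j2 y hy' k hk (not_ball h1)
      have k6 := mul_le_mul_of_nonneg_left (le_abs_self (JQ c.A s.w c.v a (s.A.erase a) y k)) hω0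
      have k7 : 0 ≤ ω' * ‖xr c.A s.w a y‖ ^ 4 := by positivity
      have k8 := mul_nonneg hD.le (L.tl_nonneg a y)
      have k9 : 2 / D * (ω' * (JQ c.A s.w c.v a (s.A.erase a) y k - ‖xr c.A s.w a y‖ ^ 4)) ≤
          tl e a y := by
        rw [div_mul_eq_mul_div, div_le_iff₀ hD]
        linarith
      linarith
  · beta_reduce
    split_ifs with hya
    · simp
    · have hy' := hS (mem_erase.2 ⟨hya, hy⟩)
      have k1 := mul_le_mul_of_nonneg_left (abs_sub (JQ c.A s.w c.v a (s.A.erase a) y k)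
        (‖xr c.A s.w a y‖ ^ 4)) (show 0 ≤ e.P * ω' by positivity)
      have k2 := mul_le_mul_of_nonneg_right (le_self_pow₀ hP1 two_ne_zero)
        (show 0 ≤ ω' * ‖xr c.A s.w a y‖ ^ 4 by positivity)
      rw [abs_of_nonneg (show 0 ≤ ‖xr c.A s.w a y‖ ^ 4 by positivity)] at k1
      rw [abs_mul, abs_mul, abs_of_nonneg h2D, abs_of_nonneg hω0, mul_left_comm,
        div_mul_eq_mul_div, div_le_iff₀ hD]
      linarith [j1 y hy' k hk, hx4 y hy']
  · rw [← sum_erase (s.A ∩ tball a (2 * e.ρ)) (a := a) (by simp [avg]),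
      sum_congr rfl fun y hy => by
        simp only [if_neg (ne_of_mem_erase hy)]
        rw [avg_mul, avg_mul, funext fun k => sub_eq_add_neg _ _, avg_add, avg_const hN]]
    simp only [← mul_sum, sum_add_distrib, sum_neg_distrib]
    have k1 := j3 _ hS 1 le_rfl hP1
    have k2 : ω' * (N4 c.A s.w a (s.A.erase a) -
        ∑ y ∈ (s.A ∩ tball a (2 * e.ρ)).erase a, ‖xr c.A s.w a y‖ ^ 4) ≤ D / (64 * e.P) := by
      rw [le_div_iff₀ (by positivity)]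
      have g1 : 0 ≤ N4 c.A s.w a (s.A.erase a) -
        ∑ y ∈ (s.A ∩ tball a (2 * e.ρ)).erase a, ‖xr c.A s.w a y‖ ^ 4 := sub_nonneg.2 (N4_mono hS)
      have g2 := mul_le_mul_of_nonneg_right b3 (mul_nonneg g1 (zero_le_one.trans hP1))
      linarith
    have k3 : D / (64 * e.P) = D / (8 * e.P) / 8 := by field_simp; norm_num
    have k4 : D / (128 * e.P) = D / (8 * e.P) / 16 := by field_simp; norm_num
    have k5 : 0 ≤ D / (8 * e.P) := by positivity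
    have k6 : ω' * N4 c.A s.w a (s.A.erase a) / 2 + ω' * (∑ y ∈ (s.A ∩ tball a (2 * e.ρ)).erase a,
        avg c.N (JQ c.A s.w c.v a (s.A.erase a) y) + -∑ y ∈ (s.A ∩ tball a (2 * e.ρ)).erase a,
          ‖xr c.A s.w a y‖ ^ 4) ≤ D / (8 * e.P) := by
      have := mul_nonneg hω0 nA
      simp only [one_mul, div_one] at k1
      linarith
    have k7 := mul_le_mul_of_nonneg_left (mul_le_mul_of_nonneg_left k6 hδ) h2D
    have k8 : 2 / D * (dt d M * (D / (8 * e.P))) = dt d M / (4 * e.P) := by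
      field_simp; ring
    have k9 := mul_le_mul_of_nonneg_left b4 h2D
    linarith
  · rw [← sum_erase (s.A ∩ tball a (2 * e.ρ)) (a := a) (by simp [avg])]
    have k0 : ∀ y ∈ (s.A ∩ tball a (2 * e.ρ)).erase a, (e.P : ℝ) ^ 2 * avg c.N (fun k =>
        (if y = a then 0 else 2 / D * (ω' * (JQ c.A s.w c.v a (s.A.erase a) y k -
          ‖xr c.A s.w a y‖ ^ 4))) ^ 2) ≤ (2 / D) ^ 2 * (2 * ((e.P : ℝ) ^ 2 * ω' ^ 2) *
          avg c.N (fun k => JQ c.A s.w c.v a (s.A.erase a) y k ^ 2) +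
          2 * (D / 10 ^ 4) * ω' * ‖xr c.A s.w a y‖ ^ 4) := fun y hy => by
      rw [← avg_const hN (2 * (D / 10 ^ 4) * ω' * ‖xr c.A s.w a y‖ ^ 4), ← avg_mul, ← avg_mul,
        ← avg_add, ← avg_mul]
      refine avg_mono fun k _ => ?_
      rw [if_neg (ne_of_mem_erase hy), mul_pow, mul_left_comm]
      refine mul_le_mul_of_nonneg_left ?_ (sq_nonneg _)
      have g1 := mul_le_mul_of_nonneg_right (hx4 y (hS hy))
        (show 0 ≤ ω' * ‖xr c.A s.w a y‖ ^ 4 by positivity)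
      have g2 := mul_nonneg (show 0 ≤ (e.P : ℝ) ^ 2 * ω' ^ 2 by positivity)
        (sq_nonneg (JQ c.A s.w c.v a (s.A.erase a) y k + ‖xr c.A s.w a y‖ ^ 4))
      linarith
    have k1 := sum_le_sum k0
    simp only [← mul_sum, sum_add_distrib] at k1
    have k2 := j4 _ hS
    rw [le_div_iff₀ (by positivity)] at k2 ⊢
    have k3 := mul_le_mul_of_nonneg_left ((mul_le_mul_of_nonneg_left (N4_mono hS) hω0).trans b7)
      hD.le
    have k4 : 2 * ((e.P : ℝ) ^ 2 * ω' ^ 2) * ∑ y ∈ (s.A ∩ tball a (2 * e.ρ)).erase a,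
        avg c.N (fun k => JQ c.A s.w c.v a (s.A.erase a) y k ^ 2) + 2 * (D / 10 ^ 4) * ω' *
        ∑ y ∈ (s.A ∩ tball a (2 * e.ρ)).erase a, ‖xr c.A s.w a y‖ ^ 4 ≤ D ^ 2 / 16 := by
      rw [N4] at k3
      linarith [sq_nonneg D]
    have k5 := mul_le_mul_of_nonneg_left k4 (sq_nonneg (2 / D))
    have k6 : (2 / D) ^ 2 * (D ^ 2 / 16) = 1 / 4 := by field_simp; norm_num
    linarith

lemma na_out (L : Led c e g) (h0 : Pre c e g f s0) (hs : Rch c e f s0 s) (ha : a ∈ s.ord)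
    (h1 : 2 / (c.γ * g.x ^ 4) * (bt e s.t * N4 c.A s.w a (s.A.erase a)) ≤
      2 / (c.γ * g.x ^ 4) * (bt e s0.t * N4 c.A s0.w a (s0.A.erase a)) + 3) :
    bt e s.t * (c.γ * ∑ b ∈ s.A.erase a, ‖c.G s.w a b‖ ^ 4) ≤ 12 * g.x ^ 4 := by
  have hγ := L.ok.γ0
  have hD : 0 < c.γ * g.x ^ 4 := mul_pos hγ (pow_pos L.x_pos 4)
  have ha0 := ord0 h0 hs ha
  have h2 : s0.t = 0 := by rw [CS.t, h0.n0, Nat.cast_zero, zero_mul]
  have h3 := (N4_mono (erase_subset_erase a h0.sub)).trans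
    (in_up (a := a) L h0 (erase_subset a s0.ord))
  have h4 : c.γ * ∑ b ∈ s0.ord.erase a, ‖c.G s0.w a b‖ ^ 4 ≤ 9 * g.x ^ 4 := h0.inv.four a ha0
  have h5 := mul_le_mul_of_nonneg_left h4 hγ.le
  have h6 := mul_le_mul_of_nonneg_left (out_lo (a := a) L h0 hs
    ((erase_subset a s.A).trans hs.sub)) (zero_le_one.trans (one_le_bt L (t_nonneg s)))
  simp only [h2, bt_zero L, one_mul] at h1
  rw [div_mul_eq_mul_div, div_mul_eq_mul_div, div_add' _ _ _ hD.ne',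
    div_le_div_iff_of_pos_right hD] at h1
  refine le_of_mul_le_mul_left ?_ hγ
  linarith

end FNh

open FNh Mo Mo.Nn in
theorem fam_na (L : Led c e g) (hf : RefOK c e f) (h0 : Pre c e g f s0) :
    Fam c e g f s0 (OutNA c e g) := by
  have hD : 0 < c.γ * g.x ^ 4 := mul_pos L.ok.γ0 (pow_pos L.x_pos 4)
  refine (fam_scalar L h0.n0 (fun s hs => hs.rch.sub) id (fun a s => a ∈ s.ord)
    (fun a s => 2 / (c.γ * g.x ^ 4) * (bt e s.t * N4 c.A s.w a (s.A.erase a))) (fun p => ?_)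
    (fun a s F h => ⟨(mem_sdiff.1 h).1, ?_⟩) (fun a s ω h => ?_) fun a s E _ ha => ?_).mono
    (fun s hs h a ha => na_out L h0 hs ha (h a ha)) le_rfl
  · refine le_trans ?_ (Real.one_le_exp (by positivity))
    refine Nat.cast_le_one.2 (card_le_one.2 fun a ha b hb => ?_)
    simp only [mem_filter, id] at ha hb
    exact ha.2.1.trans hb.2.1.symm
  · refine mul_le_mul_of_nonneg_left (mul_le_mul_of_nonneg_left
      (N4_mono (erase_subset_erase a sdiff_subset)) ?_) (by positivity)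
    exact zero_le_one.trans (one_le_bt L (t_nonneg s))
  · rcases ω with _ | ⟨y, k⟩
    exacts [h, mem_of_mem_erase h]
  · obtain ⟨a', J, j1, j2, j3, j4⟩ := na_step L hf E ha
    refine ⟨a', J, j1, Or.inr ha, ?_, fun y hy k hk hl => ?_, j4⟩
    · rw [next_t]
      exact j2
    · rw [next_t]
      exact j3 y hy k hk (ne_of_mem_erase hl).symm

theorem fam_ns (L : Led c e g) (hf : RefOK c e f) (h0 : Pre c e g f s0) :
    Fam c e g f s0 (OutNS c g) := Ns.fam_ns L hf h0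

end Crest.Agent.N334.AC.P
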