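import Crest.Agent.N334.AC.P.Gen
import Crest.Agent.N334.AC.P.Der
import Crest.Agent.N334.AC.M7.M5

/-! # S0520 part P: monitor of the norm (leaf; fill the sorries, keep the statements)
`fam_ghost` with the record `Ys y = cmp (-τ g gᵀ) O0` of the closing of `y`, `Tr`: `cmp (G s) O0 = cmp (G s0) O0 + ∑ Ys`,
`Ys y = 0` on open `y`, entries `≤ Bg² e^{-ϑ(d+d)}`; `M7.blk_locA`, `M7.glue7`, `L = ρ`, scale `sc = P⁴D'/(6·2^d)`:
jump `2σ D'`, QV `4Cγ D' ‖cmp G‖/(0.9γ)`, drift `|b| ‖cmp G‖/(0.9γ)` (Ward `G_ward`). -/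

set_option autoImplicit false

open Finset Complex
open scoped Matrix.Norms.L2Operator Matrix

namespace Crest.Agent.N334.AC.P

variable {d M : ℕ} [NeZero M] {c : Cx d M} {e : Ep} {g : Sg} {f : Ref d M}

namespace Nr

/-- charts of the balls of radius `R` -/
def ee (R : ℕ) (p : Tor d M) (u : {x // x ∈ tball (0 : Tor d M) R}) : Tor d M := u.1 + p

theorem ee_inj (R : ℕ) (p : Tor d M) : Function.Injective (ee R p) :=
  fun _ _ h => Subtype.ext (add_right_cancel h)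

theorem ee_cov (R : ℕ) (p : Tor d M) : tball p R ⊆ univ.image (ee R p) := fun x hx =>
  mem_image.2 ⟨⟨x - p, mem_tball.2 ((tdist_sub x p).trans_le (mem_tball.1 hx))⟩, mem_univ _,
    sub_add_cancel x p⟩

theorem ee_card (R : ℕ) : (Fintype.card {x // x ∈ tball (0 : Tor d M) R} : ℝ) = vol d M R := by
  rw [Fintype.card_coe, card_tball]

/-- update of the record -/
noncomputable def stp (c : Cx d M) (O : Finset (Tor d M)) (s : CS d M) (Ys : M7.Rec7 d M) :
    Option (Tor d M × ℕ) → M7.Rec7 d M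
  | none => Ys
  | some (y, k) => fun z => Ys z + if z = y then M5.inc5 c.A s.w O c.v y k else 0

/-- bookkeeping -/
structure Tr (c : Cx d M) (e : Ep) (O : Finset (Tor d M)) (s0 s : CS d M) (Ys : M7.Rec7 d M) :
    Prop where
  eq : cmp (c.G s.w) O = cmp (c.G s0.w) O + ∑ y, Ys y
  zero : ∀ y ∈ s.ord, Ys y = 0
  loc : ∀ y x z, ‖Ys y x z‖ ≤
    e.Bg ^ 2 * (Real.exp (-e.ϑ * tdist x y) * Real.exp (-e.ϑ * tdist z y))

theorem mon_stp {B : Type} (ε : B → Tor d M) (a : ℝ) (R : ℕ) (O : Finset (Tor d M)) (s : CS d M)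
    (Ys : M7.Rec7 d M) (p : Tor d M) (ω : Option (Tor d M × ℕ)) :
    M7.mon7 ε a R (stp c O s Ys ω) p = (a : ℂ) •
      blk (accUp (tball p R) (∑ y ∈ tball p R, Ys y) 0 (M5.inc5 c.A s.w O c.v) ω) ε univ := by
  rcases ω with _ | ⟨y, k⟩
  · simp [M7.mon7, stp, accUp]
  · simp [M7.mon7, stp, accUp, sum_add_distrib]

theorem num (L : Led c e g) : 1000 * ((2 : ℝ) ^ d) ^ 2 * c.C ≤ e.P := by
  have h1 : (3 : ℝ) ≤ d := by exact_mod_cast L.ok.hd
  have h2 := L.ok.C1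
  have h3 : ((2 : ℝ) ^ d) ^ 2 ≤ (100 * d : ℝ) ^ (5 * d) := by
    rw [← pow_mul, mul_comm d 2]
    exact (pow_le_pow_left₀ (by norm_num) (by linarith) _).trans
      (pow_le_pow_right₀ (by linarith) (by omega))
  have h4 : 1000 * c.C ≤ 10 ^ 30 * c.C ^ 15 :=
    mul_le_mul (by norm_num) (le_self_pow₀ h2 (by norm_num)) (by linarith) (by norm_num)
  calc _ = ((2 : ℝ) ^ d) ^ 2 * (1000 * c.C) := by ring
    _ ≤ _ := mul_le_mul h3 h4 (by linarith) (by positivity)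
    _ ≤ _ := L.P2

theorem tau_le (L : Led c e g) {s : St d M} (h : Der c e g f s) {y : Tor d M} (hy : y ∈ s.ord)
    {k : ℕ} (hk : k < c.N) : ‖c.τ s.w y k‖ ≤ 1 := by
  have h1 := h.τ_le y hy k hk
  have h2 := L.ok.γ_le
  have h3 : 4 * c.C ≤ 10 ^ 60 * c.C ^ 30 :=
    mul_le_mul (by norm_num) (le_self_pow₀ L.ok.C1 (by norm_num)) (by linarith [L.ok.C1])
      (by norm_num)
  exact (pow_le_one_iff_of_nonneg (norm_nonneg _) two_ne_zero).1
    (h1.trans ((mul_le_mul_of_nonneg_right h3 L.ok.γ0.le).trans h2))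

theorem Tr.next (L : Led c e g) {s0 s s1 : CS d M} {Ys : M7.Rec7 d M} (hE : Env c e g f s1 s)
    (h : Tr c e (opn f.wr) s0 s Ys) {ω : Option (Tor d M × ℕ)} (hω : okA s.A c.N ω) :
    Tr c e (opn f.wr) s0 (s.next c ω) (stp c (opn f.wr) s Ys ω) := by
  rcases ω with _ | ⟨y, k⟩
  · exact ⟨h.eq, h.zero, h.loc⟩
  have hy := hE.rch.sub hω.1
  refine ⟨?_, fun z hz => ?_, fun z x x' => ?_⟩
  · have e1 := M5.cmp_close (Q := opn f.wr) hE.rch.bas.adm (hE.der.den y hy k hω.2)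
    refine e1.trans ?_
    simp only [stp, sum_add_distrib, sum_ite_eq', mem_univ, if_true]
    rw [← add_assoc, ← h.eq]
    rfl
  · simp only [stp, if_neg (ne_of_mem_erase hz), add_zero]
    exact h.zero z (mem_of_mem_erase hz)
  · by_cases hz : z = y
    · subst hz
      have hz0 := hE.der.sub0 (mem_opn.2 (hE.rch.bas.opn z hy))
      have hB : 0 ≤ e.Bg := le_trans (by norm_num) L.B_ge
      have hc : ∀ x, ‖M5.col c.A s.w (opn f.wr) z x‖ ≤ e.Bg * Real.exp (-e.ϑ * tdist x z) :=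
        fun x => by
          by_cases hx : x ∈ opn f.wr
          · simp only [M5.col, cut, if_pos hx]
            exact hE.der.dec x hx z hz0
          · simp only [M5.col, cut, if_neg hx, norm_zero]
            positivity
      simp only [stp, if_true, h.zero z hy, zero_add, M5.inc5, M5.Y5, Matrix.smul_apply,
        Matrix.vecMulVec_apply, smul_eq_mul, norm_mul, norm_neg]
      calc _ ≤ 1 * (e.Bg * Real.exp (-e.ϑ * tdist x z) * (e.Bg * Real.exp (-e.ϑ * tdist x' z))) :=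
            mul_le_mul (tau_le L hE.der hy hω.2) (mul_le_mul (hc x) (hc x') (norm_nonneg _)
              (by positivity)) (by positivity) zero_le_one
        _ = _ := by ring
    · simpa only [stp, if_neg hz, add_zero] using h.loc z x x'

end Nr

open Nr

theorem fam_nr (L : Led c e g) (hf : RefOK c e f) {s0 : CS d M} (h0 : Pre c e g f s0) :
    Fam c e g f s0 (OutNr c e g f) := by
  have hP := L.P_ge
  have hP0 : (0 : ℝ) < e.P := lt_of_lt_of_le (by norm_num) hP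
  have hP1 : (1 : ℝ) ≤ e.P := le_trans (by norm_num) hP
  have hQ : (e.P : ℝ) ≤ e.Q := (le_self_pow₀ hP1 (by norm_num)).trans L.Q_ge
  have hC := L.ok.C1
  have hn := num L
  have hD := L.D1
  set a : ℝ := 2 ^ d with ha
  have ha1 : 1 ≤ a := one_le_pow₀ one_le_two
  have hD6 : 6 * g.D ≤ D' e g := by
    unfold D'
    gcongr
    exact le_trans (by linarith) (le_mul_of_one_le_left (by linarith) (one_le_pow₀ hP1))
  have hD' : 0 < D' e g := by linarith
  have haP : 1000 * a ≤ e.P := by nlinarith [mul_le_mul_of_nonneg_left hC (sq_nonneg a)]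
  set sc : ℝ := 6 * a / ((e.P : ℝ) ^ 4 * D' e g) with hsc
  have hsc0 : 0 < sc := by positivity
  have n1 : (e.P : ℝ) * (sc * (1 * D' e g)) ≤ 1 := by
    have : (e.P : ℝ) * (sc * (1 * D' e g)) = 6 * a / (e.P : ℝ) ^ 3 := by
      rw [hsc]; field_simp
    rw [this, div_le_one (by positivity)]
    exact le_trans (by linarith) (le_self_pow₀ hP1 three_ne_zero)
  have n2 : sc * (2 * ((e.P : ℝ) ^ 5 * e.Q * g.x ^ 2) * ((e.P : ℝ) ^ 4 * D' e g)) ≤
      1 / (4 * e.P) := by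
    have : sc * (2 * ((e.P : ℝ) ^ 5 * e.Q * g.x ^ 2) * ((e.P : ℝ) ^ 4 * D' e g)) =
        12 * a * ((e.P : ℝ) ^ 5 * e.Q * g.x ^ 2) := by
      rw [hsc]; field_simp; ring
    rw [this, le_div_iff₀ (by positivity)]
    have hx := L.x_pos
    have h1 : g.x ≤ 1 := (le_mul_of_one_le_left hx.le (one_le_pow₀ hP1)).trans L.x_small
    calc _ = 48 * a * g.x * ((e.P : ℝ) ^ 6 * e.Q * g.x) := by ring
      _ ≤ (e.P : ℝ) ^ 9 * 1 * ((e.P : ℝ) ^ 6 * e.Q * g.x) := by
          gcongr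
          exact le_trans (by linarith) (le_self_pow₀ hP1 (by norm_num))
      _ = (e.P : ℝ) ^ 15 * e.Q * g.x := by ring
      _ ≤ 1 := L.main
  have n3 : (e.P : ℝ) * (sc ^ 2 * (5 * c.C * D' e g * ((e.P : ℝ) ^ 4 * D' e g))) ≤
      1 / (4 * e.P) := by
    have : (e.P : ℝ) * (sc ^ 2 * (5 * c.C * D' e g * ((e.P : ℝ) ^ 4 * D' e g))) =
        180 * (a ^ 2 * c.C) / (e.P : ℝ) ^ 3 := by
      rw [hsc]; field_simp; ring
    rw [this, div_le_div_iff₀ (by positivity) (by positivity)]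
    nlinarith [mul_le_mul_of_nonneg_left hP1 (mul_pos hP0 hP0).le, mul_pos hP0 hP0,
      mul_le_mul_of_nonneg_left hP1 hP0.le]
  refine (fam_ghost L h0.n0 (B := {x // x ∈ tball (0 : Tor d M) (2 * e.ρ)})
    ((ee_card _).trans_le (vol_mono (by omega))) (Tr c e (opn f.wr) s0) (stp c (opn f.wr))
    (fun Ys p => M7.mon7 (ee (2 * e.ρ) p) sc e.ρ Ys p) 0
    ⟨⟨by simp, fun _ _ => rfl, fun y x z => by simp; positivity⟩, fun p => M7.mon7_zero _ _ _ p⟩
    (fun s Ys F h => ⟨h.eq, fun y hy => h.zero y (mem_sdiff.1 hy).1, h.loc⟩)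
    fun s Ys hE _ hT _ => ⟨fun ω hω => ⟨hT.next L hE hω, fun p => ?_⟩, fun p => ?_⟩).mono
    (fun s _ ⟨Ys, hT, hb⟩ => ?_) le_rfl
  · rcases ω with _ | ⟨y, k⟩
    · exact ⟨by simp [stp], fun _ => rfl⟩
    have hy := hE.rch.sub hω.1
    have e1 : M7.mon7 (ee (2 * e.ρ) p) sc e.ρ (stp c (opn f.wr) s Ys (some (y, k))) p =
        M7.mon7 (ee (2 * e.ρ) p) sc e.ρ Ys p + (sc : ℂ) • blk (if y ∈ tball p e.ρ then
          M5.inc5 c.A s.w (opn f.wr) c.v y k else 0) (ee (2 * e.ρ) p) univ := by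
      rw [mon_stp]
      simp only [accUp, add_zero, M7.mon7, M7.blk_eq, Matrix.mul_add, Matrix.add_mul, smul_add]
    refine ⟨?_, fun hd => ?_⟩
    · rw [e1, add_sub_cancel_left, norm_smul, Complex.norm_real, Real.norm_of_nonneg hsc0.le]
      refine le_trans ?_ ((le_mul_of_one_le_left (by positivity) hP1).trans n1)
      refine mul_le_mul_of_nonneg_left ((M7.norm_blk_le _ (ee_inj _ p) _).trans ?_) hsc0.le
      split_ifs
      · exact M5.norm_Y5.trans (mul_le_mul (tau_le L hE.der hy hω.2) (hE.inv.dwl y hy)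
          (by positivity) zero_le_one)
      · rw [norm_zero]; positivity
    · rw [e1, if_neg fun h => disjoint_left.1 hd (tball_mono p (by omega) h) hy]
      simp [M7.blk_eq]
  · simp only [mon_stp]
    refine LocA.mono L.ok.N0 (tball_mono p (by omega)) (M5.blk5_locA (ee_inj _ p) univ _
      (τ1 := 1) (t2 := 5 * c.C) (b := 2 * ((e.P : ℝ) ^ 5 * e.Q * g.x ^ 2)) (D := D' e g)
      (Mq := (e.P : ℝ) ^ 4 * D' e g) L.ok.N0 dt_pos.le hP0 hP0 hsc0.le hE.rch.bas.adm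
      (by positivity) (by positivity) hD'.le hE.inv.nrm
      (fun y hy => hE.inv.dwl y (hE.rch.sub (mem_inter.1 hy).1))
      (fun y hy k hk => tau_le L hE.der (hE.rch.sub (mem_inter.1 hy).1) hk) (fun y hy => ?_)
      (fun y hy => ?_) n1 n2 n3)
    · have hy' := hE.rch.sub (mem_inter.1 hy).1
      have h1 := hE.der.gam_ge y (hE.rch.bas.opn y hy')
      refine (avg_mono fun k hk => hE.der.τ_le y hy' k hk).trans ((avg_const L.ok.N0 _).trans_le ?_)
      nlinarith [L.ok.γ0, mul_le_mul_of_nonneg_left h1 (show 0 ≤ c.C by linarith),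
        mul_pos L.ok.γ0 (show 0 < c.C by linarith)]
    · have hy' := hE.rch.sub (mem_inter.1 hy).1
      have h1 := hE.der.gam_ge y (hE.rch.bas.opn y hy')
      refine (hE.inv.bias y hy').trans ?_
      have h2 : c.γ ≤ 2 * gam s.w y := by linarith [L.ok.γ0]
      calc _ ≤ (e.P : ℝ) ^ 5 * e.Q * g.x ^ 2 * (2 * gam s.w y) :=
            mul_le_mul_of_nonneg_left h2 (by positivity)
        _ = _ := by ring
  · have h1 := M7.glue7 hT.loc L.ϑ0 (L.ϑ_le.trans (by norm_num)) hsc0 (ee_inj _) (ee_cov _) hb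
    have h2 : ‖cmp (c.G s0.w) (opn f.wr)‖ ≤ 2 * ((e.P : ℝ) ^ 4 * g.D) := h0.inv.nrm
    have h3 : a * (2 / sc) = (e.P : ℝ) ^ 4 * D' e g / 3 := by
      rw [hsc]; field_simp; ring
    have hB : (1 : ℝ) ≤ e.Bg := le_trans (by norm_num) L.B_ge
    have hϑ := L.ϑ0
    have h4 : e.Bg ^ 2 * Real.exp (-e.ϑ * e.ρ / 2) * (6 * d / e.ϑ) ^ (2 * d) ≤ 1 := by
      have h5 : (6 * d / e.ϑ) ^ (2 * d) ≤ e.Bg := le_trans (by gcongr; norm_num) L.B_ϑ
      have h6 : Real.exp (-e.ϑ * e.ρ / 2) ≤ Real.exp (-e.ϑ * e.ρ / 4) :=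
        Real.exp_le_exp.2 (by nlinarith [mul_nonneg hϑ.le (Nat.cast_nonneg e.ρ)])
      calc _ ≤ e.Bg ^ 2 * Real.exp (-e.ϑ * e.ρ / 4) * e.Bg := by gcongr
        _ = e.Bg ^ 3 * Real.exp (-e.ϑ * e.ρ / 4) := by ring
        _ ≤ e.Bg ^ 40 * Real.exp (-e.ϑ * e.ρ / 4) := by
            gcongr
            norm_num
        _ ≤ 1 := L.tail
    have h7 : 1 ≤ (e.P : ℝ) ^ 4 := one_le_pow₀ hP1
    rw [OutNr, hT.eq]
    refine (norm_add_le _ _).trans ?_
    rw [← ha, h3] at h1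
    nlinarith [mul_le_mul_of_nonneg_left hD6 (show 0 ≤ (e.P : ℝ) ^ 4 by linarith),
      mul_le_mul h7 hD zero_le_one (show 0 ≤ (e.P : ℝ) ^ 4 by linarith)]

end Crest.Agent.N334.AC.P
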