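import Crest.Agent.N334.AC.P.Gen
import Crest.Agent.N334.AC.P.Der
import Crest.Agent.N334.AC.P.One

/-! # S0520 part P: monitors of entries (leaf; fill the sorries, keep the statements)
`fam_scalar` with `Q = Re (ω (G - G⁰))/sc`, `ω ∈ {±1, ±i}`, `a = 0`, `J = -Re (ω τ G_ay G_yb)/sc` (`Adm.close_G`, `Der.den`),
`|z| ≤ |Re z| + |Im z| ≤ 6 sc`. Drift: `avg τ = c.b`, `|b| ≤ P⁵Qx²γ`, `∑_y γ|G_ay||G_yb| ≤ 3C` (Ward).
`p1`: index `(a,b,ω)`, live = the hypotheses of `OutP1`, `sc = nu/6`, QV by Cauchy-Schwarz and `Inv.four` of both rows.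
`p2`: `sc = P³x/12`, QV by `One.split` with `e = x²` (row `a` has `Inv.four`, `|G_yb| ≤ 2C`, `Im G_bb ≤ 2C`).
`dg`: `sc = P³z/12`, `∑_y|G_yb|⁴ ≤ 4∑|G0|⁴ + 4X'²∑|G|²` from `Inv.pair`, `RefOK.sepT`, `Led.four`, `X' ≤ z²`.
Far `y`: `Der.dec`, `Led.far2`. -/

set_option autoImplicit false

open Finset Complex
open scoped Matrix.Norms.L2Operator Matrix

namespace Crest.Agent.N334.AC.P

variable {d M : ℕ} [NeZero M] {c : Cx d M} {e : Ep} {g : Sg} {f : Ref d M}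

variable {s0 : CS d M}

namespace FPe

variable {s : CS d M}

/-- Ward bound of a row on the ordinary ports -/
theorem wsum (L : Led c e g) (E : Env c e g f s0 s) {b : Tor d M} (hb : b ∈ f.T)
    (hb' : gam s.w b ≠ 0) : c.γ * ∑ y ∈ s.ord, ‖c.G s.w b y‖ ^ 2 ≤ 3 * c.C := by
  have h1 : ∑ y ∈ s.ord, 9 / 10 * c.γ * ‖c.G s.w b y‖ ^ 2 ≤ ∑ y, gam s.w y * ‖c.G s.w b y‖ ^ 2 :=
    (sum_le_sum fun y hy => mul_le_mul_of_nonneg_right (E.der.gam_ge y (E.inv.bas.opn y hy))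
      (sq_nonneg _)).trans (sum_le_sum_of_subset_of_nonneg (subset_univ _) fun y _ _ =>
        mul_nonneg (E.inv.bas.adm.diss y) (sq_nonneg _))
  have h2 : ∑ y, gam s.w y * ‖c.G s.w b y‖ ^ 2 ≤ 2 * c.C :=
    (E.inv.bas.adm.ward_diag b).le.trans ((im_le_norm _).trans (E.der.g_le b hb hb'))
  rw [← mul_sum] at h1
  have := L.ok.C1
  linarith

/-- the four directions -/
noncomputable def om : Fin 4 → ℂ := ![1, -1, I, -I]

theorem norm_om (j : Fin 4) : ‖om j‖ = 1 := by fin_cases j <;> simp [om]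

theorem norm_le_om {z : ℂ} {t : ℝ} (h : ∀ j, (om j * z).re ≤ t) : ‖z‖ ≤ 2 * t := by
  have h0 := h 0
  have h1 := h 1
  have h2 := h 2
  have h3 := h 3
  simp [om] at h0 h1 h2 h3
  have h4 : |z.re| ≤ t := abs_le.2 ⟨by linarith, h0⟩
  have h5 : |z.im| ≤ t := abs_le.2 ⟨by linarith, h3⟩
  linarith [norm_le_abs_re_add_abs_im z]

theorem abs_re_om (j : Fin 4) (z : ℂ) : |(om j * z).re| ≤ ‖z‖ :=
  (abs_re_le_norm _).trans_eq (by rw [norm_mul, norm_om, one_mul])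

theorem x_le_one (L : Led c e g) : g.x ≤ 1 := by
  have h1 := L.x_small
  have h2 : (1 : ℝ) ≤ (e.P : ℝ) ^ 21 := one_le_pow₀ (le_trans (by norm_num) L.P_ge)
  nlinarith [L.x_pos]

open Classical in
/-- monitors of a family of entries -/
theorem fam_entry (L : Led c e g) (h0 : Pre c e g f s0)
    (live : Tor d M → Tor d M → CS d M → Prop) {sc : ℝ} (h1 : g.x ^ 2 ≤ sc)
    (h2 : 12 * c.C * ((e.P : ℝ) ^ 6 * e.Q * g.x ^ 2) ≤ sc)
    (hρ : ∀ a b, live a b s0 → tdist b a ≤ e.ρ)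
    (hfz : ∀ a b (s : CS d M) F, live a b (s.frz (3 * e.ρ) F) → live a b s)
    (hlv : ∀ a b (s : CS d M) ω, live a b (s.next c ω) → live a b s)
    (hne : ∀ a b (s : CS d M) y k, live a b (s.next c (some (y, k))) → y ≠ a ∧ y ≠ b)
    (hT : ∀ a b s, Env c e g f s0 s → live a b s →
      (a ∈ f.T ∧ gam s.w a ≠ 0) ∧ b ∈ f.T ∧ gam s.w b ≠ 0)
    (hQ : ∀ a b s, Env c e g f s0 s → live a b s → 16 * c.C * (e.P : ℝ) ^ 2 *
      (c.γ * ∑ y ∈ (s.ord.erase a).erase b, ‖c.G s.w a y‖ ^ 2 * ‖c.G s.w y b‖ ^ 2) ≤ sc ^ 2) :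
    Fam c e g f s0 fun s => ∀ a b, live a b s → ‖c.G s.w a b - c.G s0.w a b‖ ≤ 6 * sc := by
  have hx := L.x_pos
  have hsc : 0 < sc := lt_of_lt_of_le (by positivity) h1
  have hP : (1 : ℝ) ≤ e.P := le_trans (by norm_num) L.P_ge
  have hC := L.ok.C1
  have hγ := L.ok.γ0
  refine (fam_scalar L h0.n0 (fun s (E : Env c e g f s0 s) => E.rch.sub)
    (ι := (Tor d M × Tor d M) × Fin 4) (fun i => i.1.1) (fun i s => live i.1.1 i.1.2 s)
    (fun i s => (om i.2 * (c.G s.w i.1.1 i.1.2 - c.G s0.w i.1.1 i.1.2)).re / sc) (fun p => ?_)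
    (fun i s F h => ⟨hfz _ _ _ _ h, le_rfl⟩) (fun i s ω h => hlv _ _ _ _ h) ?_).mono
    (fun s _ h a b hl => ?_) le_rfl
  · have h3 : #{i : (Tor d M × Tor d M) × Fin 4 | i.1.1 = p ∧ live i.1.1 i.1.2 s0} ≤
        #((({p} : Finset (Tor d M)) ×ˢ tball p e.ρ) ×ˢ (univ : Finset (Fin 4))) :=
      card_le_card fun i hi => by
        obtain ⟨a1, a2⟩ := (mem_filter.1 hi).2
        exact mem_product.2 ⟨mem_product.2 ⟨mem_singleton.2 a1, mem_tball.2 (a1 ▸ hρ _ _ a2)⟩,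
          mem_univ _⟩
    rw [card_product, card_product, card_singleton, card_univ, Fintype.card_fin, one_mul] at h3
    refine le_trans ?_ L.mult_vol
    have h4 : vol d M e.ρ ≤ vol d M (10 * e.ρ) := vol_mono (by omega)
    have h5 : (1 : ℝ) ≤ (e.P : ℝ) ^ 3 * e.Q :=
      one_le_mul_of_one_le_of_one_le (one_le_pow₀ hP) ((one_le_pow₀ hP).trans L.Q_ge)
    have h6 := one_le_vol (d := d) (M := M) (10 * e.ρ)
    calc _ ≤ ((#(tball p e.ρ) * 4 : ℕ) : ℝ) := Nat.cast_le.2 h3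
      _ = vol d M e.ρ * 4 := by rw [Nat.cast_mul, card_tball]; norm_num
      _ ≤ _ := by nlinarith
  · rintro ⟨⟨a, b⟩, j⟩ s E - hl
    obtain ⟨⟨ha, ha'⟩, hb, hb'⟩ := hT a b s E hl
    have hV := hQ a b s E hl
    have hA := E.rch.sub
    have adm := E.inv.bas.adm
    let J : Tor d M → ℕ → ℝ := fun y k => if y ≠ a ∧ y ≠ b then
      -(om j * (c.τ s.w y k * c.G s.w a y * c.G s.w y b)).re / sc else 0
    let m : Tor d M → ℝ := fun y =>
      if y ≠ a ∧ y ≠ b then ‖c.G s.w a y‖ ^ 2 * ‖c.G s.w y b‖ ^ 2 else 0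
    have hm0 : ∀ y, 0 ≤ m y := fun y => by simp only [m]; split_ifs <;> positivity
    have hJ : ∀ y ∈ s.ord, ∀ k < c.N, J y k ^ 2 ≤ 4 * c.C * c.γ / sc ^ 2 * m y := fun y hy k hk => by
      simp only [J, m]
      split_ifs
      · rw [div_pow, neg_sq, div_mul_eq_mul_div]
        refine div_le_div_of_nonneg_right ?_ (sq_nonneg _)
        rw [← sq_abs]
        refine (pow_le_pow_left₀ (abs_nonneg _) (abs_re_om _ _) 2).trans ?_
        rw [mul_assoc, norm_mul, norm_mul, mul_pow, mul_pow]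
        exact mul_le_mul_of_nonneg_right (E.der.τ_le y hy k hk) (by positivity)
      · simp
    have hm : 4 * c.C * c.γ / sc ^ 2 * ∑ y ∈ s.ord, m y ≤ 1 / (4 * (e.P : ℝ) ^ 2) := by
      have e1 : ∑ y ∈ s.ord, m y =
          ∑ y ∈ (s.ord.erase a).erase b, ‖c.G s.w a y‖ ^ 2 * ‖c.G s.w y b‖ ^ 2 := by
        rw [← sum_filter]
        refine sum_congr ?_ fun _ _ => rfl
        ext y; simp only [mem_filter, mem_erase]; tauto
      rw [e1, div_mul_eq_mul_div, div_le_div_iff₀ (by positivity) (by positivity)]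
      linarith
    have hS : s.A ∩ tball a (2 * e.ρ) ⊆ s.ord := inter_subset_left.trans hA
    refine ⟨0, J, by norm_num, Or.inl le_rfl, (add_zero _).ge, fun y hy k hk hl' => ?_,
      fun y hy k hk => ?_, ?_, ?_⟩
    · have e1 : c.G (s.next c (some (y, k))).w a b =
          c.G s.w a b - c.τ s.w y k * c.G s.w a y * c.G s.w y b :=
        adm.close_G (E.der.den y (hA hy) k hk) a b
      simp only [e1, J, if_pos (hne a b s y k hl')]
      rw [add_zero, sub_right_comm, mul_sub, sub_re, sub_div, sub_eq_add_neg, ← neg_div]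
      refine add_le_add le_rfl ?_
      split_ifs with hy'
      · exact le_rfl
      · have hB : (1 : ℝ) ≤ e.Bg := le_trans (by norm_num) L.B_ge
        have hd : e.ρ ≤ tdist y a := by rw [mem_tball] at hy'; omega
        have o : ∀ u, gam s.w u ≠ 0 → u ∈ opn f.wr := fun u hu => E.der.sub0 (mem_opn.2 hu)
        have oy := o y (E.inv.bas.opn y (hA hy))
        have g1 := E.der.dec a (o a ha') y oy
        have g2 : ‖c.G s.w y b‖ ≤ e.Bg := (E.der.dec y oy b (o b hb')).trans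
          (mul_le_of_le_one_right (by positivity) (Real.exp_le_one_iff.2 (by
            have := L.ϑ0; have : (0 : ℝ) ≤ tdist y b := Nat.cast_nonneg _; nlinarith)))
        have g3 : ‖c.τ s.w y k‖ ≤ 1 := by
          refine (sq_le_one_iff₀ (norm_nonneg _)).1 ((E.der.τ_le y (hA hy) k hk).trans ?_)
          have := L.ok.γ_le
          have h30 : c.C ≤ c.C ^ 30 := le_self_pow₀ hC (by norm_num)
          nlinarith [mul_le_mul_of_nonneg_right h30 hγ.le]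
        have g4 : 1 ≤ e.Bg ^ 28 * sc := by
          have h5 := pow_le_pow_left₀ zero_le_one L.B_x' 2
          have h6 : e.Bg ^ 2 ≤ e.Bg ^ 28 := pow_le_pow_right₀ hB (by norm_num)
          rw [one_pow, mul_pow] at h5
          exact h5.trans (mul_le_mul h6 h1 (by positivity) (by positivity))
        rw [tdist_comm a y] at g1
        refine le_trans ?_ (L.far2 hd)
        rw [div_le_iff₀ hsc]
        refine (neg_le_abs _).trans ((abs_re_om _ _).trans ?_)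
        rw [norm_mul, norm_mul]
        calc _ ≤ 1 * (e.Bg * Real.exp (-e.ϑ * tdist y a)) * e.Bg := by gcongr
          _ = e.Bg ^ 2 * Real.exp (-e.ϑ * tdist y a) * 1 := by ring
          _ ≤ e.Bg ^ 2 * Real.exp (-e.ϑ * tdist y a) * (e.Bg ^ 28 * sc) := by gcongr
          _ = _ := by ring
    · have h3 := ((hJ y (hS hy) k hk).trans (mul_le_mul_of_nonneg_left (single_le_sum
        (fun y _ => hm0 y) (hS hy)) (by positivity))).trans hm
      rw [le_div_iff₀ (by positivity), ← sq_abs] at h3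
      refine (sq_le_one_iff₀ (by positivity)).1 ?_
      nlinarith [sq_nonneg ((e.P : ℝ) * |J y k|)]
    · rw [zero_add, div_eq_mul_one_div]
      refine mul_le_mul_of_nonneg_left ?_ dt_pos.le
      have h3 : ∀ y ∈ s.ord, avg c.N (J y) ≤ (e.P : ℝ) ^ 5 * e.Q * g.x ^ 2 / (2 * sc) *
          (c.γ * ‖c.G s.w a y‖ ^ 2 + c.γ * ‖c.G s.w b y‖ ^ 2) := fun y hy => by
        by_cases hy' : y ≠ a ∧ y ≠ b
        · have e1 : J y = fun k => -sc⁻¹ *
              (c.τ s.w y k * (c.G s.w a y * c.G s.w y b * om j)).re := by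
            funext k
            simp only [J, if_pos hy']
            rw [show c.τ s.w y k * (c.G s.w a y * c.G s.w y b * om j) =
              om j * (c.τ s.w y k * c.G s.w a y * c.G s.w y b) by ring]
            ring
          have e2 : avgV c.N (c.τ s.w y) = c.b s.w y := rfl
          rw [e1, avg_mul, avg_re, avgV_mul, e2, neg_mul, ← mul_neg, ← div_eq_inv_mul,
            div_le_iff₀ hsc]
          refine (neg_le_abs _).trans ((abs_re_le_norm _).trans ?_)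
          have h4 : ‖c.b s.w y‖ ≤ (e.P : ℝ) ^ 5 * e.Q * g.x ^ 2 * c.γ := E.inv.bias y hy
          have h5 : ‖c.G s.w y b‖ = ‖c.G s.w b y‖ := congrArg norm (adm.G_sym y b)
          rw [norm_mul, norm_mul, norm_mul, norm_om, mul_one, h5]
          calc _ ≤ (e.P : ℝ) ^ 5 * e.Q * g.x ^ 2 * c.γ *
                ((‖c.G s.w a y‖ ^ 2 + ‖c.G s.w b y‖ ^ 2) / 2) := by
                refine mul_le_mul h4 ?_ (by positivity) (by positivity)
                nlinarith [sq_nonneg (‖c.G s.w a y‖ - ‖c.G s.w b y‖)]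
            _ = _ := by field_simp
        · have e1 : J y = fun _ => 0 := funext fun k => if_neg hy'
          rw [e1, avg_const L.ok.N0]
          positivity
      refine ((sum_le_sum fun y hy => h3 y (hS hy)).trans (sum_le_sum_of_subset_of_nonneg hS
        fun y _ _ => by positivity)).trans ?_
      rw [← mul_sum, sum_add_distrib, ← mul_sum, ← mul_sum]
      refine (mul_le_mul_of_nonneg_left (add_le_add (wsum L E ha ha') (wsum L E hb hb'))
        (by positivity)).trans ?_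
      rw [div_mul_eq_mul_div, div_le_div_iff₀ (by positivity) (by positivity)]
      linarith
    · have h3 : ∑ y ∈ s.A ∩ tball a (2 * e.ρ), avg c.N (fun k => J y k ^ 2) ≤
          1 / (4 * (e.P : ℝ) ^ 2) := by
        refine le_trans ?_ hm
        rw [mul_sum]
        exact (sum_le_sum fun y hy => (avg_mono (hJ y (hS hy))).trans_eq
          (avg_const L.ok.N0 _)).trans (sum_le_sum_of_subset_of_nonneg hS fun y _ _ =>
            mul_nonneg (by positivity) (hm0 y))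
      refine (mul_le_mul_of_nonneg_left h3 (by positivity)).trans_eq ?_
      field_simp
  · refine (norm_le_om (t := 3 * sc) fun j => ?_).trans_eq (by ring)
    have := h ((a, b), j) hl
    simp only [sub_self, mul_zero, zero_re, zero_div, zero_add] at this
    exact (div_le_iff₀ hsc).1 this

theorem ord_T (hf : RefOK c e f) (E : Env c e g f s0 s) {a : Tor d M} (ha : a ∈ s.ord) :
    a ∈ f.T ∧ gam s.w a ≠ 0 := ⟨hf.sub (E.inv.bas.sub ha), E.inv.bas.opn a ha⟩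

omit [NeZero M] in
theorem next_ord {ω : Option (Tor d M × ℕ)} {a : Tor d M} (h : a ∈ (s.next c ω).ord) :
    a ∈ s.ord := by
  rcases ω with _ | ⟨y, k⟩
  exacts [h, (mem_erase.1 h).2]

theorem next_ne {y b : Tor d M} {k : ℕ} (h : gam (s.next c (some (y, k))).w b ≠ 0) : y ≠ b := by
  rintro rfl
  exact h (gam_cls_self _ _ _)

theorem next_gam {ω : Option (Tor d M × ℕ)} {b : Tor d M} (h : gam (s.next c ω).w b ≠ 0) :
    gam s.w b ≠ 0 := by
  rcases ω with _ | ⟨y, k⟩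
  · exact h
  · exact (gam_cls_ne s.w (c.v y k) (next_ne h).symm) ▸ h

theorem four (E : Env c e g f s0 s) {a : Tor d M} (ha : a ∈ s.ord) (L : Led c e g)
    {S : Finset (Tor d M)} (hS : S ⊆ s.ord.erase a) :
    c.γ * ∑ y ∈ S, ‖c.G s.w a y‖ ^ 4 ≤ 13 * g.x ^ 4 :=
  (mul_le_mul_of_nonneg_left (sum_le_sum_of_subset_of_nonneg hS fun _ _ _ => by positivity)
    L.ok.γ0.le).trans (E.inv.four a ha)

theorem C_le (L : Led c e g) : 10 ^ 7 * c.C ^ 3 ≤ (e.P : ℝ) := by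
  have h1 : c.C ^ 3 ≤ c.C ^ 30 := pow_le_pow_right₀ L.ok.C1 (by norm_num)
  have h2 : 0 ≤ c.C ^ 3 := pow_nonneg (zero_le_one.trans L.ok.C1) 3
  linarith [L.P1]

/-- the scale `P³ t / 12`, `x ≤ t` -/
theorem scale (L : Led c e g) {t : ℝ} (ht : g.x ≤ t) : g.x ^ 2 ≤ (e.P : ℝ) ^ 3 * t / 12 ∧
    12 * c.C * ((e.P : ℝ) ^ 6 * e.Q * g.x ^ 2) ≤ (e.P : ℝ) ^ 3 * t / 12 := by
  have hx := L.x_pos
  have hP := L.P_ge
  have hP1 : (1 : ℝ) ≤ e.P := le_trans (by norm_num) hP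
  have h1 : (e.P : ℝ) ^ 3 * g.x / 12 ≤ (e.P : ℝ) ^ 3 * t / 12 := by gcongr
  have h2 : (e.P : ℝ) ≤ (e.P : ℝ) ^ 3 := le_self_pow₀ hP1 (by norm_num)
  refine ⟨le_trans ?_ h1, le_trans ?_ h1⟩
  · nlinarith [x_le_one L]
  · have h3 : c.C ≤ c.C ^ 3 := le_self_pow₀ L.ok.C1 (by norm_num)
    have h4 : 144 * c.C ≤ (e.P : ℝ) ^ 12 :=
      le_trans (by linarith [C_le L, L.ok.C1]) (le_self_pow₀ hP1 (by norm_num))
    have h5 : 144 * c.C * ((e.P : ℝ) ^ 3 * e.Q * g.x) ≤ 1 :=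
      (mul_le_mul_of_nonneg_right h4 (by positivity)).trans (le_of_eq_of_le (by ring) L.main)
    have h6 := mul_le_mul_of_nonneg_right h5 (by positivity : 0 ≤ (e.P : ℝ) ^ 3 * g.x / 12)
    linarith

/-- quadratic variation at the scale `P³ t / 12` -/
theorem qv (L : Led c e g) {t V : ℝ} (h : V ≤ 100 * c.C ^ 2 * t ^ 2) :
    16 * c.C * (e.P : ℝ) ^ 2 * V ≤ ((e.P : ℝ) ^ 3 * t / 12) ^ 2 := by
  have hC := L.ok.C1
  have hP1 : (1 : ℝ) ≤ e.P := le_trans (by norm_num) L.P_ge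
  have h1 : 10 ^ 7 * c.C ^ 3 ≤ (e.P : ℝ) ^ 4 := (C_le L).trans (le_self_pow₀ hP1 (by norm_num))
  have h2 := mul_le_mul_of_nonneg_right h1 (by positivity : 0 ≤ (e.P : ℝ) ^ 2 * t ^ 2)
  have h3 := mul_le_mul_of_nonneg_left h (by positivity : 0 ≤ 16 * c.C * (e.P : ℝ) ^ 2)
  have h4 : 0 ≤ c.C ^ 3 * ((e.P : ℝ) ^ 2 * t ^ 2) := by positivity
  nlinarith

end FPe

open FPe

theorem fam_p1 (L : Led c e g) (hf : RefOK c e f) (h0 : Pre c e g f s0) :
    Fam c e g f s0 (OutP1 c e g s0) := by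
  have hx := L.x_pos
  have hC := L.ok.C1
  have hP1 : (1 : ℝ) ≤ e.P := le_trans (by norm_num) L.P_ge
  have hQ : (1 : ℝ) ≤ e.Q := (one_le_pow₀ hP1).trans L.Q_ge
  have h3 : c.C ≤ c.C ^ 3 := le_self_pow₀ hC (by norm_num)
  have h4 : 10 ^ 7 * c.C ≤ (e.P : ℝ) ^ 2 :=
    le_trans (by linarith [C_le L]) (le_self_pow₀ hP1 (by norm_num))
  have h5 : 1 ≤ (e.P : ℝ) ^ 6 * e.Q := one_le_mul_of_one_le_of_one_le (one_le_pow₀ hP1) hQ
  have h6 : 12 * c.C * ((e.P : ℝ) ^ 6 * e.Q * g.x ^ 2) ≤ nu e g / 6 := by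
    have := mul_le_mul_of_nonneg_right h4 (by positivity : 0 ≤ (e.P : ℝ) ^ 6 * e.Q * g.x ^ 2)
    have : 0 ≤ c.C * ((e.P : ℝ) ^ 6 * e.Q * g.x ^ 2) := by positivity
    rw [nu]; linarith
  have h7 : g.x ^ 2 ≤ (e.P : ℝ) ^ 6 * e.Q * g.x ^ 2 := le_mul_of_one_le_left (sq_nonneg _) h5
  refine (fam_entry L h0 (fun a b s => a ∈ s.ord ∧ b ∈ s.ord ∧ a ≠ b ∧ tdist b a ≤ e.ρ)
    (sc := nu e g / 6) (le_trans ?_ h6) h6 (fun a b h => h.2.2.2)
    (fun a b s F h => ⟨(mem_sdiff.1 h.1).1, (mem_sdiff.1 h.2.1).1, h.2.2⟩)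
    (fun a b s ω h => ⟨next_ord h.1, next_ord h.2.1, h.2.2⟩)
    (fun a b s y k h => ⟨(mem_erase.1 h.1).1.symm, (mem_erase.1 h.2.1).1.symm⟩)
    (fun a b s E h => ⟨ord_T hf E h.1, ord_T hf E h.2.1⟩) fun a b s E h => ?_).mono
    (fun s _ h a ha b hb hab hd => (h a b ⟨ha, hb, hab, hd⟩).trans_eq (by ring)) le_rfl
  · nlinarith [sq_nonneg g.x]
  · have a1 := four E h.1 L (erase_subset b _)
    have a2 := four E h.2.1 L (S := (s.ord.erase a).erase b) (erase_subset_erase _ (erase_subset _ _))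
    have a3 : c.γ * ∑ y ∈ (s.ord.erase a).erase b, ‖c.G s.w a y‖ ^ 2 * ‖c.G s.w y b‖ ^ 2 ≤
        13 * g.x ^ 4 := by
      refine le_trans (mul_le_mul_of_nonneg_left (sum_le_sum (g := fun y =>
        (‖c.G s.w a y‖ ^ 4 + ‖c.G s.w b y‖ ^ 4) / 2) fun y _ => ?_) L.ok.γ0.le) ?_
      · rw [show c.G s.w y b = c.G s.w b y from E.inv.bas.adm.G_sym y b]
        nlinarith [sq_nonneg (‖c.G s.w a y‖ ^ 2 - ‖c.G s.w b y‖ ^ 2)]
      · rw [← sum_div, sum_add_distrib]; linarith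
    refine (mul_le_mul_of_nonneg_left a3 (by positivity)).trans ?_
    have a4 : (e.P : ℝ) ^ 2 * g.x ^ 2 ≤ (e.P : ℝ) ^ 8 * e.Q * g.x ^ 2 := by
      have := mul_le_mul_of_nonneg_left h7 (sq_nonneg (e.P : ℝ))
      linarith
    have a5 := pow_le_pow_left₀ (by positivity) a4 2
    have a6 := mul_le_mul_of_nonneg_right h4 (by positivity : 0 ≤ (e.P : ℝ) ^ 2 * g.x ^ 4)
    have a7 : 0 ≤ c.C * ((e.P : ℝ) ^ 2 * g.x ^ 4) := by positivity
    rw [nu, div_pow]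
    nlinarith

theorem fam_p2 (L : Led c e g) (hf : RefOK c e f) (h0 : Pre c e g f s0) :
    Fam c e g f s0 (OutP2 c e g f s0) := by
  have hx := L.x_pos
  have hC := L.ok.C1
  have hγ := L.ok.γ0
  refine (fam_entry L h0
    (fun a b s => a ∈ s.ord ∧ b ∈ f.T ∧ gam s.w b ≠ 0 ∧ a ≠ b ∧ tdist b a ≤ e.ρ)
    (scale L le_rfl).1 (scale L le_rfl).2 (fun a b h => h.2.2.2.2)
    (fun a b s F h => ⟨(mem_sdiff.1 h.1).1, h.2⟩)
    (fun a b s ω h => ⟨next_ord h.1, h.2.1, next_gam h.2.2.1, h.2.2.2⟩)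
    (fun a b s y k h => ⟨(mem_erase.1 h.1).1.symm, next_ne h.2.2.1⟩)
    (fun a b s E h => ⟨ord_T hf E h.1, h.2.1, h.2.2.1⟩) fun a b s E h => qv L ?_).mono
    (fun s _ h a ha b hb hb' hab hd => (h a b ⟨ha, hb, hb', hab, hd⟩).trans_eq (by ring)) le_rfl
  have hS : (s.ord.erase a).erase b ⊆ s.ord := (erase_subset _ _).trans (erase_subset _ _)
  have a1 := four E h.1 L (erase_subset b _)
  have a2 := One.split ((s.ord.erase a).erase b) (c.G s.w a)
    (c := fun y => c.γ * ‖c.G s.w y b‖ ^ 2) (e := g.x ^ 2) (s1 := 3 * c.C)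
    (si := c.γ * (2 * c.C) ^ 2) (by positivity) (fun _ _ => by positivity)
    (fun y hy => mul_le_mul_of_nonneg_left (pow_le_pow_left₀ (norm_nonneg _)
      (E.der.e_le y (hS hy) b h.2.1 h.2.2.1) 2) hγ.le) (by
      refine le_trans ?_ (wsum L E h.2.1 h.2.2.1)
      rw [mul_sum]
      refine (sum_le_sum_of_subset_of_nonneg hS fun _ _ _ => by positivity).trans_eq ?_
      exact sum_congr rfl fun y _ => by
        rw [show c.G s.w y b = c.G s.w b y from E.inv.bas.adm.G_sym y b])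
  have a3 : (∑ y ∈ (s.ord.erase a).erase b, ‖c.G s.w a y‖ ^ 4) / g.x ^ 2 * (c.γ * (2 * c.C) ^ 2) ≤
      13 * g.x ^ 2 * (2 * c.C) ^ 2 := by
    rw [← mul_assoc]
    refine mul_le_mul_of_nonneg_right ?_ (sq_nonneg _)
    rw [div_mul_eq_mul_div, div_le_iff₀ (by positivity)]
    linarith
  rw [mul_sum, sum_congr rfl fun y _ => mul_left_comm _ _ _]
  nlinarith [mul_nonneg (sq_nonneg g.x) (mul_nonneg (zero_le_one.trans hC) (sub_nonneg.2 hC)),
    mul_nonneg (sq_nonneg g.x) (sq_nonneg c.C)]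

theorem fam_dg (L : Led c e g) (hf : RefOK c e f) (h0 : Pre c e g f s0) :
    Fam c e g f s0 (OutDg c e g f s0) := by
  have hC := L.ok.C1
  have hγ := L.ok.γ0
  refine (fam_entry L h0 (fun a b s => a = b ∧ b ∈ f.T ∧ gam s.w b ≠ 0)
    (scale L L.x_le_z).1 (scale L L.x_le_z).2 (fun a b h => by rw [h.1, tdist_self]; omega)
    (fun a b s F h => h) (fun a b s ω h => ⟨h.1, h.2.1, next_gam h.2.2⟩)
    (fun a b s y k h => ⟨h.1 ▸ next_ne h.2.2, next_ne h.2.2⟩)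
    (fun a b s E h => ⟨h.1 ▸ h.2, h.2⟩) fun a b s E h => qv L ?_).mono
    (fun s _ h b hb hb' => (h b b ⟨rfl, hb, hb'⟩).trans_eq (by ring)) le_rfl
  obtain ⟨rfl, ha, ha'⟩ := h
  have hz : g.z ≤ 1 := by
    have h1 : (1 : ℝ) ≤ (e.P : ℝ) ^ 3 := one_le_pow₀ (le_trans (by norm_num) L.P_ge)
    have h2 : (1 : ℝ) ≤ c.C ^ 30 := one_le_pow₀ hC
    have h3 := (le_mul_of_one_le_left L.z0 h1).trans L.z_small
    have h4 := L.e'_small
    nlinarith [mul_le_mul_of_nonneg_right h2 (L.z0.trans h3)]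
  have hX : 0 ≤ g.X' := le_trans (by have := L.X0; have := L.x_pos; positivity) L.X_inc
  have a1 : ∀ y ∈ s.ord.erase a, ‖c.G s.w a y‖ ^ 2 * ‖c.G s.w y a‖ ^ 2 ≤
      4 * (‖c.G0 (y - a) 0‖ ^ 4 * (1 + (c.σ ^ 2 * tdist (y - a) 0) ^ 2)) +
        4 * g.z ^ 4 * ‖c.G s.w a y‖ ^ 2 := fun y hy => by
    have b1 : ‖c.G s.w y a - c.G0 y a‖ ≤ g.X' :=
      E.inv.pair y (mem_erase.1 hy).2 a ha ha' (mem_erase.1 hy).1
    have b2 : c.G0 y a = c.G0 (y - a) 0 := L.ok.init.transl y a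
    have b3 : c.G s.w y a = c.G s.w a y := E.inv.bas.adm.G_sym y a
    rw [b2, b3] at b1
    rw [b3]
    have b4 := (norm_sub_norm_le _ _).trans (b1.trans L.X_z)
    have b5 : ‖c.G0 (y - a) 0‖ ^ 4 ≤
        ‖c.G0 (y - a) 0‖ ^ 4 * (1 + (c.σ ^ 2 * tdist (y - a) 0) ^ 2) :=
      le_mul_of_one_le_right (by positivity) (le_add_of_nonneg_right (sq_nonneg _))
    have hu := norm_nonneg (c.G s.w a y)
    have hv := norm_nonneg (c.G0 (y - a) 0)
    generalize ‖c.G s.w a y‖ = u at *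
    generalize ‖c.G0 (y - a) 0‖ = v at *
    have b6 : u ^ 2 ≤ (v + g.z ^ 2) ^ 2 := pow_le_pow_left₀ hu (by linarith) 2
    have b7 : u ^ 2 ≤ 2 * v ^ 2 + 2 * g.z ^ 4 := by nlinarith [sq_nonneg (v - g.z ^ 2)]
    nlinarith [mul_le_mul_of_nonneg_right b7 (sq_nonneg u), sq_nonneg (u ^ 2 - 2 * v ^ 2)]
  have a2 : c.γ * ∑ y ∈ s.ord.erase a,
      ‖c.G0 (y - a) 0‖ ^ 4 * (1 + (c.σ ^ 2 * tdist (y - a) 0) ^ 2) ≤ g.z ^ 4 := by
    refine le_trans (mul_le_mul_of_nonneg_left ?_ hγ.le) L.four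
    rw [← sum_image (f := fun u => ‖c.G0 u 0‖ ^ 4 * (1 + (c.σ ^ 2 * tdist u 0) ^ 2))
      (g := fun y => y - a) fun _ _ _ _ h => sub_left_injective h]
    refine sum_le_sum_of_subset_of_nonneg (fun u hu => ?_) fun _ _ _ => by positivity
    obtain ⟨y, hy, rfl⟩ := mem_image.1 hu
    obtain ⟨b1, b2⟩ := mem_erase.1 hy
    exact mem_filter.2 ⟨mem_univ _, sub_ne_zero.2 b1,
      (tdist_sub y a).symm ▸ hf.sepT y (ord_T hf E b2).1 a ha b1⟩
  have a3 : c.γ * ∑ y ∈ s.ord.erase a, ‖c.G s.w a y‖ ^ 2 ≤ 3 * c.C :=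
    (mul_le_mul_of_nonneg_left (sum_le_sum_of_subset_of_nonneg (erase_subset _ _)
      fun _ _ _ => by positivity) hγ.le).trans (wsum L E ha ha')
  rw [erase_idem]
  refine (mul_le_mul_of_nonneg_left (sum_le_sum a1) hγ.le).trans ?_
  rw [sum_add_distrib, ← mul_sum, ← mul_sum]
  have a4 : g.z ^ 4 ≤ g.z ^ 2 := pow_le_pow_of_le_one L.z0 hz (by norm_num)
  have a5 := mul_le_mul_of_nonneg_left a3 (by positivity : 0 ≤ 4 * g.z ^ 4)
  have a6 := mul_le_mul_of_nonneg_left a4 (by positivity : 0 ≤ 4 + 12 * c.C)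
  nlinarith [mul_nonneg (sq_nonneg g.z) (mul_nonneg (zero_le_one.trans hC) (sub_nonneg.2 hC)),
    mul_nonneg (sq_nonneg g.z) (sub_nonneg.2 hC)]

end Crest.Agent.N334.AC.P
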