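import Crest.Agent.N334.AC.F.Mon2
import Crest.Agent.N334.AC.F.Cls

/-! # S0520 part P (helper78): monitors as functions of the state.
Far closings are paid by the remaining far budget `farB`; no accumulators. Units: threshold `θ`. -/

set_option autoImplicit false

open Finset
open scoped Matrix.Norms.L2Operator Matrix

namespace Crest.Agent.N334.AC.Mo

variable {Λ : Type} [Fintype Λ] [DecidableEq Λ]

/-- remaining far budget -/
noncomputable def farB (A U : Finset Λ) (tl : Λ → ℝ) : ℝ := ∑ y ∈ A \ U, tl y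

/-- `A' ω` is a possible active set after the step -/
def Shr (A : Finset Λ) (A' : Option (Λ × ℕ) → Finset Λ) : Prop :=
  A' none ⊆ A ∧ ∀ y k, A' (some (y, k)) ⊆ A.erase y

/-- real monitor: fires when `Q + far ≥ c + θ` -/
noncomputable def pS (Z T t θ Q c far : ℝ) : ℝ := potS Z T t ((Q + far - c) / θ)

/-- complex monitor: fires when `‖z‖ + far ≥ c + θ` -/
noncomputable def pC (Z T t θ : ℝ) (z : ℂ) (c far : ℝ) : ℝ :=
  potC Z T t ((c - far) / θ) (((θ⁻¹ : ℝ) : ℂ) * z)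

/-- matrix monitor: fires when `‖X‖ + far ≥ c + θ` -/
noncomputable def pM {n : Type} [Fintype n] [DecidableEq n] (Z T t θ : ℝ) (X : Matrix n n ℂ)
    (c far : ℝ) : ℝ := potM Z T t ((c - far) / θ) (((θ⁻¹ : ℝ) : ℂ) • X)

omit [Fintype Λ] in
theorem locA_le {A U : Finset Λ} {N : ℕ} {dt φ φ' : ℝ} {ch ch' : Option (Λ × ℕ) → ℝ}
    (h : LocA A N dt U φ ch) (hφ : φ ≤ φ') (hc : ∀ ω, okA A N ω → 0 ≤ ch' ω ∧ ch' ω ≤ ch ω) :
    LocA A N dt U φ' ch' := by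
  obtain ⟨a, κ, h1, h2, h3, h4, h5, h6⟩ := h
  exact ⟨a, κ, (hc none trivial).1, (hc none trivial).2.trans h2,
    fun y hy k hk => (hc (some (y, k)) ⟨hy, hk⟩).1,
    fun y hy hU k hk => (hc (some (y, k)) ⟨hy, hk⟩).2.trans (h4 y hy hU k hk),
    fun y hy => (avg_mono fun k hk =>
      (hc (some (y, k)) ⟨(mem_inter.1 hy).1, hk⟩).2).trans (h5 y hy), h6.trans hφ⟩

omit [Fintype Λ] in
theorem farB_nonneg {A U : Finset Λ} {tl : Λ → ℝ} (h : ∀ y, 0 ≤ tl y) : 0 ≤ farB A U tl :=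
  sum_nonneg fun y _ => h y

omit [Fintype Λ] in
theorem farB_mono {A A' U : Finset Λ} {tl : Λ → ℝ} (h : ∀ y, 0 ≤ tl y) (hA : A' ⊆ A) :
    farB A' U tl ≤ farB A U tl :=
  sum_le_sum_of_subset_of_nonneg (sdiff_subset_sdiff hA le_rfl) fun y _ _ => h y

omit [Fintype Λ] in
theorem farB_erase {A U : Finset Λ} (tl : Λ → ℝ) {y : Λ} (hy : y ∈ A) (hU : y ∉ U) :
    farB (A.erase y) U tl + tl y = farB A U tl := by
  rw [farB, farB, ← sum_erase_add _ _ (mem_sdiff.2 ⟨hy, hU⟩), erase_sdiff_comm]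

theorem farB_le {A U : Finset Λ} {tl : Λ → ℝ} (h : ∀ y, 0 ≤ tl y) :
    farB A U tl ≤ ∑ y ∈ univ \ U, tl y := farB_mono h (subset_univ A)

omit [Fintype Λ] in
theorem Shr.none {A U : Finset Λ} {A' : Option (Λ × ℕ) → Finset Λ} (h : Shr A A') {tl : Λ → ℝ}
    (h0 : ∀ y, 0 ≤ tl y) : farB (A' none) U tl ≤ farB A U tl := farB_mono h0 h.1

omit [Fintype Λ] in
theorem Shr.near {A U : Finset Λ} {A' : Option (Λ × ℕ) → Finset Λ} (h : Shr A A') {tl : Λ → ℝ}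
    (h0 : ∀ y, 0 ≤ tl y) (y : Λ) (k : ℕ) : farB (A' (some (y, k))) U tl ≤ farB A U tl :=
  farB_mono h0 ((h.2 y k).trans (erase_subset _ _))

omit [Fintype Λ] in
theorem Shr.far {A U : Finset Λ} {A' : Option (Λ × ℕ) → Finset Λ} (h : Shr A A') {tl : Λ → ℝ}
    (h0 : ∀ y, 0 ≤ tl y) {y : Λ} (hy : y ∈ A) (hU : y ∉ U) (k : ℕ) :
    farB (A' (some (y, k))) U tl + tl y ≤ farB A U tl := by
  rw [← farB_erase tl hy hU]
  exact add_le_add_left (farB_mono h0 (h.2 y k)) _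

theorem potS_mono {Z T t x x' : ℝ} (hZ : 0 ≤ Z) (h : x ≤ x') : potS Z T t x ≤ potS Z T t x' :=
  mul_le_mul_of_nonneg_right (Real.exp_le_exp.2 (mul_le_mul_of_nonneg_left h hZ))
    (Mon.tfac_pos _ _ _).le

theorem potM_le {n : Type} [Fintype n] [DecidableEq n] {Z T t R R' : ℝ} {X X' : Matrix n n ℂ}
    (hZ : 0 ≤ Z) (h : ‖X' - X‖ ≤ R' - R) : potM Z T t R' X' ≤ potM Z T t R X := by
  have hE := Mon.dil_herm ((Z : ℂ) • (X' - X))
  have e : Mon.dilL n ((Z : ℂ) • X') = dil ((Z : ℂ) • X) + dil ((Z : ℂ) • (X' - X)) := by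
    rw [← Mon.dil_add, ← smul_add, add_sub_cancel]; rfl
  have h1 := GT.golden (Mon.dil_herm ((Z : ℂ) • X)) hE
  have h2 : ∀ v, GT.qf (NormedSpace.exp (dil ((Z : ℂ) • (X' - X)))) v ≤
      Real.exp (Z * (R' - R)) * nsq v := fun v => by
    obtain ⟨U, a, g1, g2, g3, g4⟩ := N337.KMS.herm_diag hE
    have g5 : ∀ i, a i ≤ Z * (R' - R) := fun i => by
      rw [GT.eig_eq g1 g3 i]
      refine (Mon.qf_dil_le _ _).trans ?_
      rw [GT.nsq_col g1, mul_one, norm_smul, Complex.norm_real, Real.norm_of_nonneg hZ]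
      exact mul_le_mul_of_nonneg_left h hZ
    have g6 : nsq (Uᴴ *ᵥ v) = nsq v := by
      have := gram_form Uᴴ v v
      rw [Matrix.conjTranspose_conjTranspose, g2, Matrix.one_mulVec, dot_self, dot_self] at this
      exact_mod_cast this.symm
    rw [g4, GT.qf, ← g6]
    have g7 : star v ⬝ᵥ (U * Matrix.diagonal (fun i => ((Real.exp (a i) : ℝ) : ℂ)) * Uᴴ) *ᵥ v =
        ((∑ i, Real.exp (a i) * ‖(Uᴴ *ᵥ v) i‖ ^ 2 : ℝ) : ℂ) := by
      rw [← Matrix.mulVec_mulVec, ← Matrix.mulVec_mulVec, Matrix.dotProduct_mulVec,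
        ← Matrix.conjTranspose_conjTranspose U, ← Matrix.star_mulVec,
        Matrix.conjTranspose_conjTranspose]
      push_cast
      refine sum_congr rfl fun i _ => ?_
      rw [Matrix.mulVec_diagonal, Pi.star_apply, mul_left_comm, ← Complex.ofReal_exp]
      congr 1
      rw [Complex.star_def, Complex.conj_mul']
    rw [g7, Complex.ofReal_re, nsq, mul_sum]
    exact sum_le_sum fun i _ => mul_le_mul_of_nonneg_right (Real.exp_le_exp.2 (g5 i)) (sq_nonneg _)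
  have h3 := h1.trans (GT.trace_exp_mul_le (Mon.dil_herm ((Z : ℂ) • X)) h2)
  rw [potM, potM, Mon.dil_smul, Mon.dil_smul]
  refine mul_le_mul_of_nonneg_right ?_ (Mon.tfac_pos _ _ _).le
  rw [← e] at h3
  calc _ ≤ Real.exp (Z * (R' - R)) * (NormedSpace.exp (dil ((Z : ℂ) • X))).trace.re *
        Real.exp (-Z * R') := mul_le_mul_of_nonneg_right h3 (Real.exp_pos _).le
    _ = _ := by
      rw [mul_comm (Real.exp _), mul_assoc, ← Real.exp_add]
      congr 2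
      ring

theorem potC_le {Z T t R R' : ℝ} {z z' : ℂ} (hZ : 0 ≤ Z) (h : ‖z' - z‖ ≤ R' - R) :
    potC Z T t R' z' ≤ potC Z T t R z := by
  rw [← Mon.potM_sc hZ, ← Mon.potM_sc hZ]
  exact potM_le hZ (by rwa [← map_sub, Mon.norm_sc])

/-- REAL monitor. `a` deterministic change, `c → c'` budget, `J` near jumps. -/
theorem pS_fun {A U : Finset Λ} {N : ℕ} (hN : 0 < N) {dt Z T t θ Q a c c' : ℝ}
    {Q' : Option (Λ × ℕ) → ℝ} {A' : Option (Λ × ℕ) → Finset Λ} {tl : Λ → ℝ} {J : Λ → ℕ → ℝ}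
    (hdt : 0 ≤ dt) (hZ : 0 < Z) (hT : 0 < T) (hθ : 0 < θ) (hA : Shr A A') (htl : ∀ y, 0 ≤ tl y)
    (h0 : Q' none ≤ Q + a)
    (hfar : ∀ y ∈ A, y ∉ U → ∀ k < N, Q' (some (y, k)) ≤ Q + a + tl y)
    (hnear : ∀ y ∈ A ∩ U, ∀ k < N, Q' (some (y, k)) ≤ Q + a + J y k)
    (hJ : ∀ y ∈ A ∩ U, ∀ k < N, Z * |J y k| ≤ θ)
    (hD : a + dt * ∑ y ∈ A ∩ U, avg N (J y) ≤ c' - c + θ * (dt / (4 * T)))
    (hQ : Z * ∑ y ∈ A ∩ U, avg N (fun k => J y k ^ 2) ≤ θ ^ 2 / (4 * T)) :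
    LocA A N dt U (pS Z T t θ Q c (farB A U tl))
      fun ω => pS Z T (t + dt) θ (Q' ω) c' (farB (A' ω) U tl) := by
  have key := potS_locA (A := A) (U := U) hN (t := t) (x := (Q + farB A U tl - c) / θ)
    (a := (a - (c' - c)) / θ) (J := fun y k => θ⁻¹ * J y k) hdt hZ hT
    (fun y hy k hk => by
      rw [abs_mul, abs_of_pos (inv_pos.2 hθ), mul_left_comm, inv_mul_le_iff₀ hθ, mul_one]
      exact hJ y hy k hk)
    (by
      simp only [avg_mul, ← mul_sum]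
      rw [div_eq_inv_mul, mul_left_comm, ← mul_add, inv_mul_le_iff₀ hθ]
      linarith)
    (by
      simp only [mul_pow, avg_mul, ← mul_sum]
      rw [mul_left_comm, inv_pow, inv_mul_le_iff₀ (by positivity), mul_one_div]
      exact hQ)
  refine locA_le key le_rfl fun ω hω => ⟨potS_nonneg _ _ _ _, potS_mono hZ.le ?_⟩
  rcases ω with _ | ⟨y, k⟩
  · rw [accUp, ← add_div]
    exact div_le_div_of_nonneg_right (by linarith [hA.none (U := U) htl]) hθ.le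
  · by_cases hy : y ∈ U
    · simp only [accUp, if_pos hy]
      rw [← div_eq_inv_mul, ← add_div, ← add_div]
      exact div_le_div_of_nonneg_right (by
        linarith [hA.near (U := U) htl y k, hnear y (mem_inter.2 ⟨hω.1, hy⟩) k hω.2]) hθ.le
    · simp only [accUp, if_neg hy, add_zero]
      rw [← add_div]
      exact div_le_div_of_nonneg_right (by
        linarith [hA.far htl hω.1 hy k, hfar y hω.1 hy k hω.2]) hθ.le

/-- COMPLEX monitor with a random budget `c → c' ω` (take `D = 0`, `c' = fun _ => c` if static). -/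
theorem pC_fun {A U : Finset Λ} {N : ℕ} (hN : 0 < N) {dt Z T t θ c : ℝ} {z : ℂ}
    {z' : Option (Λ × ℕ) → ℂ} {c' : Option (Λ × ℕ) → ℝ} {A' : Option (Λ × ℕ) → Finset Λ}
    {tl : Λ → ℝ} {J : Λ → ℕ → ℂ} {D : Λ → ℕ → ℝ}
    (hdt : 0 ≤ dt) (hZ : 0 < Z) (hT : 0 < T) (hθ : 0 < θ) (hA : Shr A A') (htl : ∀ y, 0 ≤ tl y)
    (h0 : ‖z' none - z‖ ≤ c' none - c)
    (hfar : ∀ y ∈ A, y ∉ U → ∀ k < N, ‖z' (some (y, k)) - z‖ ≤ c' (some (y, k)) - c + tl y)
    (hnear : ∀ y ∈ A ∩ U, ∀ k < N,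
      ‖z' (some (y, k)) - (z + J y k)‖ ≤ c' (some (y, k)) - (c + D y k))
    (hJ : ∀ y ∈ A ∩ U, ∀ k < N, Z * (‖J y k‖ + |D y k|) ≤ θ)
    (hD : ‖∑ y ∈ A ∩ U, avgV N (J y)‖ - ∑ y ∈ A ∩ U, avg N (D y) ≤ θ / (4 * T))
    (hQ : 2 * Z * ∑ y ∈ A ∩ U, avg N (fun k => ‖J y k‖ ^ 2 + D y k ^ 2) ≤ θ ^ 2 / (4 * T)) :
    LocA A N dt U (pC Z T t θ z c (farB A U tl))
      fun ω => pC Z T (t + dt) θ (z' ω) (c' ω) (farB (A' ω) U tl) := by
  have hn : ∀ u : ℂ, ‖((θ⁻¹ : ℝ) : ℂ) * u‖ = θ⁻¹ * ‖u‖ := fun u => by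
    rw [norm_mul, Complex.norm_real, Real.norm_of_nonneg (inv_pos.2 hθ).le]
  have key := potD_locA (A := A) (U := U) hN (t := t) (s := (c - farB A U tl) / θ)
    (z := ((θ⁻¹ : ℝ) : ℂ) * z) (J := fun y k => ((θ⁻¹ : ℝ) : ℂ) * J y k)
    (D := fun y k => θ⁻¹ * D y k) hdt hZ hT
    (fun y hy k hk => by
      rw [hn, abs_mul, abs_of_pos (inv_pos.2 hθ), ← mul_add, mul_left_comm, inv_mul_le_iff₀ hθ,
        mul_one]
      exact hJ y hy k hk)
    (by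
      have e : ∀ y, avgV N (fun k => ((θ⁻¹ : ℝ) : ℂ) * J y k) = ((θ⁻¹ : ℝ) : ℂ) * avgV N (J y) :=
        fun y => by simp only [mul_comm ((θ⁻¹ : ℝ) : ℂ), avgV_mul]
      simp only [e, avg_mul, ← mul_sum, hn]
      rw [← mul_sub, inv_mul_le_iff₀ hθ, mul_one_div]
      exact hD)
    (by
      simp only [hn, mul_pow, ← mul_add, avg_mul, ← mul_sum]
      rw [mul_left_comm, inv_pow, inv_mul_le_iff₀ (by positivity), mul_one_div]
      exact hQ)
  refine locA_le key le_rfl fun ω hω => ⟨potC_nonneg _ _ _ _ _, potC_le hZ.le ?_⟩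
  rcases ω with _ | ⟨y, k⟩
  · simp only [accUp, add_zero]
    rw [← mul_sub, hn, ← sub_div, ← div_eq_inv_mul]
    exact div_le_div_of_nonneg_right (by linarith [hA.none (U := U) htl]) hθ.le
  · by_cases hy : y ∈ U
    · simp only [accUp, if_pos hy, add_zero]
      rw [← mul_add, ← mul_sub, hn, ← div_eq_inv_mul, ← div_eq_inv_mul, ← add_div, ← sub_div]
      exact div_le_div_of_nonneg_right (by
        linarith [hA.near (U := U) htl y k, hnear y (mem_inter.2 ⟨hω.1, hy⟩) k hω.2]) hθ.le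
    · simp only [accUp, if_neg hy, add_zero]
      rw [← mul_sub, hn, ← sub_div, ← div_eq_inv_mul]
      exact div_le_div_of_nonneg_right (by
        linarith [hA.far htl hω.1 hy k, hfar y hω.1 hy k hω.2]) hθ.le

/-- MATRIX monitor (static budget `c`). -/
theorem pM_fun {n : Type} [Fintype n] [DecidableEq n] {A U : Finset Λ} {N : ℕ} (hN : 0 < N)
    {dt Z T t θ c : ℝ} {X : Matrix n n ℂ} {X' : Option (Λ × ℕ) → Matrix n n ℂ}
    {A' : Option (Λ × ℕ) → Finset Λ} {tl : Λ → ℝ} {J : Λ → ℕ → Matrix n n ℂ}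
    (hdt : 0 ≤ dt) (hZ : 0 < Z) (hT : 0 < T) (hθ : 0 < θ) (hA : Shr A A') (htl : ∀ y, 0 ≤ tl y)
    (h0 : X' none = X) (hfar : ∀ y ∈ A, y ∉ U → ∀ k < N, ‖X' (some (y, k)) - X‖ ≤ tl y)
    (hnear : ∀ y ∈ A ∩ U, ∀ k < N, X' (some (y, k)) = X + J y k)
    (hJ : ∀ y ∈ A ∩ U, ∀ k < N, Z * ‖J y k‖ ≤ θ)
    (hD : ‖∑ y ∈ A ∩ U, avgV N (J y)‖ ≤ θ / (4 * T))
    (hQ : ∀ v : n → ℂ,
      Z * ∑ y ∈ A ∩ U, avg N (fun k => nsq (J y k *ᵥ v)) ≤ θ ^ 2 / (4 * T) * nsq v)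
    (hQ' : ∀ v : n → ℂ,
      Z * ∑ y ∈ A ∩ U, avg N (fun k => nsq ((J y k)ᴴ *ᵥ v)) ≤ θ ^ 2 / (4 * T) * nsq v) :
    LocA A N dt U (pM Z T t θ X c (farB A U tl))
      fun ω => pM Z T (t + dt) θ (X' ω) c (farB (A' ω) U tl) := by
  have hn : ∀ u : Matrix n n ℂ, ‖((θ⁻¹ : ℝ) : ℂ) • u‖ = θ⁻¹ * ‖u‖ := fun u => by
    rw [norm_smul, Complex.norm_real, Real.norm_of_nonneg (inv_pos.2 hθ).le]
  have hq : ∀ (u : Matrix n n ℂ) (v : n → ℂ),
      nsq ((((θ⁻¹ : ℝ) : ℂ) • u) *ᵥ v) = (θ ^ 2)⁻¹ * nsq (u *ᵥ v) := fun u v => by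
    rw [Matrix.smul_mulVec, nsq_smul, Complex.norm_real, Real.norm_of_nonneg (inv_pos.2 hθ).le,
      inv_pow]
  have key := potM_locA (A := A) (U := U) hN (t := t) (R := (c - farB A U tl) / θ)
    (R' := (c - farB A U tl) / θ) (X := ((θ⁻¹ : ℝ) : ℂ) • X)
    (J := fun y k => ((θ⁻¹ : ℝ) : ℂ) • J y k) hdt hZ hT
    (fun y hy k hk => by
      rw [hn, mul_left_comm, inv_mul_le_iff₀ hθ, mul_one]
      exact hJ y hy k hk)
    (by
      have e : ∀ y, avgV N (fun k => ((θ⁻¹ : ℝ) : ℂ) • J y k) = ((θ⁻¹ : ℝ) : ℂ) • avgV N (J y) :=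
        fun y => by rw [avgV, avgV, ← smul_sum, smul_comm]
      simp only [e, ← smul_sum, hn]
      rw [sub_self, zero_add, div_eq_mul_one_div dt]
      refine mul_le_mul_of_nonneg_left ?_ hdt
      rw [inv_mul_le_iff₀ hθ, mul_one_div]
      exact hD)
    (fun v => by
      simp only [hq, avg_mul, ← mul_sum]
      rw [mul_left_comm, inv_mul_le_iff₀ (by positivity), ← mul_assoc, mul_one_div]
      exact hQ v)
    (fun v => by
      have e : ∀ u : Matrix n n ℂ, (((θ⁻¹ : ℝ) : ℂ) • u)ᴴ = ((θ⁻¹ : ℝ) : ℂ) • uᴴ := fun u => by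
        rw [Matrix.conjTranspose_smul, Complex.star_def, Complex.conj_ofReal]
      simp only [e, hq, avg_mul, ← mul_sum]
      rw [mul_left_comm, inv_mul_le_iff₀ (by positivity), ← mul_assoc, mul_one_div]
      exact hQ' v)
  refine locA_le key le_rfl fun ω hω => ⟨potM_nonneg _ _ _ _ _, potM_le hZ.le ?_⟩
  rcases ω with _ | ⟨y, k⟩
  · simp only [accUp, add_zero, h0, sub_self, norm_zero]
    rw [← sub_div]
    exact div_nonneg (by linarith [hA.none (U := U) htl]) hθ.le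
  · by_cases hy : y ∈ U
    · simp only [accUp, if_pos hy, add_zero]
      rw [hnear y (mem_inter.2 ⟨hω.1, hy⟩) k hω.2, smul_add, sub_self, norm_zero, ← sub_div]
      exact div_nonneg (by linarith [hA.near (U := U) htl y k]) hθ.le
    · simp only [accUp, if_neg hy, add_zero]
      rw [← smul_sub, hn, ← sub_div, ← div_eq_inv_mul]
      exact div_le_div_of_nonneg_right (by
        linarith [hA.far htl hω.1 hy k, hfar y hω.1 hy k hω.2]) hθ.le

/-! ### reading the monitors -/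

theorem pS_nonneg (Z T t θ Q c far : ℝ) : 0 ≤ pS Z T t θ Q c far := potS_nonneg _ _ _ _
theorem pC_nonneg (Z T t θ : ℝ) (z : ℂ) (c far : ℝ) : 0 ≤ pC Z T t θ z c far :=
  potC_nonneg _ _ _ _ _
theorem pM_nonneg {n : Type} [Fintype n] [DecidableEq n] (Z T t θ : ℝ) (X : Matrix n n ℂ)
    (c far : ℝ) : 0 ≤ pM Z T t θ X c far := potM_nonneg _ _ _ _ _

theorem pS_lt {Z T t θ Q c far : ℝ} (hZ : 0 ≤ Z) (hT : 0 < T) (ht : t ≤ T) (hθ : 0 < θ)
    (h : pS Z T t θ Q c far < 1) : Q + far < c + θ := by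
  by_contra hc
  exact absurd (one_le_potS hZ hT ht (by rw [one_le_div hθ]; linarith)) (not_le.2 h)

theorem pC_lt {Z T t θ c far : ℝ} {z : ℂ} (hZ : 0 ≤ Z) (hT : 0 < T) (ht : t ≤ T) (hθ : 0 < θ)
    (h : pC Z T t θ z c far < 1) : ‖z‖ + far < c + θ := by
  by_contra hc
  refine absurd (one_le_potC hZ hT ht ?_) (not_le.2 h)
  rw [norm_mul, Complex.norm_real, Real.norm_of_nonneg (inv_pos.2 hθ).le, ← div_eq_inv_mul,
    div_add_one hθ.ne']
  exact div_le_div_of_nonneg_right (by linarith) hθ.le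

theorem pM_lt {n : Type} [Fintype n] [DecidableEq n] {Z T t θ c far : ℝ} {X : Matrix n n ℂ}
    (hZ : 0 ≤ Z) (hT : 0 < T) (ht : t ≤ T) (hθ : 0 < θ) (hf : far ≤ c)
    (h : pM Z T t θ X c far < 1) : ‖X‖ + far < c + θ := by
  by_contra hc
  refine absurd (one_le_potM hZ hT ht (div_nonneg (sub_nonneg.2 hf) hθ.le) ?_) (not_le.2 h)
  rw [norm_smul, Complex.norm_real, Real.norm_of_nonneg (inv_pos.2 hθ).le, ← div_eq_inv_mul,
    div_add_one hθ.ne']
  exact div_le_div_of_nonneg_right (by linarith) hθ.le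

theorem pS_zero {Z T θ Q c far : ℝ} (hZ : 0 ≤ Z) (hT : 0 < T) (hθ : 0 < θ) (h : Q + far ≤ c) :
    pS Z T 0 θ Q c far ≤ Real.exp (-Z / 2) :=
  (potS_mono hZ (div_nonpos_of_nonpos_of_nonneg (by linarith) hθ.le)).trans (potS_zero hT).le

theorem pC_zero {Z T θ c far : ℝ} {z : ℂ} (hZ : 0 ≤ Z) (hT : 0 < T) (hθ : 0 < θ)
    (h : ‖z‖ + far ≤ c) : pC Z T 0 θ z c far ≤ 2 * Real.exp (-Z / 2) := by
  refine (potC_le hZ ?_).trans (potC_zero hT).le
  rw [sub_zero, sub_zero, norm_mul, Complex.norm_real, Real.norm_of_nonneg (inv_pos.2 hθ).le,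
    ← div_eq_inv_mul]
  exact div_le_div_of_nonneg_right (by linarith) hθ.le

theorem pM_zero {n : Type} [Fintype n] [DecidableEq n] {Z T θ c far : ℝ} {X : Matrix n n ℂ}
    (hZ : 0 ≤ Z) (hT : 0 < T) (hθ : 0 < θ) (h : ‖X‖ + far ≤ c) :
    pM Z T 0 θ X c far ≤ 2 * Fintype.card n * Real.exp (-Z / 2) := by
  refine (potM_le hZ ?_).trans (potM_zero hT).le
  rw [sub_zero, sub_zero, norm_smul, Complex.norm_real, Real.norm_of_nonneg (inv_pos.2 hθ).le,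
    ← div_eq_inv_mul]
  exact div_le_div_of_nonneg_right (by linarith) hθ.le

end Crest.Agent.N334.AC.Mo
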