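import Crest.Agent.N334.AC.P.Num

/-! # S0520 part P: the game of `badFrac` against `Psi` (leaf; fill the sorries, keep the statements)
`badFrac = cavg` (rfl), `cavg_close`, `cavg_refine`, `Psi_mem` with `exists_clsA`, `exists_clsB`, `LocA.ex_le`,
`exA_mono`, `LocB.ex_le`, `Psi_mono`. `lazy`: `exA` of `ω ↦ badFrac (celA S ω)` equals `badFrac S`. -/

set_option autoImplicit false

open Finset Complex
open scoped Matrix.Norms.L2Operator Matrix

namespace Crest.Agent.N334.AC.P

variable {d M : ℕ} [NeZero M] {c : Cx d M} {e : Ep} {g : Sg} {f : Ref d M}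

/-- `badFrac ≤ Ψ` when the level `cut` carries the potential `π` -/
def Wn (c : Cx d M) (κ0 : ℝ) (R0 : ℕ) (ρ : Rad) (X : Finset (Tor d M)) (k1 K cut : ℕ)
    (base : ℕ → Tor d M → ℝ) (S : Tor d M → ℕ × ℕ) (π : Tor d M → ℝ) : Prop :=
  badFrac c.σ c.E c.w0 κ0 R0 c.N c.r (fun x => cel (S x)) ≤
    Psi ρ X k1 K cut (Function.update base cut π)

namespace GameH

omit [NeZero M] in
theorem upd_nonneg {base : ℕ → Tor d M → ℝ} (h0 : ∀ k p, 0 ≤ base k p) (cut : ℕ)
    {π : Tor d M → ℝ} (h : ∀ p, 0 ≤ π p) (k : ℕ) (p : Tor d M) :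
    0 ≤ Function.update base cut π k p := by
  rcases eq_or_ne k cut with rfl | hk
  · rw [Function.update_self]; exact h p
  · rw [Function.update_of_ne hk]; exact h0 k p

theorem psi_mem {Ω : Type} (C : Cls (Tor d M) Ω) (ρ : Rad) {X : Finset (Tor d M)} {k1 : ℕ}
    (K cut : ℕ) (hX : Sep (4 * ρ.r k1 + 1) X) {base : ℕ → Tor d M → ℝ} (h0 : ∀ k p, 0 ≤ base k p)
    {π : Tor d M → ℝ} {π' : Ω → Tor d M → ℝ}
    (h : ∀ p, C.mem (tball p (ρ.r cut)) (π p) fun ω => π' ω p) :
    C.mem univ (Psi ρ X k1 K cut (Function.update base cut π))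
      fun ω => Psi ρ X k1 K cut (Function.update base cut (π' ω)) :=
  Psi_mem C ρ hX (base' := fun ω => Function.update base cut (π' ω))
    (upd_nonneg h0 cut fun p => (C.nonneg (h p)).1)
    (fun ω k hk => by rw [Function.update_of_ne hk, Function.update_of_ne hk])
    fun p => by simpa only [Function.update_self] using h p

theorem exA_cel {N : ℕ} (hN : 0 < N) (t : ℝ) {S : Tor d M → ℕ × ℕ} {A : Finset (Tor d M)}
    (hA : ∀ y ∈ A, S y = (0, N)) (F : (Tor d M → ℕ) → ℝ) :
    exA A N t (fun ω => cavg (fun x => cel (celA S ω x)) F) = cavg (fun x => cel (S x)) F := by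
  have h : ∀ y ∈ A, (avg N fun k => cavg (fun x => cel (celA S (some (y, k)) x)) F)
      = cavg (fun x => cel (S x)) F := fun y hy => by
    rw [cavg_close (S := fun x => cel (S x)) (y := y) hN (by simp [cel, hA y hy])]
    congr 2 with k
    congr 1
    funext x
    rcases eq_or_ne x y with rfl | hx
    · simp [celA, cel]
    · simp [celA, Function.update_of_ne hx]
  rw [exA, sum_congr rfl h, sum_const, nsmul_eq_mul, celA]
  ring

end GameH

open GameH

theorem game_psi (hN : 0 < c.N) (κ0 : ℝ) (R0 : ℕ) (ρ : Rad) {X : Finset (Tor d M)} {k1 : ℕ} (K cut : ℕ)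
    (hX : Sep (4 * ρ.r k1 + 1) X) {base : ℕ → Tor d M → ℝ} (h0 : ∀ k p, 0 ≤ base k p) :
    Game c.N (ρ.r cut) (Wn c κ0 R0 ρ X k1 K cut base) := by
  have hc : (0 : ℝ) < Fintype.card (Tor d M) := by exact_mod_cast Fintype.card_pos
  have mark : ∀ {π} {π' : (Tor d M → ℕ) → Tor d M → ℝ} (m : Tor d M → ℕ), (∀ x, 0 < m x) →
      (∀ p, LocB m (tball p (ρ.r cut)) (π p) fun ξ => π' ξ p) →
      (avgP m fun ξ => Psi ρ X k1 K cut (Function.update base cut (π' ξ)))
        ≤ Psi ρ X k1 K cut (Function.update base cut π) := fun m hm h => by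
    obtain ⟨C, -, hC⟩ := exists_clsB m hm
    exact LocB.ex_le hm (hC ▸ psi_mem C ρ K cut hX h0 (hC ▸ h))
  refine ⟨fun {S π π'} h h1 h2 => h.trans (Psi_mono ρ X k1 K cut (upd_nonneg h0 cut h1)
    fun k p => ?_), fun {S π π'} A hA h1 h2 => ?_, fun {S π π'} m hm h1 h2 => ?_,
    fun {S π π'} m len hm hl hS h1 h2 => ?_⟩
  · rcases eq_or_ne k cut with rfl | hk
    · rw [Function.update_self, Function.update_self]; exact h2 p
    · rw [Function.update_of_ne hk, Function.update_of_ne hk]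
  · have t0 : 0 ≤ dt d M := by unfold dt; positivity
    have t1 : dt d M * A.card ≤ 1 := by
      rw [dt, one_div, inv_mul_le_iff₀ hc, mul_one]
      exact_mod_cast card_le_univ A
    obtain ⟨C, -, hC⟩ := exists_clsA A c.N hN t0
    exact ((exA_cel hN _ hA _).symm.trans_le (exA_mono t0 t1 h2)).trans
      (LocA.ex_le hN t0 t1 (hC ▸ psi_mem C ρ K cut hX h0 (hC ▸ h1)))
  · exact ((avgP_const hm _).symm.trans_le (avgP_mono h2)).trans (mark m hm h1)
  · refine le_trans ?_ ((avgP_mono h2).trans (mark m hm h1))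
    have e : (fun x => cel (S x)) = fun x => Ico (S x).1 ((S x).1 + m x * len x) :=
      funext fun x => by rw [cel, hS]
    rw [e]
    exact (cavg_refine (fun x => (S x).1) m len hm hl _).le

theorem badFrac_le_one (κ0 : ℝ) (R0 : ℕ) (S : Tor d M → Finset ℕ) :
    badFrac c.σ c.E c.w0 κ0 R0 c.N c.r S ≤ 1 :=
  cavg_le_one fun _ => by split_ifs; exacts [zero_le_one, le_rfl]

end Crest.Agent.N334.AC.P
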