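import Crest.Agent.N334.AC.P.Eng

/-! # S0520 part P: generic families of monitors (leaf; fill the sorries, keep the statements)
`fam_scalar`: `R s π := s.n ≤ P·card ∧ ∃ acc, (∀ i, live i s → live i s0 ∧ acc i ≤ 2 ∧
Q i s ≤ Q i s0 + acc i + ∑_{y ∉ s.A} tl (site i) y) ∧ ∀ p, π p = ∑_{i, site i = p, live i s0} pot i` where `pot i` is any
number `≥ 0` that dominates `potS P P t (acc i)` when `live i s` (dead monitors: constant). `potS_locA`, `one_le_potS`.
If `π p ≥ 1` then the ball misses `ord`, so `a ≤ 0` and no near jump occurs.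
`fam_ghost`: `R s π := s.n ≤ .. ∧ ∃ y, Tr s y ∧ ∀ p, ‖mon y p‖ ≤ 2 ∧ π p = potM P P t 0 (mon y p)`, `one_le_potM`. -/

set_option autoImplicit false

open Finset Complex
open scoped Matrix.Norms.L2Operator Matrix

namespace Crest.Agent.N334.AC.P

variable {d M : ℕ} [NeZero M] {c : Cx d M} {e : Ep} {g : Sg} {f : Ref d M}

variable {Rc Ev : CS d M → Prop} {s0 : CS d M}

open Classical in
theorem fam_scalar (L : Led c e g) (hn : s0.n = 0) (hA : ∀ s, Ev s → s.A ⊆ s.ord) {ι : Type} [Fintype ι]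
    (site : ι → Tor d M) (live : ι → CS d M → Prop) (Q : ι → CS d M → ℝ)
    (hm : ∀ p, ((univ.filter fun i => site i = p ∧ live i s0).card : ℝ) ≤ Real.exp (e.P / 8))
    (hfz : ∀ i s F, live i (s.frz (3 * e.ρ) F) → live i s ∧ Q i (s.frz (3 * e.ρ) F) ≤ Q i s)
    (hlv : ∀ i s ω, live i (s.next c ω) → live i s)
    (hst : ∀ i s, Ev s → s.run e → live i s → ∃ (a : ℝ) (J : Tor d M → ℕ → ℝ),
      a ≤ 1 / 2 ∧ (a ≤ 0 ∨ site i ∈ s.ord) ∧ Q i (s.next c none) ≤ Q i s + a ∧
      (∀ y ∈ s.A, ∀ k < c.N, live i (s.next c (some (y, k))) → Q i (s.next c (some (y, k))) ≤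
        Q i s + a + if y ∈ tball (site i) (2 * e.ρ) then J y k else tl e (site i) y) ∧
      (∀ y ∈ s.A ∩ tball (site i) (2 * e.ρ), ∀ k < c.N, (e.P : ℝ) * |J y k| ≤ 1) ∧
      a + dt d M * ∑ y ∈ s.A ∩ tball (site i) (2 * e.ρ), avg c.N (J y) ≤ dt d M / (4 * e.P) ∧
      (e.P : ℝ) * ∑ y ∈ s.A ∩ tball (site i) (2 * e.ρ), avg c.N (fun k => J y k ^ 2) ≤ 1 / (4 * e.P)) :
    FamOK c e Rc Ev s0 (fun s => ∀ i, live i s → Q i s ≤ Q i s0 + 3)
      (Real.exp (-(e.P : ℝ) / 3)) := by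
  have hP := L.P_ge
  have hP0 : (0 : ℝ) < e.P := by linarith [show (0 : ℝ) < 10 ^ 60 by norm_num]
  have hP2 : (2 : ℝ) ≤ e.P := le_trans (by norm_num) hP
  have hN := L.ok.N0
  refine ⟨fun s π => ∃ acc pot : ι → ℝ, (∀ i, live i s → live i s0 ∧ acc i ≤ 2 ∧
      Q i s ≤ Q i s0 + acc i + ∑ y ∈ univ \ s.A, tl e (site i) y ∧
      potS e.P e.P s.t (acc i) ≤ pot i) ∧ (∀ i, 0 ≤ pot i) ∧
      ∀ p, π p = ∑ i ∈ univ.filter (fun i => site i = p ∧ live i s0), pot i, ?_, ?_, ?_, ?_⟩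
  · refine ⟨_, ⟨0, fun _ => Real.exp (-(e.P : ℝ) / 2), fun i hi => ⟨hi, zero_le_two, ?_, ?_⟩,
      fun _ => (Real.exp_pos _).le, fun _ => rfl⟩, fun p => ?_⟩
    · have := sum_nonneg fun y (_ : y ∈ univ \ s0.A) => L.tl_nonneg (site i) y
      simp only [Pi.zero_apply]; linarith
    · rw [CS.t, hn, Nat.cast_zero, zero_mul, Pi.zero_apply, potS_zero hP0]
    · rw [sum_const, nsmul_eq_mul]
      refine (mul_le_mul_of_nonneg_right (hm p) (Real.exp_pos _).le).trans ?_
      rw [← Real.exp_add]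
      exact Real.exp_le_exp.2 (by linarith)
  · rintro s π ⟨acc, pot, h1, h2, h3⟩
    refine ⟨fun p => h3 p ▸ sum_nonneg fun i _ => h2 i, fun _ i hi => ?_⟩
    have := (sum_le_sum_of_subset_of_nonneg (subset_univ (univ \ s.A))
      fun y _ _ => L.tl_nonneg (site i) y).trans (L.sum_tl (site i))
    linarith [(h1 i hi).2.1, (h1 i hi).2.2.1]
  · rintro s π F ⟨acc, pot, h1, h2, h3⟩
    refine ⟨acc, pot, fun i hi => ?_, h2, h3⟩
    obtain ⟨a1, a2⟩ := hfz i s F hi
    obtain ⟨b1, b2, b3, b4⟩ := h1 i a1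
    have : ∑ y ∈ univ \ s.A, tl e (site i) y ≤
        ∑ y ∈ univ \ (s.frz (3 * e.ρ) F).A, tl e (site i) y :=
      sum_le_sum_of_subset_of_nonneg (sdiff_subset_sdiff Subset.rfl sdiff_subset)
        fun y _ _ => L.tl_nonneg (site i) y
    exact ⟨b1, b2, by linarith, by rwa [frz_t]⟩
  · rintro s π hE hr ⟨acc, pot, h1, h2, h3⟩ hπ
    choose! a J g1 g2 g3 g4 g5 g6 g7 using fun i => hst i s hE hr
    obtain ⟨C, hC1, hC2⟩ := exists_clsA s.A c.N hN (dt_pos (d := d) (M := M)).le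
    let acc' : Option (Tor d M × ℕ) → ι → ℝ :=
      fun ω i => accUp (tball (site i) (2 * e.ρ)) (acc i) (a i) (J i) ω
    let pot' : Option (Tor d M × ℕ) → ι → ℝ :=
      fun ω i => if live i s then potS e.P e.P (s.t + dt d M) (acc' ω i) else pot i
    refine ⟨fun ω p => ∑ i ∈ univ.filter (fun i => site i = p ∧ live i s0), pot' ω i,
      fun p => ?_, fun ω hω => ⟨acc' ω, pot' ω, fun i hi => ?_, fun i => ?_, fun _ => rfl⟩⟩
    · rw [h3, ← hC2]
      refine C.sum _ fun i hi => ?_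
      by_cases hl : live i s
      · simp only [pot', if_pos hl]
        have := potS_locA hN (t := s.t) (x := acc i) dt_pos.le hP0 hP0 (g5 i hl) (g6 i hl) (g7 i hl)
        rw [← hC2] at this
        refine C.le (C.mono ?_ this) (h1 i hl).2.2.2 fun ω _ => ⟨potS_nonneg _ _ _ _, le_rfl⟩
        rw [(mem_filter.1 hi).2.1]
        exact fun x hx => mem_tball.2 ((mem_tball.1 hx).trans (by omega))
      · simp only [pot', if_neg hl]
        exact C.const _ _ (h2 i)
    · have hl := hlv i s ω hi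
      obtain ⟨b1, b2, b3, b4⟩ := h1 i hl
      refine ⟨b1, ?_, ?_, by simp only [pot', if_pos hl, next_t, le_refl]⟩
      · rcases hπ (site i) with h | h
        · have h4 : pot i ≤ π (site i) := h3 _ ▸ single_le_sum (f := pot) (fun j _ => h2 j)
            (mem_filter.2 ⟨mem_univ i, rfl, b1⟩)
          have h5 : acc i < 1 := lt_of_not_ge fun h6 => by
            linarith [one_le_potS hP0.le hP0 (t := s.t) (by linarith [run_t hr, dt_pos (d := d) (M := M)]) h6]
          have := g1 i hl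
          rcases ω with _ | ⟨y, k⟩
          · simp only [acc', accUp]; linarith
          · simp only [acc', accUp]
            split_ifs with hy
            · have h7 := g5 i hl y (mem_inter.2 ⟨hω.1, hy⟩) k hω.2
              nlinarith [le_abs_self (J i y k), abs_nonneg (J i y k)]
            · linarith
        · have h5 : a i ≤ 0 := (g2 i hl).resolve_right fun h6 =>
            disjoint_left.1 h (self_mem_tball _ _) h6
          rcases ω with _ | ⟨y, k⟩
          · simp only [acc', accUp]; linarith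
          · simp only [acc', accUp]
            split_ifs with hy
            · exact absurd (hA s hE hω.1)
                (disjoint_left.1 h (mem_tball.2 ((mem_tball.1 hy).trans (by omega))))
            · linarith
      · rcases ω with _ | ⟨y, k⟩
        · have := g3 i hl
          simp only [acc', accUp]
          change _ ≤ _ + ∑ y ∈ univ \ s.A, tl e (site i) y
          linarith
        · have h4 := g4 i hl y hω.1 k hω.2 hi
          have h5 : univ \ (s.next c (some (y, k))).A = insert y (univ \ s.A) := by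
            change univ \ s.A.erase y = _
            ext x
            by_cases hx : x = y <;> simp [hx]
          have := L.tl_nonneg (site i) y
          rw [h5, sum_insert (by simpa using hω.1)]
          simp only [acc', accUp]
          split_ifs at h4 ⊢ <;> linarith
    · simp only [pot']
      split_ifs
      · exact potS_nonneg _ _ _ _
      · exact h2 i

theorem fam_ghost (L : Led c e g) (hn : s0.n = 0) {Γ B : Type} [Fintype B] [DecidableEq B]
    (hB : (Fintype.card B : ℝ) ≤ vol d M (10 * e.ρ)) (Tr : CS d M → Γ → Prop)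
    (stp : CS d M → Γ → Option (Tor d M × ℕ) → Γ) (mon : Γ → Tor d M → Matrix B B ℂ) (y0 : Γ)
    (h0 : Tr s0 y0 ∧ ∀ p, mon y0 p = 0) (hfz : ∀ s y F, Tr s y → Tr (s.frz (3 * e.ρ) F) y)
    (hst : ∀ s y, Ev s → s.run e → Tr s y → (∀ p, ‖mon y p‖ ≤ 2) →
      (∀ ω, okA s.A c.N ω → Tr (s.next c ω) (stp s y ω) ∧ ∀ p, ‖mon (stp s y ω) p - mon y p‖ ≤ 1 ∧
        (Disjoint (tball p (3 * e.ρ)) s.ord → mon (stp s y ω) p = mon y p)) ∧
      ∀ p, LocA s.A c.N (dt d M) (tball p (3 * e.ρ)) (potM e.P e.P s.t 0 (mon y p))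
        fun ω => potM e.P e.P (s.t + dt d M) 0 (mon (stp s y ω) p)) :
    FamOK c e Rc Ev s0 (fun s => ∃ y, Tr s y ∧ ∀ p, ‖mon y p‖ ≤ 2) (Real.exp (-(e.P : ℝ) / 3)) := by
  have hP := L.P_ge
  have hP1 : (1 : ℝ) ≤ e.P := le_trans (by norm_num) hP
  have hP0 : (0 : ℝ) < e.P := by linarith
  refine ⟨fun s π => ∃ y, Tr s y ∧ ∀ p, ‖mon y p‖ ≤ 2 ∧ π p = potM e.P e.P s.t 0 (mon y p),
    ?_, ?_, ?_, ?_⟩
  · refine ⟨_, ⟨y0, h0.1, fun p => ⟨by rw [h0.2, norm_zero]; exact zero_le_two, rfl⟩⟩, fun p => ?_⟩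
    rw [CS.t, hn, Nat.cast_zero, zero_mul, h0.2, potM_zero hP0]
    have h1 := L.mult_vol
    have h2 : (1 : ℝ) ≤ (e.P : ℝ) ^ 3 * e.Q :=
      one_le_mul_of_one_le_of_one_le (one_le_pow₀ hP1) ((one_le_pow₀ hP1).trans L.Q_ge)
    have h3 : (0 : ℝ) ≤ vol d M (10 * e.ρ) := le_trans (Nat.cast_nonneg _) hB
    have h4 : 2 * (Fintype.card B : ℝ) ≤ Real.exp (e.P / 8) := by nlinarith
    refine (mul_le_mul_of_nonneg_right h4 (Real.exp_pos _).le).trans ?_
    rw [← Real.exp_add]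
    exact Real.exp_le_exp.2 (by linarith)
  · rintro s π ⟨y, h1, h2⟩
    exact ⟨fun p => (h2 p).2 ▸ potM_nonneg _ _ _ _ _, fun _ => ⟨y, h1, fun p => (h2 p).1⟩⟩
  · rintro s π F ⟨y, h1, h2⟩
    exact ⟨y, hfz s y F h1, by rwa [frz_t]⟩
  · rintro s π hE hr ⟨y, h1, h2⟩ hπ
    obtain ⟨h3, h4⟩ := hst s y hE hr h1 fun p => (h2 p).1
    refine ⟨fun ω p => potM e.P e.P (s.t + dt d M) 0 (mon (stp s y ω) p),
      fun p => (h2 p).2 ▸ h4 p, fun ω hω => ⟨_, (h3 ω hω).1, fun p => ⟨?_, by rw [next_t]⟩⟩⟩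
    obtain ⟨h5, h6⟩ := (h3 ω hω).2 p
    rcases hπ p with h | h
    · have h7 : ‖mon y p‖ < 0 + 1 := lt_of_not_ge fun h8 => by
        linarith [(h2 p).2, one_le_potM hP0.le hP0 (t := s.t)
          (by linarith [run_t hr, dt_pos (d := d) (M := M)]) le_rfl h8]
      linarith [norm_sub_norm_le (mon (stp s y ω) p) (mon y p)]
    · rw [h6 h]; exact (h2 p).1

end Crest.Agent.N334.AC.P
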