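import Crest.Agent.N334.AC.P.Fun
import Crest.Agent.N334.AC.P.One
import Crest.Agent.N334.AC.L.Close
import Crest.Agent.N334.AC.Rel

/-! # S0520 part P (helper78): common data of the closing monitors -/

set_option autoImplicit false

open Finset Complex
open scoped Matrix.Norms.L2Operator Matrix

namespace Crest.Agent.N334.AC.Mo

variable {ι : Type} [Fintype ι] [DecidableEq ι]

omit [Fintype ι] in
/-- a monitor that dies when a site of `D` (its subject) is closed -/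
theorem locA_kill {A D U : Finset ι} {N : ℕ} (hN : 0 < N) {dt φ : ℝ} {ch : Option (ι × ℕ) → ℝ}
    (h : LocA (A \ D) N dt U φ ch) (al : Option (ι × ℕ) → Prop) [DecidablePred al]
    (hal : ∀ y ∈ D, ∀ k, ¬ al (some (y, k))) :
    LocA A N dt U φ fun ω => if al ω then ch ω else 0 := by
  obtain ⟨a, κ, h1, h2, h3, h4, h5, h6⟩ := h
  have ha := h1.trans h2
  have hle : ∀ ω, 0 ≤ ch ω → (0 ≤ if al ω then ch ω else 0) ∧ (if al ω then ch ω else 0) ≤ ch ω :=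
    fun ω h => by split_ifs <;> simp [h]
  refine ⟨a, fun y => if y ∈ D then 0 else κ y, (hle _ h1).1, (hle _ h1).2.trans h2,
    fun y hy k hk => ?_, fun y hy hU k hk => ?_, fun y hy => ?_, ?_⟩
  · by_cases hD : y ∈ D
    · simp [hal y hD k]
    · exact (hle _ (h3 y (mem_sdiff.2 ⟨hy, hD⟩) k hk)).1
  · by_cases hD : y ∈ D
    · simpa [hal y hD k] using ha
    · exact (hle _ (h3 y (mem_sdiff.2 ⟨hy, hD⟩) k hk)).2.trans (h4 y (mem_sdiff.2 ⟨hy, hD⟩) hU k hk)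
  · by_cases hD : y ∈ D
    · simpa [hal y hD, hD, avg_const hN] using ha
    · have hy' : y ∈ A \ D := mem_sdiff.2 ⟨(mem_inter.1 hy).1, hD⟩
      simp only [if_neg hD]
      exact (avg_mono fun k hk => (hle _ (h3 y hy' k hk)).2).trans
        (h5 y (mem_inter.2 ⟨hy', (mem_inter.1 hy).2⟩))
  · refine le_of_eq_of_le ?_ h6
    congr 3
    rw [sum_ite, sum_const_zero, zero_add]
    refine sum_congr ?_ fun _ _ => rfl
    ext y
    simp only [mem_filter, mem_inter, mem_sdiff]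
    tauto

omit [Fintype ι] in
theorem farB_sdiff {A D U : Finset ι} (hD : D ⊆ U) (tl : ι → ℝ) : farB (A \ D) U tl = farB A U tl := by
  rw [farB, farB, sdiff_sdiff_left, sup_eq_union, union_eq_right.2 hD]

omit [Fintype ι] in
theorem Shr.sdiff {A : Finset ι} {A' : Option (ι × ℕ) → Finset ι} (h : Shr A A') (D : Finset ι) :
    Shr (A \ D) fun ω => A' ω \ D :=
  ⟨sdiff_subset_sdiff h.1 le_rfl, fun y k x hx => by
    have := h.2 y k (mem_sdiff.1 hx).1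
    simp only [mem_erase, mem_sdiff] at this hx ⊢
    tauto⟩

/-- the potential after the lazy step -/
def wUp (w : ι → ℂ) (vv : ι → ℕ → ℝ) : Option (ι × ℕ) → ι → ℂ
  | none => w
  | some (y, k) => cls1 w y (vv y k)

/-- the rank-one coefficient of the closing of `y` with digit `k` -/
noncomputable abbrev tk (A : Matrix ι ι ℂ) (w : ι → ℂ) (vv : ι → ℕ → ℝ) (y : ι) (k : ℕ) : ℂ :=
  tau (Gm A w y y) (w y) (vv y k)

/-- data of a lazy closing step with drivers `Ac` -/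
structure Ph (A : Matrix ι ι ℂ) (w : ι → ℂ) (Ac : Finset ι) (N : ℕ) (vv : ι → ℕ → ℝ)
    (τ1 t2 b g : ℝ) : Prop where
  adm : Adm A w
  N0 : 0 < N
  g0 : 0 < g
  τ0 : 0 ≤ τ1
  t0 : 0 ≤ t2
  b0 : 0 ≤ b
  ne : ∀ y ∈ Ac, ∀ k < N, 1 + ((vv y k : ℂ) - w y) * Gm A w y y ≠ 0
  gam_ge : ∀ y ∈ Ac, g ≤ gam w y
  τle : ∀ y ∈ Ac, ∀ k < N, ‖tk A w vv y k‖ ≤ τ1
  τsq : ∀ y ∈ Ac, avg N (fun k => ‖tk A w vv y k‖ ^ 2) ≤ t2 * gam w y
  bias : ∀ y ∈ Ac, ‖avgV N (tk A w vv y)‖ ≤ b * gam w y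

variable {A : Matrix ι ι ℂ} {w : ι → ℂ} {Ac : Finset ι} {N : ℕ} {vv : ι → ℕ → ℝ}
  {τ1 t2 b g : ℝ}

theorem Ph.mono (h : Ph A w Ac N vv τ1 t2 b g) {Ac' : Finset ι} (hs : Ac' ⊆ Ac) :
    Ph A w Ac' N vv τ1 t2 b g :=
  ⟨h.adm, h.N0, h.g0, h.τ0, h.t0, h.b0, fun y hy => h.ne y (hs hy), fun y hy => h.gam_ge y (hs hy),
    fun y hy => h.τle y (hs hy), fun y hy => h.τsq y (hs hy), fun y hy => h.bias y (hs hy)⟩

theorem Ph.gam_pos (h : Ph A w Ac N vv τ1 t2 b g) {y : ι} (hy : y ∈ Ac) : 0 < gam w y :=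
  h.g0.trans_le (h.gam_ge y hy)

/-- the row of `a` in intensity units -/
noncomputable def xr (A : Matrix ι ι ℂ) (w : ι → ℂ) (a b : ι) : ℂ :=
  (√(gam w b) : ℝ) * Gm A w a b

theorem xr_sq (h : Adm A w) (a b : ι) : ‖xr A w a b‖ ^ 2 = gam w b * ‖Gm A w a b‖ ^ 2 := by
  rw [xr, norm_mul, mul_pow, norm_real, Real.norm_of_nonneg (Real.sqrt_nonneg _),
    Real.sq_sqrt (h.diss b)]

theorem xr_close (h : Adm A w) {y : ι} {v : ℝ} (hne : 1 + ((v : ℂ) - w y) * Gm A w y y ≠ 0)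
    (hγ : 0 < gam w y) (a : ι) {b : ι} (hb : b ≠ y) :
    xr A (cls1 w y v) a b = xr A w a b -
      tau (Gm A w y y) (w y) v / (gam w y : ℝ) * xr A w a y * Km A w y b := by
  have h1 : ((√(gam w y) : ℝ) : ℂ) * (√(gam w y) : ℝ) = (gam w y : ℝ) := by
    rw [← ofReal_mul, Real.mul_self_sqrt hγ.le]
  have h2 : ((gam w y : ℝ) : ℂ) ≠ 0 := ofReal_ne_zero.2 hγ.ne'
  rw [xr, xr, xr, gam_cls_ne w v hb, h.close_G hne, Km]
  field_simp
  rw [sq, h1]
  ring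

theorem sum_xr_le (h : Adm A w) (S : Finset ι) (a : ι) :
    ∑ b ∈ S, ‖xr A w a b‖ ^ 2 ≤ (Gm A w a a).im := by
  rw [← h.ward_diag a]
  simp only [xr_sq h]
  exact sum_le_sum_of_subset_of_nonneg (subset_univ S) fun b _ _ =>
    mul_nonneg (h.diss b) (by positivity)

theorem K_sq_xr (h : Adm A w) (y b : ι) : ‖Km A w y b‖ ^ 2 = gam w y * ‖xr A w y b‖ ^ 2 := by
  rw [h.K_sq, xr_sq h, mul_assoc]

theorem sum_K_le (h : Adm A w) (S : Finset ι) (y : ι) :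
    ∑ b ∈ S, ‖Km A w y b‖ ^ 2 ≤ gam w y * (Gm A w y y).im := by
  simp only [K_sq_xr h, ← mul_sum]
  exact mul_le_mul_of_nonneg_left (sum_xr_le h S y) (h.diss y)

/-- the relative coefficient -/
theorem Ph.rel_le (h : Ph A w Ac N vv τ1 t2 b g) {y : ι} (hy : y ∈ Ac) {k : ℕ} (hk : k < N) :
    ‖tk A w vv y k / (gam w y : ℝ)‖ ≤ τ1 / g := by
  rw [norm_div, norm_real, Real.norm_of_nonneg (h.gam_pos hy).le]
  exact div_le_div₀ h.τ0 (h.τle y hy k hk) h.g0 (h.gam_ge y hy)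

theorem Ph.rel_sq (h : Ph A w Ac N vv τ1 t2 b g) {y : ι} (hy : y ∈ Ac) :
    avg N (fun k => ‖tk A w vv y k / (gam w y : ℝ)‖ ^ 2) ≤ t2 / g := by
  have hγ := h.gam_pos hy
  have e : ∀ k, ‖tk A w vv y k / (gam w y : ℝ)‖ ^ 2 = (gam w y ^ 2)⁻¹ * ‖tk A w vv y k‖ ^ 2 :=
    fun k => by rw [norm_div, norm_real, Real.norm_of_nonneg hγ.le, div_pow, div_eq_inv_mul]
  simp only [e, avg_mul]
  calc _ ≤ (gam w y ^ 2)⁻¹ * (t2 * gam w y) :=
        mul_le_mul_of_nonneg_left (h.τsq y hy) (by positivity)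
    _ = t2 / gam w y := by field_simp
    _ ≤ _ := div_le_div_of_nonneg_left h.t0 h.g0 (h.gam_ge y hy)

/-- averages of terms linear in the coefficient -/
theorem Ph.rel_re (h : Ph A w Ac N vv τ1 t2 b g) {y : ι} (hy : y ∈ Ac) (z : ℂ) :
    |avg N fun k => (tk A w vv y k / (gam w y : ℝ) * z).re| ≤ b * ‖z‖ := by
  have hγ := h.gam_pos hy
  have e : ∀ k, tk A w vv y k / (gam w y : ℝ) * z = tk A w vv y k * (z / (gam w y : ℝ)) :=
    fun k => by ring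
  simp only [e]
  rw [avg_re, avgV_mul]
  refine (abs_re_le_norm _).trans ?_
  rw [norm_mul, norm_div, norm_real, Real.norm_of_nonneg hγ.le]
  calc _ ≤ b * gam w y * (‖z‖ / gam w y) :=
        mul_le_mul_of_nonneg_right (h.bias y hy) (by positivity)
    _ = _ := by field_simp

end Crest.Agent.N334.AC.Mo
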