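import Crest.Agent.N334.AC.P.Defs
import Crest.Agent.N334.AC.Geo

/-! # S0520 part P: the analytic fields (`cap`, `capT`, `four`) of the ledger (helper24) -/

set_option autoImplicit false

open Finset Complex

namespace Crest.Agent.N334.AC.P.ParA

variable {d M : ℕ} [NeZero M] {c : Cx d M}

lemma E0_nonneg (ψ : Tor d M → ℝ) : 0 ≤ c.E0 ψ := by
  unfold Cx.E0 En
  positivity

lemma capR_mono {R R' : ℕ} {a a' F F' : ℝ} (h : c.CapR R a F) (hR : R ≤ R') (ha : a ≤ a')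
    (hF : F ≤ F') : c.CapR R' a' F' := by
  intro S hS l ψ h1 h2
  refine (h S (hS.mono hR le_rfl) l ψ h1 h2).trans ?_
  have := E0_nonneg (c := c) ψ
  have h3 : 0 ≤ ∑ x, l x ^ 2 := by positivity
  gcongr

lemma capR1 (h : Init d M c.C c.σ c.E c.w0) {ε a F : ℝ} (h0 : 0 < ε) (h1 : ε ≤ 1)
    (ha : 1 + ε ≤ a) (hF : c.C * c.σ ^ 3 / ε ≤ F) (R : ℕ) : c.CapR R a F := by
  refine capR_mono (R := 0) (a := 1 + ε) (F := c.C * c.σ ^ 3 / ε) ?_ (Nat.zero_le _) ha hF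
  intro S _ l ψ _ h2
  exact h.cap1 ε h0 h1 l ψ h2

lemma capR2 (h : Init d M c.C c.σ c.E c.w0) {R : ℕ} {a F : ℝ} (hR : R ≤ 2 * M) (h0 : 0 < F)
    (hC : c.C ≤ c.σ ^ 40 * R * F ^ 4) (ha : 1 + c.C * c.σ ^ 2 ≤ a) : c.CapR R a F := by
  refine capR_mono (R := R) (a := 1 + c.C * c.σ ^ 2) (F := F) ?_ le_rfl ha le_rfl
  intro S hS l ψ h1 h2
  exact h.cap2 R F hR h0 hC S l ψ hS h1 h2

lemma γ_le (h : Init d M c.C c.σ c.E c.w0) : c.γ ≤ c.C * c.σ ^ 2 :=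
  (neg_le_abs _).trans ((Complex.abs_im_le_norm _).trans h.w_le)

lemma γ_ge (h : Init d M c.C c.σ c.E c.w0) : c.σ ^ 2 / c.C ≤ c.γ := h.gam_lo

/-- the far part of the weighted fourth moment -/
lemma four_tail (h : Init d M c.C c.σ c.E c.w0) (hC : 1 ≤ c.C) (h0 : 0 < c.σ) (h1 : c.σ ≤ 1)
    (D : ℕ) : ∑ u ∈ univ.filter (fun u : Tor d M => D < tdist u 0),
      ‖c.G0 u 0‖ ^ 4 * (1 + (c.σ ^ 2 * tdist u 0) ^ 2) ≤
      3 * c.C ^ 2 * (c.C / c.σ ^ 2) ^ 4 *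
        (Real.exp (-(c.σ ^ 2 / c.C) * D / 2) * (6 * d / (c.σ ^ 2 / c.C)) ^ d) := by
  have hθ0 : 0 < c.σ ^ 2 / c.C := by positivity
  have hθ1 : c.σ ^ 2 / c.C ≤ 1 := by
    rw [div_le_one (by positivity)]
    nlinarith
  refine le_trans ?_ (mul_le_mul_of_nonneg_left (sum_exp_tail_le hθ0 hθ1 (0 : Tor d M) D) (by positivity))
  rw [mul_sum]
  refine sum_le_sum fun u _ => ?_
  set θ := c.σ ^ 2 / c.C with hθ
  set t : ℝ := ((tdist u 0 : ℕ) : ℝ) with ht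
  have ht0 : 0 ≤ t := by positivity
  have hG : ‖c.G0 u 0‖ ≤ c.C / c.σ ^ 2 * Real.exp (-θ * t) := h.decay u 0
  have e1 : c.σ ^ 2 * t = c.C * (θ * t) := by
    rw [hθ]; field_simp
  have h2 : (θ * t) ^ 2 / 2 ≤ Real.exp (θ * t) := by
    have := Real.quadratic_le_exp_of_nonneg (x := θ * t) (by positivity)
    have : 0 ≤ θ * t := by positivity
    linarith
  have h3 : 1 ≤ Real.exp (θ * t) := Real.one_le_exp (by positivity)
  have hC2 : 1 ≤ c.C ^ 2 := one_le_pow₀ hC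
  have h4 : 1 + (c.σ ^ 2 * t) ^ 2 ≤ 3 * c.C ^ 2 * Real.exp (θ * t) := by
    rw [e1, mul_pow]
    nlinarith
  have h5 : Real.exp (-θ * t) * Real.exp (θ * t) = 1 := by
    rw [← Real.exp_add]; simp
  have h6 : Real.exp (-θ * t) ≤ 1 := Real.exp_le_one_iff.2 (by nlinarith [mul_nonneg hθ0.le ht0])
  have h7 := Real.exp_pos (-θ * t)
  calc ‖c.G0 u 0‖ ^ 4 * (1 + (c.σ ^ 2 * t) ^ 2)
      ≤ (c.C / c.σ ^ 2 * Real.exp (-θ * t)) ^ 4 * (3 * c.C ^ 2 * Real.exp (θ * t)) := by gcongr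
    _ = 3 * c.C ^ 2 * (c.C / c.σ ^ 2) ^ 4 * Real.exp (-θ * t) *
        (Real.exp (-θ * t) ^ 2 * (Real.exp (-θ * t) * Real.exp (θ * t))) := by ring
    _ ≤ 3 * c.C ^ 2 * (c.C / c.σ ^ 2) ^ 4 * Real.exp (-θ * t) * 1 := by
        gcongr
        rw [h5, mul_one]
        exact pow_le_one₀ h7.le h6
    _ = _ := mul_one _

/-- `four` field when the separation is large -/
lemma four_far (h : Init d M c.C c.σ c.E c.w0) (hC : 1 ≤ c.C) (h0 : 0 < c.σ) (h1 : c.σ ≤ 1)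
    {D Rt : ℕ} (hD : D < Rt) :
    c.γ * ∑ u ∈ univ.filter (fun u : Tor d M => u ≠ 0 ∧ Rt ≤ tdist u 0),
      ‖c.G0 u 0‖ ^ 4 * (1 + (c.σ ^ 2 * tdist u 0) ^ 2) ≤
      c.C * c.σ ^ 2 * (3 * c.C ^ 2 * (c.C / c.σ ^ 2) ^ 4 *
        (Real.exp (-(c.σ ^ 2 / c.C) * D / 2) * (6 * d / (c.σ ^ 2 / c.C)) ^ d)) := by
  refine mul_le_mul (γ_le h) (le_trans ?_ (four_tail h hC h0 h1 D))
    (sum_nonneg fun _ _ => by positivity) (by positivity)
  refine sum_le_sum_of_subset_of_nonneg (fun u hu => ?_) fun _ _ _ => by positivity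
  simp only [mem_filter, mem_univ, true_and] at hu ⊢
  omega

/-- `four` field in general -/
lemma four_all (h : Init d M c.C c.σ c.E c.w0) (hC : 1 ≤ c.C) (h0 : 0 < c.σ) (h1 : c.σ ≤ 1)
    (D Rt : ℕ) :
    c.γ * ∑ u ∈ univ.filter (fun u : Tor d M => u ≠ 0 ∧ Rt ≤ tdist u 0),
      ‖c.G0 u 0‖ ^ 4 * (1 + (c.σ ^ 2 * tdist u 0) ^ 2) ≤
      c.C * c.σ ^ 2 * ((1 + (c.σ ^ 2 * D) ^ 2) * (c.C / c.σ) +
        3 * c.C ^ 2 * (c.C / c.σ ^ 2) ^ 4 *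
        (Real.exp (-(c.σ ^ 2 / c.C) * D / 2) * (6 * d / (c.σ ^ 2 / c.C)) ^ d)) := by
  refine mul_le_mul (γ_le h) ?_ (sum_nonneg fun _ _ => by positivity) (by positivity)
  refine le_trans (sum_le_sum_of_subset_of_nonneg (subset_univ _) fun _ _ _ => by positivity) ?_
  rw [← sum_filter_add_sum_filter_not univ (fun u : Tor d M => D < tdist u 0), add_comm]
  refine add_le_add ?_ (four_tail h hC h0 h1 D)
  calc _ ≤ ∑ u ∈ univ.filter (fun u : Tor d M => ¬ D < tdist u 0),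
        (1 + (c.σ ^ 2 * D) ^ 2) * ‖c.G0 u 0‖ ^ 4 := by
        refine sum_le_sum fun u hu => ?_
        simp only [mem_filter, mem_univ, true_and, not_lt] at hu
        rw [mul_comm]
        gcongr
    _ ≤ ∑ u : Tor d M, (1 + (c.σ ^ 2 * D) ^ 2) * ‖c.G0 u 0‖ ^ 4 :=
        sum_le_sum_of_subset_of_nonneg (subset_univ _) fun _ _ _ => by positivity
    _ ≤ _ := by
        rw [← mul_sum]
        gcongr
        exact h.four

end Crest.Agent.N334.AC.P.ParA
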