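import Crest.Agent.N334.AC.P.Par0
import Crest.Agent.N334.AC.P.ParA

/-! # S0520 part P: ledger of a stage, free-lattice input (leaf: fill the sorries, keep the statements)
`cap`: `M6.cap_one` with `e0 ≤ e'` (`Cap.mono`), or `M6.cap_two` (`σ^40 R F⁴ = C⁴`, `Cσ² ≤ e0`, `R ≤ M`). `four`: `z⁴ = P⁸ x0²`;
`k = 0`: split at `D0 = ⌈C y0²/σ²⌉`, `Init.four` near, `Init.decay` + `sum_exp_tail_le` far; `k ≥ 1`: only the tail, `D0 = 2^J - 1`. -/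

set_option autoImplicit false

open Finset

namespace Crest.Agent.N334.AC.P.Pa2

variable {d M : ℕ} [NeZero M] {c : Cx d M} (s : Ms d) {K : ℕ} (k : ℕ)

lemma y1 : (1000000 : ℝ) ≤ s.y k := le_trans (by norm_num) (s.yR k)

lemma one_le_pw {a : ℝ} (h : 0 ≤ a) : 1 ≤ pw a := pw_zero ▸ pw_le h

lemma σ1 : s.σ ≤ 1 := by
  have h := y1 s 0
  rw [s.y_zero] at h
  exact s.σ_le.trans ((pw_le (by linarith)).trans_eq pw_zero)

lemma Cp {i : ℕ} (hi : i ≤ 20) : 100 * s.C ^ i ≤ s.y k := by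
  have h1 := s.hC
  exact le_trans (mul_le_mul (by norm_num) (pow_le_pow_right₀ h1 hi) (by positivity)
    (by positivity)) (s.C_le k)

lemma inv_σ : 1 / s.σ ≤ pw (s.y k) := s.inv_σ_le.trans (pw_le (by exact_mod_cast s.y0_le k))

lemma P1 : (1 : ℝ) ≤ s.P k := by
  rw [Ms.P, Nat.cast_pow]
  exact one_le_pow₀ (by linarith [y1 s k])

lemma e0_le : s.e0 ≤ 1 := by
  have h := one_le_pow₀ (n := 3) (P1 s 0)
  rw [Ms.e0, div_le_one (by positivity)]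
  linarith

lemma Cσ : s.C * s.σ ^ 2 ≤ s.e0 := by
  have hy := y1 s 0
  have h0 := s.σ0
  have h1 : s.σ ≤ pw (1 - s.y 0) := by rw [s.y_zero]; exact s.σ_le
  have h2 : 4 * s.C ≤ s.y 0 := by
    have := Cp s 0 (by norm_num : 1 ≤ 20)
    have := s.hC
    nlinarith
  have h3 := P1 s 0
  rw [Ms.e0, le_div_iff₀ (by positivity), Ms.P, Nat.cast_pow]
  calc s.C * s.σ ^ 2 * (4 * ((s.y 0 : ℝ) ^ 14) ^ 3) = 4 * s.C * (s.y 0 : ℝ) ^ 42 * s.σ ^ 2 := by ring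
    _ ≤ s.y 0 * (s.y 0 : ℝ) ^ 42 * pw (1 - s.y 0) ^ 2 := by gcongr
    _ = (s.y 0 : ℝ) ^ 43 * pw (1 - s.y 0) ^ 2 := by ring
    _ ≤ pw (s.y 0 / 1000) * pw (1 - s.y 0) ^ 2 :=
        mul_le_mul_of_nonneg_right (s.poly 0 (by norm_num)) (by positivity)
    _ ≤ pw 0 := by
        rw [pw_pow, ← pw_add]
        refine pw_le ?_
        push_cast
        linarith
    _ = 1 := pw_zero

lemma capF {s : Ms d} (h : On c s K) {i : ℕ} (hi : i ≤ s.J (K + 1)) {a : ℝ} (ha : 1 + s.e0 ≤ a) :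
    c.CapR (2 ^ i) a (s.F i) := by
  have h0 := s.σ0
  have hC := s.hC
  rw [Ms.F]
  split_ifs with h1
  · exact ParA.capR1 h.init s.e0_pos (e0_le s) ha (by rw [h.C, h.σ]) _
  · have h2 := pw_pos (-(i : ℝ) / 4)
    refine ParA.capR2 h.init ?_ (by positivity) ?_ ?_
    · rw [h.hM]
      have := Nat.pow_le_pow_right (by norm_num : 0 < 2) hi
      omega
    · have h3 : ((2 ^ i : ℕ) : ℝ) * pw (-(i : ℝ) / 4) ^ 4 = 1 := by
        rw [pw_pow, Nat.cast_pow, Nat.cast_ofNat, ← pw_nat, ← pw_add, ← pw_zero]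
        congr 1
        push_cast
        ring
      rw [h.C, h.σ]
      calc s.C ≤ s.C ^ 4 * (((2 ^ i : ℕ) : ℝ) * pw (-(i : ℝ) / 4) ^ 4) := by
            rw [h3, mul_one]
            exact le_self_pow₀ hC (by norm_num)
        _ = _ := by field_simp
    · rw [h.C, h.σ]
      linarith [Cσ s]

/-- cut-off distance -/
noncomputable def D0 : ℕ := ⌈(s.y k : ℝ) ^ 2 / (s.σ ^ 2 / s.C)⌉₊

lemma σD0 : s.σ ^ 2 * D0 s k ≤ 2 * s.C * (s.y k : ℝ) ^ 2 := by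
  have h0 := s.σ0
  have hC := s.hC
  have hy := y1 s k
  have h1 : (D0 s k : ℝ) ≤ (s.y k : ℝ) ^ 2 / (s.σ ^ 2 / s.C) + 1 :=
    (Nat.ceil_lt_add_one (by positivity)).le
  have h2 : s.σ ^ 2 ≤ 1 := pow_le_one₀ h0.le (σ1 s)
  have h3 : 1 ≤ s.C * (s.y k : ℝ) ^ 2 := one_le_mul_of_one_le_of_one_le hC (by nlinarith)
  calc s.σ ^ 2 * D0 s k ≤ s.σ ^ 2 * ((s.y k : ℝ) ^ 2 / (s.σ ^ 2 / s.C) + 1) := by gcongr
    _ = s.C * (s.y k : ℝ) ^ 2 + s.σ ^ 2 := by field_simp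
    _ ≤ _ := by linarith

lemma D0_lt : D0 s k < 2 ^ s.y k ^ 2 := by
  have h0 := s.σ0
  have hC := s.hC
  have hy := y1 s k
  have h1 : 2 * s.C ≤ s.y k := by
    have := Cp s k (by norm_num : 1 ≤ 20)
    nlinarith
  have h2 : (D0 s k : ℝ) ≤ pw ((s.y k : ℝ) ^ 2 - 1) :=
    calc (D0 s k : ℝ) = s.σ ^ 2 * D0 s k * (1 / s.σ) ^ 2 := by field_simp
      _ ≤ 2 * s.C * (s.y k : ℝ) ^ 2 * pw (s.y k) ^ 2 :=
          mul_le_mul (σD0 s k) (pow_le_pow_left₀ (by positivity) (inv_σ s k) 2) (by positivity)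
            (by positivity)
      _ ≤ s.y k * (s.y k : ℝ) ^ 2 * pw (s.y k) ^ 2 := by gcongr
      _ = (s.y k : ℝ) ^ 3 * pw (s.y k) ^ 2 := by ring
      _ ≤ pw (s.y k / 1000) * pw (s.y k) ^ 2 :=
          mul_le_mul_of_nonneg_right (s.poly k (by norm_num)) (by positivity)
      _ ≤ _ := by
          rw [pw_pow, ← pw_add]
          refine pw_le ?_
          push_cast
          nlinarith
  have h3 : pw ((s.y k : ℝ) ^ 2 - 1) * 2 = ((2 ^ s.y k ^ 2 : ℕ) : ℝ) := by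
    have h4 : pw 1 = 2 := by simpa using pw_nat 1
    rw [← h4, ← pw_add, Nat.cast_pow, Nat.cast_ofNat, ← pw_nat]
    congr 1
    push_cast
    ring
  have h4 := pw_pos ((s.y k : ℝ) ^ 2 - 1)
  have h5 : (D0 s k : ℝ) < ((2 ^ s.y k ^ 2 : ℕ) : ℝ) := by linarith
  exact_mod_cast h5

lemma tail : s.C * s.σ ^ 2 * (3 * s.C ^ 2 * (s.C / s.σ ^ 2) ^ 4 *
    (Real.exp (-(s.σ ^ 2 / s.C) * D0 s k / 2) * (6 * d / (s.σ ^ 2 / s.C)) ^ d)) ≤
    pw (-(s.y k : ℝ) ^ 2 / 4) := by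
  have h0 := s.σ0
  have hC := s.hC
  have hy := y1 s k
  have hd : (3 : ℝ) ≤ d := by exact_mod_cast s.hd
  have hd' : 10 ^ 6 * (d : ℝ) ≤ s.y k := by exact_mod_cast s.d_le k
  have h1 : (s.y k : ℝ) ^ 2 ≤ s.σ ^ 2 / s.C * D0 s k := by
    rw [← div_le_iff₀' (by positivity)]
    exact Nat.le_ceil _
  have h2 : Real.exp (-(s.σ ^ 2 / s.C) * D0 s k / 2) ≤ pw (-(s.y k : ℝ) ^ 2 / 2) :=
    (Real.exp_le_exp.2 (by linarith)).trans (exp_le_pw (by nlinarith))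
  have h3 : (6 * d * s.C) ^ d ≤ (s.y k : ℝ) := by
    refine le_trans ?_ (s.κ_le k)
    have h4 : 1 ≤ d * s.C := one_le_mul_of_one_le_of_one_le (by linarith) hC
    exact (pow_le_pow_left₀ (by positivity) (by linarith) d).trans
      (pow_le_pow_right₀ (by linarith) (by omega))
  have h4 : 3 * s.C ^ 7 ≤ s.y k := by
    have := Cp s k (by norm_num : 7 ≤ 20)
    have : 0 ≤ s.C ^ 7 := by positivity
    linarith
  have h5 : s.σ ^ 2 ≤ 1 := pow_le_one₀ h0.le (σ1 s)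
  have h6 := inv_σ s k
  have h7 := pw_pos (-(s.y k : ℝ) ^ 2 / 2)
  have h8 := pw_pos (s.y k)
  have e1 : 6 * d / (s.σ ^ 2 / s.C) = 6 * d * s.C * (1 / s.σ) ^ 2 := by field_simp
  have e2 : s.C / s.σ ^ 2 = s.C * (1 / s.σ) ^ 2 := by field_simp
  rw [e1, e2, mul_pow (6 * d * s.C), ← pow_mul]
  calc _ = s.σ ^ 2 * (3 * s.C ^ 7) * (6 * d * s.C) ^ d * ((1 / s.σ) ^ 8 * (1 / s.σ) ^ (2 * d) *
        Real.exp (-(s.σ ^ 2 / s.C) * D0 s k / 2)) := by ring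
    _ ≤ 1 * s.y k * s.y k * (pw (s.y k) ^ 8 * pw (s.y k) ^ (2 * d) *
        pw (-(s.y k : ℝ) ^ 2 / 2)) := by gcongr
    _ = (s.y k : ℝ) ^ 2 * (pw (s.y k) ^ 8 * pw (s.y k) ^ (2 * d) *
        pw (-(s.y k : ℝ) ^ 2 / 2)) := by ring
    _ ≤ pw (s.y k / 1000) * (pw (s.y k) ^ 8 * pw (s.y k) ^ (2 * d) *
        pw (-(s.y k : ℝ) ^ 2 / 2)) :=
        mul_le_mul_of_nonneg_right (s.poly k (by norm_num)) (by positivity)
    _ ≤ _ := by
        rw [pw_pow, pw_pow, ← pw_add, ← pw_add, ← pw_add]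
        refine pw_le ?_
        push_cast
        nlinarith

lemma z4 : s.z k ^ 4 = (s.P k : ℝ) ^ 8 * pw (-(2 * s.ξ k 0)) := by
  have h1 : Real.sqrt (s.x k 0) ^ 4 = s.x k 0 ^ 2 := by
    rw [show 4 = 2 * 2 from rfl, pow_mul, Real.sq_sqrt (s.x_pos k 0).le]
  rw [Ms.z, mul_pow, h1, ← pow_mul, Ms.x, pw_pow]
  congr 2
  push_cast
  ring

lemma near : s.C * s.σ ^ 2 * ((1 + (s.σ ^ 2 * D0 s 0) ^ 2) * (s.C / s.σ)) ≤
    pw (-(s.y 0 : ℝ) / 2) := by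
  have h0 := s.σ0
  have hC := s.hC
  have hy := y1 s 0
  have h1 : s.σ ≤ pw (1 - s.y 0) := by rw [s.y_zero]; exact s.σ_le
  have h2 := σD0 s 0
  have h3 : 1 ≤ s.C * (s.y 0 : ℝ) ^ 2 := one_le_mul_of_one_le_of_one_le hC (by nlinarith)
  have h4 : 1 + (s.σ ^ 2 * D0 s 0) ^ 2 ≤ 5 * (s.C * (s.y 0 : ℝ) ^ 2) ^ 2 := by
    have := pow_le_pow_left₀ (by positivity) h2 2
    nlinarith
  have h5 : 5 * s.C ^ 4 ≤ s.y 0 := by
    have := Cp s 0 (by norm_num : 4 ≤ 20)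
    have : 0 ≤ s.C ^ 4 := by positivity
    linarith
  have h6 := pw_pos (1 - (s.y 0 : ℝ))
  calc _ ≤ s.C * s.σ ^ 2 * (5 * (s.C * (s.y 0 : ℝ) ^ 2) ^ 2 * (s.C / s.σ)) := by gcongr
    _ = 5 * s.C ^ 4 * (s.y 0 : ℝ) ^ 4 * s.σ := by field_simp
    _ ≤ s.y 0 * (s.y 0 : ℝ) ^ 4 * pw (1 - s.y 0) := by gcongr
    _ = (s.y 0 : ℝ) ^ 5 * pw (1 - s.y 0) := by ring
    _ ≤ pw (s.y 0 / 1000) * pw (1 - s.y 0) :=
        mul_le_mul_of_nonneg_right (s.poly 0 (by norm_num)) h6.le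
    _ ≤ _ := by
        rw [← pw_add]
        exact pw_le (by linarith)

end Crest.Agent.N334.AC.P.Pa2

namespace Crest.Agent.N334.AC.P.On

variable {d M : ℕ} [NeZero M] {c : Cx d M} {s : Ms d} {K k j : ℕ}

lemma l_cap (h : On c s K) (hk : k ≤ K) (hj : j ≤ s.n k) :
    c.CapR (s.sg k j).R (1 + (s.sg k j).e') (s.sg k j).F := by
  refine Pa2.capF h ?_ ?_
  · have h1 := s.J_add_n k
    have h2 := s.J_mono (Nat.succ_le_succ hk)
    simp only [Nat.succ_eq_add_one] at h2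
    omega
  · have h1 := s.e0_le_E k
    have h2 : 0 ≤ ((j + 1 : ℕ) : ℝ) * ((s.P k : ℝ) ^ 3 * s.z k) := by
      rw [Ms.z]
      positivity
    change 1 + s.e0 ≤ 1 + (s.E k + _)
    linarith
lemma l_capT (h : On c s K) (hk : k ≤ K) (hj : j ≤ s.n k) :
    c.CapR (s.ep c.γ K k).Rt 2 (s.ep c.γ K k).Ft :=
  Pa2.capF h (s.J_mono (hk.trans (Nat.le_succ K))) (by linarith [Pa2.e0_le s])
lemma l_four (h : On c s K) (hk : k ≤ K) (hj : j ≤ s.n k) :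
    c.γ * ∑ u ∈ univ.filter (fun u : Tor d M => u ≠ 0 ∧ (s.ep c.γ K k).Rt ≤ tdist u 0),
    ‖c.G0 u 0‖ ^ 4 * (1 + (c.σ ^ 2 * tdist u 0) ^ 2) ≤ (s.sg k j).z ^ 4 := by
  have hC : 1 ≤ c.C := h.C ▸ s.hC
  have h0 : 0 < c.σ := h.σ ▸ s.σ0
  have h1 : c.σ ≤ 1 := h.σ ▸ Pa2.σ1 s
  have hy := Pa2.y1 s k
  have hP := Pa2.P1 s k
  change _ ≤ s.z k ^ 4
  rw [Pa2.z4]
  rcases Nat.eq_zero_or_pos k with rfl | hk0
  · refine (ParA.four_all h.init hC h0 h1 (Pa2.D0 s 0) _).trans ?_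
    rw [mul_add, h.C, h.σ]
    refine (add_le_add (Pa2.near s) (Pa2.tail s 0)).trans ?_
    have h2 : s.ξ 0 0 = (s.y 0 : ℝ) / 5 := by simp [Ms.ξ, s.y_zero]
    have h3 : pw (-(s.y 0 : ℝ) / 2) ≤ pw (-(2 * s.ξ 0 0)) := pw_le (by rw [h2]; linarith)
    have h4 : pw (-(s.y 0 : ℝ) ^ 2 / 4) ≤ pw (-(2 * s.ξ 0 0)) := pw_le (by rw [h2]; nlinarith)
    have h5 : (2 : ℝ) ≤ (s.P 0 : ℝ) ^ 8 := by
      refine le_trans ?_ (le_self_pow₀ hP (by norm_num))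
      rw [Ms.P, Nat.cast_pow]
      exact le_trans (by linarith) (le_self_pow₀ (by linarith) (by norm_num))
    have h6 := mul_le_mul_of_nonneg_right h5 (pw_pos (-(2 * s.ξ 0 0))).le
    linarith
  · have h2 : Pa2.D0 s k < (s.ep c.γ K k).Rt := by
      change _ < 2 ^ s.J k
      rw [s.J_eq k hk0]
      exact Pa2.D0_lt s k
    refine (ParA.four_far h.init hC h0 h1 h2).trans ?_
    rw [h.C, h.σ]
    refine (Pa2.tail s k).trans (le_trans (pw_le ?_)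
      (le_mul_of_one_le_left (pw_pos _).le (one_le_pow₀ hP)))
    rw [Ms.ξ, if_neg hk0.ne', s.J_eq k hk0]
    push_cast
    nlinarith

end Crest.Agent.N334.AC.P.On
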