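import Crest.Agent.N334.AC.P.Par0

/-! # S0520 part P: ledger of a stage, large parameters (leaf: fill the sorries, keep the statements)
`D' = s.D k (j+1) ≤ pw y⁵`, `inv_θ0_le`, `polyd`, `dypow`. -/

set_option autoImplicit false
set_option linter.unusedVariables false

open Finset

namespace Crest.Agent.N334.AC.P.Pa3

variable {d : ℕ} (s : Ms d) (k j : ℕ)

lemma one_le_pw {a : ℝ} (h : 0 ≤ a) : 1 ≤ pw a := pw_zero ▸ pw_le h
lemma pw_le_one {a : ℝ} (h : a ≤ 0) : pw a ≤ 1 := pw_zero ▸ pw_le h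
lemma Y1 : (1 : ℝ) ≤ s.y k := le_trans (by norm_num) (s.yR k)
lemma Y100 : (100 : ℝ) ≤ s.y k := le_trans (by norm_num) (s.yR k)
lemma Ymono {a b : ℕ} (h : a ≤ b) : (s.y k : ℝ) ^ a ≤ (s.y k : ℝ) ^ b :=
  pow_le_pow_right₀ (Y1 s k) h
lemma Yle {b : ℕ} (h : 1 ≤ b) : (s.y k : ℝ) ≤ (s.y k : ℝ) ^ b := by
  simpa using Ymono s k h
lemma ϑ_eq : s.ϑ k = pw (-(3 * (s.y k : ℝ) ^ 5)) := by
  rw [pw_neg, Ms.ϑ, ← pw_nat, one_div]; push_cast; rfl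
lemma Bg_eq : s.Bg k = pw ((s.y k : ℝ) ^ 15) := by
  rw [Ms.Bg, ← pw_nat]; push_cast; rfl
lemma ρ_eq : (s.ρ k : ℝ) = pw ((s.y k : ℝ) ^ 6) := by
  rw [Ms.ρ, Nat.cast_pow, Nat.cast_ofNat, ← pw_nat]; push_cast; rfl
lemma P_eq : (s.P k : ℝ) = (s.y k : ℝ) ^ 14 := by rw [Ms.P]; push_cast; rfl
lemma C_le_Y : s.C ≤ s.y k := by
  have h1 := s.C_le k
  have h2 : s.C ≤ s.C ^ 20 := le_self_pow₀ s.hC (by norm_num)
  have h3 : 0 ≤ s.C ^ 20 := le_trans (by linarith [s.hC]) h2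
  linarith
lemma inv_σ2 : 1 / s.σ ^ 2 ≤ pw (2 * s.y k) := by
  have h1 : 1 / s.σ ≤ pw (s.y k) := s.inv_σ_le.trans (pw_le (by exact_mod_cast s.y0_le k))
  have h2 := s.σ0
  calc 1 / s.σ ^ 2 = (1 / s.σ) ^ 2 := by rw [one_div_pow]
    _ ≤ pw (s.y k) ^ 2 := by gcongr
    _ = _ := by rw [pw_pow]; norm_num
/-- `100 C / σ² ≤ 2^{3y}` -/
lemma Cσ : 100 * (s.C / s.σ ^ 2) ≤ pw (3 * s.y k) := by
  have h1 := inv_σ2 s k
  have h2 := s.poly k (a := 2) (by norm_num)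
  have h3 := C_le_Y s k
  have h4 := Y100 s k
  have h5 := s.hC
  have h6 := s.σ0
  have h7 : 100 * s.C ≤ pw (s.y k) :=
    le_trans (by nlinarith) (h2.trans (pw_le (by linarith)))
  calc 100 * (s.C / s.σ ^ 2) = 100 * s.C * (1 / s.σ ^ 2) := by ring
    _ ≤ pw (s.y k) * pw (2 * s.y k) := mul_le_mul h7 h1 (by positivity) (pw_pos _).le
    _ = _ := by rw [← pw_add]; congr 1; ring
lemma Cσ' : s.C / s.σ ^ 2 ≤ pw (3 * s.y k) := by
  have h1 := Cσ s k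
  have h5 := s.hC
  have h6 := s.σ0
  have : 0 ≤ s.C / s.σ ^ 2 := by positivity
  linarith
lemma D'_eq (γ : ℝ) (K : ℕ) : D' (s.ep γ K k) (s.sg k j) = s.D k (j + 1) := by
  simp only [D', Ms.ep, Ms.sg, Ms.D]; ring
lemma D_nonneg : 0 ≤ s.D k j := by
  have h5 := s.hC
  have h6 := s.σ0
  unfold Ms.D; positivity
lemma PD (hj : j ≤ s.n k) :
    1 + (s.P k : ℝ) ^ 4 * s.D k (j + 1) ≤ pw (1 + s.y k + (s.y k : ℝ) ^ 5) := by
  have h1 := s.D_le k (j + 1) (by omega)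
  have h0 := Y1 s k
  have h2 : (s.P k : ℝ) ^ 4 ≤ pw (s.y k) := by
    rw [P_eq, ← pow_mul]
    exact (s.poly k (by norm_num)).trans (pw_le (by linarith))
  have h3 : (s.P k : ℝ) ^ 4 * s.D k (j + 1) ≤ pw (s.y k + (s.y k : ℝ) ^ 5) := by
    rw [pw_add]; exact mul_le_mul h2 h1 (D_nonneg s k _) (pw_pos _).le
  have h4 : 1 ≤ pw (s.y k + (s.y k : ℝ) ^ 5) := one_le_pw (by positivity)
  have h5 : pw 1 = 2 := by simpa using pw_nat 1
  rw [add_assoc, pw_add, h5]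
  linarith
/-- `ϑ ρ` beats every polynomial -/
lemma ϑρ {a : ℕ} (ha : a ≤ 1000) : (s.y k : ℝ) ^ a ≤ s.ϑ k * s.ρ k := by
  rw [ϑ_eq, ρ_eq, ← pw_add]
  refine (s.poly k ha).trans (pw_le ?_)
  have h1 := s.ypow k (a := 5) (b := 6) (by norm_num)
  have h2 := Yle s k (b := 5) (by norm_num)
  have h0 := Y1 s k
  linarith

end Crest.Agent.N334.AC.P.Pa3

namespace Crest.Agent.N334.AC.P.On

open Pa3

variable {d M : ℕ} [NeZero M] {c : Cx d M} {s : Ms d} {K k j : ℕ}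

lemma l_A00 (h : On c s K) (hk : k ≤ K) (hj : j ≤ s.n k) :
    0 ≤ (s.ep c.γ K k).A0 := by
  have h5 := s.hC
  have h6 := s.σ0
  show 0 ≤ 6 * s.C / s.σ ^ 2
  positivity
lemma l_ϑ0 (h : On c s K) (hk : k ≤ K) (hj : j ≤ s.n k) :
    0 < (s.ep c.γ K k).ϑ := by
  show 0 < s.ϑ k
  rw [ϑ_eq]; exact pw_pos _
lemma l_ϑ1 (h : On c s K) (hk : k ≤ K) (hj : j ≤ s.n k) :
    4 * (s.ep c.γ K k).ϑ ≤ (s.ep c.γ K k).θ0 := by
  show 4 * s.ϑ k ≤ s.θ0 k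
  have h1 := s.inv_θ0_le k
  have h2 := s.θ0_pos k
  rw [one_div, inv_le_comm₀ h2 (pw_pos _), ← pw_neg] at h1
  have h3 : pw 2 = 4 := by have := pw_nat 2; norm_num at this; exact this
  rw [ϑ_eq, ← h3, ← pw_add]
  refine (pw_le ?_).trans h1
  have h4 := s.ypow k (a := 3) (b := 5) (by norm_num)
  have h5 := Yle s k (b := 3) (by norm_num)
  have h0 := Y1 s k
  linarith
lemma l_θ1 (h : On c s K) (hk : k ≤ K) (hj : j ≤ s.n k) :
    (s.ep c.γ K k).θ0 ≤ 1 := by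
  show s.θ0 k ≤ 1
  cases k with
  | zero =>
    have h1 : s.σ ≤ 1 := s.σ_le.trans (pw_le_one (by
      have := Y1 s 0; rw [s.y_zero] at this; linarith))
    have h2 := s.σ0
    have h3 := s.hC
    rw [Ms.θ0, div_le_one (by linarith)]
    nlinarith
  | succ k =>
    have h0 := Y1 s k
    have h1 : (1 : ℝ) ≤ s.m k := by rw [Ms.m]; push_cast; exact one_le_pow₀ h0
    have h2 : (1 : ℝ) ≤ s.R k := by
      rw [Ms.R, Nat.cast_pow, ρ_eq]; exact one_le_pow₀ (one_le_pw (by positivity))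
    have h3 : 1 / 2 ≤ Real.log (s.Bg k) := by
      rw [Ms.Bg, Real.log_pow]
      have h4 : (1 : ℝ) ≤ ((s.y k ^ 15 : ℕ) : ℝ) := by push_cast; exact one_le_pow₀ h0
      have := Real.log_two_gt_d9
      nlinarith
    have h4 : 100 * 1 * 1 * (1 / 2) ≤ 100 * (s.m k : ℝ) * s.R k * Real.log (s.Bg k) := by gcongr
    rw [Ms.θ0, div_le_one (by linarith)]
    linarith
lemma l_ϑG (h : On c s K) (hk : k ≤ K) (hj : j ≤ s.n k) :
    (s.ep c.γ K k).ϑ ≤ c.σ ^ 2 / c.C := by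
  show s.ϑ k ≤ c.σ ^ 2 / c.C
  rw [h.C, h.σ, ϑ_eq]
  have h5 := s.hC
  have h6 := s.σ0
  have h1 := Cσ' s k
  have h2 := Yle s k (b := 5) (by norm_num)
  rw [← inv_div, pw_neg]
  exact inv_anti₀ (by positivity) (h1.trans (pw_le (by linarith)))
lemma l_ct (h : On c s K) (hk : k ≤ K) (hj : j ≤ s.n k) :
    8 * (s.ep c.γ K k).A0 * ((s.ep c.γ K k).ϑ / (s.ep c.γ K k).θ0) * (12 * d / (s.ep c.γ K k).θ0) ^ d * (1 + ((s.ep c.γ K k).P : ℝ) ^ 4 * D' (s.ep c.γ K k) (s.sg k j)) ≤ 1 := by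
  rw [D'_eq]
  show 8 * (6 * s.C / s.σ ^ 2) * (s.ϑ k / s.θ0 k) * (12 * d / s.θ0 k) ^ d *
    (1 + (s.P k : ℝ) ^ 4 * s.D k (j + 1)) ≤ 1
  have h5 := s.hC
  have h6 := s.σ0
  have h0 := Y1 s k
  have hθ := s.θ0_pos k
  have hi := s.inv_θ0_le k
  have hD := D_nonneg s k (j + 1)
  have hϑ : 0 < s.ϑ k := by rw [ϑ_eq]; exact pw_pos _
  have a1 : 8 * (6 * s.C / s.σ ^ 2) ≤ pw (3 * s.y k) := by
    have h1 := Cσ s k
    have : 0 ≤ s.C / s.σ ^ 2 := by positivity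
    rw [mul_div_assoc]; linarith
  have a2 : s.ϑ k / s.θ0 k ≤ pw (-(3 * (s.y k : ℝ) ^ 5) + 3 * (s.y k : ℝ) ^ 3) := by
    rw [pw_add, ← ϑ_eq, div_eq_mul_one_div]; gcongr
  have a3 : (12 * d / s.θ0 k) ^ d ≤ pw (s.y k / 1000 + d * (3 * (s.y k : ℝ) ^ 3)) := by
    have b1 : (12 * d : ℝ) ≤ (s.y k : ℝ) ^ 1 := by
      have b2 : ((10 ^ 6 * d : ℕ) : ℝ) ≤ s.y k := by exact_mod_cast s.d_le k
      push_cast at b2
      have : (0 : ℝ) ≤ d := by positivity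
      linarith
    rw [pw_add, ← pw_pow, div_eq_mul_one_div, mul_pow]
    refine mul_le_mul (le_trans ?_ (s.polyd k (a := 1) (by norm_num))) ?_ (by positivity)
      (pw_pos _).le <;> gcongr
  have a4 := PD s k j hj
  have p1 := pw_pos (3 * s.y k)
  have p2 := pw_pos (-(3 * (s.y k : ℝ) ^ 5) + 3 * (s.y k : ℝ) ^ 3)
  have p3 := pw_pos (s.y k / 1000 + d * (3 * (s.y k : ℝ) ^ 3))
  calc _ ≤ pw (3 * s.y k) * pw (-(3 * (s.y k : ℝ) ^ 5) + 3 * (s.y k : ℝ) ^ 3) *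
        pw (s.y k / 1000 + d * (3 * (s.y k : ℝ) ^ 3)) * pw (1 + s.y k + (s.y k : ℝ) ^ 5) := by
        gcongr
    _ ≤ 1 := by
      rw [← pw_add, ← pw_add, ← pw_add]
      refine pw_le_one ?_
      have b1 := s.dypow k (a := 3) (b := 5) (by norm_num)
      have b2 := s.ypow k (a := 3) (b := 5) (by norm_num)
      have b3 := Yle s k (b := 3) (by norm_num)
      linarith
lemma l_B_K (h : On c s K) (hk : k ≤ K) (hj : j ≤ s.n k) :
    8 * (1 + ((s.ep c.γ K k).P : ℝ) ^ 4 * D' (s.ep c.γ K k) (s.sg k j)) / c.γ ≤ (s.ep c.γ K k).Bg := by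
  rw [D'_eq]
  show 8 * (1 + (s.P k : ℝ) ^ 4 * s.D k (j + 1)) / c.γ ≤ s.Bg k
  have h5 := s.hC
  have h6 := s.σ0
  have h0 := Y1 s k
  have hγ := h.ok.γ0
  have hl := h.ok.γ_lo
  rw [h.C, h.σ] at hl
  have a1 : 8 / c.γ ≤ pw (3 * s.y k) := by
    have h1 := Cσ s k
    have h2 : 1 / c.γ ≤ s.C / s.σ ^ 2 := by
      rw [div_le_div_iff₀ hγ (by positivity)]; linarith
    have : 0 ≤ s.C / s.σ ^ 2 := by positivity
    rw [div_eq_mul_one_div]; linarith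
  have a4 := PD s k j hj
  have hD := D_nonneg s k (j + 1)
  calc _ = 8 / c.γ * (1 + (s.P k : ℝ) ^ 4 * s.D k (j + 1)) := by ring
    _ ≤ pw (3 * s.y k) * pw (1 + s.y k + (s.y k : ℝ) ^ 5) :=
      mul_le_mul a1 a4 (by positivity) (pw_pos _).le
    _ ≤ _ := by
      rw [← pw_add, Bg_eq]
      refine pw_le ?_
      have b2 := s.ypow k (a := 5) (b := 15) (by norm_num)
      have b3 := Yle s k (b := 5) (by norm_num)
      linarith
lemma l_B_x (h : On c s K) (hk : k ≤ K) (hj : j ≤ s.n k) :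
    1 ≤ (s.ep c.γ K k).Bg * (s.sg k j).x' := by
  show 1 ≤ s.Bg k * s.x k (j + 1)
  have h1 := s.x_ge k (j + 1) (by omega)
  have h2 := Ymono s k (a := 4) (b := 15) (by norm_num)
  rw [Bg_eq]
  refine le_trans ?_ (mul_le_mul_of_nonneg_left h1 (pw_pos _).le)
  rw [← pw_add]
  exact one_le_pw (by linarith)
lemma l_B_σ (h : On c s K) (hk : k ≤ K) (hj : j ≤ s.n k) :
    c.C ≤ (s.ep c.γ K k).Bg * c.σ ^ 2 := by
  show c.C ≤ s.Bg k * c.σ ^ 2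
  have h6 := s.σ0
  rw [h.C, h.σ, ← div_le_iff₀ (by positivity), Bg_eq]
  refine (Cσ' s k).trans (pw_le ?_)
  have b2 := s.ypow k (a := 1) (b := 15) (by norm_num)
  have h0 := Y1 s k
  linarith
lemma l_B_ρ (h : On c s K) (hk : k ≤ K) (hj : j ≤ s.n k) :
    (100 * d * c.C * (s.ep c.γ K k).ρ / (s.ep c.γ K k).ϑ) ^ (2 * d + 6) ≤ (s.ep c.γ K k).Bg := by
  show (100 * d * c.C * (s.ρ k : ℝ) / s.ϑ k) ^ (2 * d + 6) ≤ s.Bg k
  rw [h.C]
  have h5 := s.hC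
  have h0 := Y1 s k
  have hd : (3 : ℝ) ≤ d := by exact_mod_cast s.hd
  have a0 : 1 ≤ 100 * d * s.C := by nlinarith
  have a1 : 100 * d * s.C ≤ pw (s.y k) := by
    have b1 : 100 * d * s.C ≤ (100 * d * s.C) ^ (10 * d) :=
      le_self_pow₀ a0 (by have := s.hd; omega)
    have b2 := s.poly k (a := 1) (by norm_num)
    rw [pow_one] at b2
    exact b1.trans ((s.κ_le k).trans (b2.trans (pw_le (by linarith))))
  have a2 : 100 * d * s.C * (s.ρ k : ℝ) / s.ϑ k ≤ pw (5 * (s.y k : ℝ) ^ 6) := by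
    rw [ϑ_eq, ρ_eq, pw_neg, div_inv_eq_mul, mul_assoc (100 * d * s.C), ← pw_add]
    refine (mul_le_mul_of_nonneg_right a1 (pw_pos _).le).trans ?_
    rw [← pw_add]
    refine pw_le ?_
    have b2 := Ymono s k (a := 5) (b := 6) (by norm_num)
    have b3 := Yle s k (b := 6) (by norm_num)
    linarith
  have hϑ : 0 < s.ϑ k := by rw [ϑ_eq]; exact pw_pos _
  refine (pow_le_pow_left₀ (by positivity) a2 _).trans ?_
  rw [pw_pow, Bg_eq]
  refine pw_le ?_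
  have b1 := s.dypow k (a := 6) (b := 15) (by norm_num)
  have b2 : 3 * (s.y k : ℝ) ^ 6 ≤ d * (s.y k : ℝ) ^ 6 := by gcongr
  have b3 : 0 ≤ (s.y k : ℝ) ^ 6 := by positivity
  push_cast
  linarith
lemma l_ρσ (h : On c s K) (hk : k ≤ K) (hj : j ≤ s.n k) :
    1 ≤ c.σ ^ 2 * (s.ep c.γ K k).ρ := by
  show 1 ≤ c.σ ^ 2 * (s.ρ k : ℝ)
  have h6 := s.σ0
  rw [h.σ, ← div_le_iff₀' (by positivity), ρ_eq]
  refine (inv_σ2 s k).trans (pw_le ?_)
  have b2 := s.ypow k (a := 1) (b := 6) (by norm_num)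
  have h0 := Y1 s k
  linarith
lemma l_tail (h : On c s K) (hk : k ≤ K) (hj : j ≤ s.n k) :
    (s.ep c.γ K k).Bg ^ 40 * Real.exp (-(s.ep c.γ K k).ϑ * (s.ep c.γ K k).ρ / 4) ≤ 1 := by
  show s.Bg k ^ 40 * Real.exp (-s.ϑ k * (s.ρ k : ℝ) / 4) ≤ 1
  have h1 := ϑρ s k (a := 16) (by norm_num)
  have h2 := s.ypow k (a := 15) (b := 16) (by norm_num)
  have h3 : 0 ≤ (s.y k : ℝ) ^ 15 := by positivity
  have h4 := exp_le_pw (a := -s.ϑ k * (s.ρ k : ℝ) / 4) (by linarith)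
  rw [Bg_eq, pw_pow]
  refine (mul_le_mul_of_nonneg_left h4 (pw_pos _).le).trans ?_
  rw [← pw_add]
  exact pw_le_one (by push_cast; linarith)
lemma l_τ0 (h : On c s K) (hk : k ≤ K) (hj : j ≤ s.n k) :
    0 ≤ (s.ep c.γ K k).τ := by
  show 0 ≤ s.τ k
  cases k with
  | zero => exact le_rfl
  | succ k => rw [Ms.τ]; positivity
lemma l_τ_le (h : On c s K) (hk : k ≤ K) (hj : j ≤ s.n k) :
    (s.ep c.γ K k).Bg ^ 5 * (s.ep c.γ K k).τ ≤ 1 := by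
  show s.Bg k ^ 5 * s.τ k ≤ 1
  cases k with
  | zero => simp [Ms.τ]
  | succ k =>
    have h1 := ϑρ s k (a := 31) (by norm_num)
    have h2 := s.ypow k (a := 30) (b := 31) (by norm_num)
    have h3 : 0 ≤ (s.y k : ℝ) ^ 15 := by positivity
    have h5 := Ymono s k (a := 15) (b := 30) (by norm_num)
    have h4 := exp_le_pw (a := -s.ϑ k * (s.ρ k : ℝ) / 2) (by linarith)
    rw [Ms.τ, Bg_eq, Bg_eq, pw_pow, pw_pow, ← mul_assoc, ← pw_add, s.y_succ]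
    refine (mul_le_mul_of_nonneg_left h4 (pw_pos _).le).trans ?_
    rw [← pw_add]
    refine pw_le_one ?_
    push_cast
    rw [← pow_mul]
    norm_num
    linarith
lemma l_logv (h : On c s K) (hk : k ≤ K) (hj : j ≤ s.n k) :
    (10 * (s.ep c.γ K k).P ^ 4 * (s.ep c.γ K k).ρ) ^ d ≤ 2 ^ (s.ep c.γ K k).P := by
  show (10 * s.P k ^ 4 * s.ρ k) ^ d ≤ 2 ^ s.P k
  have h0 := Y100 s k
  have key : (10 * (s.P k : ℝ) ^ 4 * s.ρ k) ^ d ≤ pw (s.P k) := by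
    have a1 : 10 * (s.P k : ℝ) ^ 4 ≤ (s.y k : ℝ) ^ 57 := by
      have := s.ypow k (a := 56) (b := 57) (by norm_num)
      have h3 : 0 ≤ (s.y k : ℝ) ^ 56 := by positivity
      rw [P_eq, ← pow_mul]; norm_num; linarith
    calc _ ≤ ((s.y k : ℝ) ^ 57 * s.ρ k) ^ d := by gcongr
      _ = ((s.y k : ℝ) ^ 57) ^ d * pw (d * (s.y k : ℝ) ^ 6) := by rw [mul_pow, ρ_eq, pw_pow]
      _ ≤ pw (s.y k / 1000) * pw (d * (s.y k : ℝ) ^ 6) :=
        mul_le_mul_of_nonneg_right (s.polyd k (by norm_num)) (pw_pos _).le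
      _ ≤ _ := by
        rw [← pw_add, P_eq]
        refine pw_le ?_
        have b1 := s.dypow k (a := 6) (b := 14) (by norm_num)
        have b3 := Yle s k (b := 14) (by norm_num)
        linarith
  rw [pw_nat] at key
  exact_mod_cast key
lemma l_mult (h : On c s K) (hk : k ≤ K) (hj : j ≤ s.n k) :
    (100 * ((s.ep c.γ K k).P : ℝ) ^ 3 * (s.ep c.γ K k).Q * (s.ep c.γ K k).ρ) ^ d ≤ Real.exp ((s.ep c.γ K k).P / 8) := by
  show (100 * (s.P k : ℝ) ^ 3 * s.Q k * s.ρ k) ^ d ≤ Real.exp (s.P k / 8)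
  have h0 := Y100 s k
  have b3 := Yle s k (b := 6) (by norm_num)
  have a1 : 100 * (s.P k : ℝ) ^ 3 * s.Q k * s.ρ k ≤ pw (3 * (s.y k : ℝ) ^ 6) := by
    have b1 := s.PQ_le k
    have b2 : (100 : ℝ) ≤ pw 7 := by have := pw_nat 7; norm_num at this; linarith
    calc _ = 100 * ((s.P k : ℝ) ^ 3 * s.Q k) * pw ((s.y k : ℝ) ^ 6) := by rw [ρ_eq]; ring
      _ ≤ pw 7 * pw (s.y k / 100) * pw ((s.y k : ℝ) ^ 6) :=
        mul_le_mul_of_nonneg_right (mul_le_mul b2 b1 (by positivity) (pw_pos _).le) (pw_pos _).le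
      _ ≤ _ := by rw [← pw_add, ← pw_add]; exact pw_le (by linarith)
  refine (pow_le_pow_left₀ (by positivity) a1 _).trans ?_
  rw [pw_pow]
  refine (pw_le_exp (by positivity)).trans (Real.exp_le_exp.2 ?_)
  have b1 := s.dypow k (a := 6) (b := 14) (by norm_num)
  have b2 : 0 ≤ d * (s.y k : ℝ) ^ 6 := by positivity
  rw [P_eq]
  linarith

end Crest.Agent.N334.AC.P.On
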