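import Crest.Agent.N334.AC.P.Par0
import Crest.Agent.N334.AC.P.ParA

/-! # S0520 part P: ledger of the release
`x` at the virtual stage: `x² ≤ pw (-y⁴/8 + 25 y²)`; `1/q ≤ C/σ`; `vol_le`, `r_le_pw`, `sf_le`. -/

set_option autoImplicit false
set_option linter.unusedVariables false

open Finset

namespace Crest.Agent.N334.AC.P.On

variable {d M : ℕ} [NeZero M] {c : Cx d M} {s : Ms d} {K k j : ℕ}

namespace R4

/-- the elementary inequalities between the powers of `y` -/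
lemma pows (s : Ms d) (k : ℕ) : 10 ^ 6 ≤ (s.y k : ℝ) ∧ 10 ^ 6 * (s.y k : ℝ) ≤ (s.y k : ℝ) ^ 2 ∧
    10 ^ 6 * (s.y k : ℝ) ^ 2 ≤ (s.y k : ℝ) ^ 3 ∧ 10 ^ 6 * (s.y k : ℝ) ^ 3 ≤ (s.y k : ℝ) ^ 4 ∧
    10 ^ 6 * (s.y k : ℝ) ^ 4 ≤ (s.y k : ℝ) ^ 5 ∧ 10 ^ 6 * (s.y k : ℝ) ^ 5 ≤ (s.y k : ℝ) ^ 6 := by
  have h1 := s.ypow k (a := 0) (b := 1) (by norm_num)
  have h2 := s.ypow k (a := 1) (b := 2) (by norm_num)
  rw [pow_zero, mul_one, pow_one] at h1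
  rw [pow_one] at h2
  exact ⟨h1, h2, s.ypow k (by norm_num), s.ypow k (by norm_num), s.ypow k (by norm_num),
    s.ypow k (by norm_num)⟩

lemma y0R (s : Ms d) (k : ℕ) : (s.y0 : ℝ) ≤ s.y k := by exact_mod_cast s.y0_le k

lemma C_pw (s : Ms d) (k : ℕ) : s.C ≤ pw (s.y k / 1000) := by
  have h1 := s.C_le k
  have h2 := s.poly k (a := 1) (by norm_num)
  have h3 : s.C ≤ s.C ^ 20 := le_self_pow₀ s.hC (by norm_num)
  have h4 : 0 ≤ s.C ^ 20 := by have := s.hC; positivity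
  rw [pow_one] at h2
  linarith

lemma iσ_pw (s : Ms d) (k : ℕ) : 1 / s.σ ≤ pw (s.y k) := s.inv_σ_le.trans (pw_le (y0R s k))

lemma Cσ_pw (s : Ms d) (k i : ℕ) : s.C / s.σ ^ i ≤ pw ((i + 1) * s.y k) := by
  have h0 := s.σ0
  have h1 := (pows s k).1
  calc s.C / s.σ ^ i = s.C * (1 / s.σ) ^ i := by rw [one_div, inv_pow, div_eq_mul_inv]
    _ ≤ pw (s.y k / 1000) * pw (s.y k) ^ i := by
        have := pw_pos (s.y k / 1000)
        gcongr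
        exacts [C_pw s k, iσ_pw s k]
    _ = pw (s.y k / 1000 + i * s.y k) := by rw [pw_pow, pw_add]
    _ ≤ _ := pw_le (by linarith)

lemma θ_pw (s : Ms d) (k : ℕ) : pw (-(3 * s.y k)) ≤ s.σ ^ 2 / s.C := by
  have h0 := s.σ0
  have hC := s.hC
  have h1 := Cσ_pw s k 2
  rw [pw_neg, inv_le_comm₀ (pw_pos _) (by positivity), inv_div]
  norm_num at h1
  exact h1

lemma γ_lo (h : On c s K) : s.σ ^ 2 / s.C ≤ c.γ := by
  have := ParA.γ_ge h.init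
  rwa [h.C, h.σ] at this

lemma γ_pw (h : On c s K) (k : ℕ) : pw (-(3 * s.y k)) ≤ c.γ := (θ_pw s k).trans (γ_lo h)

lemma γ_pos (h : On c s K) : 0 < c.γ := (pw_pos _).trans_le (γ_pw h 0)

lemma γ_one (h : On c s K) : c.γ ≤ 1 := by
  have h1 := h.ok.γ_le
  have h2 : 1 ≤ c.C ^ 30 := one_le_pow₀ h.ok.C1
  have := γ_pos h
  nlinarith

lemma γC (h : On c s K) : 1 ≤ c.γ * (s.C / s.σ ^ 2) := by
  have h0 := s.σ0
  have hC := s.hC
  calc (1 : ℝ) = s.σ ^ 2 / s.C * (s.C / s.σ ^ 2) := by field_simp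
    _ ≤ _ := by gcongr; exact γ_lo h

lemma Jn (s : Ms d) (k : ℕ) : s.J k + s.n k = s.y k ^ 4 := s.J_add_n k

lemma x_virt (s : Ms d) (k : ℕ) :
    s.x k (s.n k) ≤ pw (-(s.y k : ℝ) ^ 4 / 16 + 13 * (s.y k : ℝ) ^ 2) := by
  obtain ⟨h1, h2, -⟩ := pows s k
  refine pw_le ?_
  have h3 : (s.J k : ℝ) + s.n k = (s.y k : ℝ) ^ 4 := by exact_mod_cast Jn s k
  unfold Ms.ξ
  split_ifs with hk
  · subst hk
    have h4 : (s.J 0 : ℝ) = 0 := by simp [Ms.J]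
    have h5 : (s.n 0 : ℝ) ≤ ((s.n 0 - 200 * s.y0 : ℕ) : ℝ) + 200 * s.y0 := by
      have : s.n 0 ≤ (s.n 0 - 200 * s.y0) + 200 * s.y0 := by omega
      exact_mod_cast this
    have h6 := y0R s 0
    have h7 : (0 : ℝ) ≤ s.y0 := by positivity
    linarith
  · have h4 : (s.J k : ℝ) = (s.y k : ℝ) ^ 2 := by exact_mod_cast s.J_eq k (by omega)
    linarith

lemma x_next (s : Ms d) (k : ℕ) : s.x (k + 1) 0 = pw (-(s.y k : ℝ) ^ 4 / 200) := by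
  unfold Ms.x Ms.ξ
  rw [if_neg (by omega)]
  congr 1
  simp [Ms.J]
  ring

lemma J_hi (s : Ms d) (k : ℕ) : ((2 ^ (s.y k ^ 4 / 32) : ℕ) : ℝ) ≤ pw ((s.y k : ℝ) ^ 4 / 32) := by
  rw [Nat.cast_pow, Nat.cast_ofNat, ← pw_nat]
  refine pw_le ?_
  have := Nat.cast_div_le (α := ℝ) (m := s.y k ^ 4) (n := 32)
  push_cast at this
  exact this

lemma J_lo (s : Ms d) (k : ℕ) :
    pw ((s.y k : ℝ) ^ 4 / 32 - 1) ≤ ((2 ^ (s.y k ^ 4 / 32) : ℕ) : ℝ) := by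
  rw [Nat.cast_pow, Nat.cast_ofNat, ← pw_nat]
  refine pw_le ?_
  have h1 : s.y k ^ 4 ≤ 32 * (s.y k ^ 4 / 32) + 32 := by omega
  have h2 : (s.y k : ℝ) ^ 4 ≤ 32 * ((s.y k ^ 4 / 32 : ℕ) : ℝ) + 32 := by exact_mod_cast h1
  linarith

lemma Bg_eq (s : Ms d) (k : ℕ) : s.Bg k = pw ((s.y k : ℝ) ^ 15) := by
  unfold Ms.Bg
  rw [← pw_nat]
  push_cast
  rfl

lemma two_eq : (2 : ℝ) = pw 1 := by simpa using (pw_nat 1).symm

lemma Q_pos (s : Ms d) (k : ℕ) : 1 ≤ s.Q k := by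
  refine le_trans ?_ (s.Q_ge k)
  have := s.y_ge k
  exact Nat.one_le_pow _ _ (Nat.pow_pos (by omega))

lemma P_one (s : Ms d) (k : ℕ) : (1 : ℝ) ≤ s.P k := by
  have := s.y_ge k
  have : 1 ≤ s.P k := Nat.one_le_pow _ _ (by omega)
  exact_mod_cast this

lemma P_cast (s : Ms d) (k : ℕ) : (s.P k : ℝ) = (s.y k : ℝ) ^ 14 := by simp [Ms.P]

end R4

open R4


lemma r_m1 (h : On c s K) (hk : k < K) :
    1 ≤ s.rad.m ((s.rp k).k + 1) := by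
  have := s.y_ge k
  exact Nat.one_le_pow _ _ (show 0 < s.y k by omega)
lemma r_R_lo (h : On c s K) (hk : k < K) :
    2 * s.rad.r (s.rp k).k + 1 ≤ 10 * (s.rp k).R := by
  have h1 := s.r_le_ρ k
  have h2 : 1 ≤ s.ρ k := Nat.one_le_two_pow
  change 2 * s.r k + 1 ≤ 10 * s.ρ k ^ 2
  nlinarith
lemma r_Rc (h : On c s K) (hk : k < K) :
    30 * s.rad.m ((s.rp k).k + 1) * (s.rp k).R ≤ s.rad.Rc ((s.rp k).k + 1) := le_rfl
lemma r_R_ge (h : On c s K) (hk : k < K) :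
    (s.ep c.γ K k).s + (s.rp k).J * (s.ep c.γ K k).ρ + 3 * (s.ep c.γ K k).ρ ≤ (s.rp k).R := by
  have h1 := (s.sf_le k).trans (s.r_le_ρ k)
  have h2 : 2 ^ (s.y k ^ 4 / 32) + 4 ≤ s.ρ k := by
    have h3 := s.y_ge k
    have h4 : s.y k ^ 4 / 32 + 3 ≤ s.y k ^ 6 := by
      have h5 : 1 ≤ s.y k ^ 4 := Nat.one_le_pow _ _ (by omega)
      have h6 : 4 ≤ s.y k ^ 2 := by nlinarith
      have h7 : s.y k ^ 4 * 4 ≤ s.y k ^ 6 := by
        calc s.y k ^ 4 * 4 ≤ s.y k ^ 4 * s.y k ^ 2 := Nat.mul_le_mul_left _ h6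
          _ = _ := by ring
      omega
    have h5 : 1 ≤ 2 ^ (s.y k ^ 4 / 32) := Nat.one_le_two_pow
    calc 2 ^ (s.y k ^ 4 / 32) + 4 ≤ 2 ^ (s.y k ^ 4 / 32 + 3) := by rw [pow_add]; omega
      _ ≤ _ := Nat.pow_le_pow_right (by norm_num) h4
  change s.sf k + 2 ^ (s.y k ^ 4 / 32) * s.ρ k + 3 * s.ρ k ≤ s.ρ k ^ 2
  calc _ ≤ (2 ^ (s.y k ^ 4 / 32) + 4) * s.ρ k := by rw [add_mul]; omega
    _ ≤ s.ρ k * s.ρ k := Nat.mul_le_mul_right _ h2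
    _ = _ := (sq _).symm
lemma r_s2 (h : On c s K) (hk : k < K) :
    40 * s.rad.m ((s.rp k).k + 1) * (s.rp k).R ≤ (s.ep c.γ K (k + 1)).s := le_rfl
lemma r_N_eq (h : On c s K) (hk : k < K) :
    ∃ W, (s.ep c.γ K k).a ≤ W ∧ c.N = 2 ^ W :=
  ⟨s.a K 0, sum_le_sum_of_subset (Ico_subset_Ico (Nat.zero_le _) le_rfl), h.N⟩
lemma r_a2 (h : On c s K) (hk : k < K) :
    (s.ep c.γ K (k + 1)).a + (s.ep c.γ K k).P = (s.ep c.γ K k).a := by
  change s.a K (k + 1) + s.P k = s.a K k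
  unfold Ms.a
  rw [sum_eq_sum_Ico_succ_bot (show k < K + 1 by omega), add_comm]
lemma r_B_η (h : On c s K) (hk : k < K) :
    (c.N : ℝ) ≤ (s.ep c.γ K k).Bg * (c.σ * 2 ^ (s.ep c.γ K (k + 1)).a) := by
  have h1 : s.a K 0 = ∑ i ∈ Ico 0 (k + 1), s.P i + s.a K (k + 1) :=
    (sum_Ico_consecutive _ (Nat.zero_le _) (by omega)).symm
  have h2 : ∑ i ∈ Ico 0 (k + 1), s.P i ≤ (k + 1) * s.P k := by
    refine (sum_le_card_nsmul _ _ (s.P k) fun i hi => s.P_mono ?_).trans (by simp)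
    have := (mem_Ico.1 hi).2
    omega
  have h3 : 2 * (k + 1) ≤ s.y k := by
    have h4 := s.two_pow_le_y k
    have h5 : k < 2 ^ k := Nat.lt_two_pow_self
    rw [pow_add] at h4
    omega
  have h4 : ∑ i ∈ Ico 0 (k + 1), s.P i + s.y0 ≤ s.y k ^ 15 := by
    have h5 := s.y0_le k
    have h6 := s.y_ge k
    have h7 : 2 ≤ s.P k := by
      have : s.y k ≤ s.y k ^ 14 := Nat.le_self_pow (by norm_num) _
      change 2 ≤ s.y k ^ 14
      omega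
    have h8 : s.y k ^ 15 = s.y k * s.P k := by unfold Ms.P; ring
    nlinarith
  have h5 : (2 : ℝ) ^ (∑ i ∈ Ico 0 (k + 1), s.P i + s.y0) ≤ s.Bg k :=
    pow_le_pow_right₀ (by norm_num) h4
  have h6 := s.lo
  have h7 := s.σ0
  change (c.N : ℝ) ≤ s.Bg k * (c.σ * 2 ^ s.a K (k + 1))
  rw [h.N, h.σ, h1]
  push_cast
  calc (2 : ℝ) ^ (∑ i ∈ Ico 0 (k + 1), s.P i + s.a K (k + 1))
      ≤ 2 ^ (∑ i ∈ Ico 0 (k + 1), s.P i + s.a K (k + 1)) * (s.σ * 2 ^ s.y0) :=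
        le_mul_of_one_le_right (by positivity) h6
    _ = 2 ^ (∑ i ∈ Ico 0 (k + 1), s.P i + s.y0) * (s.σ * 2 ^ s.a K (k + 1)) := by
        rw [pow_add, pow_add]; ring
    _ ≤ _ := by gcongr
lemma r_B_R (h : On c s K) (hk : k < K) :
    (100 * d * s.rad.m ((s.rp k).k + 1) * (s.rp k).R / (s.ep c.γ K k).ϑ) ^ (2 * d + 6) ≤ (s.ep c.γ K k).Bg := by
  obtain ⟨h1, h2, h3, h4, h5, h6⟩ := pows s k
  have e1 : ((s.R k : ℕ) : ℝ) = pw (2 * (s.y k : ℝ) ^ 6) := by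
    unfold Ms.R Ms.ρ
    push_cast
    rw [← pw_nat, pw_pow]
    push_cast
    rfl
  have e2 : s.ϑ k = (pw (3 * (s.y k : ℝ) ^ 5))⁻¹ := by
    unfold Ms.ϑ
    rw [← pw_nat, one_div]
    push_cast
    rfl
  have h7 : 100 * d * ((s.m k : ℕ) : ℝ) ≤ pw (s.y k / 1000) := by
    have h8 := s.dypow k (a := 8) (b := 9) (by norm_num)
    have h9 := s.poly k (a := 9) (by norm_num)
    have h10 : (0 : ℝ) ≤ d * (s.y k : ℝ) ^ 8 := by positivity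
    unfold Ms.m
    push_cast
    nlinarith
  have h8 := s.dypow k (a := 6) (b := 15) (by norm_num)
  have h9 : (3 : ℝ) ≤ d := by exact_mod_cast s.hd
  have h10 : (0 : ℝ) ≤ (s.y k : ℝ) ^ 6 := by positivity
  change (100 * d * ((s.m k : ℕ) : ℝ) * ((s.R k : ℕ) : ℝ) / s.ϑ k) ^ (2 * d + 6) ≤ s.Bg k
  rw [e1, e2, Bg_eq, div_inv_eq_mul]
  have := pw_pos (2 * (s.y k : ℝ) ^ 6)
  have := pw_pos (3 * (s.y k : ℝ) ^ 5)
  calc _ ≤ (pw (s.y k / 1000) * pw (2 * (s.y k : ℝ) ^ 6) * pw (3 * (s.y k : ℝ) ^ 5)) ^ (2 * d + 6) := by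
        gcongr
    _ = pw (s.y k / 1000 + 2 * (s.y k : ℝ) ^ 6 + 3 * (s.y k : ℝ) ^ 5) ^ (2 * d + 6) := by
        rw [pw_add, pw_add]
    _ ≤ pw (3 * (s.y k : ℝ) ^ 6) ^ (2 * d + 6) := by
        have := pw_pos (s.y k / 1000 + 2 * (s.y k : ℝ) ^ 6 + 3 * (s.y k : ℝ) ^ 5)
        gcongr
        exact pw_le (by linarith)
    _ ≤ _ := by
        rw [pw_pow]
        refine pw_le ?_
        push_cast
        nlinarith
lemma r_ε0 (h : On c s K) (hk : k < K) :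
    1 ≤ (s.ep c.γ K k).Bg * (s.rp k).ε := by
  have h1 := s.ypow k (a := 4) (b := 15) (by norm_num)
  have h2 : (0 : ℝ) ≤ (s.y k : ℝ) ^ 4 := by positivity
  change 1 ≤ s.Bg k * pw (-(s.y k : ℝ) ^ 4 / 40)
  rw [Bg_eq, ← pw_add, ← pw_zero]
  exact pw_le (by linarith)
lemma r_J_lo (h : On c s K) (hk : k < K) :
    60 * (s.rad.m ((s.rp k).k + 1) * vol d M (2 * s.rad.r (s.rp k).k + (s.ep c.γ K k).s)) * Real.log (s.ep c.γ K k).Bg < (s.rp k).ε * (s.rp k).J := by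
  obtain ⟨h1, h2, h3, h4, -⟩ := pows s k
  have h5 : vol d M (2 * s.r k + s.sf k) ≤ pw (d * (3 * (s.y k : ℝ) ^ 3 + 3)) := by
    refine (vol_le _).trans ?_
    rw [← pw_pow]
    have h6 := s.r_le_pw k
    have h7 : (s.sf k : ℝ) ≤ s.r k := by exact_mod_cast s.sf_le k
    have h8 : 1 ≤ pw (3 * (s.y k : ℝ) ^ 3) := by
      rw [← pw_zero]; exact pw_le (by positivity)
    have h9 : pw 3 = 8 := by
      have := pw_nat 3
      norm_num at this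
      exact this
    gcongr
    rw [pw_add, h9]
    push_cast
    linarith
  have h6 : Real.log (s.Bg k) ≤ (s.y k : ℝ) ^ 15 := by
    unfold Ms.Bg
    rw [Real.log_pow]
    have : Real.log 2 ≤ 1 := by linarith [Real.log_two_lt_d9]
    push_cast
    exact mul_le_of_le_one_right (by positivity) this
  have h7 : 60 * (s.y k : ℝ) ^ 23 ≤ pw (s.y k / 1000) := by
    have h8 := s.ypow k (a := 23) (b := 24) (by norm_num)
    have h9 := s.poly k (a := 24) (by norm_num)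
    have : (0 : ℝ) ≤ (s.y k : ℝ) ^ 23 := by positivity
    linarith
  have h8 := s.dypow k (a := 3) (b := 4) (by norm_num)
  have h9 : (d : ℝ) ≤ d * (s.y k : ℝ) ^ 3 :=
    le_mul_of_one_le_right (by positivity) (by linarith)
  change 60 * (((s.m k : ℕ) : ℝ) * vol d M (2 * s.r k + s.sf k)) * Real.log (s.Bg k) <
    pw (-(s.y k : ℝ) ^ 4 / 40) * ((2 ^ (s.y k ^ 4 / 32) : ℕ) : ℝ)
  have h10 := pw_pos (d * (3 * (s.y k : ℝ) ^ 3 + 3))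
  have h11 : 0 ≤ vol d M (2 * s.r k + s.sf k) := zero_le_one.trans (one_le_vol _)
  calc _ ≤ 60 * (((s.m k : ℕ) : ℝ) * pw (d * (3 * (s.y k : ℝ) ^ 3 + 3))) * (s.y k : ℝ) ^ 15 := by
        refine le_trans (mul_le_mul_of_nonneg_left h6 (by positivity)) ?_
        gcongr
    _ = 60 * (s.y k : ℝ) ^ 23 * pw (d * (3 * (s.y k : ℝ) ^ 3 + 3)) := by
        unfold Ms.m
        push_cast
        ring
    _ ≤ pw (s.y k / 1000) * pw (d * (3 * (s.y k : ℝ) ^ 3 + 3)) := by gcongr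
    _ ≤ pw ((s.y k : ℝ) ^ 4 / 160 - 2) := by
        rw [← pw_add]
        exact pw_le (by linarith)
    _ < pw ((s.y k : ℝ) ^ 4 / 160 - 2) * pw 1 := by
        rw [← two_eq]
        linarith [pw_pos ((s.y k : ℝ) ^ 4 / 160 - 2)]
    _ = pw (-(s.y k : ℝ) ^ 4 / 40) * pw ((s.y k : ℝ) ^ 4 / 32 - 1) := by
        rw [← pw_add, ← pw_add]; congr 1; ring
    _ ≤ _ := mul_le_mul_of_nonneg_left (J_lo s k) (pw_pos _).le
lemma r_J_hi (h : On c s K) (hk : k < K) :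
    ((s.ep c.γ K k).P : ℝ) ^ 2 * ((s.rp k).J : ℝ) ^ 2 * ((s.sg k (s.n k)).x ^ 2 / (s.ep c.γ K k).q) ≤ (s.rp k).ε ^ 2 := by
  obtain ⟨h1, h2, h3, h4, -⟩ := pows s k
  have h5 : pw (-(2 * s.y k)) ≤ Real.sqrt (s.Q k * c.γ) := by
    refine Real.le_sqrt_of_sq_le ?_
    have h6 : (1 : ℝ) ≤ s.Q k := by exact_mod_cast Q_pos s k
    rw [pw_pow]
    refine le_trans (pw_le ?_) ((γ_pw h k).trans (le_mul_of_one_le_left (γ_pos h).le h6))
    push_cast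
    linarith
  have h6 : (s.P k : ℝ) ^ 2 ≤ pw (s.y k / 1000) := by
    rw [P_cast, ← pow_mul]
    exact s.poly k (by norm_num)
  have h7 := J_hi s k
  have h8 := x_virt s k
  have h9 := s.x_pos k (s.n k)
  change (s.P k : ℝ) ^ 2 * ((2 ^ (s.y k ^ 4 / 32) : ℕ) : ℝ) ^ 2 *
    (s.x k (s.n k) ^ 2 / Real.sqrt (s.Q k * c.γ)) ≤ pw (-(s.y k : ℝ) ^ 4 / 40) ^ 2
  have := pw_pos (-(2 * s.y k))
  have := pw_pos (s.y k / 1000)
  calc _ ≤ pw (s.y k / 1000) * pw ((s.y k : ℝ) ^ 4 / 32) ^ 2 *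
        (pw (-(s.y k : ℝ) ^ 4 / 16 + 13 * (s.y k : ℝ) ^ 2) ^ 2 / pw (-(2 * s.y k))) := by gcongr
    _ ≤ _ := by
        rw [pw_neg, div_inv_eq_mul, pw_pow, pw_pow, pw_pow, ← pw_add, ← pw_add, ← pw_add]
        refine pw_le ?_
        push_cast
        linarith
lemma r_J_P (h : On c s K) (hk : k < K) :
    ((s.rp k).J : ℝ) ≤ Real.exp ((s.ep c.γ K k).P / 8) := by
  have h1 := s.ypow k (a := 4) (b := 14) (by norm_num)
  have h2 : (0 : ℝ) ≤ (s.y k : ℝ) ^ 4 := by positivity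
  change ((2 ^ (s.y k ^ 4 / 32) : ℕ) : ℝ) ≤ Real.exp ((s.P k : ℝ) / 8)
  refine (J_hi s k).trans ((pw_le_exp (by positivity)).trans (Real.exp_le_exp.2 ?_))
  rw [P_cast]
  linarith
lemma r_zr0 (h : On c s K) (hk : k < K) :
    0 ≤ (s.rp k).zr := (pw_pos _).le
lemma r_zr (h : On c s K) (hk : k < K) :
    (100 * s.rad.m ((s.rp k).k + 1) : ℝ) ^ d * ((s.rp k).ε + (s.sg k (s.n k)).F * (s.rp k).J) ≤ c.γ ^ 2 * (s.rp k).zr ^ 2 := by
  obtain ⟨h1, h2, h3, h4, -⟩ := pows s k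
  have h5 : (100 * ((s.m k : ℕ) : ℝ)) ^ d ≤ pw (s.y k / 1000) := by
    refine le_trans ?_ (s.polyd k (a := 9) (by norm_num))
    have h6 := s.ypow k (a := 8) (b := 9) (by norm_num)
    have : (0 : ℝ) ≤ (s.y k : ℝ) ^ 8 := by positivity
    unfold Ms.m
    push_cast
    gcongr
    linarith
  have h6 : s.F (s.J k + s.n k) ≤ pw (11 * s.y k + -(s.y k : ℝ) ^ 4 / 4) := by
    have h7 : ¬ s.y k ^ 4 ≤ 200 * s.y0 := by
      intro h8
      have h9 : (s.y k : ℝ) ^ 4 ≤ 200 * s.y0 := by exact_mod_cast h8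
      linarith [y0R s k]
    rw [Jn, Ms.F, if_neg h7, pw_add]
    have h8 := Cσ_pw s k 10
    norm_num at h8
    push_cast
    exact mul_le_mul_of_nonneg_right h8 (pw_pos _).le
  have h7 : s.F (s.J k + s.n k) * ((2 ^ (s.y k ^ 4 / 32) : ℕ) : ℝ) ≤ pw (-(s.y k : ℝ) ^ 4 / 40) := by
    refine (mul_le_mul h6 (J_hi s k) (by positivity) (pw_pos _).le).trans ?_
    rw [← pw_add]
    exact pw_le (by linarith)
  change (100 * ((s.m k : ℕ) : ℝ)) ^ d * (pw (-(s.y k : ℝ) ^ 4 / 40) +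
    s.F (s.J k + s.n k) * ((2 ^ (s.y k ^ 4 / 32) : ℕ) : ℝ)) ≤
    c.γ ^ 2 * pw (-(s.y k : ℝ) ^ 4 / 100) ^ 2
  have h8 := pw_pos (-(s.y k : ℝ) ^ 4 / 40)
  have h9 := pw_pos (-(3 * s.y k))
  calc _ ≤ (100 * ((s.m k : ℕ) : ℝ)) ^ d * (pw 1 * pw (-(s.y k : ℝ) ^ 4 / 40)) := by
        rw [← two_eq]
        gcongr
        linarith
    _ ≤ pw (s.y k / 1000) * (pw 1 * pw (-(s.y k : ℝ) ^ 4 / 40)) := by
        have := pw_pos 1
        gcongr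
    _ ≤ pw (-(3 * s.y k)) ^ 2 * pw (-(s.y k : ℝ) ^ 4 / 100) ^ 2 := by
        rw [pw_pow, pw_pow, ← pw_add, ← pw_add, ← pw_add]
        refine pw_le ?_
        push_cast
        linarith
    _ ≤ _ := by
        gcongr
        exact γ_pw h k
lemma r_e_inc (h : On c s K) (hk : k < K) :
    (s.sg k (s.n k)).e + (s.ep c.γ K k).P * (s.rp k).zr ≤ (s.sg (k + 1) 0).e := by
  have h1 := s.e_step k
  have h2 : 0 ≤ (s.P k : ℝ) ^ 3 * s.z k := by unfold Ms.z; positivity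
  change s.e k (s.n k) + s.P k * (s.rp k).zr ≤ s.e (k + 1) 0
  unfold Ms.e at h1 ⊢
  push_cast at h1 ⊢
  nlinarith
lemma r_e2_hi (h : On c s K) (hk : k < K) :
    c.κ * (s.sg (k + 1) 0).e ≤ 1 := by
  have h1 := s.E_le (k + 1)
  have h2 := s.κ_le 0
  have h3 := (pows s 0).1
  have h4 : (s.y 0 : ℝ) ≤ (s.P 0 : ℝ) ^ 3 := by
    rw [P_cast, ← pow_mul]
    exact le_self_pow₀ (by linarith) (by norm_num)
  have h5 : c.κ ≤ (s.P 0 : ℝ) ^ 3 := by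
    unfold Cx.κ
    rw [h.C]
    exact h2.trans h4
  have h6 : 0 ≤ c.κ := by
    unfold Cx.κ
    have := h.ok.C1
    positivity
  have h7 : (s.P 0 : ℝ) ^ 3 * s.e0 = 1 / 4 := by
    have := P_one s 0
    unfold Ms.e0
    field_simp
  have h8 := s.e0_pos
  change c.κ * s.e (k + 1) 0 ≤ 1
  unfold Ms.e
  rw [Nat.cast_zero, zero_mul, add_zero]
  calc c.κ * s.E (k + 1) ≤ c.κ * (2 * s.e0) := by gcongr
    _ ≤ (s.P 0 : ℝ) ^ 3 * (2 * s.e0) := by gcongr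
    _ ≤ 1 := by linarith
lemma r_ε_x (h : On c s K) (hk : k < K) :
    (s.ep c.γ K k).P * (s.rp k).ε ≤ c.γ ^ 2 * (s.sg (k + 1) 0).x ^ 4 := by
  obtain ⟨h1, h2, h3, h4, -⟩ := pows s k
  have h5 : (s.P k : ℝ) ≤ pw (s.y k / 1000) := by
    rw [P_cast]
    exact s.poly k (by norm_num)
  change (s.P k : ℝ) * pw (-(s.y k : ℝ) ^ 4 / 40) ≤ c.γ ^ 2 * s.x (k + 1) 0 ^ 4
  have h9 := pw_pos (-(3 * s.y k))
  rw [x_next]
  calc _ ≤ pw (s.y k / 1000) * pw (-(s.y k : ℝ) ^ 4 / 40) :=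
        mul_le_mul_of_nonneg_right h5 (pw_pos _).le
    _ ≤ pw (-(3 * s.y k)) ^ 2 * pw (-(s.y k : ℝ) ^ 4 / 200) ^ 4 := by
        rw [pw_pow, pw_pow, ← pw_add, ← pw_add]
        refine pw_le ?_
        push_cast
        linarith
    _ ≤ _ := by
        gcongr
        exact γ_pw h k
lemma r_x2 (h : On c s K) (hk : k < K) :
    2 * (s.sg k (s.n k)).x ≤ (s.sg (k + 1) 0).x := by
  obtain ⟨h1, h2, h3, h4, -⟩ := pows s k
  change 2 * s.x k (s.n k) ≤ s.x (k + 1) 0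
  rw [x_next]
  refine (mul_le_mul_of_nonneg_left (x_virt s k) zero_le_two).trans ?_
  rw [two_eq, ← pw_add]
  exact pw_le (by linarith)
lemma r_x21 (h : On c s K) (hk : k < K) :
    (s.sg (k + 1) 0).x ≤ 1 := by
  change s.x (k + 1) 0 ≤ 1
  have : (0 : ℝ) ≤ (s.y k : ℝ) ^ 4 := by positivity
  rw [x_next, ← pw_zero]
  exact pw_le (by linarith)
lemma r_q2 (h : On c s K) (hk : k < K) :
    0 < (s.ep c.γ K (k + 1)).q := by
  have h6 : (1 : ℝ) ≤ s.Q (k + 1) := by exact_mod_cast Q_pos s (k + 1)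
  have := γ_pos h
  exact Real.sqrt_pos.2 (show 0 < (s.Q (k + 1) : ℝ) * c.γ by positivity)
lemma r_x2q (h : On c s K) (hk : k < K) :
    10 * (s.ep c.γ K (k + 1)).q * (s.sg (k + 1) 0).x ^ 2 ≤ 1 := by
  obtain ⟨h1, h2, h3, h4, -⟩ := pows s k
  have h5 : Real.sqrt (s.Q (k + 1) * c.γ) ≤ pw ((s.y k : ℝ) ^ 2 / 100 / 2) := by
    rw [← sqrt_pw]
    refine Real.sqrt_le_sqrt ?_
    have h6 := s.PQ_le (k + 1)
    rw [s.y_succ] at h6
    push_cast at h6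
    have h7 : (1 : ℝ) ≤ (s.P (k + 1) : ℝ) ^ 3 := one_le_pow₀ (P_one s _)
    refine le_trans ?_ h6
    rw [mul_comm]
    exact mul_le_mul_of_nonneg_right ((γ_one h).trans h7) (by positivity)
  have h6 : (10 : ℝ) ≤ pw 4 := by
    have := pw_nat 4
    norm_num at this
    linarith
  change 10 * Real.sqrt (s.Q (k + 1) * c.γ) * s.x (k + 1) 0 ^ 2 ≤ 1
  rw [x_next]
  calc _ ≤ pw 4 * pw ((s.y k : ℝ) ^ 2 / 100 / 2) * pw (-(s.y k : ℝ) ^ 4 / 200) ^ 2 := by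
        have := pw_pos 4
        gcongr
    _ ≤ pw 0 := by
        rw [pw_pow, ← pw_add, ← pw_add]
        refine pw_le ?_
        push_cast
        linarith
    _ = 1 := pw_zero
lemma r_G0x (h : On c s K) (hk : k < K) :
    c.C / c.σ ^ 2 * Real.exp (-(c.σ ^ 2 / c.C) * (s.sg k (s.n k)).R) ≤ (s.sg (k + 1) 0).x ^ 2 := by
  obtain ⟨h1, h2, h3, h4, h5, -⟩ := pows s k
  have h6 : (s.y k : ℝ) ^ 5 ≤ s.σ ^ 2 / s.C * ((2 ^ (s.J k + s.n k) : ℕ) : ℝ) := by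
    rw [Jn, Nat.cast_pow, Nat.cast_ofNat, ← pw_nat]
    refine (s.poly k (by norm_num)).trans (le_trans ?_
      (mul_le_mul_of_nonneg_right (θ_pw s k) (pw_pos _).le))
    rw [← pw_add]
    refine pw_le ?_
    push_cast
    linarith
  have h7 := Cσ_pw s k 2
  change c.C / c.σ ^ 2 * Real.exp (-(c.σ ^ 2 / c.C) * ((2 ^ (s.J k + s.n k) : ℕ) : ℝ)) ≤
    s.x (k + 1) 0 ^ 2
  rw [x_next, h.C, h.σ]
  calc _ ≤ pw (((2 : ℕ) + 1) * s.y k) * pw (-(s.y k : ℝ) ^ 5) := by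
        refine mul_le_mul h7 (le_trans (Real.exp_le_exp.2 ?_) (exp_le_pw (by linarith)))
          (Real.exp_pos _).le (pw_pos _).le
        linarith
    _ ≤ _ := by
        rw [pw_pow, ← pw_add]
        refine pw_le ?_
        push_cast
        linarith
lemma r_X2 (h : On c s K) (hk : k < K) :
    3 * (s.sg (k + 1) 0).x ^ 2 ≤ (s.sg (k + 1) 0).X := by
  change 3 * s.x (k + 1) 0 ^ 2 ≤ s.X (k + 1) 0
  unfold Ms.X
  simp
lemma r_P2 (h : On c s K) (hk : k < K) :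
    (s.ep c.γ K k).P ≤ (s.ep c.γ K (k + 1)).P := s.P_mono (Nat.le_succ k)
lemma r_Q2 (h : On c s K) (hk : k < K) :
    (s.ep c.γ K k).Q ≤ (s.ep c.γ K (k + 1)).Q := s.Q_mono (Nat.le_succ k)
lemma r_D2 (h : On c s K) (hk : k < K) :
    (s.ep c.γ K k).P ≤ c.γ * (s.sg (k + 1) 0).D := by
  have h1 : (s.P k : ℝ) ≤ s.P (k + 1) := by exact_mod_cast s.P_mono (Nat.le_succ k)
  have h2 := γC h
  have h3 := P_one s (k + 1)
  change (s.P k : ℝ) ≤ c.γ * s.D (k + 1) 0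
  unfold Ms.D
  rw [pow_zero, mul_one]
  nlinarith
lemma r_R2 (h : On c s K) (hk : k < K) :
    (s.sg (k + 1) 0).R = (s.sg k (s.n k)).R := by
  change 2 ^ (s.J (k + 1) + 0) = 2 ^ (s.J k + s.n k)
  rw [s.J_add_n, add_zero]
lemma r_Rt2 (h : On c s K) (hk : k < K) :
    (s.ep c.γ K (k + 1)).Rt = (s.sg k (s.n k)).R := by
  change 2 ^ s.J (k + 1) = 2 ^ (s.J k + s.n k)
  rw [s.J_add_n]
lemma r_A2 (h : On c s K) (hk : k < K) :
    6 ≤ c.γ * (s.ep c.γ K (k + 1)).A0 := by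
  have h2 := γC h
  change 6 ≤ c.γ * (6 * s.C / s.σ ^ 2)
  rw [mul_div_assoc]
  linarith
lemma r_θ20 (h : On c s K) (hk : k < K) :
    0 ≤ (s.ep c.γ K (k + 1)).θ0 := (s.θ0_pos (k + 1)).le
lemma r_θ2 (h : On c s K) (hk : k < K) :
    (s.ep c.γ K (k + 1)).θ0 * (100 * s.rad.m ((s.rp k).k + 1) * (s.rp k).R * Real.log (s.ep c.γ K k).Bg) ≤ 1 := by
  change 1 / (100 * ((s.m k : ℕ) : ℝ) * ((s.R k : ℕ) : ℝ) * Real.log (s.Bg k)) *
    (100 * ((s.m k : ℕ) : ℝ) * ((s.R k : ℕ) : ℝ) * Real.log (s.Bg k)) ≤ 1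
  rw [one_div]
  exact inv_mul_le_one
lemma r_τ2 (h : On c s K) (hk : k < K) :
    (s.ep c.γ K k).Bg ^ 30 * Real.exp (-(s.ep c.γ K k).ϑ * (s.ep c.γ K k).ρ / 2) ≤ (s.ep c.γ K (k + 1)).τ := le_rfl

end Crest.Agent.N334.AC.P.On
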