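import Crest.Agent.N334.AC.P.Par0

/-! # S0520 part P: ledger of the start and of the probabilities (leaf: fill the sorries, keep the statements) -/

set_option autoImplicit false

open Finset

namespace Crest.Agent.N334.AC.P

variable {d M : ℕ} [NeZero M] {c : Cx d M} {s : Ms d} {K : ℕ}

namespace Pa5

lemma x4 (s : Ms d) : (s.sg 0 0).x ^ 4 = pw (-(4 / 5) * s.y 0) := by
  change pw (-s.ξ 0 0) ^ 4 = _
  rw [pw_pow, Ms.ξ, if_pos rfl, Nat.zero_sub, s.y_zero]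
  congr 1
  push_cast
  ring

/-- `σ ≤ 2 · 2^{-y}` -/
lemma σ_le (s : Ms d) : s.σ ≤ 2 * pw (-s.y 0) := by
  have h := s.σ_le
  have h1 : pw 1 = 2 := by simpa using pw_nat 1
  rwa [sub_eq_add_neg, pw_add, h1, ← s.y_zero] at h

lemma free (s : Ms d) {a : ℕ} (ha : a ≤ 1000) :
    (s.y 0 : ℝ) ^ a * pw (-s.y 0) ≤ pw (-(4 / 5) * s.y 0) := by
  refine (mul_le_mul_of_nonneg_right (s.poly 0 ha) (pw_pos _).le).trans ?_
  rw [← pw_add]
  exact pw_le (by linarith [(Nat.cast_nonneg (s.y 0) : (0 : ℝ) ≤ _)])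

lemma C5 (s : Ms d) : 8 * s.C ^ 5 ≤ s.y 0 := by
  have h1 : s.C ^ 5 ≤ s.C ^ 20 := pow_le_pow_right₀ s.hC (by norm_num)
  have h2 : 0 ≤ s.C ^ 5 := pow_nonneg (zero_le_one.trans s.hC) 5
  linarith [s.C_le 0]

lemma term (s : Ms d) (k M : ℕ) [NeZero M] :
    vol d M (s.r (k + 1)) * (2 * s.b k) ≤ Real.exp (-(s.y k : ℝ) ^ 7 / 10) := by
  rcases k with _ | k
  · rw [Ms.b, mul_zero, mul_zero]
    exact (Real.exp_pos _).le
  have hy := s.yR (k + 1)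
  have h1 := s.r_le_pw (k + 1 + 1)
  have h2 := s.dypow (k + 1) (show 6 < 7 by norm_num)
  have h3 : (s.P k : ℝ) = (s.y (k + 1) : ℝ) ^ 7 := by
    rw [Ms.P, s.y_succ]; push_cast; ring
  rw [s.y_succ (k + 1)] at h1
  rw [Ms.b, h3]
  generalize s.y (k + 1) = y at *
  have h4 : (1 : ℝ) ≤ (y : ℝ) ^ 6 := one_le_pow₀ (by linarith)
  have hd : (3 : ℝ) ≤ d := by exact_mod_cast s.hd
  have h5 : pw (3 * ((y ^ 2 : ℕ) : ℝ) ^ 3) = pw (3 * (y : ℝ) ^ 6) := by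
    congr 1; push_cast; ring
  have h6 : pw 0 ≤ pw (3 * (y : ℝ) ^ 6) := pw_le (by positivity)
  have h7 : pw (3 * (y : ℝ) ^ 6 + (2 : ℕ)) ≤ pw (5 * (y : ℝ) ^ 6) := pw_le (by push_cast; linarith)
  rw [pw_add, pw_nat] at h7
  rw [pw_zero] at h6
  have h8 : vol d M (s.r (k + 1 + 1)) ≤ pw (5 * (y : ℝ) ^ 6) ^ d :=
    (vol_le _).trans (pow_le_pow_left₀ (by positivity) (by linarith) d)
  rw [pw_pow] at h8
  have h9 := h8.trans (pw_le_exp (by positivity))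
  have h10 : (2 : ℝ) ≤ Real.exp 1 := by linarith [Real.add_one_le_exp 1]
  calc _ ≤ Real.exp (7 / 10 * (d * (5 * (y : ℝ) ^ 6))) *
        (Real.exp 1 * Real.exp (-(y : ℝ) ^ 7 / 5)) := by gcongr
    _ ≤ _ := by
      rw [← Real.exp_add, ← Real.exp_add]
      exact Real.exp_le_exp.2 (by nlinarith)

end Pa5

open Pa5

namespace On

lemma z_N_eq (h : On c s K) : ∃ W, (s.ep c.γ K 0).a ≤ W ∧ c.N = 2 ^ W := ⟨_, le_rfl, h.N⟩
lemma z_R1 (h : On c s K) : (s.sg 0 0).R = 1 := rfl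
lemma z_Rt1 (h : On c s K) : (s.ep c.γ K 0).Rt = 1 := rfl
lemma z_h_lo (h : On c s K) : c.C ^ 2 ≤ (s.sg 0 0).x ^ 2 / (s.ep c.γ K 0).q := by
  have hγ := h.ok.γ0
  have h1 := h.ok.γ_hi
  have hy := s.yR 0
  have hC := s.hC
  have hQ : (s.Q 0 : ℝ) = (s.y 0 : ℝ) ^ 84 := by
    rw [Ms.Q, if_pos rfl, Ms.P]; push_cast; ring
  have h0 : 0 < s.Q 0 * c.γ := by rw [hQ]; positivity
  change _ ≤ _ / √(s.Q 0 * c.γ)
  rw [le_div_iff₀ (Real.sqrt_pos.2 h0)]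
  refine (abs_le_of_sq_le_sq' ?_ (sq_nonneg _)).2
  rw [mul_pow, Real.sq_sqrt h0.le, ← pow_mul, ← pow_mul, x4, hQ, h.C]
  rw [h.C, h.σ] at h1
  have h2 := pow_le_pow_left₀ s.σ0.le (σ_le s) 2
  have h3 : pw (-s.y 0) ≤ 1 := (pw_le (by linarith)).trans_eq pw_zero
  have h4 := pw_pos (-s.y 0)
  refine le_trans ?_ (free s (a := 85) (by norm_num))
  calc s.C ^ (2 * 2) * ((s.y 0 : ℝ) ^ 84 * c.γ)
      ≤ s.C ^ (2 * 2) * ((s.y 0 : ℝ) ^ 84 * (s.C * (2 * pw (-s.y 0)) ^ 2)) := by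
        gcongr
        exact h1.trans (by gcongr)
    _ = 4 * s.C ^ 5 * pw (-s.y 0) * ((s.y 0 : ℝ) ^ 84 * pw (-s.y 0)) := by ring
    _ ≤ s.y 0 * 1 * ((s.y 0 : ℝ) ^ 84 * pw (-s.y 0)) := by
        gcongr
        linarith [C5 s, pow_nonneg (zero_le_one.trans hC) 5]
    _ = _ := by ring
lemma z_θ_lo (h : On c s K) : c.C ^ 2 * c.σ ≤ (s.sg 0 0).x ^ 4 := by
  rw [x4, h.C, h.σ]
  refine le_trans ?_ (free s (a := 1) (by norm_num))
  have h1 : s.C ^ 2 ≤ s.C ^ 5 := pow_le_pow_right₀ s.hC (by norm_num)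
  have h2 := mul_le_mul_of_nonneg_left (σ_le s) (sq_nonneg s.C)
  have h3 : 2 * s.C ^ 2 ≤ s.y 0 := by linarith [C5 s, sq_nonneg s.C]
  have h4 := mul_le_mul_of_nonneg_right h3 (pw_pos (-s.y 0)).le
  rw [pow_one]
  linarith
lemma z_e_lo (h : On c s K) : c.κ * c.σ ≤ (s.sg 0 0).e := by
  have hy := s.yR 0
  have e1 : (s.sg 0 0).e = 1 / (4 * (s.y 0 : ℝ) ^ 42) := by
    change s.e 0 0 = _
    rw [Ms.e, Ms.E, Ms.e0, Ms.P]
    push_cast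
    ring
  rw [e1, Cx.κ, h.C, h.σ, le_div_iff₀ (by positivity)]
  refine le_trans ?_ ((free s (a := 44) (by norm_num)).trans
    ((pw_le (by linarith)).trans_eq pw_zero))
  have h1 := pw_pos (-s.y 0)
  calc _ ≤ s.y 0 * (2 * pw (-s.y 0)) * (4 * (s.y 0 : ℝ) ^ 42) := by
        gcongr
        exacts [s.σ0.le, s.κ_le 0, σ_le s]
    _ = 8 * ((s.y 0 : ℝ) ^ 43 * pw (-s.y 0)) := by ring
    _ ≤ s.y 0 * ((s.y 0 : ℝ) ^ 43 * pw (-s.y 0)) := by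
        gcongr
        linarith
    _ = _ := by ring
lemma z_D_lo (h : On c s K) : c.C ≤ c.γ * (s.sg 0 0).D := by
  have h1 := h.ok.γ_lo
  have h2 := s.σ0
  have hy := s.yR 0
  have h3 : s.C ≤ s.P 0 := by
    have h4 : s.C ≤ s.C ^ 5 := le_self_pow₀ s.hC (by norm_num)
    have h5 : (s.y 0 : ℝ) ≤ (s.y 0 : ℝ) ^ 14 := le_self_pow₀ (by linarith) (by norm_num)
    rw [Ms.P]
    push_cast
    linarith [C5 s, s.hC]
  change _ ≤ _ * s.D 0 0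
  rw [h.C, h.σ] at h1
  rw [h.C, Ms.D, pow_zero, mul_one, ← mul_div_assoc, ← mul_div_assoc, le_div_iff₀ (by positivity)]
  calc s.C * s.σ ^ 2 ≤ s.P 0 * (s.C * c.γ) := by gcongr
    _ = _ := by ring
lemma z_A_lo (h : On c s K) : c.C / c.σ ^ 2 ≤ (s.ep c.γ K 0).A0 := by
  rw [h.C, h.σ]
  exact div_le_div_of_nonneg_right (by linarith [s.hC]) (sq_nonneg _)
lemma z_θ0_le (h : On c s K) : (s.ep c.γ K 0).θ0 ≤ c.σ ^ 2 / c.C := by
  rw [h.C, h.σ]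
  exact le_rfl

end On

namespace Ms

variable (s) (γ : ℝ) (K k j : ℕ)

lemma nxt : th3 (s.ep γ K k) (s.sg k j) = th0 (s.ep γ K k) (s.sg k (j + 1)) := by
  have h1 : 2 * (s.sg k j).R = (s.sg k (j + 1)).R := by
    change 2 * 2 ^ (s.J k + j) = 2 ^ (s.J k + j + 1)
    ring
  have h2 : D' (s.ep γ K k) (s.sg k j) = (s.sg k (j + 1)).D := by
    change (s.P k : ℝ) ^ 3 * s.Q k * s.D k j = s.D k (j + 1)
    rw [D, D]
    ring
  rw [th3, h1, h2]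
  rfl
lemma ρ_le : 10 * (s.ep γ K k).ρ ≤ s.rad.r (k + 1) := by
  change 10 * s.ρ k ≤ 100 * s.m k * s.ρ k ^ 2
  have h1 : 1 ≤ s.m k := Nat.one_le_pow _ _ (lt_of_lt_of_le (by norm_num) (s.y_ge k))
  exact Nat.mul_le_mul (by omega) (Nat.le_self_pow two_ne_zero _)
lemma s_le : (s.ep γ K k).s ≤ s.rad.r (k + 1) := (s.sf_le k).trans (s.r_mono (Nat.le_succ k))
lemma b0 : 0 ≤ s.b k := by
  cases k
  exacts [le_rfl, (Real.exp_pos _).le]
lemma bud : (s.n k + 1 : ℝ) * Real.exp (-((s.ep γ K k).P : ℝ) / 4) ≤ s.b (k + 1) := by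
  have h1 : (s.n k : ℝ) + 2 ≤ 2 * (s.y k : ℝ) ^ 4 := by exact_mod_cast s.n_lt k
  have h2 := s.ypow k (show 4 < 14 by norm_num)
  have h3 : (s.P k : ℝ) = (s.y k : ℝ) ^ 14 := by rw [P]; push_cast; rfl
  have h4 : (s.n k + 1 : ℝ) ≤ Real.exp (s.P k / 20) := by
    linarith [Real.add_one_le_exp ((s.P k : ℝ) / 20), pow_nonneg (Nat.cast_nonneg (s.y k) : (0 : ℝ) ≤ _) 4]
  refine (mul_le_mul_of_nonneg_right h4 (Real.exp_pos _).le).trans (le_of_eq ?_)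
  rw [← Real.exp_add, b]
  change Real.exp (_ + -(s.P k : ℝ) / 4) = _
  congr 1
  ring
lemma hrec (M : ℕ) [NeZero M] :
    (vol d M (s.rad.Rc (k + 1)) * (2 * s.b k)) ^ s.rad.m (k + 1) ≤ s.b (k + 1) := by
  have h0 := s.b0 k
  have h1 : vol d M (s.Rc (k + 1)) * (2 * s.b k) ≤ Real.exp (-(s.y k : ℝ) ^ 7 / 10) :=
    (mul_le_mul_of_nonneg_right (vol_mono (le_of_add_le_left (s.Rc_le k))) (by positivity)).trans
      (term s k M)
  refine (pow_le_pow_left₀ (mul_nonneg (zero_le_one.trans (one_le_vol _)) (by positivity)) h1 _).trans ?_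
  rw [← Real.exp_nat_mul, b]
  change Real.exp ((s.m k : ℝ) * _) ≤ _
  rw [m, P]
  push_cast
  refine Real.exp_le_exp.2 ?_
  linarith [s.ypow k (show 14 < 15 by norm_num), pow_nonneg (Nat.cast_nonneg (s.y k) : (0 : ℝ) ≤ _) 14]
lemma term_le (M : ℕ) [NeZero M] : vol d M (s.rad.r (k + 1)) * (2 * s.b k) ≤ (1 / 2) ^ (k + 2) := by
  have hy := s.yR k
  have h1 : (s.y k : ℝ) ≤ (s.y k : ℝ) ^ 7 := le_self_pow₀ (by linarith) (by norm_num)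
  have h2 : 10 * (k + 2) ≤ s.y k := by
    have h := s.two_pow_le_y k
    have := Nat.lt_two_pow_self (n := k)
    rw [pow_add] at h
    omega
  have h3 : 10 * ((k + 2 : ℕ) : ℝ) ≤ s.y k := by exact_mod_cast h2
  refine (term s k M).trans ((exp_le_pw (by linarith)).trans
    ((pw_le (b := -((k + 2 : ℕ) : ℝ)) (by linarith)).trans_eq ?_))
  rw [pw_neg, pw_nat, one_div, inv_pow]
lemma hlow (M : ℕ) [NeZero M] (k1 : ℕ) :
    ∑ k ∈ range k1, vol d M (s.rad.r (k + 1)) * (2 * s.b k) ≤ 1 / 2 := by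
  refine (sum_le_sum fun k _ => s.term_le k M).trans ?_
  have h := geom_sum_Ico_le_of_lt_one (x := (1 / 2 : ℝ)) (m := 0) (n := k1) (by norm_num) (by norm_num)
  simp only [pow_add, ← sum_mul, range_eq_Ico]
  linarith
lemma hhigh (M : ℕ) [NeZero M] (k1 : ℕ) :
    ∑ k ∈ Ico (k1 - 1) (K + 2), vol d M (s.rad.r (k + 1)) * (2 * s.b k) ≤ (1 / 2) ^ k1 := by
  refine (sum_le_sum fun k _ => s.term_le k M).trans ?_
  have h := geom_sum_Ico_le_of_lt_one (x := (1 / 2 : ℝ)) (m := k1 - 1) (n := K + 2) (by norm_num)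
    (by norm_num)
  have h1 : (1 / 2 : ℝ) ^ (k1 - 1 + 1) ≤ (1 / 2) ^ k1 :=
    pow_le_pow_of_le_one (by norm_num) (by norm_num) (by omega)
  simp only [pow_add, ← sum_mul] at h1 ⊢
  norm_num at h h1 ⊢
  linarith
lemma last : 2 ^ s.J (K + 1) < 2 * (s.sg K (s.n K)).R := by
  change _ < 2 * 2 ^ (s.J K + s.n K)
  rw [s.J_add_n]
  have := Nat.two_pow_pos (s.J (K + 1))
  omega
lemma r_ge : 2 ^ s.J (K + 1) ≤ s.rad.r (K + 1) := by
  change 2 ^ s.y K ^ 4 ≤ 100 * s.m K * (2 ^ s.y K ^ 6) ^ 2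
  have h0 : 0 < s.y K := lt_of_lt_of_le (by norm_num) (s.y_ge K)
  have h1 : 1 ≤ s.m K := Nat.one_le_pow _ _ h0
  exact ((Nat.pow_le_pow_right two_pos (Nat.pow_le_pow_right h0 (by norm_num))).trans
    (Nat.le_self_pow two_ne_zero _)).trans (Nat.le_mul_of_pos_left _ (by omega))
lemma le_M : K ≤ 2 ^ s.J (K + 1) := by
  change K ≤ 2 ^ s.y K ^ 4
  have h1 := s.two_pow_le_y K
  have h2 := Nat.lt_two_pow_self (n := K)
  have h3 := Nat.le_self_pow (n := 4) (by norm_num) (s.y K)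
  have h4 := Nat.lt_two_pow_self (n := s.y K ^ 4)
  rw [pow_add] at h1
  omega

end Ms

lemma exists_obs_par {ε : ℝ} (hε : 0 < ε) :
    ∃ k1 nX : ℕ, (1 / 2 : ℝ) ^ nX + nX * (1 / 2 : ℝ) ^ k1 ≤ ε ∧ 1 ≤ nX := by
  obtain ⟨n, hn⟩ := exists_pow_lt_of_lt_one hε (show (1 / 2 : ℝ) < 1 by norm_num)
  obtain ⟨k, hk⟩ := exists_pow_lt_of_lt_one (show 0 < ε / 2 / (n + 1) by positivity)
    (show (1 / 2 : ℝ) < 1 by norm_num)
  refine ⟨k, n + 1, ?_, by omega⟩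
  rw [lt_div_iff₀ (by positivity)] at hk
  push_cast
  rw [pow_succ]
  linarith

end Crest.Agent.N334.AC.P
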