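import Crest.Agent.N334.AC.P.Par1
import Crest.Agent.N334.AC.P.Par2
import Crest.Agent.N334.AC.P.Par3
import Crest.Agent.N334.AC.P.Par4
import Crest.Agent.N334.AC.P.Par5

/-! # S0520 part P: existence of the schedule (leaf; fill the sorries, keep the statements)
`u = 1/σ`, `y_0 = ⌈log₂ u⌉`, `y_{k+1} = y_k²`, `J_0 = 0`, `J_{k+1} = y_k⁴`, `n k = J_{k+1} - J_k`, `M = 2^{J_{K+1}}`, `R = 2^{J_k+j}`,
`P = y^14`, `Q = P⁶` (`k = 0`), `P⁶⌈u²⌉`, `q = √(Qγ)`, `ρ = 2^{y⁶}`, `ϑ = 2^{-3y⁵}`, `Bg = 2^{y^15}`, `A0 = 6C u²`, `θ0 = σ²/C` then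
`1/(100 m R log Bg)` of the previous epoch, `τ = 0` then `Bg^30 e^{-ϑρ/2}` of the previous epoch, `a_{k+1} = a_k - P_k`,
`N = 2^{a_0}`, `a_0 = ∑_{k ≤ K} P_k`; `x⁴ = σ^{0.9} min(1, 2^{-(j - 200 y_0)/4})` (`k = 0`), `2^{-J_k/50 - j/4}`;
`F = Cσ³/σ^{1/20}` (`cap1`, `j ≤ 200 y_0`), else `C σ^{-10} 2^{-J/4}` (`cap2`); `X` and `e` are partial sums, `z² = ` final `X`,
`e_0 = σ^{1/20}`, `D = P C u² (P³Q)^j`; release: `R = ρ²`, `m(k+1) = y_k⁸`, `Rc(k+1) = 30 m R`, `r(k+1) = 100 m R`, `r 0 = 0`,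
`s_{k+1} = 40 m R`, `s_0 = 0`, `ε = 2^{-y⁴/40}`, `zr = 2^{-y⁴/100}`, `b 0 = 0`, `b (k+1) = e^{-P_k/5}`.
Any other choice that proves the statement is fine. -/

set_option autoImplicit false

open Finset Complex
open scoped Matrix.Norms.L2Operator Matrix

namespace Crest.Agent.N334.AC.P

variable {d M : ℕ} [NeZero M] {c : Cx d M} {e : Ep} {g : Sg} {f : Ref d M}

theorem On.led {s : Ms d} {K k j : ℕ} (h : On c s K) (hk : k ≤ K) (hj : j ≤ s.n k) :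
    Led c (s.ep c.γ K k) (s.sg k j) where
  ok := h.ok
  P_lo := h.l_P_lo hk hj
  Q_lo := h.l_Q_lo hk hj
  q0 := h.l_q0 hk hj
  q_sq := h.l_q_sq hk hj
  q_hi := h.l_q_hi hk hj
  alt := h.l_alt hk hj
  x0 := h.l_x0 hk hj
  x_le := h.l_x_le hk hj
  x_ge := h.l_x_ge hk hj
  main := h.l_main hk hj
  X0 := h.l_X0 hk hj
  X_inc := h.l_X_inc hk hj
  z0 := h.l_z0 hk hj
  X_z := h.l_X_z hk hj
  e0 := h.l_e0 hk hj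
  e_inc := h.l_e_inc hk hj
  e_hi := h.l_e_hi hk hj
  D1 := h.l_D1 hk hj
  R1 := h.l_R1 hk hj
  Rρ := h.l_Rρ hk hj
  F0 := h.l_F0 hk hj
  F_le := h.l_F_le hk hj
  cap := h.l_cap hk hj
  Ft0 := h.l_Ft0 hk hj
  Ft_le := h.l_Ft_le hk hj
  capT := h.l_capT hk hj
  four := h.l_four hk hj
  A00 := h.l_A00 hk hj
  ϑ0 := h.l_ϑ0 hk hj
  ϑ1 := h.l_ϑ1 hk hj
  θ1 := h.l_θ1 hk hj
  ϑG := h.l_ϑG hk hj
  ct := h.l_ct hk hj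
  B_K := h.l_B_K hk hj
  B_x := h.l_B_x hk hj
  B_σ := h.l_B_σ hk hj
  B_ρ := h.l_B_ρ hk hj
  ρσ := h.l_ρσ hk hj
  tail := h.l_tail hk hj
  τ0 := h.l_τ0 hk hj
  τ_le := h.l_τ_le hk hj
  logv := h.l_logv hk hj
  mult := h.l_mult hk hj

theorem On.ledR {s : Ms d} {K k : ℕ} (h : On c s K) (hk : k < K) :
    LedR c s.rad (s.ep c.γ K k) (s.sg k (s.n k)) (s.rp k) (s.ep c.γ K (k + 1)) (s.sg (k + 1) 0) where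
  led := h.led hk.le le_rfl
  m1 := h.r_m1 hk
  R_lo := h.r_R_lo hk
  Rc := h.r_Rc hk
  R_ge := h.r_R_ge hk
  s2 := h.r_s2 hk
  N_eq := h.r_N_eq hk
  a2 := h.r_a2 hk
  B_η := h.r_B_η hk
  B_R := h.r_B_R hk
  ε0 := h.r_ε0 hk
  J_lo := h.r_J_lo hk
  J_hi := h.r_J_hi hk
  J_P := h.r_J_P hk
  zr0 := h.r_zr0 hk
  zr := h.r_zr hk
  e_inc := h.r_e_inc hk
  e2_hi := h.r_e2_hi hk
  ε_x := h.r_ε_x hk
  x2 := h.r_x2 hk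
  x21 := h.r_x21 hk
  q2 := h.r_q2 hk
  x2q := h.r_x2q hk
  G0x := h.r_G0x hk
  X2 := h.r_X2 hk
  P2 := h.r_P2 hk
  Q2 := h.r_Q2 hk
  D2 := h.r_D2 hk
  R2 := h.r_R2 hk
  Rt2 := h.r_Rt2 hk
  A2 := h.r_A2 hk
  θ20 := h.r_θ20 hk
  θ2 := h.r_θ2 hk
  τ2 := h.r_τ2 hk

theorem On.led0 {s : Ms d} {K : ℕ} (h : On c s K) : Led0 c (s.ep c.γ K 0) (s.sg 0 0) where
  led := h.led (Nat.zero_le _) (Nat.zero_le _)
  N_eq := h.z_N_eq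
  R1 := h.z_R1
  Rt1 := h.z_Rt1
  h_lo := h.z_h_lo
  θ_lo := h.z_θ_lo
  e_lo := h.z_e_lo
  D_lo := h.z_D_lo
  A_lo := h.z_A_lo
  θ0_le := h.z_θ0_le

theorem On.sched {s : Ms d} {K k1 : ℕ} (h : On c s K) (hk : k1 ≤ K) :
    Sched c s.rad k1 K (s.ep c.γ K) s.n s.sg s.rp s.b ((1 / 2) ^ k1) where
  led0 := h.led0
  led := fun _ hk _ hj => h.led hk hj
  nxt := fun k _ j _ => s.nxt _ _ k j
  rel := fun _ hk => ⟨h.ledR hk, rfl⟩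
  ρ_le := s.ρ_le _ _
  s_le := s.s_le _ _
  b0 := s.b0
  bud := fun k _ => s.bud _ _ k
  hrec := fun k => s.hrec k M
  hlow := s.hlow M k1
  hhigh := s.hhigh K M k1
  k1_le := hk
  last := h.hM.trans_lt (s.last K)
  r_ge := h.hM.trans_le (s.r_ge K)

theorem exists_sched (d : ℕ) (hd : 3 ≤ d) (C : ℝ) (hC : 1 ≤ C) : ∃ c₀ > (0 : ℝ), ∀ σ : ℝ, 0 < σ → σ < c₀ →
    ∀ ε > (0 : ℝ), ∃ (ρ : Rad) (k1 nX : ℕ) (τ : ℝ), (1 / 2) ^ nX + nX * τ ≤ ε ∧ 1 ≤ nX ∧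
      ∀ M₀ : ℕ, ∃ M N : ℕ, M₀ ≤ M ∧ 0 < M ∧ 0 < N ∧ 4 * (nX * (4 * ρ.r k1 + 1)) ≤ M ∧
        ∀ [NeZero M] (c : Cx d M), c.C = C → c.σ = σ → c.N = N → (∀ x, 0 ≤ c.r x ∧ c.r x ≤ 1) →
          Init d M C σ c.E c.w0 → ∃ K ep n sg rp b, Sched c ρ k1 K ep n sg rp b τ := by
  obtain ⟨c₀, h0, h1⟩ := Ms.exists_ms d hd C hC
  refine ⟨c₀, h0, fun σ hσ hσ' ε hε => ?_⟩
  obtain ⟨s, rfl, rfl⟩ := h1 σ hσ hσ'
  obtain ⟨k1, nX, h2, h3⟩ := exists_obs_par hε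
  refine ⟨s.rad, k1, nX, (1 / 2) ^ k1, h2, h3, fun M₀ => ?_⟩
  set K := k1 + M₀ + 4 * (nX * (4 * s.rad.r k1 + 1)) with hK
  have h4 := s.le_M K
  refine ⟨2 ^ s.J (K + 1), 2 ^ s.a K 0, by omega, by positivity, by positivity, by omega, ?_⟩
  intro _ c e1 e2 e3 e4 e5
  have h : On c s K := ⟨e1, e2, e3, rfl, e4, by rw [e1, e2]; exact e5⟩
  exact ⟨K, _, _, _, _, _, h.sched (by omega)⟩

end Crest.Agent.N334.AC.P
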