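import Crest.Agent.N334.AC.P.Num

/-! # S0520 part P (helper27): the concrete schedule, definitions and toolkit (proofs: helper50).
`k` = epoch, `j` = stage inside the epoch, `J k + j` = absolute stage. `pw a = 2^a` (real exponent). -/

set_option autoImplicit false
set_option linter.dupNamespace false

open Finset

namespace Crest.Agent.N334.AC.P

/-- master data -/
structure Ms (d : ℕ) where
  C : ℝ
  σ : ℝ
  y0 : ℕ
  hd : 3 ≤ d
  hC : 1 ≤ C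
  σ0 : 0 < σ
  lo : 1 ≤ σ * 2 ^ y0
  hi : σ * 2 ^ y0 ≤ 2
  big : (1000 * d * C) ^ (100 * d) ≤ (y0 : ℝ)

/-- `2 ^ a` -/
noncomputable def pw (a : ℝ) : ℝ := (2 : ℝ) ^ a

namespace Ms

variable {d : ℕ} (s : Ms d)

def y (k : ℕ) : ℕ := s.y0 ^ 2 ^ k
def J : ℕ → ℕ
  | 0 => 0
  | k + 1 => s.y k ^ 4
def n (k : ℕ) : ℕ := s.J (k + 1) - s.J k
def P (k : ℕ) : ℕ := s.y k ^ 14
noncomputable def Q (k : ℕ) : ℕ := if k = 0 then s.P k ^ 6 else s.P k ^ 6 * ⌈1 / s.σ ^ 2⌉₊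
def ρ (k : ℕ) : ℕ := 2 ^ s.y k ^ 6
noncomputable def ϑ (k : ℕ) : ℝ := 1 / 2 ^ (3 * s.y k ^ 5)
noncomputable def Bg (k : ℕ) : ℝ := 2 ^ s.y k ^ 15
/-- isolation unit of the release that ends epoch `k` -/
def R (k : ℕ) : ℕ := s.ρ k ^ 2
def m (k : ℕ) : ℕ := s.y k ^ 8
def r : ℕ → ℕ
  | 0 => 0
  | k + 1 => 100 * s.m k * s.R k
def Rc : ℕ → ℕ
  | 0 => 0
  | k + 1 => 30 * s.m k * s.R k
def mm : ℕ → ℕ
  | 0 => 1
  | k + 1 => s.m k
def sf : ℕ → ℕ
  | 0 => 0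
  | k + 1 => 40 * s.m k * s.R k
noncomputable def θ0 : ℕ → ℝ
  | 0 => s.σ ^ 2 / s.C
  | k + 1 => 1 / (100 * s.m k * s.R k * Real.log (s.Bg k))
noncomputable def τ : ℕ → ℝ
  | 0 => 0
  | k + 1 => s.Bg k ^ 30 * Real.exp (-s.ϑ k * s.ρ k / 2)
/-- digits not yet revealed in epoch `k` -/
def a (K k : ℕ) : ℕ := ∑ i ∈ Ico k (K + 1), s.P i
/-- `x = 2^{-ξ}` -/
noncomputable def ξ (k j : ℕ) : ℝ :=
  if k = 0 then (s.y0 : ℝ) / 5 + ((j - 200 * s.y0 : ℕ) : ℝ) / 16 else (s.J k : ℝ) / 200 + (j : ℝ) / 16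
noncomputable def x (k j : ℕ) : ℝ := pw (-s.ξ k j)
noncomputable def X (k j : ℕ) : ℝ := 3 * s.x k 0 ^ 2 + j * ((s.P k : ℝ) ^ 3 * s.x k 0)
noncomputable def z (k : ℕ) : ℝ := (s.P k : ℝ) ^ 2 * Real.sqrt (s.x k 0)
noncomputable def e0 : ℝ := 1 / (4 * (s.P 0 : ℝ) ^ 3)
noncomputable def E (k : ℕ) : ℝ := s.e0 * (2 - (1 / 2) ^ k)
noncomputable def e (k j : ℕ) : ℝ := s.E k + j * ((s.P k : ℝ) ^ 3 * s.z k)
noncomputable def D (k j : ℕ) : ℝ := s.P k * (s.C / s.σ ^ 2) * ((s.P k : ℝ) ^ 3 * s.Q k) ^ j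
/-- capacity constant at the absolute stage `i` -/
noncomputable def F (i : ℕ) : ℝ :=
  if i ≤ 200 * s.y0 then s.C * s.σ ^ 3 / s.e0 else s.C / s.σ ^ 10 * pw (-(i : ℝ) / 4)
noncomputable def b : ℕ → ℝ
  | 0 => 0
  | k + 1 => Real.exp (-(s.P k : ℝ) / 5)

noncomputable def ep (γ : ℝ) (K k : ℕ) : Ep :=
  { P := s.P k, Q := s.Q k, q := Real.sqrt (s.Q k * γ), ρ := s.ρ k, ϑ := s.ϑ k, Bg := s.Bg k,
    A0 := 6 * s.C / s.σ ^ 2, θ0 := s.θ0 k, τ := s.τ k, a := s.a K k, Rt := 2 ^ s.J k,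
    Ft := s.F (s.J k), s := s.sf k }
noncomputable def sg (k j : ℕ) : Sg :=
  { R := 2 ^ (s.J k + j), x := s.x k j, x' := s.x k (j + 1), X := s.X k j, X' := s.X k (j + 1),
    e := s.e k j, e' := s.e k (j + 1), z := s.z k, D := s.D k j, F := s.F (s.J k + j) }
noncomputable def rp (k : ℕ) : Rp :=
  { k := k, R := s.R k, J := 2 ^ (s.y k ^ 4 / 32), ε := pw (-(s.y k : ℝ) ^ 4 / 40),
    zr := pw (-(s.y k : ℝ) ^ 4 / 100) }

/-! ### toolkit -/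
theorem exists_ms (d : ℕ) (hd : 3 ≤ d) (C : ℝ) (hC : 1 ≤ C) : ∃ c₀ > (0 : ℝ), ∀ σ : ℝ, 0 < σ → σ < c₀ →
    ∃ s : Ms d, s.C = C ∧ s.σ = σ := by
  classical
  set Y : ℕ := ⌈(1000 * d * C) ^ (100 * d)⌉₊ with hY
  refine ⟨1 / 2 ^ Y, by positivity, fun σ h0 h1 => ?_⟩
  have hex : ∃ n : ℕ, 1 ≤ σ * 2 ^ n := by
    obtain ⟨n, hn⟩ := pow_unbounded_of_one_lt (1 / σ) (one_lt_two (α := ℝ))
    exact ⟨n, by rw [div_lt_iff₀ h0] at hn; linarith⟩
  have h2 := Nat.find_spec hex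
  have hY1 : σ * 2 ^ Y < 1 := by rwa [lt_div_iff₀ (by positivity)] at h1
  have h3 : Y < Nat.find hex := by
    by_contra h
    have : (2 : ℝ) ^ Nat.find hex ≤ 2 ^ Y := pow_le_pow_right₀ one_le_two (not_lt.1 h)
    nlinarith
  obtain ⟨n, hn⟩ : ∃ n, Nat.find hex = n + 1 := ⟨Nat.find hex - 1, by omega⟩
  have h4 : ¬ 1 ≤ σ * 2 ^ n := Nat.find_min hex (by omega)
  refine ⟨⟨C, σ, Nat.find hex, hd, hC, h0, h2, ?_, ?_⟩, rfl, rfl⟩
  · rw [hn, pow_succ]; linarith [not_le.1 h4]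
  · exact (Nat.le_ceil _).trans (Nat.cast_le.2 h3.le)

lemma _root_.Crest.Agent.N334.AC.P.pw_pos (a : ℝ) : 0 < pw a := Real.rpow_pos_of_pos two_pos a
lemma _root_.Crest.Agent.N334.AC.P.pw_zero : pw 0 = 1 := Real.rpow_zero 2
lemma _root_.Crest.Agent.N334.AC.P.pw_add (a b : ℝ) : pw (a + b) = pw a * pw b :=
  Real.rpow_add two_pos a b
lemma _root_.Crest.Agent.N334.AC.P.pw_neg (a : ℝ) : pw (-a) = (pw a)⁻¹ := Real.rpow_neg zero_le_two a
lemma _root_.Crest.Agent.N334.AC.P.pw_pow (a : ℝ) (i : ℕ) : pw a ^ i = pw (i * a) := by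
  unfold pw; rw [mul_comm, Real.rpow_mul_natCast zero_le_two]
lemma _root_.Crest.Agent.N334.AC.P.pw_nat (i : ℕ) : pw i = 2 ^ i := Real.rpow_natCast 2 i
lemma _root_.Crest.Agent.N334.AC.P.pw_le {a b : ℝ} (h : a ≤ b) : pw a ≤ pw b :=
  Real.rpow_le_rpow_of_exponent_le one_le_two h
lemma _root_.Crest.Agent.N334.AC.P.sqrt_pw (a : ℝ) : Real.sqrt (pw a) = pw (a / 2) := by
  rw [Real.sqrt_eq_iff_mul_self_eq (pw_pos _).le (pw_pos _).le, ← pw_add, add_halves]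
lemma _root_.Crest.Agent.N334.AC.P.pw_eq_exp (a : ℝ) : pw a = Real.exp (Real.log 2 * a) :=
  Real.rpow_def_of_pos two_pos a
lemma _root_.Crest.Agent.N334.AC.P.exp_le_pw {a : ℝ} (h : a ≤ 0) : Real.exp a ≤ pw a := by
  rw [pw_eq_exp, Real.exp_le_exp]; nlinarith [Real.log_two_lt_d9]
lemma _root_.Crest.Agent.N334.AC.P.pw_le_exp {a : ℝ} (h : 0 ≤ a) : pw a ≤ Real.exp (7 / 10 * a) := by
  rw [pw_eq_exp, Real.exp_le_exp]; nlinarith [Real.log_two_lt_d9]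
lemma _root_.Crest.Agent.N334.AC.P.one_le_pw {a : ℝ} (h : 0 ≤ a) : 1 ≤ pw a := pw_zero ▸ pw_le h
lemma _root_.Crest.Agent.N334.AC.P.pw_one : pw 1 = 2 := Real.rpow_one 2
/-- `t ≤ 2^{3 √t}`-type bound: `t⁴ ≤ 2^{6 t}` -/
lemma _root_.Crest.Agent.N334.AC.P.le_pw {t : ℝ} : t ≤ pw (3 / 2 * t) := by
  rcases le_total t 0 with h | h
  · exact h.trans (pw_pos _).le
  · rw [pw_eq_exp]
    refine le_trans ?_ (Real.add_one_le_exp _)
    nlinarith [Real.log_two_gt_d9]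

variable (k j : ℕ)
lemma y_zero : s.y 0 = s.y0 := by simp [y]
lemma y_succ : s.y (k + 1) = s.y k ^ 2 := by rw [y, y, pow_succ, pow_mul]
lemma y0_le : s.y0 ≤ s.y k := Nat.le_self_pow (by positivity) _
lemma y_mono : Monotone s.y := monotone_nat_of_le_succ fun k => by
  rw [y_succ]; exact Nat.le_self_pow two_ne_zero _
lemma y0_sq_le (hk : 1 ≤ k) : s.y0 ^ 2 ≤ s.y k := by
  have := s.y_mono hk
  rwa [show (1 : ℕ) = 0 + 1 from rfl, y_succ, y_zero] at this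
lemma d3 (s : Ms d) : (3 : ℝ) ≤ d := by exact_mod_cast s.hd
lemma big' : (1000 * d * s.C) ^ (100 * d) ≤ (s.y k : ℝ) := s.big.trans (by exact_mod_cast s.y0_le k)
lemma b1 : (3000 : ℝ) ≤ 1000 * d * s.C := by nlinarith [s.d3, s.hC]
lemma yR : (10 : ℝ) ^ 100 ≤ s.y k := by
  refine le_trans ?_ (s.big' k)
  calc (10 : ℝ) ^ 100 ≤ (1000 * d * s.C) ^ 100 := pow_le_pow_left₀ (by norm_num) (by linarith [s.b1]) _
    _ ≤ _ := pow_le_pow_right₀ (by linarith [s.b1]) (by have := s.hd; omega)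
lemma y_ge : 10 ^ 100 ≤ s.y k := by exact_mod_cast s.yR k
lemma y6 : (10 : ℝ) ^ 6 ≤ s.y k := le_trans (by norm_num) (s.yR k)
lemma y1 : (1 : ℝ) ≤ s.y k := le_trans (by norm_num) (s.y6 k)
lemma y_pos : (0 : ℝ) < s.y k := lt_of_lt_of_le one_pos (s.y1 k)
lemma two_pow_le_y : 2 ^ (k + 10) ≤ s.y k := by
  induction k with
  | zero => exact le_trans (by norm_num) (s.y_ge 0)
  | succ k ih =>
    rw [y_succ]
    calc 2 ^ (k + 1 + 10) ≤ 2 ^ ((k + 10) * 2) := Nat.pow_le_pow_right (by norm_num) (by omega)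
      _ ≤ _ := by rw [pow_mul]; exact Nat.pow_le_pow_left ih 2
/-- every structural constant is below `y` -/
lemma cst : 10 ^ 20 * s.C ^ 20 * (1000 * d : ℝ) ^ (20 * d) ≤ s.y k := by
  refine le_trans ?_ (s.big' k)
  have hd := s.hd
  have h3 := s.d3
  have hC := s.hC
  have h1 : (10 : ℝ) ^ 20 ≤ (1000 * d) ^ (80 * d) :=
    (pow_le_pow_left₀ (by norm_num) (by linarith) 20).trans
      (pow_le_pow_right₀ (by linarith) (by omega))
  have h2 : s.C ^ 20 ≤ s.C ^ (100 * d) := pow_le_pow_right₀ hC (by omega)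
  calc 10 ^ 20 * s.C ^ 20 * (1000 * d : ℝ) ^ (20 * d)
      ≤ (1000 * d) ^ (80 * d) * s.C ^ (100 * d) * (1000 * d : ℝ) ^ (20 * d) := by gcongr
    _ = _ := by rw [mul_pow (1000 * d : ℝ), show 100 * d = 80 * d + 20 * d by ring, pow_add]; ring
lemma κ_le : (100 * d * s.C) ^ (10 * d) ≤ (s.y k : ℝ) := by
  refine le_trans ?_ (s.big' k)
  have h3 := s.d3
  have hC := s.hC
  calc (100 * d * s.C) ^ (10 * d) ≤ (1000 * d * s.C) ^ (10 * d) := by gcongr; norm_num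
    _ ≤ _ := pow_le_pow_right₀ (by linarith [s.b1]) (by omega)
lemma C_le : 10 ^ 20 * s.C ^ 20 ≤ (s.y k : ℝ) := by
  refine le_trans ?_ (s.cst k)
  have hC := s.hC
  exact le_mul_of_one_le_right (by positivity) (one_le_pow₀ (by linarith [s.d3]))
lemma C_le_y : s.C ≤ s.y k := by
  have h1 : s.C ≤ s.C ^ 20 := le_self_pow₀ s.hC (by norm_num)
  have := s.C_le k
  have hC := s.hC
  nlinarith
lemma d4_le : (1000 * d : ℝ) ^ 4 ≤ s.y k := by
  refine le_trans ?_ (s.cst k)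
  have hC := s.hC
  have hd := s.hd
  have h1 : (1 : ℝ) ≤ 10 ^ 20 * s.C ^ 20 := one_le_mul_of_one_le_of_one_le (by norm_num) (one_le_pow₀ hC)
  exact (pow_le_pow_right₀ (by linarith [s.d3]) (by omega)).trans
    (le_mul_of_one_le_left (by positivity) h1)
lemma dR : 10 ^ 6 * (d : ℝ) ≤ s.y k := by
  refine le_trans ?_ (s.d4_le k)
  have h3 := s.d3
  have : (d : ℝ) ≤ d ^ 4 := le_self_pow₀ (by linarith) (by norm_num)
  rw [mul_pow]; nlinarith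
lemma d_le : 10 ^ 6 * d ≤ s.y k := by exact_mod_cast s.dR k
/-- `c y^a ≤ y^b` -/
lemma ypow {a b : ℕ} (h : a < b) : 10 ^ 6 * (s.y k : ℝ) ^ a ≤ (s.y k : ℝ) ^ b :=
  calc 10 ^ 6 * (s.y k : ℝ) ^ a ≤ s.y k * (s.y k : ℝ) ^ a := by gcongr; exact s.y6 k
    _ = (s.y k : ℝ) ^ (a + 1) := by ring
    _ ≤ _ := pow_le_pow_right₀ (s.y1 k) h
lemma dypow {a b : ℕ} (h : a < b) : 10 ^ 6 * d * (s.y k : ℝ) ^ a ≤ (s.y k : ℝ) ^ b :=
  calc 10 ^ 6 * d * (s.y k : ℝ) ^ a ≤ s.y k * (s.y k : ℝ) ^ a := by gcongr; exact s.dR k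
    _ = (s.y k : ℝ) ^ (a + 1) := by ring
    _ ≤ _ := pow_le_pow_right₀ (s.y1 k) h
lemma polyd {a : ℕ} (ha : a ≤ 1000) : ((s.y k : ℝ) ^ a) ^ d ≤ pw (s.y k / 1000) := by
  obtain ⟨t, ht0, ht⟩ : ∃ t : ℝ, 0 ≤ t ∧ t ^ 4 = s.y k :=
    ⟨√(√(s.y k)), Real.sqrt_nonneg _, by
      rw [show 4 = 2 * 2 from rfl, pow_mul, Real.sq_sqrt (Real.sqrt_nonneg _),
        Real.sq_sqrt (s.y_pos k).le]⟩
  have h3 := s.d3
  have h1 : 1000 * d ≤ t := by
    have := s.d4_le k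
    rw [← ht] at this
    exact (pow_le_pow_iff_left₀ (by positivity) ht0 (by norm_num)).1 this
  have h2 : (a : ℝ) ≤ 1000 := by exact_mod_cast ha
  have h4 : (s.y k : ℝ) ≤ pw (6 * t) := by
    rw [← ht]
    calc t ^ 4 ≤ pw (3 / 2 * t) ^ 4 := pow_le_pow_left₀ ht0 le_pw 4
      _ = _ := by rw [pw_pow]; congr 1; push_cast; ring
  calc ((s.y k : ℝ) ^ a) ^ d ≤ (pw (6 * t) ^ a) ^ d := by gcongr
    _ = pw (d * (a * (6 * t))) := by rw [pw_pow, pw_pow]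
    _ ≤ _ := by
      refine pw_le ?_
      rw [← ht]
      have h5 : (d : ℝ) * a ≤ t := by nlinarith
      have h6 : (3000 : ℝ) ≤ t := by linarith
      have h7 : (d : ℝ) * a * (6 * t) ≤ t * (6 * t) := by gcongr
      have h8 : 6000 * t ^ 2 ≤ t ^ 2 * t ^ 2 := by gcongr; nlinarith
      nlinarith
/-- polynomials in `y` are free -/
lemma poly {a : ℕ} (ha : a ≤ 1000) : (s.y k : ℝ) ^ a ≤ pw (s.y k / 1000) :=
  (le_self_pow₀ (one_le_pow₀ (s.y1 k)) (by have := s.hd; omega)).trans (s.polyd k ha)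
lemma σ_ge : pw (-s.y0) ≤ s.σ := by
  rw [pw_neg, pw_nat, inv_le_iff_one_le_mul₀ (by positivity)]; exact s.lo
lemma σ_le : s.σ ≤ pw (1 - s.y0) := by
  rw [sub_eq_add_neg, pw_add, pw_neg, pw_nat, pw_one, ← div_eq_mul_inv, le_div_iff₀ (by positivity)]
  exact s.hi
lemma inv_σ_le : 1 / s.σ ≤ pw s.y0 := by
  rw [pw_nat, div_le_iff₀ s.σ0, mul_comm]; exact s.lo
lemma inv_σ2 : 1 / s.σ ^ 2 ≤ pw (2 * s.y0) := by
  have := s.σ0
  calc 1 / s.σ ^ 2 = (1 / s.σ) ^ 2 := by ring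
    _ ≤ pw s.y0 ^ 2 := by gcongr; exact s.inv_σ_le
    _ = _ := by rw [pw_pow]; norm_num
lemma y0R : (s.y0 : ℝ) ≤ s.y k := by exact_mod_cast s.y0_le k
lemma J_eq (hk : 1 ≤ k) : s.J k = s.y k ^ 2 := by
  obtain ⟨k, rfl⟩ : ∃ i, k = i + 1 := ⟨k - 1, by omega⟩
  rw [y_succ, J]; ring
lemma y1N : 1 ≤ s.y k := by exact_mod_cast s.y1 k
lemma J_mono : Monotone s.J := monotone_nat_of_le_succ fun k => by
  rcases Nat.eq_zero_or_pos k with rfl | hk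
  · exact Nat.zero_le _
  · rw [s.J_eq k hk, J]; exact Nat.pow_le_pow_right (s.y1N k) (by norm_num)
lemma J_add_n : s.J k + s.n k = s.J (k + 1) := by
  have : s.J k ≤ s.J (k + 1) := s.J_mono (Nat.le_succ k)
  unfold n; omega
lemma n_le : s.n k ≤ s.y k ^ 4 := Nat.sub_le _ _
lemma nR : (s.n k : ℝ) ≤ (s.y k : ℝ) ^ 4 := by exact_mod_cast s.n_le k
lemma n_lt : s.n k + 2 ≤ 2 * s.y k ^ 4 := by
  have h1 := s.n_le k
  have h2 : s.y k ≤ s.y k ^ 4 := Nat.le_self_pow (by norm_num) _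
  have h3 : 2 ≤ s.y k := le_trans (by norm_num) (s.y_ge k)
  omega
lemma P_mono : Monotone s.P := fun _ _ h => Nat.pow_le_pow_left (s.y_mono h) _
lemma ceil1 : 1 ≤ ⌈1 / s.σ ^ 2⌉₊ := Nat.one_le_iff_ne_zero.2 (by
  have := s.σ0
  exact (Nat.ceil_pos.2 (by positivity)).ne')
lemma Q_ge : s.P k ^ 6 ≤ s.Q k := by
  unfold Q; split_ifs
  · exact le_rfl
  · exact Nat.le_mul_of_pos_right _ s.ceil1
lemma Q_mono : Monotone s.Q := monotone_nat_of_le_succ fun k => by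
  have h1 : s.P k ^ 6 ≤ s.P (k + 1) ^ 6 := Nat.pow_le_pow_left (s.P_mono (Nat.le_succ k)) _
  rcases Nat.eq_zero_or_pos k with rfl | hk
  · exact le_trans (by rw [Q, if_pos rfl]; exact h1) (s.Q_ge _)
  · rw [Q, Q, if_neg hk.ne', if_neg (Nat.succ_ne_zero k)]; exact Nat.mul_le_mul_right _ h1
lemma PR : (s.P k : ℝ) = (s.y k : ℝ) ^ 14 := by simp [P]
/-- `P³ Q ≤ 2^y` -/
lemma PQ_le : (s.P k : ℝ) ^ 3 * s.Q k ≤ pw (s.y k / 100) := by
  have h1 := s.poly k (a := 126) (by norm_num)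
  have hy := s.y6 k
  unfold Q; split_ifs with hk
  · push_cast; rw [PR]
    calc _ = (s.y k : ℝ) ^ 126 := by ring
      _ ≤ _ := h1.trans (pw_le (by linarith))
  · have h2 : (s.y0 : ℝ) ^ 2 ≤ s.y k := by exact_mod_cast s.y0_sq_le k (by omega)
    have h3 : (10 : ℝ) ^ 6 ≤ s.y0 := by simpa [y_zero] using s.y6 0
    have h4 : (⌈1 / s.σ ^ 2⌉₊ : ℝ) ≤ pw (1 + 2 * s.y0) := by
      have := s.σ0
      have h5 := (Nat.ceil_lt_add_one (show 0 ≤ 1 / s.σ ^ 2 by positivity)).le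
      have h6 := one_le_pw (show (0 : ℝ) ≤ 2 * s.y0 by positivity)
      rw [pw_add, pw_one]; linarith [s.inv_σ2]
    push_cast; rw [PR]
    calc _ = (s.y k : ℝ) ^ 126 * ⌈1 / s.σ ^ 2⌉₊ := by ring
      _ ≤ pw (s.y k / 1000) * pw (1 + 2 * s.y0) := by gcongr; exact (pw_pos _).le
      _ ≤ _ := by rw [← pw_add]; exact pw_le (by nlinarith)
lemma x_pos : 0 < s.x k j := pw_pos _
lemma x_anti : s.x k (j + 1) ≤ s.x k j := by
  refine pw_le (neg_le_neg ?_)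
  unfold ξ; split_ifs
  · have : ((j - 200 * s.y0 : ℕ) : ℝ) ≤ (j + 1 - 200 * s.y0 : ℕ) := by exact_mod_cast by omega
    linarith
  · push_cast; linarith
lemma x_le0 : s.x k j ≤ s.x k 0 := antitone_nat_of_succ_le (s.x_anti k) (Nat.zero_le j)
/-- master smallness -/
lemma x0_le : s.x k 0 ≤ pw (-(s.y k : ℝ) / 5) := by
  refine pw_le ?_
  unfold ξ; split_ifs with hk
  · subst hk; simp [y_zero]; linarith
  · rw [s.J_eq k (by omega)]; push_cast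
    have := s.ypow k (show 1 < 2 by norm_num)
    have := s.y_pos k
    linarith
lemma x_ge (hj : j ≤ s.n k + 1) : pw (-(s.y k : ℝ) ^ 4) ≤ s.x k j := by
  refine pw_le (neg_le_neg ?_)
  have h1 : (j : ℝ) ≤ (s.y k : ℝ) ^ 4 + 1 := by
    have : (j : ℝ) ≤ s.n k + 1 := by exact_mod_cast hj
    linarith [s.nR k]
  have h2 := s.ypow k (show 1 < 4 by norm_num)
  have h3 := s.ypow k (show 2 < 4 by norm_num)
  have h4 := s.y1 k
  unfold ξ; split_ifs with hk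
  · have : ((j - 200 * s.y0 : ℕ) : ℝ) ≤ j := by exact_mod_cast Nat.sub_le _ _
    linarith [s.y0R k]
  · rw [s.J_eq k (by omega)]; push_cast; nlinarith
lemma Cσ_le : s.C / s.σ ^ 2 ≤ pw (s.y k / 1000 + 2 * s.y k) := by
  have h1 := s.poly k (a := 1) (by norm_num)
  have := s.σ0
  rw [pw_add, div_eq_mul_one_div]
  exact mul_le_mul ((s.C_le_y k).trans (by simpa using h1))
    (s.inv_σ2.trans (pw_le (by linarith [s.y0R k]))) (by positivity) (pw_pos _).le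
lemma D_le (hj : j ≤ s.n k + 1) : s.D k j ≤ pw ((s.y k : ℝ) ^ 5) := by
  have h1 : (j : ℝ) ≤ (s.y k : ℝ) ^ 4 + 1 := by
    have : (j : ℝ) ≤ s.n k + 1 := by exact_mod_cast hj
    linarith [s.nR k]
  have h2 := s.ypow k (show 1 < 5 by norm_num)
  have h4 := s.y1 k
  have := s.σ0
  have hC := s.hC
  have h5 : (s.P k : ℝ) ≤ pw (s.y k / 1000) := by rw [PR]; exact s.poly k (by norm_num)
  calc s.D k j ≤ pw (s.y k / 1000) * pw (s.y k / 1000 + 2 * s.y k) * pw (s.y k / 100) ^ j := by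
        unfold D
        gcongr
        · exact mul_nonneg (pw_pos _).le (pw_pos _).le
        · exact (pw_pos _).le
        · exact s.Cσ_le k
        · exact s.PQ_le k
    _ ≤ _ := by
      rw [pw_pow, ← pw_add, ← pw_add]
      refine pw_le ?_
      have h6 : (j : ℝ) * (s.y k / 100) ≤ ((s.y k : ℝ) ^ 4 + 1) * (s.y k / 100) := by gcongr
      nlinarith
lemma log_Bg : Real.log (s.Bg k) = (s.y k : ℝ) ^ 15 * Real.log 2 := by simp [Bg]
lemma RR : (s.R k : ℝ) = pw (2 * (s.y k : ℝ) ^ 6) := by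
  have : (s.R k : ℝ) = (2 ^ s.y k ^ 6) ^ 2 := by simp [R, ρ]
  rw [this, ← pw_nat, pw_pow]; push_cast; rfl
lemma mR : (s.m k : ℝ) = (s.y k : ℝ) ^ 8 := by simp [m]
lemma θ0_pos : 0 < s.θ0 k := by
  have := s.σ0
  have hC := s.hC
  cases k with
  | zero => unfold θ0; positivity
  | succ k =>
    have h1 := s.y_pos k
    have h2 := Real.log_pos one_lt_two
    have h3 := pw_pos (2 * (s.y k : ℝ) ^ 6)
    rw [θ0, log_Bg, RR, mR]; positivity
lemma inv_θ0_le : 1 / s.θ0 k ≤ pw (3 * (s.y k : ℝ) ^ 3) := by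
  cases k with
  | zero =>
    rw [θ0, one_div_div]
    refine (s.Cσ_le 0).trans (pw_le ?_)
    linarith [s.ypow 0 (show 1 < 3 by norm_num), s.y_pos 0]
  | succ k =>
    have h1 := s.y_pos k
    have h2 := Real.log_two_lt_d9
    have h3 := pw_pos (2 * (s.y k : ℝ) ^ 6)
    have h4 := s.poly k (a := 24) (by norm_num)
    have h5 := s.ypow k (show 23 < 24 by norm_num)
    have h6 := s.ypow k (show 1 < 6 by norm_num)
    rw [θ0, one_div_one_div, log_Bg, RR, mR, y_succ]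
    calc _ = 100 * Real.log 2 * (s.y k : ℝ) ^ 23 * pw (2 * (s.y k : ℝ) ^ 6) := by ring
      _ ≤ pw (s.y k / 1000) * pw (2 * (s.y k : ℝ) ^ 6) := by
        gcongr
        have : 0 < (s.y k : ℝ) ^ 23 := by positivity
        nlinarith
      _ ≤ _ := by rw [← pw_add]; refine pw_le ?_; push_cast; nlinarith
lemma e0_pos : 0 < s.e0 := by
  have := s.y_pos 0
  rw [e0, PR]; positivity
lemma e0_le_E : s.e0 ≤ s.E k := by
  have h1 : (1 / 2 : ℝ) ^ k ≤ 1 := pow_le_one₀ (by norm_num) (by norm_num)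
  have := s.e0_pos
  unfold E; nlinarith
lemma e_step : s.e k (s.n k + 1) + s.P k * (s.rp k).zr ≤ s.E (k + 1) := by
  have hy := s.y_pos k
  have hy1 := s.y1 k
  have h0 := s.y_pos 0
  -- the room is at least `1 / y^44`
  have h1 : 1 / (s.y k : ℝ) ^ 44 ≤ s.e0 * (1 / 2) ^ (k + 1) := by
    have h2 : (2 : ℝ) ^ (k + 1) ≤ s.y k :=
      (pow_le_pow_right₀ one_le_two (show k + 1 ≤ k + 10 by omega)).trans
        (by exact_mod_cast s.two_pow_le_y k)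
    have h3 : (s.y 0 : ℝ) ≤ s.y k := by exact_mod_cast s.y_mono (Nat.zero_le k)
    rw [e0, PR, one_div_pow, one_div_mul_one_div]
    refine one_div_le_one_div_of_le (by positivity) ?_
    calc 4 * ((s.y 0 : ℝ) ^ 14) ^ 3 * 2 ^ (k + 1) ≤ s.y k * ((s.y k : ℝ) ^ 14) ^ 3 * s.y k := by
          gcongr; linarith [s.y6 k]
      _ = _ := by ring
  have h2 : s.z k ≤ (s.y k : ℝ) ^ 28 * pw (-(s.y k : ℝ) / 10) := by
    rw [z, PR, ← pow_mul]
    gcongr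
    refine (Real.sqrt_le_sqrt (s.x0_le k)).trans ?_
    rw [sqrt_pw]; exact pw_le (by linarith)
  have h3 : (s.rp k).zr ≤ pw (-(s.y k : ℝ) / 10) :=
    pw_le (by linarith [s.ypow k (show 1 < 4 by norm_num)])
  have h4 : ((s.n k + 1 : ℕ) : ℝ) ≤ 2 * (s.y k : ℝ) ^ 4 := by
    have : s.n k + 1 ≤ 2 * s.y k ^ 4 := by have := s.n_lt k; omega
    exact_mod_cast this
  have h5 : (s.y k : ℝ) ^ 119 * pw (-(s.y k : ℝ) / 10) ≤ 1 := by
    calc _ ≤ pw (s.y k / 1000) * pw (-(s.y k : ℝ) / 10) := by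
          gcongr
          · exact (pw_pos _).le
          · exact s.poly k (by norm_num)
      _ ≤ pw 0 := by rw [← pw_add]; exact pw_le (by linarith)
      _ = 1 := pw_zero
  have hp := pw_pos (-(s.y k : ℝ) / 10)
  have hz : 0 ≤ s.z k := by unfold z; positivity
  have h6 : ((s.n k + 1 : ℕ) : ℝ) * ((s.P k : ℝ) ^ 3 * s.z k) + s.P k * (s.rp k).zr ≤
      1 / (s.y k : ℝ) ^ 44 := by
    rw [PR, le_div_iff₀ (by positivity)]
    have h7 : (s.y k : ℝ) ^ 58 ≤ (s.y k : ℝ) ^ 118 := pow_le_pow_right₀ hy1 (by norm_num)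
    have h8 := s.ypow k (show 118 < 119 by norm_num)
    have h9 : 0 < (s.y k : ℝ) ^ 118 := by positivity
    calc _ ≤ (2 * (s.y k : ℝ) ^ 4 * (((s.y k : ℝ) ^ 14) ^ 3 * ((s.y k : ℝ) ^ 28 *
          pw (-(s.y k : ℝ) / 10))) + (s.y k : ℝ) ^ 14 * pw (-(s.y k : ℝ) / 10)) * (s.y k : ℝ) ^ 44 := by
          gcongr
      _ = (2 * (s.y k : ℝ) ^ 118 + (s.y k : ℝ) ^ 58) * pw (-(s.y k : ℝ) / 10) := by ring
      _ ≤ (s.y k : ℝ) ^ 119 * pw (-(s.y k : ℝ) / 10) := by gcongr; linarith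
      _ ≤ 1 := h5
  have h7 : s.E (k + 1) = s.E k + s.e0 * (1 / 2) ^ (k + 1) := by unfold E; ring
  rw [h7, e]; linarith
lemma E_le : s.E k ≤ 2 * s.e0 := by
  have h1 : 0 ≤ (1 / 2 : ℝ) ^ k := by positivity
  have := s.e0_pos
  unfold E; nlinarith
lemma r_le_pw : (s.r k : ℝ) ≤ pw (3 * (s.y k : ℝ) ^ 3) := by
  cases k with
  | zero => simp [r, (pw_pos _).le]
  | succ k =>
    have h1 := s.y_pos k
    have h4 := s.poly k (a := 9) (by norm_num)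
    have h5 := s.ypow k (show 8 < 9 by norm_num)
    have h6 := s.ypow k (show 1 < 6 by norm_num)
    have h3 := pw_pos (2 * (s.y k : ℝ) ^ 6)
    rw [r, y_succ]; push_cast; rw [RR, mR]
    calc _ ≤ pw (s.y k / 1000) * pw (2 * (s.y k : ℝ) ^ 6) := by
          gcongr
          have : 0 < (s.y k : ℝ) ^ 8 := by positivity
          linarith
      _ ≤ _ := by rw [← pw_add]; refine pw_le ?_; nlinarith
lemma r_le_ρ : s.r k ≤ s.ρ k := by
  have h1 : (s.r k : ℝ) ≤ s.ρ k := by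
    refine (s.r_le_pw k).trans ?_
    rw [ρ]; push_cast; rw [← pw_nat]; push_cast
    have := s.y_pos k
    have : 0 < (s.y k : ℝ) ^ 3 := by positivity
    exact pw_le (by linarith [s.ypow k (show 3 < 6 by norm_num)])
  exact_mod_cast h1
lemma ρ_le_mR : s.ρ k ≤ s.m k * s.R k :=
  (Nat.le_self_pow two_ne_zero _).trans (Nat.le_mul_of_pos_left _ (Nat.pow_pos (s.y1N k)))
lemma Rc_le : s.Rc (k + 1) + s.r k ≤ s.r (k + 1) := by
  have h1 := (s.r_le_ρ k).trans (s.ρ_le_mR k)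
  rw [Rc, r, mul_assoc, mul_assoc]; omega
lemma r_mono : Monotone s.r := monotone_nat_of_le_succ fun k => le_trans (Nat.le_add_left _ _) (s.Rc_le k)
lemma sf_le : s.sf k ≤ s.r k := by
  cases k with
  | zero => exact le_rfl
  | succ k => rw [sf, r, mul_assoc, mul_assoc]; omega

/-- the radii of the witness recursion -/
def rad : Rad := ⟨s.r, s.Rc, s.mm, s.r_mono, s.Rc_le⟩

end Ms

/-- the context lives on the schedule `s`, last epoch `K` -/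
structure On {d M : ℕ} [NeZero M] (c : Cx d M) (s : Ms d) (K : ℕ) : Prop where
  C : c.C = s.C
  σ : c.σ = s.σ
  N : c.N = 2 ^ s.a K 0
  hM : M = 2 ^ s.J (K + 1)
  r01 : ∀ x, 0 ≤ c.r x ∧ c.r x ≤ 1
  init : Init d M c.C c.σ c.E c.w0

theorem On.ok {d M : ℕ} [NeZero M] {c : Cx d M} {s : Ms d} {K : ℕ} (h : On c s K) : c.OK := by
  have hy := s.y6 0
  have h0 := s.σ0
  refine ⟨s.hd, h.C ▸ s.hC, h.σ ▸ s.σ0, ?_, ?_, h.r01, ?_, h.init⟩
  · rw [Cx.κ, h.C, h.σ]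
    calc _ ≤ pw (s.y 0 / 1000) * pw (1 - s.y0) :=
          mul_le_mul ((s.κ_le 0).trans (by simpa using s.poly 0 (a := 1) (by norm_num))) s.σ_le h0.le
            (pw_pos _).le
      _ ≤ pw 0 := by rw [← pw_add, ← s.y_zero]; exact pw_le (by linarith)
      _ = 1 := pw_zero
  · have h1 : s.P 0 ≤ s.a K 0 :=
      single_le_sum (f := s.P) (fun _ _ => Nat.zero_le _) (mem_Ico.2 ⟨le_rfl, Nat.succ_pos K⟩)
    have h2 : 2 * (s.y 0 : ℝ) ≤ s.a K 0 := by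
      have h3 : (s.P 0 : ℝ) ≤ s.a K 0 := by exact_mod_cast h1
      rw [s.PR] at h3
      linarith [s.ypow 0 (show 1 < 14 by norm_num)]
    rw [h.σ, h.N]; push_cast; rw [← pw_nat]
    calc (1 : ℝ) = pw 0 := pw_zero.symm
      _ ≤ pw (-s.y0) ^ 2 * pw (s.a K 0) := by
        rw [pw_pow, ← pw_add, ← s.y_zero]; exact pw_le (by push_cast; linarith)
      _ ≤ _ := by
        have := pw_pos (-s.y0)
        have := pw_pos (s.a K 0)
        gcongr; exact s.σ_ge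
  · have h1 : 7 ≤ s.J (K + 1) :=
      le_trans (le_trans (by norm_num) (s.y_ge K)) (Nat.le_self_pow (by norm_num) _)
    have h2 : 100 ≤ M := by
      rw [h.hM]; exact le_trans (by norm_num) (Nat.pow_le_pow_right two_pos h1)
    have h3 : Fintype.card (Tor d M) = M ^ d := by simp [Tor, ZMod.card]
    rw [h3]
    exact h2.trans (Nat.le_self_pow (by have := s.hd; omega) _)

end Crest.Agent.N334.AC.P
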