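import Crest.Agent.N334.AC.P.Par0

/-! # S0520 part P: ledger of a stage, small parameters (leaf: fill the sorries, keep the statements)
`σ²/C ≤ γ ≤ Cσ²` (`h.ok.γ_lo`, `γ_hi`), `pw`-arithmetic of Par0. `alt`: `k = 0` by `e_step`, `E_le`; `k ≥ 1` by `⌈1/σ²⌉ γ ≥ 1/C`.
`F_le`: cases `J k + j ≤ 200 y0` (then `k = 0`), `k = 0` late, `k ≥ 1`. -/

set_option autoImplicit false
set_option linter.unusedVariables false

open Finset

namespace Crest.Agent.N334.AC.P.Pa1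

variable {d M : ℕ} [NeZero M] {c : Cx d M} (s : Ms d) {K : ℕ} (k j : ℕ)

lemma y1 : (1 : ℝ) ≤ s.y k := le_trans (by norm_num) (s.yR k)
lemma Pc : (s.P k : ℝ) = (s.y k : ℝ) ^ 14 := by simp [Ms.P]
lemma yP : (s.y k : ℝ) ≤ s.P k := Pc s k ▸ le_self_pow₀ (y1 s k) (by norm_num)
lemma P1 : (1 : ℝ) ≤ s.P k := (y1 s k).trans (yP s k)
lemma Ppw {a : ℕ} (ha : 14 * a ≤ 1000) : (s.P k : ℝ) ^ a ≤ pw (s.y k / 1000) := by
  rw [Pc, ← pow_mul]; exact s.poly k ha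
lemma C2 : 4 * s.C ^ 2 ≤ s.y k := by
  have h := s.C_le k
  have h2 : s.C ^ 2 ≤ s.C ^ 20 := pow_le_pow_right₀ s.hC (by norm_num)
  nlinarith [sq_nonneg s.C]
lemma C2pw : 4 * s.C ^ 2 ≤ pw (s.y k / 1000) :=
  (C2 s k).trans (by simpa using s.poly k (a := 1) (by norm_num))
lemma σ1 : s.σ ≤ 1 := by
  refine s.σ_le.trans ((pw_le ?_).trans_eq pw_zero)
  have := y1 s 0
  rw [s.y_zero] at this
  linarith
lemma x1 : s.x k j ≤ 1 := by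
  refine (s.x_le0 k j).trans ((s.x0_le k).trans ((pw_le ?_).trans_eq pw_zero))
  linarith [y1 s k]
lemma z0 : 0 ≤ s.z k := by unfold Ms.z; positivity
lemma e_le (hj : j ≤ s.n k + 1) : s.e k j ≤ 2 * s.e0 := by
  refine le_trans ?_ ((s.e_step k).trans (s.E_le _))
  have h1 : 0 ≤ (s.P k : ℝ) * (s.rp k).zr := mul_nonneg (by positivity) (pw_pos _).le
  have h2 : (j : ℝ) ≤ (s.n k + 1 : ℕ) := by exact_mod_cast hj
  have h3 : 0 ≤ (s.P k : ℝ) ^ 3 * s.z k := mul_nonneg (by positivity) (z0 s k)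
  have := mul_le_mul_of_nonneg_right h2 h3
  unfold Ms.e
  linarith
lemma P_e0 : (s.P 0 : ℝ) ^ 3 * (2 * s.e0) = 1 / 2 := by
  have := P1 s 0
  unfold Ms.e0; field_simp; norm_num
lemma ceil_le : (⌈1 / s.σ ^ 2⌉₊ : ℝ) * s.σ ^ 2 ≤ 2 := by
  have h0 := s.σ0
  have h1 : s.σ ^ 2 ≤ 1 := pow_le_one₀ h0.le (σ1 s)
  have h2 := (Nat.ceil_lt_add_one (by positivity : 0 ≤ 1 / s.σ ^ 2)).le
  have h3 := mul_le_mul_of_nonneg_right h2 (sq_nonneg s.σ)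
  rw [add_mul, one_div, inv_mul_cancel₀ (by positivity)] at h3
  rw [one_div]
  linarith
lemma le_ceil : 1 ≤ (⌈1 / s.σ ^ 2⌉₊ : ℝ) * s.σ ^ 2 := by
  have h0 := s.σ0
  exact (div_le_iff₀ (by positivity)).1 (Nat.le_ceil _)
lemma F0 (i : ℕ) : 0 ≤ s.F i := by
  have := s.σ0; have := s.hC; have := s.e0_pos; have := pw_pos (-(i : ℝ) / 4)
  unfold Ms.F; split_ifs <;> positivity
lemma J_big (hk : 1 ≤ k) : 200 * s.y0 < s.J k := by
  rw [s.J_eq k hk]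
  have h1 := s.y0_le k
  have h2 := s.y_ge k
  nlinarith
lemma x4 : s.x k j ^ 4 = pw (-(4 * s.ξ k j)) := by
  rw [Ms.x, pw_pow]; congr 1; push_cast; ring

lemma F_le {γ : ℝ} (hγ : s.σ ^ 2 ≤ s.C * γ) (h0 : 0 ≤ γ) :
    (s.P k : ℝ) ^ 6 * s.F (s.J k + j) ≤ γ * s.x k j ^ 4 := by
  have hσ := s.σ0
  have hC := s.hC
  have hy := s.yR k
  have hP := P1 s k
  rw [x4, Ms.F]
  split_ifs with hi
  · obtain rfl : k = 0 := by
      by_contra hk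
      have := J_big s k (by omega)
      omega
    have hj : j - 200 * s.y0 = 0 := by simp only [Ms.J] at hi; omega
    have h1 := mul_le_mul (mul_le_mul (Ppw s 0 (a := 9) (by norm_num)) (C2pw s 0) (by positivity)
      (pw_pos _).le) s.σ_le hσ.le (mul_pos (pw_pos _) (pw_pos _)).le
    rw [← pw_add, ← pw_add] at h1
    have h2 : pw (s.y 0 / 1000 + s.y 0 / 1000 + (1 - s.y0)) ≤ pw (-(4 * s.ξ 0 j)) := by
      refine pw_le ?_
      rw [s.y_zero] at hy ⊢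
      simp only [Ms.ξ, hj, if_true, Nat.cast_zero]
      linarith
    calc (s.P 0 : ℝ) ^ 6 * (s.C * s.σ ^ 3 / s.e0)
        = s.σ ^ 2 * (4 * (s.P 0 : ℝ) ^ 9 * s.C * s.σ) := by unfold Ms.e0; field_simp
      _ ≤ s.C * γ * (4 * (s.P 0 : ℝ) ^ 9 * s.C * s.σ) := by gcongr
      _ = γ * ((s.P 0 : ℝ) ^ 9 * (4 * s.C ^ 2) * s.σ) := by ring
      _ ≤ _ := mul_le_mul_of_nonneg_left (h1.trans h2) h0
  · have h0' : (1 / s.σ) ^ 12 ≤ pw (12 * s.y0) := by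
      have := pow_le_pow_left₀ (by positivity) s.inv_σ_le 12
      rwa [pw_pow, Nat.cast_ofNat] at this
    have h1 := mul_le_mul_of_nonneg_right (mul_le_mul (mul_le_mul (Ppw s k (a := 6) (by norm_num))
      (C2pw s k) (by positivity) (pw_pos _).le) h0' (by positivity)
      (mul_pos (pw_pos _) (pw_pos _)).le) (pw_pos (-((s.J k + j : ℕ) : ℝ) / 4)).le
    rw [← pw_add, ← pw_add, ← pw_add] at h1
    have h2 : pw (s.y k / 1000 + s.y k / 1000 + 12 * s.y0 + -((s.J k + j : ℕ) : ℝ) / 4) ≤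
        pw (-(4 * s.ξ k j)) := by
      refine pw_le ?_
      rcases Nat.eq_zero_or_pos k with rfl | hk
      · have hj : 200 * s.y0 ≤ j := by simp only [Ms.J] at hi; omega
        rw [s.y_zero] at hy ⊢
        simp only [Ms.ξ, if_true, Ms.J, Nat.cast_sub hj]
        push_cast
        linarith
      · have h3 : (s.y0 : ℝ) ≤ s.y k := by exact_mod_cast s.y0_le k
        simp only [Ms.ξ, hk.ne', if_false, s.J_eq k hk]
        push_cast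
        nlinarith
    have h3 := pw_pos (-((s.J k + j : ℕ) : ℝ) / 4)
    calc (s.P k : ℝ) ^ 6 * (s.C / s.σ ^ 10 * pw (-((s.J k + j : ℕ) : ℝ) / 4))
        = s.σ ^ 2 * ((s.P k : ℝ) ^ 6 * s.C * (1 / s.σ) ^ 12 * pw (-((s.J k + j : ℕ) : ℝ) / 4)) := by
          field_simp
      _ ≤ 4 * (s.C * γ) * ((s.P k : ℝ) ^ 6 * s.C * (1 / s.σ) ^ 12 *
            pw (-((s.J k + j : ℕ) : ℝ) / 4)) := by
          refine mul_le_mul_of_nonneg_right ?_ (by positivity)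
          nlinarith [mul_nonneg (zero_le_one.trans hC) h0]
      _ = γ * ((s.P k : ℝ) ^ 6 * (4 * s.C ^ 2) * (1 / s.σ) ^ 12 *
            pw (-((s.J k + j : ℕ) : ℝ) / 4)) := by ring
      _ ≤ _ := mul_le_mul_of_nonneg_left (h1.trans h2) h0

lemma γ_lo (h : On c s K) : s.σ ^ 2 ≤ s.C * c.γ := by rw [← h.C, ← h.σ]; exact h.ok.γ_lo
lemma γ_hi (h : On c s K) : c.γ ≤ s.C * s.σ ^ 2 := by rw [← h.C, ← h.σ]; exact h.ok.γ_hi
lemma κ_le (h : On c s K) : c.κ ≤ s.y k := by rw [Cx.κ, h.C]; exact s.κ_le k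
lemma Q1 : (1 : ℝ) ≤ s.Q k := by
  have h : ((s.P k ^ 6 : ℕ) : ℝ) ≤ s.Q k := by exact_mod_cast s.Q_ge k
  push_cast at h
  exact (one_le_pow₀ (P1 s k)).trans h

end Crest.Agent.N334.AC.P.Pa1

namespace Crest.Agent.N334.AC.P.On

open Pa1

variable {d M : ℕ} [NeZero M] {c : Cx d M} {s : Ms d} {K k j : ℕ}

lemma l_P_lo (h : On c s K) (hk : k ≤ K) (hj : j ≤ s.n k) :
    c.κ ≤ (s.ep c.γ K k).P := 
  (κ_le s k h).trans (yP s k)
lemma l_Q_lo (h : On c s K) (hk : k ≤ K) (hj : j ≤ s.n k) :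
    (s.ep c.γ K k).P ^ 6 ≤ (s.ep c.γ K k).Q := 
  s.Q_ge k
lemma l_q0 (h : On c s K) (hk : k ≤ K) (hj : j ≤ s.n k) :
    0 < (s.ep c.γ K k).q := 
  Real.sqrt_pos.2 (mul_pos (zero_lt_one.trans_le (Q1 s k)) h.ok.γ0)
lemma l_q_sq (h : On c s K) (hk : k ≤ K) (hj : j ≤ s.n k) :
    (s.ep c.γ K k).q ^ 2 = (s.ep c.γ K k).Q * c.γ := 
  Real.sq_sqrt (mul_nonneg (Nat.cast_nonneg _) h.ok.γ0.le)
lemma l_q_hi (h : On c s K) (hk : k ≤ K) (hj : j ≤ s.n k) :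
    (s.ep c.γ K k).Q * c.γ ≤ ((s.ep c.γ K k).P : ℝ) ^ 7 := by
  change (s.Q k : ℝ) * c.γ ≤ (s.P k : ℝ) ^ 7
  have h1 := γ_hi s h
  have h2 : 2 * s.C ≤ s.P k := by nlinarith [C2 s k, yP s k, s.hC]
  have h3 : s.σ ^ 2 ≤ 1 := pow_le_one₀ s.σ0.le (σ1 s)
  have hP := P1 s k
  have hC := s.hC
  rw [pow_succ _ 6, Ms.Q]
  split_ifs <;> push_cast
  · exact mul_le_mul_of_nonneg_left (by nlinarith) (by positivity)
  · rw [mul_assoc]
    refine mul_le_mul_of_nonneg_left ?_ (by positivity)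
    have h4 := mul_le_mul_of_nonneg_left h1 (Nat.cast_nonneg (α := ℝ) ⌈1 / s.σ ^ 2⌉₊)
    nlinarith [ceil_le s]
lemma l_alt (h : On c s K) (hk : k ≤ K) (hj : j ≤ s.n k) :
    ((s.ep c.γ K k).P : ℝ) ^ 3 * (s.sg k j).e' ≤ 1 ∨ ((s.ep c.γ K k).P : ℝ) ^ 5 ≤ (s.ep c.γ K k).Q * c.γ := by
  change (s.P k : ℝ) ^ 3 * s.e k (j + 1) ≤ 1 ∨ (s.P k : ℝ) ^ 5 ≤ s.Q k * c.γ
  have hP := P1 s k
  rcases Nat.eq_zero_or_pos k with rfl | h0
  · refine Or.inl ((mul_le_mul_of_nonneg_left (e_le s 0 _ (by omega)) (by positivity)).trans ?_)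
    rw [P_e0]; norm_num
  · right
    rw [Ms.Q, if_neg h0.ne']
    push_cast
    rw [pow_succ _ 5, mul_assoc, mul_assoc]
    refine le_mul_of_one_le_right (by positivity) ?_
    have h1 := mul_le_mul_of_nonneg_left (γ_lo s h) (Nat.cast_nonneg (α := ℝ) ⌈1 / s.σ ^ 2⌉₊)
    have h2 : s.C ≤ s.P k := by nlinarith [C2 s k, yP s k, s.hC]
    have h3 := mul_le_mul_of_nonneg_right h2
      (mul_nonneg (Nat.cast_nonneg (α := ℝ) ⌈1 / s.σ ^ 2⌉₊) h.ok.γ0.le)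
    nlinarith [le_ceil s]
lemma l_x0 (h : On c s K) (hk : k ≤ K) (hj : j ≤ s.n k) :
    0 < (s.sg k j).x' := 
  s.x_pos _ _
lemma l_x_le (h : On c s K) (hk : k ≤ K) (hj : j ≤ s.n k) :
    (s.sg k j).x' ≤ (s.sg k j).x := 
  s.x_anti _ _
lemma l_x_ge (h : On c s K) (hk : k ≤ K) (hj : j ≤ s.n k) :
    (s.sg k j).x ^ 4 ≤ 2 * (s.sg k j).x' ^ 4 := by
  change s.x k j ^ 4 ≤ 2 * s.x k (j + 1) ^ 4
  have e2 : (2 : ℝ) = pw 1 := by simpa using (pw_nat 1).symm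
  rw [x4, x4, e2, ← pw_add]
  refine pw_le ?_
  unfold Ms.ξ
  split_ifs
  · have : ((j + 1 - 200 * s.y0 : ℕ) : ℝ) ≤ ((j - 200 * s.y0 + 1 : ℕ) : ℝ) := by
      exact_mod_cast (by omega)
    push_cast at this
    linarith
  · push_cast; linarith
lemma l_main (h : On c s K) (hk : k ≤ K) (hj : j ≤ s.n k) :
    ((s.ep c.γ K k).P : ℝ) ^ 15 * (s.ep c.γ K k).Q * (s.sg k j).x ≤ 1 := by
  change (s.P k : ℝ) ^ 15 * s.Q k * s.x k j ≤ 1
  have hP := P1 s k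
  have h1 := mul_le_mul (mul_le_mul (Ppw s k (a := 12) (by norm_num)) (s.PQ_le k) (by positivity)
    (pw_pos _).le) ((s.x_le0 k j).trans (s.x0_le k)) (s.x_pos k j).le
    (mul_pos (pw_pos _) (pw_pos _)).le
  rw [← pw_add, ← pw_add] at h1
  calc _ = (s.P k : ℝ) ^ 12 * ((s.P k : ℝ) ^ 3 * s.Q k) * s.x k j := by ring
    _ ≤ _ := h1.trans ((pw_le (by linarith [y1 s k])).trans_eq pw_zero)
lemma l_X0 (h : On c s K) (hk : k ≤ K) (hj : j ≤ s.n k) :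
    0 ≤ (s.sg k j).X := by
  have := s.x_pos k 0
  change 0 ≤ s.X k j
  unfold Ms.X; positivity
lemma l_X_inc (h : On c s K) (hk : k ≤ K) (hj : j ≤ s.n k) :
    (s.sg k j).X + ((s.ep c.γ K k).P : ℝ) ^ 3 * (s.sg k j).x ≤ (s.sg k j).X' := by
  change s.X k j + (s.P k : ℝ) ^ 3 * s.x k j ≤ s.X k (j + 1)
  have := mul_le_mul_of_nonneg_left (s.x_le0 k j) (by positivity : (0 : ℝ) ≤ (s.P k : ℝ) ^ 3)
  unfold Ms.X; push_cast; linarith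
lemma l_z0 (h : On c s K) (hk : k ≤ K) (hj : j ≤ s.n k) :
    0 ≤ (s.sg k j).z := 
  z0 s k
lemma l_X_z (h : On c s K) (hk : k ≤ K) (hj : j ≤ s.n k) :
    (s.sg k j).X' ≤ (s.sg k j).z ^ 2 := by
  change s.X k (j + 1) ≤ s.z k ^ 2
  have h0 := s.x_pos k 0
  have h1 := x1 s k 0
  have hP := P1 s k
  have h2 : ((j + 1 : ℕ) : ℝ) + 3 ≤ s.P k := by
    have a1 : ((s.n k + 2 : ℕ) : ℝ) ≤ ((2 * s.y k ^ 4 : ℕ) : ℝ) := by exact_mod_cast s.n_lt k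
    have a2 : (j : ℝ) ≤ s.n k := by exact_mod_cast hj
    have a3 := s.ypow k (show 4 < 14 by norm_num)
    have a4 := one_le_pow₀ (n := 4) (y1 s k)
    rw [Pc]
    push_cast at a1 ⊢
    linarith
  have h3 : s.x k 0 ≤ (s.P k : ℝ) ^ 3 := h1.trans (one_le_pow₀ hP)
  rw [Ms.z, mul_pow, Real.sq_sqrt h0.le, Ms.X]
  have h4 := mul_le_mul_of_nonneg_right h2 (by positivity : 0 ≤ (s.P k : ℝ) ^ 3 * s.x k 0)
  nlinarith [mul_le_mul_of_nonneg_right h3 h0.le]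
lemma l_e0 (h : On c s K) (hk : k ≤ K) (hj : j ≤ s.n k) :
    0 ≤ (s.sg k j).e := by
  change 0 ≤ s.e k j
  have h1 := s.e0_pos.le.trans (s.e0_le_E k)
  have h2 := z0 s k
  unfold Ms.e; positivity
lemma l_e_inc (h : On c s K) (hk : k ≤ K) (hj : j ≤ s.n k) :
    (s.sg k j).e + ((s.ep c.γ K k).P : ℝ) ^ 3 * (s.sg k j).z ≤ (s.sg k j).e' := by
  change s.e k j + (s.P k : ℝ) ^ 3 * s.z k ≤ s.e k (j + 1)
  unfold Ms.e; push_cast; linarith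
lemma l_e_hi (h : On c s K) (hk : k ≤ K) (hj : j ≤ s.n k) :
    c.κ * (s.sg k j).e' ≤ 1 := by
  change c.κ * s.e k (j + 1) ≤ 1
  have h1 : c.κ ≤ (s.P 0 : ℝ) ^ 3 :=
    ((κ_le s 0 h).trans (yP s 0)).trans (le_self_pow₀ (P1 s 0) (by norm_num))
  have h2 : 0 ≤ c.κ := by have := h.ok.C1; unfold Cx.κ; positivity
  have h3 := mul_le_mul_of_nonneg_left (e_le s k (j + 1) (by omega)) h2
  have h4 := mul_le_mul_of_nonneg_right h1 (by linarith [s.e0_pos] : 0 ≤ 2 * s.e0)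
  linarith [P_e0 s]
lemma l_D1 (h : On c s K) (hk : k ≤ K) (hj : j ≤ s.n k) :
    1 ≤ (s.sg k j).D := by
  change 1 ≤ s.D k j
  have h0 := s.σ0
  have h1 : 1 ≤ s.C / s.σ ^ 2 :=
    (one_le_div (by positivity)).2 ((pow_le_one₀ h0.le (σ1 s)).trans s.hC)
  exact one_le_mul_of_one_le_of_one_le (one_le_mul_of_one_le_of_one_le (P1 s k) h1)
    (one_le_pow₀ (one_le_mul_of_one_le_of_one_le (one_le_pow₀ (P1 s k)) (Q1 s k)))
lemma l_R1 (h : On c s K) (hk : k ≤ K) (hj : j ≤ s.n k) :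
    1 ≤ (s.sg k j).R := 
  Nat.one_le_two_pow
lemma l_Rρ (h : On c s K) (hk : k ≤ K) (hj : j ≤ s.n k) :
    2 * (s.sg k j).R ≤ (s.ep c.γ K k).ρ := by
  change 2 * 2 ^ (s.J k + j) ≤ 2 ^ s.y k ^ 6
  rw [← pow_succ']
  refine Nat.pow_le_pow_right (by norm_num) ?_
  have h1 := s.J_add_n k
  have h2 : s.J (k + 1) = s.y k ^ 4 := rfl
  have h3 : s.y k ^ 4 < s.y k ^ 6 :=
    Nat.pow_lt_pow_right (lt_of_lt_of_le (by norm_num) (s.y_ge k)) (by norm_num)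
  omega
lemma l_F0 (h : On c s K) (hk : k ≤ K) (hj : j ≤ s.n k) :
    0 ≤ (s.sg k j).F := 
  F0 s _
lemma l_F_le (h : On c s K) (hk : k ≤ K) (hj : j ≤ s.n k) :
    ((s.ep c.γ K k).P : ℝ) ^ 6 * (s.sg k j).F ≤ c.γ * (s.sg k j).x ^ 4 := 
  F_le s k j (γ_lo s h) h.ok.γ0.le
lemma l_Ft0 (h : On c s K) (hk : k ≤ K) (hj : j ≤ s.n k) :
    0 ≤ (s.ep c.γ K k).Ft := 
  F0 s _
lemma l_Ft_le (h : On c s K) (hk : k ≤ K) (hj : j ≤ s.n k) :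
    (s.ep c.γ K k).Ft ≤ c.γ * (s.sg k j).z ^ 2 := by
  change s.F (s.J k) ≤ c.γ * s.z k ^ 2
  have h0 := s.x_pos k 0
  have h1 := F_le s k 0 (γ_lo s h) h.ok.γ0.le
  rw [Nat.add_zero] at h1
  have h2 : s.x k 0 ^ 4 ≤ s.x k 0 := pow_le_of_le_one h0.le (x1 s k 0) (by norm_num)
  have hP := P1 s k
  rw [Ms.z, mul_pow, Real.sq_sqrt h0.le]
  refine (le_mul_of_one_le_left (F0 s _) (one_le_pow₀ hP)).trans (h1.trans ?_)
  refine mul_le_mul_of_nonneg_left (h2.trans (le_mul_of_one_le_left h0.le ?_)) h.ok.γ0.le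
  exact one_le_pow₀ (one_le_pow₀ hP)

end Crest.Agent.N334.AC.P.On
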