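import Crest.Agent.N334.AC.P.RelB
import Crest.Agent.N334.AC.P.Eng

/-! # S0520 part P: the release (leaf; fill the sorries, keep the statements)
`exists_clusters ρ k R f.P s.PS`; `B0 c` = open, non-absorbing, `∉ ord`, within `e.s` of `cl c` (`card_near_le`);
`Adm.leverage` (`Cand = ord`, `D` = distance to `cl c`, step `ρ`, `ζ = 1/Bg²`), `T c = B0 c ∪ Z c ⊆ nbhd (cl c) R`.
`Game.cut` 1: cells of `⋃ T c` to length `2^e2.a`, `η = 8σ 2^e2.a/N`, potential `4η∑Im` at `c` (`weg_avg`), failed `c` become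
seeds: `P' = s.PS ∪ failed`. `Game.cut` 2: accepted `T c` to single digits (constant potentials). `Rel` with `θ = ϑ`,
`θ' = 1/(21 m R)`, `Dm = 21 m R`, `g = 0.9γ`, `K1 = 23/η`. New reference: `wr = w'`, `T' = ord \ ⋃ accepted`,
`ord0' = ord' = T' \ nbhd P' e2.s`, `PS' = ∅`. Rows by `Rel.row` or `Rel.far`, forms by `M6.RelH`, decay by `min_decay`,
shield: a core port is within `31 m R` of `P'`, outside every `nbhd (T c) R`, so `Rel.far` + `Der.dec`. -/

set_option autoImplicit false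

open Finset Complex
open scoped Matrix.Norms.L2Operator Matrix

namespace Crest.Agent.N334.AC.P

variable {d M : ℕ} [NeZero M] {c : Cx d M} {e : Ep} {g : Sg} {f : Ref d M}

open RN RB in
theorem release {ρ : Rad} {u : Rp} {e2 : Ep} {g2 : Sg} (L : LedR c ρ e g u e2 g2) (hf : RefOK c e f)
    {s : St d M} (h : Inv c e f (th0 e g) s) (hQ : ∀ p ∈ f.P, Crowded ρ u.k f.P p → p ∈ s.PS)
    {W : (Tor d M → ℕ × ℕ) → (Tor d M → ℝ) → Prop} (G : Game c.N (ρ.r (u.k + 1)) W) {β : ℝ}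
    (hβ : 0 ≤ β) (post : ∀ (f2 : Ref d M) (s2 : St d M), RefOK c e2 f2 → Inv c e2 f2 (th0 e2 g2) s2 →
      s2.PS = ∅ → s.PS ⊆ f2.P → (∀ x ∈ s.ord, x ∈ s2.ord ∨ x ∈ nbhd f2.P e2.s ∨ x ∈ nbhd f.P u.R) →
      W s2.S (sd f2.P β)) :
    W s.S (sd s.PS (β + Real.exp (-(e.P : ℝ) / 3))) := by
  classical
  obtain ⟨Cs, -, B, hp, hBn, cov⟩ := plan L hf h hQ
  have hop : ∀ x ∈ Cs.biUnion B, ∃ a, (s.S x).2 = 2 ^ (a + e.P) * 2 ^ e2.a := fun x hx => by
    obtain ⟨p, b1, b2⟩ := mem_biUnion.1 hx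
    obtain ⟨a, b3, b4⟩ := h.bas.len x (Pl.opn L hf h hp b1 b2).1
    exact ⟨a - e.a, by rw [b4, ← pow_add]; congr 1; have := L.a2; omega⟩
  choose! a ha using hop
  obtain ⟨m, em⟩ : ∃ m : Tor d M → ℕ,
    ∀ x, m x = if x ∈ Cs.biUnion B then 2 ^ (a x + e.P) else 1 := ⟨_, fun _ => rfl⟩
  obtain ⟨l, el⟩ : ∃ l : Tor d M → ℕ,
    ∀ x, l x = if x ∈ Cs.biUnion B then 2 ^ e2.a else (s.S x).2 := ⟨_, fun _ => rfl⟩
  obtain ⟨gd, eg⟩ : ∃ gd : (Tor d M → ℕ) → Tor d M → Prop, ∀ ξ p, gd ξ p ↔ 4 * cl c e2 * ∑ x ∈ B p,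
    (Gm c.A (wEta s.w (B p) (fun z => c.v z (s.S z).1 + ξ z * cl c e2) (4 * cl c e2)) x x).im
      ≤ 1 / 4 := ⟨_, fun _ _ => Iff.rfl⟩
  have hm : ∀ x, 0 < m x := fun x => by rw [em]; split_ifs <;> positivity
  have hl : ∀ x, 0 < l x := fun x => by
    rw [el]; split_ifs; exacts [by positivity, (h.bas.rng x).1]
  have hS : ∀ x, (s.S x).2 = m x * l x := fun x => by
    rw [em, el]; split_ifs with b; exacts [ha x b, (one_mul _).symm]
  have hE := Real.exp_pos (-(e.P : ℝ) / 3)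
  refine G.cut (π' := fun ξ => sd (s.PS ∪ Cs.filter fun p => ¬ gd ξ p) β) m l hm hl hS
    (fun p => ?_) fun ξ hξ => ?_
  · obtain ⟨C, -, c2⟩ := exists_clsB m hm
    rw [← c2]
    by_cases b1 : p ∈ s.PS
    · simp only [sd, mem_union, b1, true_or, if_true]
      exact C.const _ 1 zero_le_one
    by_cases b2 : p ∈ Cs
    · have b3 := RelA.weg_locB h.bas.adm (B := B p) (U := tball p (ρ.r (u.k + 1)))
        (a := fun z => c.v z (s.S z).1) (m0 := 2 ^ e.P) ((hp.diam p b2).trans (tball_mono p (by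
          have := L.Rc; have := ρ.le u.k; unfold mR; rw [mul_assoc] at *; omega))) hm (cl0 L)
        (by positivity) (fun x hx => by
          rw [em, if_pos (mem_biUnion.2 ⟨p, b2, hx⟩)]
          exact Nat.pow_le_pow_right (by norm_num) (by omega))
        (le_trans (by gcongr; exact hp.card p b2) (weg L))
      rw [← c2] at b3
      refine C.le (C.add (C.const _ β hβ) b3) (by rw [sd, if_neg b1]) fun ξ _ => ?_
      simp only [sd, mem_union, mem_filter, b1, b2, false_or, true_and, ← eg]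
      by_cases b : gd ξ p <;> simp [b, hβ]
    · simp only [sd, mem_union, mem_filter, b1, b2, false_and, or_self, if_false]
      exact C.le (C.const _ β hβ) (by linarith) fun _ _ => ⟨hβ, le_rfl⟩
  obtain ⟨Cs', e1⟩ : ∃ Cs', Cs' = Cs.filter (gd ξ) := ⟨_, rfl⟩
  have hs : Cs' ⊆ Cs := e1 ▸ filter_subset _ _
  have hU : Cs'.biUnion B ⊆ Cs.biUnion B := biUnion_subset_biUnion_of_subset_left B hs
  obtain ⟨m2, em2⟩ : ∃ m2 : Tor d M → ℕ,
    ∀ x, m2 x = if x ∈ Cs'.biUnion B then 2 ^ e2.a else 1 := ⟨_, fun _ => rfl⟩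
  obtain ⟨l2, el2⟩ : ∃ l2 : Tor d M → ℕ,
    ∀ x, l2 x = if x ∈ Cs'.biUnion B then 1 else l x := ⟨_, fun _ => rfl⟩
  have hm2 : ∀ x, 0 < m2 x := fun x => by rw [em2]; split_ifs <;> positivity
  have hl2 : ∀ x, 0 < l2 x := fun x => by rw [el2]; split_ifs; exacts [one_pos, hl x]
  have hS2 : ∀ x, l x = m2 x * l2 x := fun x => by
    rw [em2, el2]; split_ifs with b
    exacts [by rw [el, if_pos (hU b), mul_one], (one_mul _).symm]
  refine G.cut (π' := fun _ => sd (s.PS ∪ Cs.filter fun p => ¬ gd ξ p) β) m2 l2 hm2 hl2 hS2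
    (fun p => ?_) fun ζ hζ => ?_
  · obtain ⟨C, -, c2⟩ := exists_clsB m2 hm2
    rw [← c2]
    exact C.const _ _ (by unfold sd; split_ifs; exacts [zero_le_one, hβ])
  have rng : ∀ x, 0 < l2 x ∧ (s.S x).1 + ξ x * l x + ζ x * l2 x + l2 x ≤ c.N := fun x => by
    have a1 := Nat.mul_le_mul_right (l x) (hξ x)
    have a2 := Nat.mul_le_mul_right (l2 x) (hζ x)
    rw [Nat.succ_mul, ← hS x] at a1
    rw [Nat.succ_mul, ← hS2 x] at a2
    exact ⟨hl2 x, by have := (h.bas.rng x).2; omega⟩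
  have hr := rel L hf h (hp.mono hs) (v := fun x => c.v x ((s.S x).1 + ξ x * l x + ζ x * l2 x))
    (fun x => L.led.ok.v_le x (by have := rng x; omega)) fun p hc => by
      rw [e1, mem_filter, eg] at hc
      refine h.bas.adm.weg_good (by linarith [cl0 L]) hc.2 fun x hx => ?_
      have b1 : x ∈ Cs'.biUnion B := mem_biUnion.2 ⟨p, e1 ▸ mem_filter.2 ⟨hc.1, (eg _ _).2 hc.2⟩, hx⟩
      have b2 : (ζ x : ℝ) ≤ (2 ^ e2.a : ℕ) := Nat.cast_le.2 (by
        have := hζ x; rw [em2, if_pos b1] at this; exact this.le)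
      have b3 : 0 ≤ 2 * c.σ / c.N := by have := L.led.ok.σ0; positivity
      simp only [Cx.v, val_add]
      rw [el2, if_pos b1, el, if_pos (hU b1), mul_one, Nat.cast_mul, mul_assoc (ξ x : ℝ), ← cl,
        add_sub_cancel_left, abs_of_nonneg (by positivity), mul_div_cancel_left₀ _ four_ne_zero]
      exact mul_le_mul_of_nonneg_right b2 b3
  obtain ⟨r1, r2⟩ := after L hf h hp hs hr cov (P' := s.PS ∪ Cs.filter fun p => ¬ gd ξ p)
    subset_union_left (fun p b1 b2 => mem_union_right _ (mem_filter.2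
      ⟨b1, fun b => b2 (e1 ▸ mem_filter.2 ⟨b1, b⟩)⟩))
    (S2 := fun x => ((s.S x).1 + ξ x * l x + ζ x * l2 x, l2 x)) rng
    (fun x hx => ⟨by rw [el2, if_pos hx], rfl⟩)
    (fun x b1 b2 => by rw [el2, if_neg b2, el, if_pos b1]) (fun x hx => by
      have b1 := hξ x
      have b2 := hζ x
      have b3 : x ∉ Cs'.biUnion B := fun b => hx (hU b)
      rw [em, if_neg hx, Nat.lt_one_iff] at b1
      rw [em2, if_neg b3, Nat.lt_one_iff] at b2
      simp only [b1, b2, zero_mul, add_zero, el2, el, if_neg hx, if_neg b3]) rfl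
  refine post _ _ r1 r2 rfl subset_union_left fun x hx => ?_
  by_cases b1 : x ∈ Cs'.biUnion B
  · obtain ⟨p, b2, b3⟩ := mem_biUnion.1 b1
    exact Or.inr (Or.inr (hBn p (hs b2) b3))
  · exact (em' _).imp (fun b => mem_sdiff.2 ⟨mem_sdiff.2 ⟨hx, b1⟩, b⟩) Or.inl

end Crest.Agent.N334.AC.P
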