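import Crest.Agent.N334.AC.L.Rel
import Crest.Agent.N334.AC.L.Weg
import Crest.Agent.N334.AC.L.Tau
import Crest.Agent.N334.AC.F.Wit
import Crest.Agent.N334.AC.M6.Defs

/-!
# Row 334, S0520 (helper12): the release, pure part (plan, consequences, cells)
-/

set_option autoImplicit false
set_option maxHeartbeats 400000
set_option linter.unusedSectionVars false

open Finset Complex
open scoped Matrix.Norms.L2Operator Matrix

namespace Crest.Agent.N334.AC.RelA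

variable {d M : ℕ} [NeZero M]

theorem mem_nbhd {B : Finset (Tor d M)} {R : ℕ} {x : Tor d M} :
    x ∈ nbhd B R ↔ ∃ b ∈ B, tdist x b ≤ R := by simp [nbhd]

theorem subset_nbhd (B : Finset (Tor d M)) (R : ℕ) : B ⊆ nbhd B R := fun x hx =>
  mem_nbhd.2 ⟨x, hx, by rw [tdist_self]; exact Nat.zero_le _⟩

/-- plan of a release: `B c` = frozen ports of the cluster `c` and its leverage set -/
structure Plan (K : Matrix (Tor d M) (Tor d M) ℂ) (Ord Fr Cs : Finset (Tor d M))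
    (B : Tor d M → Finset (Tor d M)) (ε ζ : ℝ) (n Dm R : ℕ) : Prop where
  sub : ∀ c ∈ Cs, B c ⊆ Fr ∪ Ord
  card : ∀ c ∈ Cs, (B c).card ≤ n
  diam : ∀ c ∈ Cs, B c ⊆ tball c Dm
  sep : Sep (10 * R) Cs
  iso : ∀ c ∈ Cs, ∀ c' ∈ Cs, c ≠ c' → ∀ x ∈ B c, ∀ x' ∈ B c', 4 * R < tdist x x'
  fr : ∀ c ∈ Cs, ∀ a ∈ nbhd (B c) R, a ∈ Fr → a ∈ B c
  lev : ∀ c ∈ Cs, ∀ a ∈ Ord, a ∉ B c → LevD K (B c) ε ζ a

variable {A K : Matrix (Tor d M) (Tor d M) ℂ} {w : Tor d M → ℂ} {O Ord Fr Cs Cs' : Finset (Tor d M)}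
  {B : Tor d M → Finset (Tor d M)} {v : Tor d M → ℝ} {ε ζ θ θ' Ag η g K1 tn : ℝ} {n Dm R : ℕ}

theorem K_le (h : Adm A w) (hO : ∀ x, gam w x ≠ 0 → x ∈ O) (h1 : ∀ x, gam w x ≤ 1)
    (tw : TW θ Ag (cmp (Gm A w) O)) (a b : Tor d M) :
    ‖Km A w a b‖ ≤ Ag * Real.exp (-θ * tdist a b) := by
  have h2 := tw.entry a b
  have h3 := h.diss a
  have h4 := h.diss b
  refine le_trans ((pow_le_pow_iff_left₀ (norm_nonneg _) (norm_nonneg _) two_ne_zero).1 ?_) h2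
  rw [h.K_sq, cmp]
  split_ifs with e
  · exact mul_le_of_le_one_left (by positivity) (mul_le_one₀ (h1 a) h4 (h1 b))
  · rcases not_and_or.1 e with e | e
    · simp [not_not.1 (mt (hO a) e)]
    · simp [not_not.1 (mt (hO b) e)]

/-- existence of a plan -/
theorem exists_plan (h : Adm A w) (ρ : Rad) (k : ℕ) {P Q : Finset (Tor d M)} {s s' J n0 : ℕ}
    {e μ1 : ℝ} (hR : 2 * ρ.r k + 1 ≤ 10 * R) (hRc : 20 * ρ.m (k + 1) * R + 2 * s ≤ ρ.Rc (k + 1))
    (hQ : ∀ p ∈ P, Crowded ρ k P p → p ∈ Q) (hd : Disjoint Fr Ord)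
    (hFr : ∀ x ∈ Fr, (∃ p ∈ P, tdist x p ≤ s) ∨ ∃ q ∈ Q, tdist x q ≤ 3 * R)
    (hs : s + J * s' ≤ 3 * R)
    (hDm : 20 * ρ.m (k + 1) * R + (s + J * s') ≤ Dm)
    (hn0 : ρ.m (k + 1) * vol d M (2 * ρ.r k + s) ≤ n0) (hn : n0 + J ≤ n)
    (hε : 0 < ε) (hε1 : ε ≤ 1 / 2) (hζ : 0 < ζ) (hζ1 : 2 * ζ ^ 2 ≤ ε) (he : 0 ≤ e) (hμ : 0 < μ1)
    (hmu : ∀ a ∈ Ord, μ1 ≤ mu (Km A w) a)
    (hent : ∀ a ∈ Ord, ∀ a' ∈ Ord, a ≠ a' → ‖Km A w a a'‖ ≤ e)
    (hJ : 20 * n0 * Real.log (2 / ζ) < ε * J) (hJe : 40 * J * e ≤ ε * μ1) (hθ : 0 ≤ θ)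
    (hdec : ∀ a b, ‖Km A w a b‖ ≤ Ag * Real.exp (-θ * tdist a b))
    (hD : (Ag * Real.exp (-θ * s')) ^ 2 * n ≤ ε * ζ ^ 2 * μ1) :
    ∃ Cs ⊆ P \ Q, ∃ B, Plan (Km A w) Ord Fr Cs B ε ζ n Dm R ∧
      (∀ c ∈ Cs, B c ⊆ nbhd P (s + J * s')) ∧
      ∀ x ∈ Fr, (∃ c ∈ Cs, x ∈ B c) ∨ ∃ q ∈ Q, tdist x q ≤ Dm + 10 * R := by
  obtain ⟨Cs, cl, h1, h2, h3, h4, h5⟩ := exists_clusters ρ k R P Q hR (by omega) hQ
  have hAg : 0 ≤ Ag := by simpa [tdist_self] using (norm_nonneg _).trans (hdec 0 0)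
  have hlog : 0 ≤ Real.log (2 / ζ) := Real.log_nonneg (by rw [le_div_iff₀ hζ]; nlinarith)
  have key : ∀ c ∈ Cs, ∃ Z ⊆ Ord, (Fr ∩ nbhd (cl c) s ∪ Z).card ≤ n ∧
      Z ⊆ nbhd (cl c) (s + J * s') ∧
      ∀ a ∈ Ord \ Z, LevD (Km A w) (Fr ∩ nbhd (cl c) s ∪ Z) ε ζ a := by
    intro c hc
    obtain ⟨a1, a2, a3, a4⟩ := h1 c hc
    have hc0 : ((Fr ∩ nbhd (cl c) s).card : ℝ) ≤ n0 := by
      refine le_trans (Nat.cast_le.2 (card_le_card fun x hx => ?_)) ((card_near_le ρ k P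
        (mt (hQ c (a2 a1)) a4) (s := s) (D := 20 * ρ.m (k + 1) * R + s) (by omega)).trans hn0)
      obtain ⟨p, hp, hx⟩ := mem_nbhd.1 (mem_inter.1 hx).2
      have := tdist_triangle x p c
      have := mem_tball.1 (a3 hp)
      exact mem_filter.2 ⟨mem_univ _, by omega, p, a2 hp, hx⟩
    have hc1 : (Fr ∩ nbhd (cl c) s).card ≤ n0 := by exact_mod_cast hc0
    obtain ⟨Z, z1, z2, z3, z4⟩ := h.leverage (B := Fr ∩ nbhd (cl c) s) (Cand := Ord)
      (hd.mono_left inter_subset_left) hε hε1 hζ hζ1 he hμ hmu hent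
      (lt_of_le_of_lt (by gcongr) hJ) hJe (D := fun x => (cl c).inf' ⟨c, a1⟩ (tdist x)) (D0 := s)
      (s := s') (fun b hb => (inf'_le_iff _).2 (mem_nbhd.1 (mem_inter.1 hb).2)) (by
        intro a _ b _ hab
        obtain ⟨p, hp, e1⟩ := exists_mem_eq_inf' ⟨c, a1⟩ (tdist b)
        have e2 := inf'_le (tdist a) hp
        have e3 := tdist_triangle a b p
        have e4 : (s' : ℝ) ≤ tdist a b := by exact_mod_cast (by omega : s' ≤ tdist a b)
        refine le_trans (mul_le_mul (pow_le_pow_left₀ (norm_nonneg _) ((hdec a b).trans ?_) 2)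
          ?_ (by positivity) (sq_nonneg _)) hD
        · exact mul_le_mul_of_nonneg_left (Real.exp_le_exp.2 (by nlinarith)) hAg
        · exact_mod_cast (by omega : (Fr ∩ nbhd (cl c) s).card + J ≤ n))
    exact ⟨Z, z1, (card_union_le _ _).trans (by omega),
      fun z hz => mem_nbhd.2 ((inf'_le_iff _).1 (z3 z hz)), z4⟩
  choose! Z z1 z2 z3 z4 using key
  have near : ∀ c ∈ Cs, ∀ x ∈ Fr ∩ nbhd (cl c) s ∪ Z c, ∃ p ∈ cl c, tdist x p ≤ s + J * s' := by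
    intro c hc x hx
    rcases mem_union.1 hx with hx | hx
    · exact (mem_nbhd.1 (mem_inter.1 hx).2).imp fun p hp => ⟨hp.1, by omega⟩
    · exact mem_nbhd.1 (z3 c hc hx)
  have far : ∀ c ∈ Cs, ∀ c' ∈ Cs, c ≠ c' → ∀ p ∈ cl c, ∀ p' ∈ cl c', 10 * R < tdist p p' :=
    fun c hc c' hc' e p hp p' hp' => h2 c hc p hp p' ((h1 c' hc').2.1 hp')
      fun hh => disjoint_left.1 (h4 c hc c' hc' e) hh hp'
  refine ⟨Cs, fun c hc => mem_sdiff.2 ⟨(h1 c hc).2.1 (h1 c hc).1, (h1 c hc).2.2.2⟩,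
    fun c => Fr ∩ nbhd (cl c) s ∪ Z c, ⟨fun c hc => union_subset_union inter_subset_left (z1 c hc),
      z2, fun c hc x hx => ?_,
      fun c hc c' hc' e => (far c hc c' hc' e c (h1 c hc).1 c' (h1 c' hc').1).le,
      fun c hc c' hc' e x hx x' hx' => ?_, fun c hc a ha hF => ?_, fun c hc a ha ha' =>
      z4 c hc a (mem_sdiff.2 ⟨ha, fun hh => ha' (mem_union_right _ hh)⟩)⟩,
    fun c hc x hx => mem_nbhd.2 ((near c hc x hx).imp fun p hp => ⟨(h1 c hc).2.1 hp.1, hp.2⟩),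
    fun x hx => ?_⟩
  · obtain ⟨p, hp, e⟩ := near c hc x hx
    have := mem_tball.1 ((h1 c hc).2.2.1 hp)
    have := tdist_triangle x p c
    exact mem_tball.2 (by omega)
  · obtain ⟨p, hp, e1⟩ := near c hc x hx
    obtain ⟨p', hp', e2⟩ := near c' hc' x' hx'
    have := far c hc c' hc' e p hp p' hp'
    have := tdist_triangle p x p'
    have := tdist_triangle x x' p'
    have := tdist_comm p x
    omega
  · obtain ⟨b, hb, e1⟩ := mem_nbhd.1 ha
    obtain ⟨p, hp, e2⟩ := near c hc b hb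
    have e4 : ∀ q, tdist a q ≤ 3 * R → tdist p q ≤ 10 * R := fun q e3 => by
      have := tdist_triangle p b q
      have := tdist_triangle b a q
      have := tdist_comm p b
      have := tdist_comm a b
      omega
    rcases hFr a hF with ⟨q, hq, e3⟩ | ⟨q, hq, e3⟩
    · refine mem_union_left _ (mem_inter.2 ⟨hF, mem_nbhd.2 ⟨q, ?_, e3⟩⟩)
      by_contra hh
      exact (h2 c hc p hp q hq hh).not_ge (e4 q (by omega))
    · exact absurd (e4 q e3) (h3 c hc p hp q hq).not_ge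
  · rcases hFr x hx with ⟨p, hp, e⟩ | ⟨p, hp, e⟩
    · rcases h5 p hp with ⟨c, hc, hp⟩ | ⟨q, hq, e'⟩
      · exact Or.inl ⟨c, hc, mem_union_left _ (mem_inter.2 ⟨hx, mem_nbhd.2 ⟨p, hp, e⟩⟩)⟩
      · have := tdist_triangle x p q
        exact Or.inr ⟨q, hq, by omega⟩
    · exact Or.inr ⟨p, hp, by omega⟩

theorem Plan.empty : Plan K Ord Fr ∅ B ε ζ n Dm R := by
  constructor <;> simp [Sep]

theorem Plan.mono (h : Plan K Ord Fr Cs B ε ζ n Dm R) (hs : Cs' ⊆ Cs) :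
    Plan K Ord Fr Cs' B ε ζ n Dm R :=
  ⟨fun c hc => h.sub c (hs hc), fun c hc => h.card c (hs hc), fun c hc => h.diam c (hs hc),
    h.sep.mono le_rfl hs, fun c hc c' hc' => h.iso c (hs hc) c' (hs hc'),
    fun c hc => h.fr c (hs hc), fun c hc => h.lev c (hs hc)⟩

/-- a port of another cluster is outside the neighbourhood -/
theorem Plan.not_near (h : Plan K Ord Fr Cs B ε ζ n Dm R) {c c' x : Tor d M} (hc : c ∈ Cs)
    (hc' : c' ∈ Cs) (e : c ≠ c') (hx : x ∈ B c) : x ∉ nbhd (B c') R := fun hh => by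
  obtain ⟨b, hb, e1⟩ := mem_nbhd.1 hh
  have := h.iso c hc c' hc' e x hx b hb
  omega

/-- unreleased frozen ports (old ones and those of rejected clusters) are far from the release -/
theorem Plan.frozen_far (h : Plan K Ord Fr Cs B ε ζ n Dm R) (hs : Cs' ⊆ Cs) {x : Tor d M}
    (hx : x ∈ Fr ∪ Cs.biUnion B) (hx' : x ∉ Cs'.biUnion B) {c : Tor d M} (hc : c ∈ Cs') :
    x ∉ nbhd (B c) R := fun hh => by
  rcases mem_union.1 hx with hx | hx
  · exact hx' (mem_biUnion.2 ⟨c, hc, h.fr c (hs hc) x hh hx⟩)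
  · obtain ⟨c', hc', hx⟩ := mem_biUnion.1 hx
    exact h.not_near hc' (hs hc) (by rintro rfl; exact hx' (mem_biUnion.2 ⟨_, hc, hx⟩)) hx hh

section Cons

theorem gam_same {U : Finset (Tor d M)} {a : Tor d M} (h : a ∉ U) : gam (wCl w U v) a = gam w a := by
  simp [gam, wCl, h]

theorem gam_closed {U : Finset (Tor d M)} {a : Tor d M} (h : a ∈ U) : gam (wCl w U v) a = 0 := by
  simp [gam, wCl, h]

theorem dK_sq (h : Adm A w) {U : Finset (Tor d M)} {a b : Tor d M} (ha : a ∉ U) (hb : b ∉ U) :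
    ‖Km A (wCl w U v) a b - Km A w a b‖ ^ 2
      = gam w a * gam w b * ‖Gm A (wCl w U v) a b - Gm A w a b‖ ^ 2 := by
  rw [Km, Km, gam_same ha, gam_same hb, ← sub_mul, ← mul_sub, norm_mul, norm_mul, mul_pow, mul_pow,
    Complex.norm_real, Complex.norm_real, Real.norm_eq_abs, Real.norm_eq_abs, sq_abs, sq_abs,
    Real.sq_sqrt (h.diss a), Real.sq_sqrt (h.diss b)]
  ring

variable (h : Rel A w O Cs B v θ θ' Ag η g K1 tn Dm R)
include h

theorem tn_ge : Ag ^ 2 * Real.exp (-θ * R) ≤ tn := by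
  have h1 := Rel1.budget h
  have h2 := Rel1.one_le_K1 h
  have h3 : 1 ≤ ((12 * d / θ) ^ d) ^ 2 :=
    one_le_pow₀ (one_le_pow₀ (by linarith [Rel1.two_le_S h]))
  have h4 := h.Ag1
  have h5 : Real.exp (-θ * R) ≤ Real.exp (-θ * R / 2) :=
    Real.exp_le_exp.2 (by nlinarith [Rel1.θ_pos h, R.cast_nonneg (α := ℝ)])
  have h6 : Ag ^ 2 ≤ Ag ^ 3 * K1 ^ 2 * ((12 * d / θ) ^ d) ^ 2 :=
    ((pow_le_pow_right₀ h4 (by norm_num)).trans
      (le_mul_of_one_le_right (by positivity) (one_le_pow₀ h2))).trans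
      (le_mul_of_one_le_right (by positivity) h3)
  have h7 := mul_le_mul h6 h5 (Real.exp_pos _).le (by positivity)
  nlinarith [mul_nonneg (sq_nonneg Ag) (Real.exp_pos (-θ * R)).le]

theorem tn_nonneg : 0 ≤ tn := le_trans (by positivity) (tn_ge h)

theorem dK_far {a b : Tor d M} (ha : a ∉ Cs.biUnion B) (hb : b ∉ Cs.biUnion B)
    (hab : ¬ ∃ c ∈ Cs, a ∈ nbhd (B c) R ∧ b ∈ nbhd (B c) R) :
    ‖Km A (wCl w (Cs.biUnion B) v) a b - Km A w a b‖ ^ 2
      ≤ tn ^ 2 * Real.exp (-θ' * tdist a b) := by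
  rw [dK_sq h.adm ha hb]
  by_cases e1 : gam w a = 0
  · rw [e1, zero_mul, zero_mul]; positivity
  by_cases e2 : gam w b = 0
  · rw [e2, mul_zero, zero_mul]; positivity
  refine (mul_le_of_le_one_left (by positivity)
    (mul_le_one₀ (h.gam_le a) (h.adm.diss b) (h.gam_le b))).trans
    ((pow_le_pow_left₀ (norm_nonneg _) (h.far (h.ports a e1) (h.ports b e2) hab) 2).trans ?_)
  rw [mul_pow]
  exact mul_le_mul_of_nonneg_left (pow_le_of_le_one (Real.exp_pos _).le (Real.exp_le_one_iff.2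
    (by nlinarith [h.θ0, (tdist a b).cast_nonneg (α := ℝ)])) two_ne_zero) (sq_nonneg _)

/-- rows of all surviving ordinary ports -/
theorem row_le (hp : Plan (Km A w) Ord Fr Cs B ε ζ n Dm R) (hε : tn ≤ ε) (hζ : 0 ≤ ζ)
    (hζ1 : 6 * ζ ≤ η * g) (ht : tn * (3 * d / θ') ^ d ≤ 24) {a : Tor d M} (ha : a ∈ Ord)
    (ha' : a ∉ Cs.biUnion B) :
    ∑ b ∈ univ \ Cs.biUnion B, ‖Km A (wCl w (Cs.biUnion B) v) a b - Km A w a b‖ ^ 2 ≤ 24 * ε := by
  by_cases e : ∃ c ∈ Cs, a ∈ nbhd (B c) R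
  · obtain ⟨c, hc, e⟩ := e
    have : a ∉ B c := fun hh => ha' (mem_biUnion.2 ⟨c, hc, hh⟩)
    exact h.row hε hζ hζ1 hc e this (hp.lev c hc a ha this)
  have h0 := tn_nonneg h
  refine (sum_le_sum fun b hb => dK_far h ha' (mem_sdiff.1 hb).2
    fun ⟨c, hc, hh⟩ => e ⟨c, hc, hh.1⟩).trans ?_
  simp only [tdist_comm a]
  rw [← mul_sum]
  refine (mul_le_mul_of_nonneg_left ((sum_le_sum_of_subset_of_nonneg (subset_univ _)
    fun _ _ _ => (Real.exp_pos _).le).trans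
    (sum_exp_le h.θ0 (by linarith [h.θ0, h.θ1, h.θ2]) a)) (sq_nonneg _)).trans ?_
  nlinarith [mul_le_mul_of_nonneg_left ht h0]

/-- the release seen by the forms -/
theorem relH (hp : Plan (Km A w) Ord Fr Cs B ε ζ n Dm R) (hε : tn ≤ ε) (hζ : 0 ≤ ζ)
    (hζ1 : 6 * ζ ≤ η * g) (hO : ∀ x, gam w x ≠ 0 → x ∈ absb d M ∨ x ∈ Fr ∪ Ord)
    (hab : Disjoint (Fr ∪ Ord) (absb d M)) {L k : ℕ} (hL : Dm + R ≤ L) (hR : 1 ≤ R)
    (hk : L < k * (10 * R)) :
    M6.RelH A w (wCl w (Cs.biUnion B) v) Cs B (fun c => nbhd (B c) R) Ord L (24 * ε) (18 * n + 1)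
      tn θ' ((2 * k + 1) ^ d) := by
  have h0 := tn_nonneg h
  have hζ2 : ζ ^ 2 ≤ 1 := pow_le_one₀ hζ (by nlinarith [h.η0, h.η1, h.g0, h.g1])
  refine ⟨h.adm, h.exists_T.1, fun a => gam_same, fun a => gam_closed, fun a ha => ?_,
    fun a ha => ?_, fun c _ => subset_nbhd _ _, fun c hc a ha => ?_, fun c hc c' hc' e => ?_,
    fun p => ?_, fun c hc a h1 h2 h3 h4 => ?_, fun c hc => (h.mass hc).trans ?_, fun c hc => ?_,
    fun a b ha hb hab => (dK_far h ha hb hab).trans ?_, fun c hc b hb a ha => ?_,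
    by linarith, h0⟩
  · obtain ⟨c, hc, ha⟩ := mem_biUnion.1 ha
    exact (h.g0.trans_le (h.gam_ge c hc a ha)).ne'
  · obtain ⟨c, hc, ha⟩ := mem_biUnion.1 ha
    exact disjoint_left.1 hab (hp.sub c hc ha)
  · obtain ⟨b, hb, e⟩ := mem_nbhd.1 ha
    have := mem_tball.1 (h.diam c hc hb)
    have := tdist_triangle a b c
    exact mem_tball.2 (by omega)
  · refine disjoint_left.2 fun a h1 h2 => ?_
    obtain ⟨b, hb, e1⟩ := mem_nbhd.1 h1
    obtain ⟨b', hb', e2⟩ := mem_nbhd.1 h2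
    have := h.iso c hc c' hc' e b hb b' hb'
    have := tdist_triangle b a b'
    have := tdist_comm a b
    omega
  · have := card_sep_le hp.sep (by omega) hk p
    rw [show (Cs.filter fun c => p ∈ tball c L) = Cs ∩ tball p L by
      ext c; simp [mem_tball, tdist_comm]]
    exact_mod_cast this
  · have ha : a ∈ Ord := ((mem_union.1 ((hO a h4).resolve_left h3)).resolve_left
      fun hh => h2 (hp.fr c hc a h1 hh))
    have hl := hp.lev c hc a ha h2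
    exact ⟨ha, h.row hε hζ hζ1 hc h1 h2 hl,
      (h.adm.lev_mass (h0.trans hε) hζ2 hl).trans (by linarith)⟩
  · have : ((B c).card : ℝ) ≤ n := Nat.cast_le.2 (hp.card c hc)
    linarith
  · have : ((B c).card : ℝ) ≤ n := Nat.cast_le.2 (hp.card c hc)
    linarith [n.cast_nonneg (α := ℝ)]
  · exact mul_le_mul_of_nonneg_right (by nlinarith [h.tn1]) (Real.exp_pos _).le
  · have e : (R : ℝ) ≤ tdist a b :=
      Nat.cast_le.2 (not_le.1 fun hh => ha (mem_nbhd.2 ⟨b, hb, hh⟩)).le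
    refine (pow_le_pow_left₀ (norm_nonneg _) (K_le h.adm h.ports h.gam_le h.tw a b) 2).trans
      (le_trans ?_ (mul_le_mul_of_nonneg_right (tn_ge h) (Real.exp_pos _).le))
    rw [mul_pow, mul_assoc, ← Real.exp_add, ← Real.exp_nat_mul]
    refine mul_le_mul_of_nonneg_left (Real.exp_le_exp.2 ?_) (sq_nonneg _)
    push_cast
    nlinarith [h.θ0, h.θ1, (tdist a b).cast_nonneg (α := ℝ)]

/-- change of an entry of `G` from the row bound -/
theorem dG_le {a b : Tor d M} {e : ℝ} (ha : a ∉ Cs.biUnion B) (hb : b ∉ Cs.biUnion B)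
    (ga : g ≤ gam w a) (gb : g ≤ gam w b) (he : 0 ≤ e)
    (hr : ∑ b ∈ univ \ Cs.biUnion B, ‖Km A (wCl w (Cs.biUnion B) v) a b - Km A w a b‖ ^ 2
      ≤ (g * e) ^ 2) : ‖Gm A (wCl w (Cs.biUnion B) v) a b - Gm A w a b‖ ≤ e := by
  have h1 := (single_le_sum (f := fun b => ‖Km A (wCl w (Cs.biUnion B) v) a b - Km A w a b‖ ^ 2)
    (fun _ _ => by positivity) (mem_sdiff.2 ⟨mem_univ b, hb⟩)).trans hr
  have h2 := h.g0
  rw [dK_sq h.adm ha hb, mul_pow] at h1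
  refine (pow_le_pow_iff_left₀ (norm_nonneg _) he two_ne_zero).1
    (le_of_mul_le_mul_left (le_trans ?_ h1) (by positivity))
  exact mul_le_mul_of_nonneg_right (by nlinarith) (sq_nonneg _)

/-- entries between an unreleased frozen port and any port -/
theorem G_frozen {a b : Tor d M} (ha : a ∈ O) (hb : b ∈ O) (hf : ∀ c ∈ Cs, a ∉ nbhd (B c) R) :
    ‖Gm A (wCl w (Cs.biUnion B) v) a b‖
      ≤ Ag * Real.exp (-θ * tdist a b) + tn * Real.exp (-θ' * tdist a b) := by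
  have h1 := h.tw.entry a b
  rw [cmp, if_pos ⟨ha, hb⟩] at h1
  exact (norm_le_norm_add_norm_sub' _ (Gm A w a b)).trans
    (add_le_add h1 (h.far ha hb fun ⟨c, hc, hh⟩ => hf c hc hh.1))

/-- the new reference -/
theorem href {O' : Finset (Tor d M)} (hO : O' ⊆ O) {g' R0 : ℝ} {L0 : ℕ} (hg : 0 < g')
    (hg' : ∀ x ∈ O', g' ≤ gam (wCl w (Cs.biUnion B) v) x) (hR0 : 0 < R0) (h1 : 2 ≤ θ' * R0)
    (h2 : (Ag + 2 * Ag ^ 2 * K1) * Real.exp (-θ' * L0 / 2) ≤ 1) :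
    ∀ a ∈ O', ∀ b ∈ O', ‖Gm A (wCl w (Cs.biUnion B) v) a b‖ ≤ 1 / g' ∧
      (L0 < tdist a b → ‖Gm A (wCl w (Cs.biUnion B) v) a b‖ ≤ Real.exp (-(tdist a b : ℝ) / R0)) := by
  intro a ha b hb
  constructor
  · have := (norm_entry_le _ a b).trans (h.exists_T.1.norm_cmp hg hg')
    rwa [cmp, if_pos ⟨ha, hb⟩] at this
  · intro e
    have e' : (L0 : ℝ) ≤ tdist a b := Nat.cast_le.2 e.le
    have h3 := h.Ag1
    have h4 := Rel1.one_le_K1 h
    refine (h.ref (hO ha) (hO hb)).trans (le_trans ?_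
      (mul_le_of_le_one_left (Real.exp_pos _).le h2))
    rw [mul_assoc (_ + _), ← Real.exp_add]
    refine mul_le_mul_of_nonneg_left (Real.exp_le_exp.2 ?_) (by positivity)
    have h5 : (tdist a b : ℝ) / R0 ≤ θ' * tdist a b / 2 := by
      rw [div_le_iff₀ hR0]
      nlinarith [(tdist a b).cast_nonneg (α := ℝ)]
    rw [neg_div]
    nlinarith [h.θ0]

end Cons

/-- fourth powers after a small change of a row -/
theorem sum_four_le {ι : Type} (S : Finset ι) (x y : ι → ℂ) {e : ℝ}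
    (h : ∑ b ∈ S, ‖y b - x b‖ ^ 2 ≤ e) :
    ∑ b ∈ S, ‖y b‖ ^ 4 ≤ 8 * ∑ b ∈ S, ‖x b‖ ^ 4 + 8 * e ^ 2 := by
  have h1 : ∀ b, ‖y b‖ ^ 4 ≤ 8 * ‖x b‖ ^ 4 + 8 * (‖y b - x b‖ ^ 2) ^ 2 := fun b => by
    have := pow_le_pow_left₀ (norm_nonneg _) (norm_le_norm_add_norm_sub' (y b) (x b)) 4
    have h2 := add_pow_le (norm_nonneg (x b)) (norm_nonneg (y b - x b)) 4
    norm_num at h2
    linarith
  refine (sum_le_sum fun b _ => h1 b).trans ?_
  rw [sum_add_distrib, ← mul_sum, ← mul_sum]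
  have h3 := (sum_sq_le_sq_sum_of_nonneg (s := S) (f := fun b => ‖y b - x b‖ ^ 2)
    fun _ _ => by positivity).trans (pow_le_pow_left₀ (by positivity) h 2)
  linarith

/-! ### the random steps -/

section Cells

variable {Λ : Type} [Fintype Λ] [DecidableEq Λ]

/-- refine the cells of `U` to length `l` -/
theorem cavg_split (lo len : Λ → ℕ) (U : Finset Λ) {l : ℕ} (hl : 0 < l) (h0 : ∀ x, 0 < len x)
    (hd : ∀ x ∈ U, l ∣ len x) (f : (Λ → ℕ) → ℝ) :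
    cavg (fun x => Ico (lo x) (lo x + len x)) f =
      avgP (fun x => if x ∈ U then len x / l else 1) fun ξ => cavg (fun x =>
        Ico (lo x + ξ x * l) (lo x + ξ x * l + if x ∈ U then l else len x)) f := by
  have hm : ∀ x, 0 < if x ∈ U then len x / l else 1 := fun x => by
    split_ifs with e
    exacts [Nat.div_pos (Nat.le_of_dvd (h0 x) (hd x e)) hl, one_pos]
  have := cavg_refine lo (fun x => if x ∈ U then len x / l else 1)
    (fun x => if x ∈ U then l else len x) hm (fun x => by split_ifs; exacts [hl, h0 x]) f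
  rw [show (fun x => Ico (lo x) (lo x + len x)) = fun x => Ico (lo x)
    (lo x + (if x ∈ U then len x / l else 1) * if x ∈ U then l else len x) from funext fun x => by
      split_ifs with e
      · rw [Nat.div_mul_cancel (hd x e)]
      · rw [one_mul], this]
  refine le_antisymm (avgP_mono fun ξ hξ => le_of_eq ?_) (avgP_mono fun ξ hξ => le_of_eq ?_)
  all_goals
    congr 1
    funext x
    have := hξ x
    split_ifs at this ⊢
    · rfl
    · rw [Nat.lt_one_iff.1 this, zero_mul, zero_mul]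

open Classical in
/-- the Wegner monitor of one cluster -/
theorem weg_locB {A : Matrix Λ Λ ℂ} {w : Λ → ℂ} (h : Adm A w) {B U : Finset Λ} (hB : B ⊆ U)
    {a : Λ → ℝ} {s φ : ℝ} {m : Λ → ℕ} {m0 : ℕ} (hm : ∀ x, 0 < m x) (hs : 0 < s) (h0 : 0 < m0)
    (hm0 : ∀ x ∈ B, m0 ≤ m x) (hφ : 160 * B.card / m0 ≤ φ) :
    LocB m U φ fun ξ => if 4 * s * ∑ x ∈ B,
      (Gm A (wEta w B (fun z => a z + ξ z * s) (4 * s)) x x).im ≤ 1 / 4 then 0 else 1 := by
  refine ⟨fun ξ => 4 * (4 * s * ∑ x ∈ B,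
    (Gm A (wEta w B (fun z => a z + ξ z * s) (4 * s)) x x).im), fun ξ ξ' e => ?_, fun ξ _ => ?_, ?_⟩
  · have : wEta w B (fun z => a z + ξ z * s) (4 * s) = wEta w B (fun z => a z + ξ' z * s) (4 * s) :=
      funext fun x => by
        by_cases hx : x ∈ B
        · simp only [wEta, e x (hB hx)]
        · simp only [wEta, hx, if_false]
    simp only [this]
  · beta_reduce
    split_ifs with e
    · exact ⟨le_rfl, mul_nonneg (by norm_num) (mul_nonneg (by positivity)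
        (sum_nonneg fun x _ => (h.eta _ (by positivity)).im_nonneg x))⟩
    · exact ⟨zero_le_one, by linarith [not_le.1 e]⟩
  · rw [avgP_mul]
    refine (mul_le_mul_of_nonneg_left (h.weg_avg hm hs (by linarith)) (by norm_num)).trans
      (le_trans ?_ hφ)
    rw [mul_sum]
    refine (sum_le_card_nsmul _ _ (160 / (m0 : ℝ)) fun x hx => ?_).trans (le_of_eq ?_)
    · have : (0 : ℝ) < m x := Nat.cast_pos.2 (hm x)
      rw [show 4 * (10 * (4 * s) / (m x * s)) = 160 / m x by field_simp; norm_num]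
      exact div_le_div_of_nonneg_left (by norm_num) (Nat.cast_pos.2 h0) (Nat.cast_le.2 (hm0 x hx))
    · rw [nsmul_eq_mul]
      ring

end Cells

end Crest.Agent.N334.AC.RelA
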