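import Crest.Agent.N334.AC.P.Num

/-! # S0520 part P (helper12): numerics of the release -/

set_option autoImplicit false
set_option maxHeartbeats 400000
set_option linter.unusedSectionVars false

open Finset Complex

namespace Crest.Agent.N334.AC.P.RN

variable {d M : ℕ} [NeZero M] {c : Cx d M} {e : Ep} {g : Sg} {ρ : Rad} {u : Rp} {e2 : Ep} {g2 : Sg}

/-- `m R` -/
def mR (ρ : Rad) (u : Rp) : ℕ := ρ.m (u.k + 1) * u.R
/-- length of the new cells -/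
noncomputable def cl (c : Cx d M) (e2 : Ep) : ℝ := (2 ^ e2.a : ℕ) * (2 * c.σ / c.N)
noncomputable def tn (e : Ep) : ℝ := e.Bg ^ 10 * Real.exp (-e.ϑ * e.ρ)
noncomputable def th (ρ : Rad) (u : Rp) : ℝ := 1 / (21 * mR ρ u : ℕ)
noncomputable def ze (e : Ep) : ℝ := 1 / e.Bg ^ 2

variable (L : LedR c ρ e g u e2 g2)
include L

theorem ρR : 3 * e.ρ ≤ u.R := by have := L.R_ge; omega
theorem R6 : 6 ≤ u.R := by have := ρR L; have := L.led.ρ_pos; omega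
theorem R_mR : u.R ≤ mR ρ u := Nat.le_mul_of_pos_left _ L.m1
theorem mR6 : (6 : ℝ) ≤ mR ρ u := by exact_mod_cast (R6 L).trans (R_mR L)
theorem B0 : 0 < e.Bg := lt_of_lt_of_le (by norm_num) L.led.B_ge
theorem B1 : 1 ≤ e.Bg := le_trans (by norm_num) L.led.B_ge
theorem d3 : (3 : ℝ) ≤ d := by exact_mod_cast L.led.ok.hd
theorem C1 : 1 ≤ c.C := L.led.ok.C1
theorem γ0 : 0 < c.γ := L.led.ok.γ0
theorem Cγ : 1000 * c.C ^ 2 * c.γ ≤ 1 := by
  refine le_trans (mul_le_mul_of_nonneg_right ?_ (γ0 L).le) L.led.ok.γ_le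
  exact mul_le_mul (by norm_num) (pow_le_pow_right₀ (C1 L) (by norm_num)) (by positivity)
    (by norm_num)
theorem γ1 : 1000 * c.γ ≤ 1 := by
  nlinarith [Cγ L, mul_le_mul_of_nonneg_right (one_le_pow₀ (n := 2) (C1 L)) (γ0 L).le]
theorem PC : 1000 * c.C ≤ e.P := le_trans
  (mul_le_mul (by norm_num) (le_self_pow₀ (C1 L) (by norm_num)) (by linarith [C1 L]) (by norm_num))
  L.led.P1
theorem P3 : (1000 : ℝ) ≤ e.P := by linarith [PC L, C1 L]

theorem powB {y : ℝ} {j : ℕ} (h0 : 0 ≤ y) (hy : y * e.ϑ ≤ 100 * d * mR ρ u) (hj : j ≤ 2 * d + 6) :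
    y ^ j ≤ e.Bg := by
  have h1 := L.led.ϑ0
  have h2 := L.B_R
  rw [mul_assoc, ← Nat.cast_mul, ← mR] at h2
  refine (pow_le_pow_left₀ h0 ((le_div_iff₀ h1).2 hy) j).trans
    ((pow_le_pow_right₀ ((one_le_div h1).2 ?_) hj).trans h2)
  nlinarith [L.led.ϑ_le, d3 L, mR6 L]

theorem powB' {y : ℝ} {j : ℕ} (h0 : 0 ≤ y) (hy : y ≤ 100 * d * mR ρ u) (hj : j ≤ 2 * d + 6) :
    y ^ j ≤ e.Bg :=
  powB L h0 (le_trans (mul_le_of_le_one_right h0 (by linarith [L.led.ϑ_le])) hy) hj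

theorem J_le : (u.J : ℝ) ≤ e.Bg := by
  have h1 : u.J ≤ mR ρ u := by
    have := L.R_ge
    have := R_mR L
    have := Nat.le_mul_of_pos_right u.J (show 0 < e.ρ by have := L.led.ρ_pos; omega)
    omega
  have h2 : (u.J : ℝ) ≤ mR ρ u := by exact_mod_cast h1
  simpa using powB' L (j := 1) (Nat.cast_nonneg u.J) (by nlinarith [d3 L, mR6 L]) (by omega)

theorem ε0 : 0 < u.ε := (mul_pos_iff_of_pos_left (B0 L)).1 (one_pos.trans_le L.ε0)
theorem x20 : 0 < g2.x := by linarith [L.x2, L.led.x_pos]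
theorem x24 : g2.x ^ 4 ≤ g2.x ^ 2 := pow_le_pow_of_le_one (x20 L).le L.x21 (by norm_num)
theorem x22 : g2.x ^ 2 ≤ 1 := pow_le_one₀ (x20 L).le L.x21
theorem ε_γ : 1000 * u.ε ≤ c.γ ^ 2 * g2.x ^ 4 :=
  (mul_le_mul_of_nonneg_right (P3 L) (ε0 L).le).trans L.ε_x
theorem ε_x : 1000 * u.ε ≤ g2.x ^ 4 := (ε_γ L).trans
  (mul_le_of_le_one_left (by positivity) (pow_le_one₀ (γ0 L).le (by linarith [γ1 L, γ0 L])))
theorem ε1 : u.ε ≤ 1 / 2 := by linarith [ε_x L, x24 L, x22 L]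
theorem logB : 1 ≤ Real.log e.Bg := by
  rw [Real.le_log_iff_exp_le (B0 L)]
  linarith [Real.exp_one_lt_d9, L.led.B_ge]

theorem n0_le {n0 : ℕ} (h : (n0 : ℝ) = ρ.m (u.k + 1) * vol d M (2 * ρ.r u.k + e.s)) :
    n0 ≤ u.J := by
  have h1 := L.J_lo
  rw [← h] at h1
  have : (n0 : ℝ) ≤ u.J := by
    nlinarith [mul_le_mul_of_nonneg_left (logB L) (n0.cast_nonneg (α := ℝ)),
      mul_le_mul_of_nonneg_right (ε1 L) (u.J.cast_nonneg (α := ℝ)), n0.cast_nonneg (α := ℝ)]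
  exact_mod_cast this

theorem J1 : (1 : ℝ) ≤ u.J := by
  have h1 := L.J_lo
  have h2 := zero_le_one.trans (one_le_vol (d := d) (M := M) (2 * ρ.r u.k + e.s))
  have h3 := zero_le_one.trans (logB L)
  exact Nat.one_le_cast.2 (Nat.cast_pos.1 ((mul_pos_iff_of_pos_left (ε0 L)).1
    (lt_of_le_of_lt (by positivity) h1)))

theorem ze0 : 0 < ze e := by have := B0 L; unfold ze; positivity
theorem ze1 : 2 * ze e ^ 2 ≤ u.ε := by
  have h0 := B0 L
  refine le_of_mul_le_mul_left (le_trans ?_ L.ε0) h0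
  rw [ze, show e.Bg * (2 * (1 / e.Bg ^ 2) ^ 2) = 2 / e.Bg ^ 3 by field_simp,
    div_le_one (by positivity)]
  exact le_trans (by linarith [L.led.B_ge]) (le_self_pow₀ (B1 L) (by norm_num))

theorem hJ {n0 : ℕ} (h : (n0 : ℝ) = ρ.m (u.k + 1) * vol d M (2 * ρ.r u.k + e.s)) :
    20 * n0 * Real.log (2 / ze e) < u.ε * u.J := by
  have h1 := L.J_lo
  have h0 := B0 L
  rw [← h] at h1
  have h2 : Real.log (2 / ze e) ≤ 3 * Real.log e.Bg := by
    rw [ze, div_div_eq_mul_div, div_one, Real.log_mul two_ne_zero (by positivity), Real.log_pow]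
    have := Real.log_le_log two_pos (show 2 ≤ e.Bg by linarith [L.led.B_ge])
    push_cast
    linarith
  nlinarith [mul_le_mul_of_nonneg_left h2 (n0.cast_nonneg (α := ℝ))]

theorem sqh : e.P * u.J * √(g.x ^ 2 / e.q) ≤ u.ε := by
  have := L.led.q0
  refine (pow_le_pow_iff_left₀ (by positivity) (ε0 L).le two_ne_zero).1 ?_
  rw [mul_pow, mul_pow, Real.sq_sqrt (by positivity)]
  exact L.J_hi

theorem sqh' : √(g.x ^ 2 / e.q) ≤ g2.x ^ 2 := by
  have h1 := mul_le_mul_of_nonneg_right (one_le_mul_of_one_le_of_one_le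
    (show (1 : ℝ) ≤ e.P by linarith [P3 L]) (J1 L)) (Real.sqrt_nonneg (g.x ^ 2 / e.q))
  linarith [sqh L, ε_x L, x24 L, ε0 L]

theorem hJe : 40 * u.J * (11 / 10 * c.γ * √(g.x ^ 2 / e.q)) ≤ u.ε * (c.γ / (5 * c.C)) := by
  have h0 := C1 L
  have h1 := mul_le_mul_of_nonneg_right (PC L)
    (mul_nonneg (u.J.cast_nonneg (α := ℝ)) (Real.sqrt_nonneg (g.x ^ 2 / e.q)))
  rw [← mul_div_assoc, le_div_iff₀ (by positivity)]
  have h2 : 220 * c.C * (u.J * √(g.x ^ 2 / e.q)) ≤ u.ε := by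
    nlinarith [sqh L, mul_nonneg (zero_le_one.trans h0)
      (mul_nonneg (u.J.cast_nonneg (α := ℝ)) (Real.sqrt_nonneg (g.x ^ 2 / e.q)))]
  nlinarith [mul_le_mul_of_nonneg_right h2 (γ0 L).le]

theorem CB : 1000 * c.C ≤ e.Bg := le_trans
  (mul_le_mul (by norm_num) (le_self_pow₀ (C1 L) (by norm_num)) (by linarith [C1 L]) (by norm_num))
  L.led.B_C

theorem tn0 : 0 < tn e := by have := B0 L; unfold tn; positivity
theorem tn_le : e.Bg ^ 30 * tn e ≤ 1 := by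
  rw [tn, ← mul_assoc, ← pow_add]
  exact L.led.far1 le_rfl
theorem tn_pow {j : ℕ} (hj : j < 30) : 1000 * (e.Bg ^ j * tn e) ≤ 1 := by
  refine le_trans ?_ (tn_le L)
  rw [← mul_assoc]
  refine mul_le_mul_of_nonneg_right (le_trans ?_ (pow_le_pow_right₀ (B1 L) hj)) (tn0 L).le
  rw [pow_succ']
  exact mul_le_mul_of_nonneg_right (by linarith [L.led.B_ge]) (pow_pos (B0 L) _).le
theorem tn_ε : 1000 * (e.Bg ^ 3 * tn e) ≤ u.ε := by
  refine le_of_mul_le_mul_left (le_trans ?_ L.ε0) (B0 L)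
  linarith [tn_pow L (j := 4) (by norm_num)]
theorem tn_ε' : tn e ≤ u.ε := by
  nlinarith [tn_ε L, mul_le_mul_of_nonneg_right (one_le_pow₀ (n := 3) (B1 L)) (tn0 L).le, tn0 L]

theorem hD : (e.Bg * Real.exp (-e.ϑ * e.ρ)) ^ 2 * (2 * u.J : ℕ)
    ≤ u.ε * ze e ^ 2 * (c.γ / (5 * c.C)) := by
  have h0 := B0 L
  have h1 := C1 L
  have h2 : Real.exp (-e.ϑ * e.ρ) ^ 2 ≤ Real.exp (-e.ϑ * e.ρ) :=
    pow_le_of_le_one (Real.exp_pos _).le (Real.exp_le_one_iff.2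
      (by nlinarith [L.led.ϑ0, e.ρ.cast_nonneg (α := ℝ)])) two_ne_zero
  have h3 : 1 / e.Bg ≤ u.ε := by rw [div_le_iff₀' h0]; exact L.ε0
  have h4 : 1 / e.Bg / e.Bg ≤ c.γ / (5 * c.C) :=
    div_le_div₀ (γ0 L).le (by rw [div_le_iff₀' h0]; exact L.led.B_γ) (by positivity)
      (by linarith [CB L])
  calc _ ≤ e.Bg ^ 2 * Real.exp (-e.ϑ * e.ρ) * (2 * e.Bg) := by
        rw [mul_pow]
        push_cast
        gcongr
        exact J_le L
    _ = 2 * tn e * (1 / e.Bg ^ 7) := by rw [tn]; field_simp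
    _ ≤ 1 / e.Bg ^ 7 := mul_le_of_le_one_left (by positivity)
        (by linarith [tn_pow L (j := 0) (by norm_num), tn0 L])
    _ = 1 / e.Bg * ze e ^ 2 * (1 / e.Bg / e.Bg) := by rw [ze]; field_simp
    _ ≤ _ := by gcongr; exact mul_nonneg (ε0 L).le (sq_nonneg _)

theorem cl0 : 0 < cl c e2 := by
  have := L.led.ok.σ0
  have : (0 : ℝ) < c.N := Nat.cast_pos.2 L.led.ok.N0
  unfold cl; positivity
theorem σ1 : 1000 * c.C * c.σ ≤ 1 := by
  refine le_trans (mul_le_mul_of_nonneg_right ?_ L.led.ok.σ0.le) L.led.ok.σ_le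
  exact mul_le_mul (by norm_num) (le_self_pow₀ (C1 L) (by norm_num)) (by linarith [C1 L])
    (by norm_num)
theorem cl1 : 4 * cl c e2 ≤ 1 := by
  obtain ⟨W, h1, h2⟩ := L.N_eq
  have h3 : ((2 ^ e2.a : ℕ) : ℝ) ≤ c.N :=
    Nat.cast_le.2 (h2 ▸ Nat.pow_le_pow_right (by norm_num) (by have := L.a2; omega))
  have h4 : (0 : ℝ) < c.N := Nat.cast_pos.2 L.led.ok.N0
  have h5 := L.led.ok.σ0
  have : cl c e2 ≤ 2 * c.σ := by
    rw [cl, ← mul_div_assoc, div_le_iff₀ h4]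
    nlinarith
  nlinarith [σ1 L, C1 L]
theorem B_cl : 2 ≤ e.Bg * cl c e2 := by
  have h4 : (0 : ℝ) < c.N := Nat.cast_pos.2 L.led.ok.N0
  rw [cl, ← mul_div_assoc, ← mul_div_assoc, le_div_iff₀ h4]
  push_cast
  linarith [L.B_η]
theorem K1_le : 23 / (4 * cl c e2) ≤ 3 * e.Bg := by
  rw [div_le_iff₀ (by linarith [cl0 L])]
  linarith [B_cl L]
theorem th0 : 0 < th ρ u := by
  have := mR6 L
  rw [th]; push_cast; positivity
theorem th_mul : th ρ u * (21 * mR ρ u : ℕ) = 1 :=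
  one_div_mul_cancel (by have := mR6 L; push_cast; positivity)
theorem ϑρ : 4 ≤ e.ϑ * e.ρ := by
  have h1 := L.led.far1 le_rfl
  rw [← Real.exp_log (B0 L), ← Real.exp_nat_mul, ← Real.exp_add, Real.exp_le_one_iff] at h1
  push_cast at h1
  linarith [logB L]
theorem th1 : 4 * th ρ u ≤ e.ϑ := by
  have h1 : (e.ρ : ℝ) ≤ (21 * mR ρ u : ℕ) := by
    exact_mod_cast (by have := ρR L; have := R_mR L; omega : e.ρ ≤ 21 * mR ρ u)
  have := mR6 L
  rw [th, mul_one_div, div_le_iff₀ (by push_cast; positivity)]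
  exact (ϑρ L).trans (mul_le_mul_of_nonneg_left h1 L.led.ϑ0.le)
theorem hK1 : Real.exp (2 * th ρ u * (21 * mR ρ u : ℕ)) * (3 / (4 * cl c e2))
    ≤ 23 / (4 * cl c e2) := by
  rw [mul_assoc, th_mul L, mul_one, ← mul_div_assoc]
  refine div_le_div_of_nonneg_right ?_ (by linarith [cl0 L])
  have := pow_le_pow_left₀ (Real.exp_pos _).le Real.exp_one_lt_d9.le 2
  rw [← Real.exp_nat_mul] at this
  norm_num at this ⊢
  linarith

theorem htn : 40 * vol d M (21 * mR ρ u + u.R) * e.Bg ^ 3 * (23 / (4 * cl c e2)) ^ 2 *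
    (12 * d / e.ϑ) ^ (2 * d) / (9 / 10 * c.γ) ^ 2 * Real.exp (-e.ϑ * u.R / 2) ≤ tn e := by
  have h0 := B0 L
  have hϑ := L.led.ϑ0
  have hγ := γ0 L
  have hc := cl0 L
  have h1 : vol d M (21 * mR ρ u + u.R) ≤ e.Bg := (vol_le _).trans (powB' L (by positivity) (by
    have : (u.R : ℝ) ≤ mR ρ u := Nat.cast_le.2 (R_mR L)
    push_cast
    nlinarith [d3 L, mR6 L]) (by omega))
  have h2 : (12 * d / e.ϑ) ^ (2 * d) ≤ e.Bg := powB L (by positivity)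
    (by rw [div_mul_cancel₀ _ hϑ.ne']; nlinarith [d3 L, mR6 L]) (by omega)
  have h3 : 1 / (9 / 10 * c.γ) ≤ 2 * e.Bg := by
    rw [div_le_iff₀ (by positivity)]
    linarith [L.led.B_γ]
  have h4 : (3 * e.ρ : ℝ) ≤ u.R := by exact_mod_cast ρR L
  rw [div_eq_mul_one_div _ (_ ^ 2), ← one_div_pow]
  calc _ ≤ 40 * e.Bg * e.Bg ^ 3 * (3 * e.Bg) ^ 2 * e.Bg * (2 * e.Bg) ^ 2 *
        Real.exp (-e.ϑ * e.ρ) := by
        gcongr
        · exact K1_le L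
        · nlinarith [e.ρ.cast_nonneg (α := ℝ)]
    _ = 1440 * e.Bg ^ 9 * Real.exp (-e.ϑ * e.ρ) := by ring
    _ ≤ e.Bg * e.Bg ^ 9 * Real.exp (-e.ϑ * e.ρ) := by gcongr; linarith [L.led.B_ge]
    _ = _ := by rw [tn]; ring

theorem ze6 : 6 * ze e ≤ 4 * cl c e2 * (9 / 10 * c.γ) := by
  have h0 := B0 L
  rw [ze, mul_one_div, div_le_iff₀ (by positivity)]
  nlinarith [mul_le_mul (B_cl L) L.led.B_γ zero_le_one (by linarith [B_cl L])]

theorem th_pow {a : ℝ} {j : ℕ} (h0 : 0 ≤ a) (ha : a ≤ 3 * d) (hj : j ≤ 2 * d + 6) :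
    (a / th ρ u) ^ j ≤ e.Bg := by
  refine powB' L (div_nonneg h0 (th0 L).le) ?_ hj
  rw [th, div_div_eq_mul_div, div_one]
  push_cast
  nlinarith [mul_le_mul_of_nonneg_right ha (Nat.cast_nonneg (α := ℝ) (mR ρ u)), d3 L, mR6 L]

theorem ht : tn e * (3 * d / th ρ u) ^ d ≤ 24 := by
  have := mul_le_mul_of_nonneg_left (th_pow L (j := d) (by positivity) le_rfl (by omega)) (tn0 L).le
  linarith [tn_pow L (j := 1) (by norm_num)]

theorem weg : 160 * (2 * u.J : ℕ) / (2 ^ e.P : ℕ) ≤ Real.exp (-(e.P : ℝ) / 3) := by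
  have h1 : Real.exp (e.P * (3 / 5)) ≤ (2 ^ e.P : ℕ) := by
    rw [Real.exp_nat_mul]
    push_cast
    refine pow_le_pow_left₀ (Real.exp_pos _).le ?_ _
    rw [← Real.le_log_iff_exp_le two_pos]
    linarith [Real.log_two_gt_d9]
  have h2 : (320 : ℝ) ≤ Real.exp (e.P / 10) := by
    linarith [Real.add_one_le_exp ((e.P : ℝ) / 10), L.led.P_ge]
  rw [div_le_iff₀ (by positivity)]
  refine le_trans ?_ (mul_le_mul_of_nonneg_left h1 (Real.exp_pos _).le)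
  push_cast
  calc 160 * (2 * u.J : ℝ) = 320 * u.J := by ring
    _ ≤ Real.exp (e.P / 10) * Real.exp (e.P / 8) := by gcongr; exact L.J_P
    _ ≤ _ := by
      rw [← Real.exp_add, ← Real.exp_add, Real.exp_le_exp]
      linarith [e.P.cast_nonneg (α := ℝ)]

theorem zr7 : 100 * ((7 * ρ.m (u.k + 1) : ℝ) ^ d * (u.ε + g.F * u.J)) ≤ c.γ ^ 2 * u.zr ^ 2 := by
  refine le_trans ?_ L.zr
  rw [← mul_assoc]
  refine mul_le_mul_of_nonneg_right ?_
    (add_nonneg (ε0 L).le (mul_nonneg L.led.F0 (Nat.cast_nonneg _)))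
  have h1 : (100 : ℝ) ≤ 10 ^ d :=
    le_trans (by norm_num) (pow_le_pow_right₀ (by norm_num) L.led.ok.hd)
  refine (mul_le_mul_of_nonneg_right h1 (by positivity)).trans ?_
  rw [← mul_pow]
  exact pow_le_pow_left₀ (by positivity) (by linarith [(ρ.m (u.k + 1)).cast_nonneg (α := ℝ)]) _
theorem zr_ε : 100 * u.ε ≤ c.γ ^ 2 * u.zr ^ 2 := by
  have h1 : (1 : ℝ) ≤ ρ.m (u.k + 1) := by exact_mod_cast L.m1
  have h2 := mul_nonneg L.led.F0 (u.J.cast_nonneg (α := ℝ))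
  have := mul_le_mul_of_nonneg_right (one_le_pow₀ (n := d)
    (show (1 : ℝ) ≤ 7 * ρ.m (u.k + 1) by linarith)) (add_nonneg (ε0 L).le h2)
  linarith [zr7 L]
theorem zr_ε' : 100 * u.ε ≤ u.zr ^ 2 := (zr_ε L).trans
  (mul_le_of_le_one_left (by positivity) (pow_le_one₀ (γ0 L).le (by linarith [γ1 L, γ0 L])))
theorem zr0 : 0 < u.zr :=
  L.zr0.lt_of_ne fun h => by have := zr_ε' L; rw [← h] at this; linarith [ε0 L]
theorem e2_le : 1000 * g2.e ≤ 1 := by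
  have h1 := L.led.ok.κ1
  have h2 := one_le_pow₀ (n := 30) (C1 L)
  have h3 : 0 ≤ g2.e := by nlinarith [L.e_inc, L.led.e0, P3 L, zr0 L]
  exact le_trans (mul_le_mul_of_nonneg_right (by linarith) h3) L.e2_hi
theorem e_inc {a : ℝ} (ha : a ≤ 1000 * c.C) : g.e + a * u.zr ≤ g2.e :=
  le_trans (add_le_add_right (mul_le_mul_of_nonneg_right (ha.trans (PC L)) L.zr0) _) L.e_inc
theorem e_le : g.e ≤ g2.e := by simpa using e_inc L (a := 0) (by linarith [C1 L])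
theorem zr1 : u.zr ≤ 1 := by
  linarith [e_inc L (a := 1) (by linarith [C1 L]), L.led.e0, e2_le L]

theorem poin_le : (c.C / th ρ u) ^ (d + 3) / c.σ ^ 2 ≤ e.Bg ^ 3 := by
  have h0 := B0 L
  have hσ := L.led.ok.σ0
  have hC := C1 L
  have h1 : c.C ^ (d + 3) ≤ e.Bg := by
    have a1 : (2 : ℝ) ≤ e.ρ := by exact_mod_cast L.led.ρ_pos
    have a2 : c.C ≤ 100 * d * c.C * e.ρ / e.ϑ := by
      rw [le_div_iff₀ L.led.ϑ0]
      nlinarith [L.led.ϑ_le, mul_le_mul (d3 L) a1 (by norm_num) (by positivity)]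
    exact ((pow_le_pow_right₀ hC (by omega)).trans
      (pow_le_pow_left₀ (by positivity) a2 (2 * d + 6))).trans L.led.B_ρ
  have h2 := th_pow L (a := 1) (j := d + 3) zero_le_one (by linarith [d3 L]) (by omega)
  have h3 : 1 / c.σ ^ 2 ≤ e.Bg := by
    rw [div_le_iff₀ (by positivity)]
    exact hC.trans L.led.B_σ
  have h4 := th0 L
  rw [div_eq_mul_one_div c.C, mul_pow, div_eq_mul_one_div _ (c.σ ^ 2), pow_three']
  gcongr

theorem shield : 2 * e.Bg ^ 2 * Real.exp (-e.ϑ * e.ρ) * (3 * d / e.ϑ) ^ d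
    + 2 * tn e ^ 2 * (3 * d / th ρ u) ^ d ≤ e2.τ := by
  have h0 := B0 L
  have hϑ := L.led.ϑ0
  have h1 : (3 * d / e.ϑ) ^ d ≤ e.Bg := powB L (by positivity)
    (by rw [div_mul_cancel₀ _ hϑ.ne']; nlinarith [d3 L, mR6 L]) (by omega)
  have h2 : 2 * tn e ^ 2 * (3 * d / th ρ u) ^ d ≤ 48 * tn e := by
    nlinarith [mul_le_mul_of_nonneg_left (ht L) (tn0 L).le]
  have h3 : e.Bg ^ 3 ≤ e.Bg ^ 10 := pow_le_pow_right₀ (B1 L) (by norm_num)
  have h4 : 50 * e.Bg ^ 10 ≤ e.Bg ^ 30 := by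
    refine le_trans ?_ (pow_le_pow_right₀ (B1 L) (show 10 + 1 ≤ 30 by norm_num))
    rw [pow_succ' _ 10]
    exact mul_le_mul_of_nonneg_right (by linarith [L.led.B_ge]) (by positivity)
  have h5 : Real.exp (-e.ϑ * e.ρ) ≤ Real.exp (-e.ϑ * e.ρ / 2) :=
    Real.exp_le_exp.2 (by linarith [ϑρ L])
  have h6 := Real.exp_pos (-e.ϑ * e.ρ)
  refine le_trans ?_ ((mul_le_mul h4 h5 h6.le (by positivity)).trans L.τ2)
  have h7 : tn e = e.Bg ^ 10 * Real.exp (-e.ϑ * e.ρ) := rfl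
  nlinarith [mul_le_mul_of_nonneg_left h1 (show 0 ≤ 2 * e.Bg ^ 2 * Real.exp (-e.ϑ * e.ρ) by
    positivity), mul_le_mul_of_nonneg_right h3 h6.le]

theorem dec {x t : ℝ} (ht : 0 ≤ t) (h1 : x ≤ 1 / (9 / 10 * c.γ))
    (h2 : x ≤ (e.Bg + 2 * e.Bg ^ 2 * (23 / (4 * cl c e2))) * Real.exp (-th ρ u * t)) :
    x ≤ e2.A0 * Real.exp (-e2.θ0 * t) := by
  have h0 := B0 L
  have hγ := γ0 L
  have hl := logB L
  have a1 : 1 ≤ 2 / c.γ := by rw [one_le_div hγ]; linarith [γ1 L]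
  have a2 : e.Bg + 2 * e.Bg ^ 2 * (23 / (4 * cl c e2)) ≤ 2 / c.γ * Real.exp (4 * Real.log e.Bg) := by
    rw [show 4 * Real.log e.Bg = Real.log (e.Bg ^ 4) by rw [Real.log_pow]; norm_num,
      Real.exp_log (by positivity)]
    refine le_trans ?_ (le_mul_of_one_le_left (by positivity) a1)
    have b1 := mul_le_mul_of_nonneg_left (K1_le L) (show 0 ≤ 2 * e.Bg ^ 2 by positivity)
    have b2 : e.Bg ≤ e.Bg ^ 3 := le_self_pow₀ (B1 L) (by norm_num)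
    nlinarith [mul_le_mul_of_nonneg_right L.led.B_ge (show 0 ≤ e.Bg ^ 3 by positivity)]
  refine (min_decay (by positivity) (by linarith) a2 (h1.trans ?_) h2).trans
    (mul_le_mul ?_ (Real.exp_le_exp.2 (mul_le_mul_of_nonneg_right (neg_le_neg ?_) ht))
      (Real.exp_pos _).le ?_)
  · rw [div_le_div_iff₀ (by positivity) hγ]
    linarith
  · rw [← mul_div_assoc, div_le_iff₀' hγ]
    linarith [Real.exp_one_lt_d9, L.A2]
  · have b1 := L.θ2
    have b2 := mR6 L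
    rw [mul_assoc 100, ← Nat.cast_mul, ← mR] at b1
    rw [le_div_iff₀ (by positivity), th, le_div_iff₀ (by push_cast; positivity)]
    push_cast
    nlinarith [mul_nonneg L.θ20 (show 0 ≤ mR ρ u * Real.log e.Bg by positivity)]
  · exact ((mul_pos_iff_of_pos_left hγ).1 (lt_of_lt_of_le (by norm_num) L.A2)).le

end Crest.Agent.N334.AC.P.RN
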