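import Crest.Agent.N334.AC.P.RelA
import Crest.Agent.N334.AC.P.RelN
import Crest.Agent.N334.AC.P.Der
import Crest.Agent.N334.AC.M6.Rel

/-! # S0520 part P (helper12): the release, deterministic part -/

set_option autoImplicit false
set_option maxHeartbeats 400000
set_option linter.unusedSectionVars false

open Finset Complex
open scoped Matrix.Norms.L2Operator Matrix

namespace Crest.Agent.N334.AC.P.RB

open RN RelA

variable {d M : ℕ} [NeZero M] {c : Cx d M} {e : Ep} {g : Sg} {f : Ref d M} {ρ : Rad} {u : Rp}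
  {e2 : Ep} {g2 : Sg} {s : St d M} {Cs Cs' : Finset (Tor d M)} {B : Tor d M → Finset (Tor d M)}
  {v : Tor d M → ℝ}

/-- frozen ports -/
noncomputable def Fr (s : St d M) : Finset (Tor d M) := (opn s.w \ s.ord) \ absb d M

theorem mem_Fr {x : Tor d M} : x ∈ Fr s ↔ gam s.w x ≠ 0 ∧ x ∉ s.ord ∧ x ∉ absb d M := by
  simp only [Fr, mem_sdiff, mem_opn, and_assoc]

abbrev Pl (c : Cx d M) (e : Ep) (ρ : Rad) (u : Rp) (s : St d M) (Cs : Finset (Tor d M))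
    (B : Tor d M → Finset (Tor d M)) : Prop :=
  Plan (Km c.A s.w) s.ord (Fr s) Cs B u.ε (ze e) (2 * u.J) (21 * mR ρ u) u.R

abbrev Rl (c : Cx d M) (e : Ep) (f : Ref d M) (ρ : Rad) (u : Rp) (e2 : Ep) (s : St d M)
    (Cs : Finset (Tor d M)) (B : Tor d M → Finset (Tor d M)) (v : Tor d M → ℝ) : Prop :=
  Rel c.A s.w (opn f.wr) Cs B v e.ϑ (th ρ u) e.Bg (4 * cl c e2) (9 / 10 * c.γ)
    (23 / (4 * cl c e2)) (tn e) (21 * mR ρ u) u.R

variable (L : LedR c ρ e g u e2 g2) (hf : RefOK c e f) (h : Inv c e f (th0 e g) s)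
include L hf h

theorem D : Der c e g f s := der L.led hf L.led.le0 h
theorem ordT {x : Tor d M} (hx : x ∈ s.ord) : x ∈ f.T := hf.sub (h.bas.sub hx)
theorem ord_abs {x : Tor d M} (hx : x ∈ s.ord) : x ∉ absb d M :=
  disjoint_left.1 hf.dT (ordT L hf h hx)
theorem ports (x : Tor d M) (hx : gam s.w x ≠ 0) : x ∈ opn f.wr := (D L hf h).sub0 (mem_opn.2 hx)
theorem gam1 (x : Tor d M) : gam s.w x ≤ 1 := ((D L hf h).gam_le x).trans (by linarith [γ1 L, γ0 L])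
theorem Pl.opn (hp : Pl c e ρ u s Cs B) {p x : Tor d M} (hc : p ∈ Cs) (hx : x ∈ B p) :
    gam s.w x ≠ 0 ∧ x ∉ absb d M := by
  rcases mem_union.1 (hp.sub p hc hx) with a | a
  exacts [⟨(mem_Fr.1 a).1, (mem_Fr.1 a).2.2⟩, ⟨h.bas.opn x a, ord_abs L hf h a⟩]

theorem plan (hQ : ∀ p ∈ f.P, Crowded ρ u.k f.P p → p ∈ s.PS) :
    ∃ Cs ⊆ f.P \ s.PS, ∃ B, Pl c e ρ u s Cs B ∧ (∀ p ∈ Cs, B p ⊆ nbhd f.P u.R) ∧
      ∀ x ∈ Fr s, (∃ p ∈ Cs, x ∈ B p) ∨ x ∈ nbhd s.PS (31 * mR ρ u) := by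
  have D := D L hf h
  have a1 := L.R_ge
  have a2 := R_mR L
  have a3 := L.Rc
  have hγ := γ0 L
  have hC := C1 L
  have hn : ((ρ.m (u.k + 1) * (tball (0 : Tor d M) (2 * ρ.r u.k + e.s)).card : ℕ) : ℝ)
      = ρ.m (u.k + 1) * vol d M (2 * ρ.r u.k + e.s) := by rw [Nat.cast_mul, vol]
  rw [mul_assoc] at a3
  have key := exists_plan (Fr := Fr s) (Ord := s.ord) (P := f.P) (Q := s.PS)
    h.bas.adm ρ u.k (s := e.s) (s' := e.ρ) (J := u.J) (Dm := 21 * mR ρ u) (n := 2 * u.J) L.R_lo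
    (by rw [mul_assoc]; unfold mR at a2; omega) hQ
    (disjoint_left.2 fun x hx => (mem_Fr.1 hx).2.1) (fun x hx => ?_) (by omega)
    (by rw [mul_assoc]; unfold mR at a2 ⊢; omega) hn.ge (by have := n0_le L hn; omega)
    (ε0 L) (ε1 L) (ze0 L) (ze1 L) (by positivity) (by positivity) (fun a ha => ?_)
    (fun a ha b hb hab => ?_) (hJ L hn) (hJe L) L.led.ϑ0.le
    (K_le h.bas.adm (ports L hf h) (gam1 L hf h) D.tw) (hD L)
  · obtain ⟨Cs, h1, B, h2, h3, h4⟩ := key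
    exact ⟨Cs, h1, B, h2, fun p hp => (h3 p hp).trans (nbhd_mono' Subset.rfl (by omega)),
      fun x hx => (h4 x hx).imp_right fun ⟨q, hq, a⟩ => mem_nbhd.2 ⟨q, hq, by omega⟩⟩
  · obtain ⟨b1, b2, b3⟩ := mem_Fr.1 hx
    by_cases a : x ∈ f.ord0
    · exact Or.inr ((mem_nbhd.1 (h.bas.g2 x a b1 b2)).imp fun q hq => ⟨hq.1, by omega⟩)
    · exact Or.inl (mem_nbhd.1 (hf.cov x (ports L hf h x b1) a b3))
  · have b1 := mul_le_mul (D.gam_ge a (h.bas.opn a ha)) (D.iota a ha) (by positivity)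
      (h.bas.adm.diss a)
    simp only [mu, h.bas.adm.K_sq, mul_assoc, ← mul_sum]
    refine le_trans ?_ b1
    rw [mul_one_div, div_le_div_iff₀ (by positivity) (by positivity)]
    nlinarith [mul_pos hγ (zero_lt_one.trans_le hC)]
  · have b1 := L.led.q0
    refine (pow_le_pow_iff_left₀ (norm_nonneg _) (by positivity) two_ne_zero).1 ?_
    rw [h.bas.adm.K_sq, mul_pow, Real.sq_sqrt (by positivity), sq (_ * _)]
    exact mul_le_mul (mul_le_mul (D.gam_le a) (D.gam_le b) (h.bas.adm.diss b) (by positivity))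
      (h.ent a ha b hb hab) (by positivity) (by positivity)

theorem rel (hp : Pl c e ρ u s Cs B) (hv : ∀ x, |v x| ≤ c.σ)
    (good : ∀ p ∈ Cs, Adm c.A (wCl s.w (B p) v) ∧
      ‖cmp (Gm c.A (wCl s.w (B p) v)) (B p)‖ ≤ 2 / (4 * cl c e2)) : Rl c e f ρ u e2 s Cs B v := by
  have D := D L hf h
  refine ⟨h.bas.adm, by have := L.led.ok.hd; omega, ports L hf h, gam1 L hf h, D.tw, RN.th0 L, RN.th1 L,
    by linarith [L.led.ϑ_le], B1 L, by linarith [cl0 L], cl1 L, by linarith [γ0 L],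
    by linarith [γ1 L], fun p hc x hx => D.gam_ge x (hp.opn L hf h hc hx).1, hp.diam, hp.iso,
    fun p hc x hx => (norm_sub_le _ _).trans ?_, good, hK1 L, htn L,
    by linarith [tn_pow L (j := 0) (by norm_num), tn0 L]⟩
  rw [Complex.norm_real, Real.norm_eq_abs]
  have a1 := L.led.ok.σ0
  have a2 : 1000 * c.σ ≤ 1 := by nlinarith [σ1 L, C1 L]
  nlinarith [hv x, D.w_le x (hp.opn L hf h hc hx).1, σ1 L]

variable (hp : Pl c e ρ u s Cs B) (hr : Rl c e f ρ u e2 s Cs B v)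
include hp hr

theorem row {a : Tor d M} (ha : a ∈ s.ord \ Cs.biUnion B) : ∑ b ∈ univ \ Cs.biUnion B,
    ‖Km c.A (wCl s.w (Cs.biUnion B) v) a b - Km c.A s.w a b‖ ^ 2 ≤ 24 * u.ε :=
  row_le hr hp (tn_ε' L) (ze0 L).le (ze6 L) (ht L) (mem_sdiff.1 ha).1 (mem_sdiff.1 ha).2

theorem dG {a b : Tor d M} (ha : a ∈ s.ord \ Cs.biUnion B) (hb : b ∈ s.ord \ Cs.biUnion B) {t : ℝ}
    (ht : 0 ≤ t) (h1 : 100 * u.ε ≤ c.γ ^ 2 * t ^ 2) :
    ‖c.G (wCl s.w (Cs.biUnion B) v) a b - c.G s.w a b‖ ≤ t :=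
  dG_le hr (mem_sdiff.1 ha).2 (mem_sdiff.1 hb).2
    ((D L hf h).gam_ge a (h.bas.opn a (mem_sdiff.1 ha).1))
    ((D L hf h).gam_ge b (h.bas.opn b (mem_sdiff.1 hb).1)) ht
    ((row L hf h hp hr ha).trans (by nlinarith [ε0 L]))

theorem dGx {a b : Tor d M} (ha : a ∈ s.ord \ Cs.biUnion B) (hb : b ∈ s.ord \ Cs.biUnion B) :
    ‖c.G (wCl s.w (Cs.biUnion B) v) a b - c.G s.w a b‖ ≤ g2.x ^ 2 :=
  dG L hf h hp hr ha hb (sq_nonneg _) (by linarith [ε_γ L, ε0 L])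

theorem rowG {a : Tor d M} (ha : a ∈ s.ord \ Cs.biUnion B) {S : Finset (Tor d M)}
    (hS : S ⊆ s.ord \ Cs.biUnion B) :
    c.γ ^ 2 * ∑ b ∈ S, ‖c.G (wCl s.w (Cs.biUnion B) v) a b - c.G s.w a b‖ ^ 2 ≤ 30 * u.ε := by
  have D := D L hf h
  have hγ := γ0 L
  have h1 := (sum_le_sum_of_subset_of_nonneg (hS.trans (sdiff_subset_sdiff (subset_univ _)
    Subset.rfl)) fun _ _ _ => by positivity).trans (row L hf h hp hr ha)
  have h2 : (9 / 10 * c.γ) * (9 / 10 * c.γ) *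
      ∑ b ∈ S, ‖c.G (wCl s.w (Cs.biUnion B) v) a b - c.G s.w a b‖ ^ 2 ≤ 24 * u.ε := by
    rw [mul_sum]
    refine le_trans (sum_le_sum fun b hb => ?_) h1
    rw [dK_sq h.bas.adm (mem_sdiff.1 ha).2 (mem_sdiff.1 (hS hb)).2]
    exact mul_le_mul_of_nonneg_right (mul_le_mul (D.gam_ge a (h.bas.opn a (mem_sdiff.1 ha).1))
      (D.gam_ge b (h.bas.opn b (mem_sdiff.1 (hS hb)).1)) (by positivity) (h.bas.adm.diss a))
      (by positivity)
  linarith [ε0 L]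

theorem ent {a b : Tor d M} (ha : a ∈ s.ord \ Cs.biUnion B) (hb : b ∈ s.ord \ Cs.biUnion B)
    (hab : a ≠ b) : ‖c.G (wCl s.w (Cs.biUnion B) v) a b‖ ≤ 2 * g2.x ^ 2 := by
  have h1 := (Real.le_sqrt_of_sq_le (h.ent a (mem_sdiff.1 ha).1 b (mem_sdiff.1 hb).1 hab)).trans
    (sqh' L)
  linarith [norm_le_norm_add_norm_sub' (c.G (wCl s.w (Cs.biUnion B) v) a b) (c.G s.w a b),
    dGx L hf h hp hr ha hb]

theorem diag3 {a : Tor d M} (ha : a ∈ s.ord \ Cs.biUnion B) :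
    ‖c.G (wCl s.w (Cs.biUnion B) v) a a‖ ≤ 3 * c.C := by
  have h1 := mem_sdiff.1 ha
  linarith [norm_le_norm_add_norm_sub' (c.G (wCl s.w (Cs.biUnion B) v) a a) (c.G s.w a a),
    dGx L hf h hp hr ha ha, (D L hf h).g_le a (ordT L hf h h1.1) (h.bas.opn a h1.1), x22 L, C1 L]

theorem opn' {x : Tor d M} (hx : gam (wCl s.w (Cs.biUnion B) v) x ≠ 0) :
    x ∉ Cs.biUnion B ∧ gam s.w x ≠ 0 := by
  have : x ∉ Cs.biUnion B := fun a => hx (gam_closed a)
  exact ⟨this, gam_same (v := v) this ▸ hx⟩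

theorem gam' {x : Tor d M} (hx : x ∈ opn (wCl s.w (Cs.biUnion B) v)) :
    9 / 10 * c.γ ≤ gam (wCl s.w (Cs.biUnion B) v) x := by
  obtain ⟨a, b⟩ := opn' L hf h hp hr (mem_opn.1 hx)
  rw [gam_same a]
  exact (D L hf h).gam_ge x b

omit hf h hp hr in
theorem col {w : Tor d M → ℂ} (hw : Adm c.A w) {S : Finset (Tor d M)}
    (hS : ∀ x ∈ S, 9 / 10 * c.γ ≤ gam w x) {a : Tor d M} (ha : ‖c.G w a a‖ ≤ 3 * c.C) :
    c.γ * ∑ x ∈ S, ‖c.G w x a‖ ^ 2 ≤ 4 * c.C := by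
  have h1 := (hw.ward_col a).trans_le ((Complex.im_le_norm _).trans ha)
  have h2 : 9 / 10 * c.γ * ∑ x ∈ S, ‖c.G w x a‖ ^ 2 ≤ 3 * c.C := by
    rw [mul_sum]
    exact ((sum_le_sum fun x hx => mul_le_mul_of_nonneg_right (hS x hx) (by positivity)).trans
      (sum_le_sum_of_subset_of_nonneg (subset_univ S) fun x _ _ =>
        mul_nonneg (hw.diss x) (by positivity))).trans h1
  linarith [C1 L]

theorem four {a : Tor d M} (ha : a ∈ s.ord \ Cs.biUnion B) {S : Finset (Tor d M)}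
    (hS : S ⊆ s.ord \ Cs.biUnion B) :
    c.γ * ∑ b ∈ S.erase a, ‖c.G (wCl s.w (Cs.biUnion B) v) a b‖ ^ 4 ≤ g2.x ^ 4 := by
  have hγ := γ0 L
  have h1 := rowG L hf h hp hr ha ((erase_subset a S).trans hS)
  have h2 : ∑ b ∈ S.erase a, ‖c.G (wCl s.w (Cs.biUnion B) v) a b - c.G s.w a b‖ ^ 2
      ≤ g2.x ^ 4 / 10 :=
    le_of_mul_le_mul_left (by linarith [ε_γ L, ε0 L]) (show 0 < c.γ ^ 2 by positivity)
  have h3 := mul_le_mul_of_nonneg_left (sum_four_le _ _ _ h2) hγ.le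
  have h4 : c.γ * ∑ b ∈ S.erase a, ‖c.G s.w a b‖ ^ 4 ≤ g.x ^ 4 :=
    (mul_le_mul_of_nonneg_left (sum_le_sum_of_subset_of_nonneg
      (erase_subset_erase a (hS.trans sdiff_subset)) fun _ _ _ => by positivity) hγ.le).trans
      (h.four a (mem_sdiff.1 ha).1)
  have h5 := pow_le_pow_left₀ (by linarith [L.led.x_pos]) L.x2 4
  have h6 : (g2.x ^ 4) ^ 2 ≤ g2.x ^ 4 :=
    pow_le_of_le_one (by positivity) ((x24 L).trans (x22 L)) two_ne_zero
  nlinarith [mul_le_mul (show c.γ ≤ 1 by linarith [γ1 L]) h6 (by positivity) zero_le_one]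

theorem bias {a : Tor d M} (ha : a ∈ s.ord \ Cs.biUnion B) :
    ‖c.b (wCl s.w (Cs.biUnion B) v) a‖ ≤ (e2.P : ℝ) ^ 6 * e2.Q * g2.x ^ 2 * c.γ := by
  have D := D L hf h
  have h1 := mem_sdiff.1 ha
  have hC := C1 L
  have hγ := γ0 L
  have h2 := h.bas.opn a h1.1
  have h3 := (L.led.ok.sml (C' := 3 * c.C) (by linarith) (by linarith)).beta_lip (L.led.ok.r01 a)
    ((D.g_le a (ordT L hf h h1.1) h2).trans (by linarith)) (diag3 L hf h hp hr ha)
    ((D.w_le a h2).trans (by nlinarith [sq_nonneg c.σ]))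
  have h4 : c.b (wCl s.w (Cs.biUnion B) v) a = beta c.σ c.N (c.r a)
      (c.G (wCl s.w (Cs.biUnion B) v) a a) (s.w a) := by rw [Cx.b, wCl, if_neg h1.2]
  have h5 : ‖c.b s.w a‖ ≤ (e.P : ℝ) ^ 6 * e.Q * g.x ^ 2 * c.γ := h.bias a h1.1
  have h6 : (e.P : ℝ) ^ 6 * e.Q ≤ (e2.P : ℝ) ^ 6 * e2.Q := by
    have := L.P2
    have := L.Q2
    gcongr
  have h7 : 1000 * c.C ≤ (e.P : ℝ) ^ 6 * e.Q := by
    have a1 : (1 : ℝ) ≤ e.P := by linarith [P3 L]
    exact ((PC L).trans (le_self_pow₀ a1 (by norm_num))).trans (le_mul_of_one_le_right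
      (by positivity) ((one_le_pow₀ a1).trans L.led.Q_ge))
  have h8 := pow_le_pow_left₀ (by linarith [L.led.x_pos]) L.x2 2
  have h9 := mul_le_mul L.led.ok.γ_lo (dGx L hf h hp hr ha ha) (norm_nonneg _) (by positivity)
  have h10 := mul_le_mul h6 h8 (by positivity) (by positivity)
  have h11 := mul_le_mul_of_nonneg_right (h7.trans h6) (sq_nonneg g2.x)
  rw [h4]
  refine (norm_le_norm_add_norm_sub' _ (c.b s.w a)).trans ((add_le_add h5 h3).trans ?_)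
  nlinarith [mul_le_mul_of_nonneg_right h10 hγ.le, mul_le_mul_of_nonneg_right h11 hγ.le,
    mul_nonneg (sq_nonneg c.σ) (norm_nonneg (c.G (wCl s.w (Cs.biUnion B) v) a a - c.G s.w a a)),
    mul_nonneg (mul_nonneg (zero_le_one.trans hC) hγ.le) (sq_nonneg g2.x)]

theorem had {S : Finset (Tor d M)} (hS : S ⊆ s.ord \ Cs.biUnion B) :
    c.γ * ‖cmp (Matrix.hadamard (c.G (wCl s.w (Cs.biUnion B) v))
      (c.G (wCl s.w (Cs.biUnion B) v))) S‖ ≤ g2.e := by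
  have D := D L hf h
  have hC := C1 L
  have hγ := γ0 L
  have hz := zr0 L
  have hA := hr.exists_T.1
  obtain ⟨G', e1⟩ : ∃ G', G' = c.G (wCl s.w (Cs.biUnion B) v) := ⟨_, rfl⟩
  obtain ⟨G, e2⟩ : ∃ G, G = c.G s.w := ⟨_, rfl⟩
  have s1 : ∀ a b, G' a b = G' b a := e1 ▸ hA.G_sym
  have s2 : ∀ a b, G a b = G b a := e2 ▸ h.bas.adm.G_sym
  have h1 : ∀ a, ∑ b, ‖cmp (G'.hadamard G' - G.hadamard G) S a b‖ ≤ 10 * c.C * u.zr / c.γ := by
    intro a
    by_cases ha : a ∈ S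
    · have b1 := rowG L hf h hp hr (hS ha) hS
      have b2 := col L hA (S := S) (fun x hx => gam' L hf h hp hr (mem_opn.2 (by
        rw [gam_same (mem_sdiff.1 (hS hx)).2]; exact h.bas.opn x (mem_sdiff.1 (hS hx)).1)))
        (diag3 L hf h hp hr (hS ha))
      have b3 := col L h.bas.adm (S := S)
        (fun x hx => D.gam_ge x (h.bas.opn x (mem_sdiff.1 (hS hx)).1))
        ((D.g_le a (ordT L hf h (mem_sdiff.1 (hS ha)).1)
          (h.bas.opn a (mem_sdiff.1 (hS ha)).1)).trans (by linarith))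
      rw [← e1] at b1 b2
      rw [← e2] at b1 b3
      have b4 : u.zr * ∑ b, ‖cmp (G'.hadamard G' - G.hadamard G) S a b‖ ≤ ∑ b ∈ S,
          (‖G' a b - G a b‖ ^ 2 + u.zr ^ 2 * ‖G' b a‖ ^ 2 + u.zr ^ 2 * ‖G b a‖ ^ 2) := by
        rw [← sum_subset (subset_univ S) fun b _ hb => by simp [cmp, hb], mul_sum]
        refine sum_le_sum fun b hb => ?_
        rw [cmp, if_pos ⟨ha, hb⟩, Matrix.sub_apply, Matrix.hadamard_apply, Matrix.hadamard_apply,
          ← sq, ← sq, sq_sub_sq, norm_mul, s1 b a, s2 b a]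
        have c1 := mul_le_mul_of_nonneg_right (norm_add_le (G' a b) (G a b))
          (mul_nonneg hz.le (norm_nonneg (G' a b - G a b)))
        nlinarith [sq_nonneg (‖G' a b - G a b‖ - u.zr * ‖G' a b‖),
          sq_nonneg (‖G' a b - G a b‖ - u.zr * ‖G a b‖), mul_nonneg (sq_nonneg u.zr)
          (sq_nonneg ‖G a b‖), mul_nonneg (sq_nonneg u.zr) (sq_nonneg ‖G' a b‖)]
      rw [sum_add_distrib, sum_add_distrib, ← mul_sum, ← mul_sum] at b4
      have b5 : ∑ b ∈ S, ‖G' a b - G a b‖ ^ 2 ≤ u.zr ^ 2 :=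
        le_of_mul_le_mul_left (by linarith [zr_ε L, ε0 L]) (show 0 < c.γ ^ 2 by positivity)
      rw [le_div_iff₀' hγ]
      refine le_of_mul_le_mul_left ?_ hz
      have b6 := mul_le_mul_of_nonneg_left b4 hγ.le
      have b7 := mul_le_mul (show c.γ ≤ c.C by linarith [γ1 L]) b5 (by positivity) (by positivity)
      nlinarith [mul_le_mul_of_nonneg_left b2 (sq_nonneg u.zr),
        mul_le_mul_of_nonneg_left b3 (sq_nonneg u.zr),
        mul_nonneg (zero_le_one.trans hC) (sq_nonneg u.zr)]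
    · simp only [cmp, ha, false_and, if_false, norm_zero, sum_const_zero]
      positivity
  have h2 := norm_le_schur (by positivity) h1 fun b => le_trans (le_of_eq (sum_congr rfl
    fun a _ => by simp only [cmp, Matrix.sub_apply, Matrix.hadamard_apply, s1 a b, s2 a b,
      and_comm])) (h1 b)
  have h3 : cmp (G'.hadamard G') S
      = cmp (G.hadamard G) S + cmp (G'.hadamard G' - G.hadamard G) S := by
    ext a b
    simp only [cmp, Matrix.add_apply, Matrix.sub_apply]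
    split_ifs <;> simp
  have h4 : c.γ * ‖cmp (G.hadamard G) S‖ ≤ g.e := e2 ▸
    (mul_le_mul_of_nonneg_left (norm_cmp_mono _ (hS.trans sdiff_subset)) hγ.le).trans h.had
  rw [le_div_iff₀' hγ] at h2
  rw [← e1, h3]
  refine (mul_le_mul_of_nonneg_left (norm_add_le _ _) hγ.le).trans ?_
  linarith [e_inc L (a := 10 * c.C) (by linarith)]

theorem forms : c.UB (wCl s.w (Cs.biUnion B) v) g2.e ∧ c.LB (wCl s.w (Cs.biUnion B) v) g2.e := by
  have a1 := R6 L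
  have a2 := R_mR L
  have hC := C1 L
  have hγ := γ0 L
  have hz := zr0 L
  have hm : (1 : ℝ) ≤ ρ.m (u.k + 1) := by exact_mod_cast L.m1
  have H := relH hr hp (tn_ε' L) (ze0 L).le (ze6 L) (fun x hx => by
      by_cases b1 : x ∈ absb d M
      · exact Or.inl b1
      by_cases b2 : x ∈ s.ord
      · exact Or.inr (mem_union_right _ b2)
      · exact Or.inr (mem_union_left _ (mem_Fr.2 ⟨hx, b2, b1⟩)))
    (disjoint_left.2 fun x hx => (mem_union.1 hx).elim (fun a => (mem_Fr.1 a).2.2)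
      (ord_abs L hf h)) (L := 22 * mR ρ u) (k := 3 * ρ.m (u.k + 1)) (by omega) (by omega)
    (by rw [show 3 * ρ.m (u.k + 1) * (10 * u.R) = 30 * mR ρ u by unfold mR; ring]; omega)
  obtain ⟨χ, cp, hcut⟩ := L.led.ok.init.cut (22 * mR ρ u) (L.led.ρσ.trans
    (mul_le_mul_of_nonneg_left (Nat.cast_le.2 (by have := ρR L; omega)) (sq_nonneg _)))
  have hμ : 0 < c.μ := (mul_pos_iff_of_pos_left (by linarith)).1 (hγ.trans_le L.led.ok.μ_lo)
  have hE : ∀ ψ, 0 ≤ c.E0 ψ := En_nn _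
  have he' : g.e' ≤ 1 := by
    nlinarith [L.led.e'_small, one_le_pow₀ (n := 30) hC]
  have he0 : 0 ≤ g.e' := by
    linarith [L.led.X'_le, L.led.X_inc, L.led.X0,
      mul_nonneg (pow_nonneg (Nat.cast_nonneg (α := ℝ) e.P) 3) L.led.x_pos.le]
  have hP := L.led.ok.init.poin2 (th ρ u) (RN.th0 L) (by linarith [RN.th1 L, L.led.ϑ_le])
  have hF := L.led.F0
  have hr : M6.relC c.C c.μ (1 + g.e') g.F (24 * u.ε) (18 * (2 * u.J : ℕ) + 1) (tn e)
      ((2 * (3 * ρ.m (u.k + 1) : ℕ) + 1) ^ d) ((c.C / th ρ u) ^ (d + 3) / c.σ ^ 2)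
      ≤ u.zr * u.zr := by
    have b1 : ((2 * (3 * ρ.m (u.k + 1) : ℕ) + 1 : ℝ)) ^ d ≤ (7 * ρ.m (u.k + 1) : ℝ) ^ d :=
      pow_le_pow_left₀ (by positivity) (by push_cast; linarith) d
    have b2 : (1 + g.e') * (24 * u.ε) + g.F * (18 * (2 * u.J : ℕ) + 1)
        ≤ 48 * (u.ε + g.F * u.J) := by
      push_cast
      nlinarith [mul_le_mul_of_nonneg_right he' (ε0 L).le, mul_le_mul_of_nonneg_left (J1 L) hF]
    have b3 := mul_le_mul b1 b2 (by have := ε0 L; positivity) (by positivity)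
    have b4 := mul_le_mul_of_nonneg_left (poin_le L) (tn0 L).le
    have b5 : 4 * (2 * (3 * ρ.m (u.k + 1) : ℕ) + 1) ^ d * c.C * ((1 + g.e') * (24 * u.ε)
        + g.F * (18 * (2 * u.J : ℕ) + 1)) / c.μ ≤ u.zr ^ 2 / 2 := by
      rw [div_le_iff₀ hμ]
      refine le_of_mul_le_mul_left ?_ (zero_lt_one.trans_le hC)
      have c1 := mul_le_mul_of_nonneg_left (show (2 * (3 * ρ.m (u.k + 1) : ℕ) + 1 : ℝ) ^ d *
        ((1 + g.e') * (24 * u.ε) + g.F * (18 * (2 * u.J : ℕ) + 1)) ≤ c.γ ^ 2 * u.zr ^ 2 by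
          nlinarith [zr7 L, mul_nonneg (sq_nonneg c.γ) (sq_nonneg u.zr)]) (sq_nonneg c.C)
      have c2 := mul_le_mul_of_nonneg_right (Cγ L) (mul_nonneg hγ.le (sq_nonneg u.zr))
      nlinarith [mul_le_mul_of_nonneg_right L.led.ok.μ_lo (sq_nonneg u.zr),
        mul_nonneg hγ.le (sq_nonneg u.zr)]
    unfold M6.relC
    nlinarith [tn_ε L, zr_ε' L, ε0 L]
  rw [← div_le_iff₀ hz] at hr
  have hcap := L.led.cap s.ord h.sep
  have ht : (th0 e g).e = g.e := rfl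
  exact ⟨(H.UB h.ub hE ((e_le L).trans (by linarith [e2_le L])) hcut hμ hcap (by linarith) hF
      (by positivity) hP hz (zr1 L)).mono hE (by
        rw [mul_div_assoc]; linarith [e_inc L (a := 4) (by linarith)]),
    (H.LB h.lb hE L.led.e0 hcut hμ hcap (by linarith) hF (by positivity) hP hz (zr1 L)).mono hE
      (by rw [mul_div_assoc]; linarith [e_inc L (a := 4) (by linarith)])⟩

omit hr in
/-- the state after the release -/
theorem after (hs : Cs' ⊆ Cs) (hr : Rl c e f ρ u e2 s Cs' B v)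
    (cov : ∀ x ∈ Fr s, (∃ p ∈ Cs, x ∈ B p) ∨ x ∈ nbhd s.PS (31 * mR ρ u)) {P' : Finset (Tor d M)}
    (hP1 : s.PS ⊆ P') (hP2 : ∀ p ∈ Cs, p ∉ Cs' → p ∈ P') {S2 : Tor d M → ℕ × ℕ}
    (rng : ∀ x, 0 < (S2 x).2 ∧ (S2 x).1 + (S2 x).2 ≤ c.N)
    (hU : ∀ x ∈ Cs'.biUnion B, (S2 x).2 = 1 ∧ v x = c.v x (S2 x).1)
    (hU0 : ∀ x ∈ Cs.biUnion B, x ∉ Cs'.biUnion B → (S2 x).2 = 2 ^ e2.a)
    (hoff : ∀ x, x ∉ Cs.biUnion B → S2 x = s.S x) {f2 : Ref d M}
    (e0 : f2 = ⟨wCl s.w (Cs'.biUnion B) v, (s.ord \ Cs'.biUnion B) \ nbhd P' e2.s,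
      s.ord \ Cs'.biUnion B, P'⟩) :
    RefOK c e2 f2 ∧ Inv c e2 f2 (th0 e2 g2) ⟨f2.wr, S2, f2.ord0, ∅⟩ := by
  subst e0
  have D := D L hf h
  have hp' := hp.mono hs
  have hA := hr.exists_T.1
  have hγ := γ0 L
  have hC := C1 L
  have a1 : 40 * mR ρ u ≤ e2.s := by have := L.s2; rwa [mul_assoc] at this
  have nearB : ∀ x ∈ Cs.biUnion B, x ∉ Cs'.biUnion B → x ∈ nbhd P' (31 * mR ρ u) := by
    intro x hx hx'
    obtain ⟨p, b1, b2⟩ := mem_biUnion.1 hx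
    have := mem_tball.1 (hp.diam p b1 b2)
    exact mem_nbhd.2 ⟨p, hP2 p b1 fun b => hx' (mem_biUnion.2 ⟨p, b, b2⟩), by omega⟩
  have nearF : ∀ x ∈ Fr s, x ∉ Cs'.biUnion B → x ∈ nbhd P' (31 * mR ρ u) := fun x hx hx' =>
    (cov x hx).elim (fun b => nearB x (mem_biUnion.2 b) hx') fun b => nbhd_mono' hP1 le_rfl b
  have isF : ∀ x ∈ opn (wCl s.w (Cs'.biUnion B) v), x ∉ s.ord \ Cs'.biUnion B → x ∉ absb d M →
      x ∈ Fr s ∧ x ∉ Cs'.biUnion B := fun x b1 b2 b3 => by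
    obtain ⟨b4, b5⟩ := opn' L hf h hp' hr (mem_opn.1 b1)
    exact ⟨mem_Fr.2 ⟨b5, fun b => b2 (mem_sdiff.2 ⟨b, b4⟩), b3⟩, b4⟩
  have opT : ∀ x ∈ s.ord \ Cs'.biUnion B, gam (wCl s.w (Cs'.biUnion B) v) x ≠ 0 := fun x hx => by
    rw [gam_same (mem_sdiff.1 hx).2]
    exact h.bas.opn x (mem_sdiff.1 hx).1
  have near : ∀ x, gam (wCl s.w (Cs'.biUnion B) v) x ≠ 0 →
      ‖wCl s.w (Cs'.biUnion B) v x - c.w0‖ ≤ g2.e * c.γ := fun x hx => by
    obtain ⟨b1, b2⟩ := opn' L hf h hp' hr hx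
    rw [wCl, if_neg b1]
    exact (h.near x b2).trans (mul_le_mul_of_nonneg_right (e_le L) hγ.le)
  have opO : ∀ x ∈ opn (wCl s.w (Cs'.biUnion B) v), x ∈ opn f.wr := fun x hx =>
    ports L hf h x (opn' L hf h hp' hr (mem_opn.1 hx)).2
  have nrm := hA.norm_cmp (by positivity : 0 < 9 / 10 * c.γ) fun x => gam' L hf h hp' hr
  have sO : (s.ord \ Cs'.biUnion B) \ nbhd P' e2.s ⊆ s.ord \ Cs'.biUnion B := sdiff_subset
  have hD2 : 1000 * c.C ≤ c.γ * g2.D := (PC L).trans L.D2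
  refine ⟨⟨hA, fun x hx => (near x hx).trans (by nlinarith [e2_le L]), sO,
    fun x hx => mem_opn.2 (opT x (sO hx)),
    disjoint_left.2 fun x hx => ord_abs L hf h (mem_sdiff.1 hx).1,
    h.sep.mono L.Rt2.le sdiff_subset, fun a ha b hb => dec L (Nat.cast_nonneg _) ?_
      (hr.ref (opO a ha) (opO b hb)), fun x b1 b2 b3 => ?_, fun x b1 b2 b3 => ?_⟩,
    ⟨⟨hA, fun x hx => ?_, rng, fun x hx => ?_, fun x hx => ?_, fun x hx => ?_, fun _ _ => rfl,
      Subset.rfl, fun x hx => opT x (sO hx), fun x b1 _ b2 => absurd b1 b2, by simp [nbhd]⟩,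
    h.sep.mono L.R2.le (sO.trans sdiff_subset), near, fun a ha b hb hab => ?_,
    fun a ha => four L hf h hp' hr (sO ha) sO, fun a ha b hb _ hab => ?_, fun b hb _ => ?_,
    fun a ha => bias L hf h hp' hr (sO ha), (forms L hf h hp' hr).1, (forms L hf h hp' hr).2,
    had L hf h hp' hr sO, nrm.trans ?_, fun a ha => ?_⟩⟩
  · have := (norm_entry_le _ a b).trans nrm
    rwa [cmp, if_pos ⟨ha, hb⟩] at this
  · obtain ⟨b4, b5⟩ := isF x b1 b2 b3
    obtain ⟨p, b6, b7⟩ := mem_nbhd.1 (nearF x b4 b5)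
    have hϑ := L.led.ϑ0
    have hθ := RN.th0 L
    refine le_trans ?_ (shield L)
    calc _ ≤ ∑ y ∈ (s.ord \ Cs'.biUnion B) \ nbhd P' e2.s,
          (2 * e.Bg ^ 2 * Real.exp (-e.ϑ * e.ρ) * Real.exp (-e.ϑ * tdist y x)
            + 2 * tn e ^ 2 * Real.exp (-th ρ u * tdist y x)) := sum_le_sum fun y hy => ?_
      _ ≤ _ := by
        rw [sum_add_distrib, ← mul_sum, ← mul_sum]
        gcongr
        · exact (sum_le_sum_of_subset_of_nonneg (subset_univ _) fun _ _ _ =>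
            (Real.exp_pos _).le).trans (sum_exp_le hϑ (by linarith [L.led.ϑ_le]) x)
        · exact (sum_le_sum_of_subset_of_nonneg (subset_univ _) fun _ _ _ =>
            (Real.exp_pos _).le).trans (sum_exp_le hθ (by linarith [L.led.ϑ_le, RN.th1 L]) x)
    have c1 := pow_le_pow_left₀ (norm_nonneg _) (G_frozen hr (opO x b1)
      (opO y (mem_opn.2 (opT y (sO hy)))) fun p hc =>
        hp.frozen_far hs (mem_union_left _ b4) b5 hc) 2
    have c2 : (e.ρ : ℝ) ≤ tdist y x := by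
      have := not_le.1 fun b => (mem_sdiff.1 hy).2 (mem_nbhd.2 ⟨p, b6, b⟩)
      have := tdist_triangle y x p
      have := ρR L
      have := R_mR L
      exact_mod_cast (by omega : e.ρ ≤ tdist y x)
    rw [tdist_comm x] at c1
    have c3 : Real.exp (-e.ϑ * tdist y x) ≤ Real.exp (-e.ϑ * e.ρ) :=
      Real.exp_le_exp.2 (by nlinarith)
    have c4 : Real.exp (-th ρ u * tdist y x) ≤ 1 :=
      Real.exp_le_one_iff.2 (by nlinarith [(tdist y x).cast_nonneg (α := ℝ)])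
    refine c1.trans ?_
    nlinarith [sq_nonneg (e.Bg * Real.exp (-e.ϑ * tdist y x) - tn e * Real.exp (-th ρ u * tdist y x)),
      mul_le_mul_of_nonneg_left c3 (mul_nonneg (sq_nonneg e.Bg) (Real.exp_pos (-e.ϑ * tdist y x)).le),
      mul_le_mul_of_nonneg_left c4
        (mul_nonneg (sq_nonneg (tn e)) (Real.exp_pos (-th ρ u * tdist y x)).le)]
  · by_cases b4 : x ∈ s.ord \ Cs'.biUnion B
    · exact not_not.1 fun b => b2 (mem_sdiff.2 ⟨b4, b⟩)
    · exact nbhd_mono' Subset.rfl (by omega) (nearF x (isF x b1 b4 b3).1 (isF x b1 b4 b3).2)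
  · refine (if_neg fun b => ?_).trans (h.bas.abs x hx)
    obtain ⟨p, b1, b2⟩ := mem_biUnion.1 b
    exact (Pl.opn L hf h hp' b1 b2).2 hx
  · by_cases b : x ∈ Cs'.biUnion B
    · exact ⟨(hU x b).1, (if_pos b).trans (congrArg _ (hU x b).2)⟩
    · have b1 : gam s.w x = 0 := (gam_same b).symm.trans hx
      have b2 := hoff x fun b3 => by
        obtain ⟨p, b4, b5⟩ := mem_biUnion.1 b3
        exact (hp.opn L hf h b4 b5).1 b1
      show (S2 x).2 = 1 ∧ wCl s.w (Cs'.biUnion B) v x = c.v x (S2 x).1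
      rw [b2]
      exact ⟨(h.bas.cls x b1).1, (if_neg b).trans (h.bas.cls x b1).2⟩
  · obtain ⟨b1, b2⟩ := opn' L hf h hp' hr hx
    by_cases b : x ∈ Cs.biUnion B
    · exact ⟨_, le_rfl, hU0 x b b1⟩
    · obtain ⟨a, b3, b4⟩ := h.bas.len x b2
      exact ⟨a, by have := L.a2; omega, (congrArg _ (hoff x b)).trans b4⟩
  · have b1 := mem_sdiff.1 (sO hx)
    exact (hoff x fun b => (mem_sdiff.1 hx).2
      (nbhd_mono' Subset.rfl (by omega) (nearB x b b1.2))).trans (h.bas.full x b1.1)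
  · refine (pow_le_pow_left₀ (norm_nonneg _) (ent L hf h hp' hr (sO ha) (sO hb) hab) 2).trans
      ((le_div_iff₀ L.q2).2 ?_)
    nlinarith [mul_le_mul_of_nonneg_right L.x2q (sq_nonneg g2.x), sq_nonneg g2.x]
  · have b1 : (g.R : ℝ) ≤ tdist a b :=
      Nat.cast_le.2 (h.sep a (mem_sdiff.1 (sO ha)).1 b (mem_sdiff.1 hb).1 hab)
    have b2 := L.led.ok.σ0
    have b3 : ‖c.G0 a b‖ ≤ g2.x ^ 2 := ((L.led.ok.init.decay a b).trans
      (mul_le_mul_of_nonneg_left (Real.exp_le_exp.2 (mul_le_mul_of_nonpos_left b1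
        (neg_nonpos.2 (by positivity)))) (by positivity))).trans L.G0x
    exact (norm_sub_le _ _).trans
      ((add_le_add (ent L hf h hp' hr (sO ha) hb hab) b3).trans (le_trans (by linarith) L.X2))
  · have b1 := mem_sdiff.1 hb
    refine (norm_sub_le_norm_sub_add_norm_sub _ (c.G s.w b b) _).trans ((add_le_add
      (dG L hf h hp' hr hb hb L.zr0 (zr_ε L))
      (h.diag b (ordT L hf h b1.1) (h.bas.opn b b1.1))).trans ?_)
    have := e_inc L (a := 1) (by linarith)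
    show u.zr + g.e ≤ g2.e
    linarith
  · have b1 : (1 : ℝ) ≤ (e2.P : ℝ) ^ 4 :=
      one_le_pow₀ (le_trans (by linarith [P3 L]) (Nat.cast_le.2 L.P2))
    have b2 : 1 / (9 / 10 * c.γ) ≤ g2.D := by
      rw [div_le_iff₀ (by positivity)]
      linarith
    exact b2.trans (le_mul_of_one_le_left (le_trans (by positivity) b2) b1)
  · exact le_of_mul_le_mul_left ((col L hA (fun x => gam' L hf h hp' hr)
      (diag3 L hf h hp' hr (sO ha))).trans (le_trans (by linarith) hD2)) hγ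

end Crest.Agent.N334.AC.P.RB
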