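import Crest.Agent.N334.AC.F.Defs
import Crest.Agent.N334.AC.Geo

/-! # S0520 part P (helper27): the schedule and its toolkit of inequalities (leaf: fill the sorries).
`k` = epoch, `j` = stage, `J k ≤ j ≤ J (k+1)`. -/

set_option autoImplicit false

open Finset

namespace Crest.Agent.N334.AC

/-- master data -/
structure Sch where
  d : ℕ
  C : ℝ
  σ : ℝ
  y0 : ℕ
  hd : 3 ≤ d
  hC : 1 ≤ C
  σ0 : 0 < σ
  big : (1000 * d * C) ^ (100 * d) ≤ (y0 : ℝ)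
  small : 10 ^ 5 * Real.log y0 ≤ -Real.log σ
  large : -Real.log σ ≤ (y0 : ℝ) ^ 4 / 10 ^ 7

namespace Sch

variable (s : Sch)

def y (k : ℕ) : ℕ := s.y0 ^ 2 ^ k
def J : ℕ → ℕ
  | 0 => 0
  | k + 1 => s.y k ^ 4
noncomputable def u (k : ℕ) : ℝ := if k = 0 then 1 else 1 / s.σ
/-- `Z = T` -/
def Z (k : ℕ) : ℕ := s.y k ^ 15
def m (k : ℕ) : ℕ := s.y k ^ 8
def ρ (k : ℕ) : ℕ := 2 ^ s.y k ^ 7
def L (k : ℕ) : ℕ := s.ρ k ^ 2
def R (k : ℕ) : ℕ := s.ρ k ^ 3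
def r (k : ℕ) : ℕ := s.ρ k ^ 4
def Rc (k : ℕ) : ℕ := 40 * s.m k * s.R k
def L0 (k : ℕ) : ℕ := 2 ^ s.y k ^ 5
def R0 (k : ℕ) : ℕ := 2 ^ s.y k ^ 4
noncomputable def ZΘ (k : ℕ) : ℝ := (s.y k : ℝ) ^ 60 * s.u k
noncomputable def n0 (k : ℕ) : ℕ := s.y k ^ 122 * ⌈s.u k ^ 2⌉₊
noncomputable def φ (k : ℕ) : ℝ := 1 / (s.y k * s.n0 k)
noncomputable def g (k : ℕ) : ℝ := (s.y k : ℝ) ^ 3 * s.n0 k
noncomputable def lam (k : ℕ) : ℝ := (s.y k : ℝ) ^ 300 * s.u k ^ 10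
noncomputable def vp (k : ℕ) : ℝ :=
  if k = 0 then s.σ ^ (1 / 96 : ℝ) else (2 : ℝ) ^ (-(s.J k : ℝ) / 3600)
/-- lagged small parameter -/
noncomputable def vpT (k : ℕ) : ℝ := s.vp (k - 1)
noncomputable def vs (k : ℕ) : ℝ := s.vp k ^ 12
noncomputable def hh (k j : ℕ) : ℝ :=
  if k = 0 then Real.sqrt (min (s.σ ^ 3 / s.vp 0 ^ 5) (1 / s.σ ^ 12 * (2 : ℝ) ^ (-(j : ℝ) / 4)))
  else (2 : ℝ) ^ (-(s.J k : ℝ) / 120 - ((j : ℝ) - s.J k) / 8)
noncomputable def Θ (k j : ℕ) : ℝ := s.ZΘ k ^ 2 * s.hh k j ^ 2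
noncomputable def x (k j : ℕ) : ℝ := s.hh k j / s.σ
noncomputable def db (k j : ℕ) : ℝ := (s.y k : ℝ) ^ 16 * s.ZΘ k * s.x k j
noncomputable def bb (k j : ℕ) : ℝ := s.g k * s.db k j
noncomputable def δN (k j : ℕ) : ℝ := (s.y k : ℝ) ^ 12 * s.u k ^ 2 * s.bb k j
noncomputable def η (k j : ℕ) : ℝ := s.lam k ^ 2 * s.x k j
noncomputable def Dp (k j : ℕ) : ℝ := 10 * s.C ^ 2 / s.σ ^ 2 * s.g k ^ (2 * (j - s.J k))
noncomputable def Ap (k j : ℕ) : ℝ := (s.y k : ℝ) ^ 40 * s.Dp k j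
noncomputable def Ag (k j : ℕ) : ℝ := 64 * 3 ^ s.d * s.Ap k j
/-- capacity constant of the ordinary ports at stage `j` -/
noncomputable def FO (j : ℕ) : ℝ :=
  min (s.C * s.σ ^ 3 / s.vp 0 ^ 3) (s.C / s.σ ^ 10 * (2 : ℝ) ^ (-(j : ℝ) / 4))
/-- capacity constant of the tame ports in epoch `k` -/
noncomputable def FT (k : ℕ) : ℝ := s.FO (s.J (k - 1))
noncomputable def epsE (k : ℕ) : ℝ := ∑ i ∈ range k, s.vpT i ^ 3
noncomputable def eps (k j : ℕ) : ℝ :=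
  s.epsE k + ((j : ℝ) - s.J k) * (s.vpT k ^ 3 / (2 * (s.y k : ℝ) ^ 4))
noncomputable def b7 (j : ℕ) : ℝ := 4 * (j + 1) * s.vp 0 ^ 8
/-- negligible -/
noncomputable def tt (k : ℕ) : ℝ := (2 : ℝ) ^ (-(s.y k : ℝ) ^ 16)
noncomputable def Big (k : ℕ) : ℝ := (s.ρ k : ℝ) ^ (100 * s.d)
noncomputable def tc (k : ℕ) : ℝ := Real.exp (-(s.ρ (k - 1) : ℝ) / 4)
/-- digits revealed at the release that ends epoch `k` -/
def lv (k : ℕ) : ℕ := s.y k ^ 15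
noncomputable def cell (k : ℕ) : ℝ := 2 * s.σ / 2 ^ s.lv k
noncomputable def εR (k : ℕ) : ℝ := s.hh (k + 1) (s.J (k + 1)) ^ 2 * s.σ ^ 8 / 100
noncomputable def ζ (k : ℕ) : ℝ := s.cell k * s.σ ^ 2 / (6 * s.C)
/-- size of a cluster released at the end of epoch `k` -/
noncomputable def nB (k : ℕ) : ℝ := (s.m k : ℝ) * (6 * s.r (k - 1) + 1) ^ s.d
noncomputable def Jz (k : ℕ) : ℕ := ⌈20 * s.nB k * Real.log (2 / s.ζ k) / s.εR k⌉₊ + 1
noncomputable def θ' (k : ℕ) : ℝ := 1 / (400 * s.m k * s.ρ k)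
/-- total and per-stage probability budgets -/
noncomputable def b (k : ℕ) : ℝ := Real.exp (-(s.Z k : ℝ) / 3)
noncomputable def bs (k : ℕ) : ℝ := s.b k / ((s.y k : ℝ) ^ 4 + 2)

/-! ### existence -/
theorem exists_sch (d : ℕ) (hd : 3 ≤ d) (C : ℝ) (hC : 1 ≤ C) : ∃ c₀ > (0 : ℝ), ∀ σ : ℝ, 0 < σ → σ < c₀ →
    ∃ s : Sch, s.d = d ∧ s.C = C ∧ s.σ = σ := by
  refine ⟨Real.exp (-max ((1000 * d * C) ^ (100 * d)) (10 ^ 12)), Real.exp_pos _, fun σ h0 h1 => ?_⟩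
  have h2 : max ((1000 * d * C) ^ (100 * d)) (10 ^ 12) ≤ -Real.log σ := by
    have := (Real.log_lt_iff_lt_exp h0).2 h1
    linarith
  set S := -Real.log σ with hS
  have h3 : (10 : ℝ) ^ 12 ≤ S := (le_max_right _ _).trans h2
  have h4 : S ≤ ⌈S⌉₊ := Nat.le_ceil S
  have h5 : (⌈S⌉₊ : ℝ) ≤ 2 * S := by linarith [Nat.ceil_lt_add_one (by linarith : 0 ≤ S)]
  refine ⟨⟨d, C, σ, ⌈S⌉₊, hd, hC, h0, ((le_max_left _ _).trans h2).trans h4, ?_, ?_⟩, rfl, rfl, rfl⟩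
  · have h6 : Real.log ⌈S⌉₊ = 2 * Real.log √(⌈S⌉₊ : ℝ) := by
      rw [Real.log_sqrt (Nat.cast_nonneg _)]; ring
    have h7 := Real.log_le_sub_one_of_pos (Real.sqrt_pos.2 (by linarith : (0 : ℝ) < ⌈S⌉₊))
    have h8 : √(⌈S⌉₊ : ℝ) ≤ S / (2 * 10 ^ 5) := by
      rw [Real.sqrt_le_left (by positivity), div_pow, le_div_iff₀ (by positivity)]
      nlinarith
    rw [le_div_iff₀ (by positivity)] at h8
    linarith
  · rw [le_div_iff₀ (by positivity)]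
    have h6 : (10 : ℝ) ^ 7 ≤ (⌈S⌉₊ : ℝ) ^ 3 :=
      le_trans (by linarith) (le_self_pow₀ (by linarith) (by norm_num))
    calc S * 10 ^ 7 ≤ ⌈S⌉₊ * (⌈S⌉₊ : ℝ) ^ 3 := by gcongr
      _ = _ := by ring

/-! ### sizes -/
variable (k j : ℕ)
lemma three_le_d : (3 : ℝ) ≤ s.d := by exact_mod_cast s.hd
lemma y0_ge : 10 ^ 100 ≤ s.y0 := by
  have h1 : (10 : ℝ) ≤ 1000 * s.d * s.C := by nlinarith [s.three_le_d, s.hC]
  have h2 : (10 : ℝ) ^ 100 ≤ (1000 * s.d * s.C) ^ (100 * s.d) :=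
    (pow_le_pow_left₀ (by norm_num) h1 100).trans
      (pow_le_pow_right₀ (by linarith) (by have := s.hd; omega))
  exact_mod_cast h2.trans s.big
lemma y_zero : s.y 0 = s.y0 := by simp [y]
lemma y0_le : s.y0 ≤ s.y k := Nat.le_self_pow (by positivity) _
lemma y_succ : s.y (k + 1) = s.y k ^ 2 := by
  rw [y, y, pow_succ, pow_mul]
lemma y_big : (1000 * s.d * s.C) ^ (100 * s.d) ≤ (s.y k : ℝ) := by
  exact s.big.trans (by exact_mod_cast s.y0_le k)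
lemma y_ge : 10 ^ 100 ≤ s.y k := by
  exact s.y0_ge.trans (s.y0_le k)
lemma y_ge' : 1000000 ≤ s.y k := le_trans (by norm_num) (s.y_ge k)
lemma y_pos : 0 < s.y k := lt_of_lt_of_le (by norm_num) (s.y_ge' k)
lemma yR_ge : (1000000 : ℝ) ≤ s.y k := by exact_mod_cast s.y_ge' k
/-- `c y^a ≤ y^b` for `a < b`, `c ≤ 10^6` -/
lemma mul_pow_le {c a b : ℕ} (hc : c ≤ 1000000) (h : a < b) : c * s.y k ^ a ≤ s.y k ^ b :=
  calc c * s.y k ^ a ≤ s.y k * s.y k ^ a := Nat.mul_le_mul_right _ (hc.trans (s.y_ge' k))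
    _ = s.y k ^ (a + 1) := by ring
    _ ≤ _ := Nat.pow_le_pow_right (s.y_pos k) h
lemma y_pow_mono {a b : ℕ} (h : a ≤ b) : s.y k ^ a ≤ s.y k ^ b :=
  Nat.pow_le_pow_right (s.y_pos k) h
/-- `y^a ≤ 2^(y²)` for `a ≤ 10^6` -/
lemma pow_le_two_pow {a : ℕ} (ha : a ≤ 1000000) : s.y k ^ a ≤ 2 ^ s.y k ^ 2 :=
  calc s.y k ^ a ≤ (2 ^ s.y k) ^ a := Nat.pow_le_pow_left Nat.lt_two_pow_self.le a
    _ = 2 ^ (a * s.y k ^ 1) := by rw [← pow_mul, pow_one, mul_comm]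
    _ ≤ _ := Nat.pow_le_pow_right (by norm_num) (s.mul_pow_le k ha (by norm_num))
lemma y_mono : Monotone s.y := by
  refine monotone_nat_of_le_succ fun k => ?_
  rw [y_succ]; exact Nat.le_self_pow (by norm_num) _
/-- every structural constant is below `y` -/
lemma cst_le : 10 ^ 20 * s.C ^ 20 * (1000 * s.d : ℝ) ^ (10 * s.d) ≤ s.y k := by
  refine le_trans ?_ (s.y_big k)
  have h1 : (10 : ℝ) ≤ 1000 * s.d := by linarith [s.three_le_d]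
  have hd := s.hd
  have hC := s.hC
  calc 10 ^ 20 * s.C ^ 20 * (1000 * s.d : ℝ) ^ (10 * s.d)
      ≤ (1000 * s.d : ℝ) ^ 20 * s.C ^ (100 * s.d) * (1000 * s.d : ℝ) ^ (10 * s.d) := by
        gcongr; omega
    _ = (1000 * s.d : ℝ) ^ (20 + 10 * s.d) * s.C ^ (100 * s.d) := by rw [pow_add]; ring
    _ ≤ (1000 * s.d : ℝ) ^ (100 * s.d) * s.C ^ (100 * s.d) := by
        gcongr
        · linarith
        · omega
    _ = _ := (mul_pow _ _ _).symm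
lemma J_lt : s.J k < s.J (k + 1) := by
  cases k with
  | zero => exact pow_pos (s.y_pos 0) 4
  | succ k =>
    simp only [J, y_succ, ← pow_mul]
    exact Nat.pow_lt_pow_right (by have := s.y_ge' k; omega) (by norm_num)
lemma J_mono : Monotone s.J := by
  exact monotone_nat_of_le_succ fun k => (s.J_lt k).le
lemma J_eq (hk : 1 ≤ k) : s.J k = s.y k ^ 2 := by
  obtain ⟨k, rfl⟩ : ∃ i, k = i + 1 := ⟨k - 1, by omega⟩
  simp only [J, y_succ, ← pow_mul]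
lemma σ_mul_pow : s.σ * (s.y0 : ℝ) ^ 100000 ≤ 1 := by
  have h0 : (0 : ℝ) < s.y0 := by have := s.yR_ge 0; rw [y_zero] at this; linarith
  have hσ := s.σ0
  rw [← Real.log_nonpos_iff (by positivity), Real.log_mul hσ.ne' (by positivity), Real.log_pow]
  have := s.small
  push_cast
  linarith
lemma σ_mul_y0 : s.σ * s.y0 ≤ 1 := by
  have h0 : (1 : ℝ) ≤ s.y0 := by have := s.yR_ge 0; rw [y_zero] at this; linarith
  exact le_trans (mul_le_mul_of_nonneg_left (le_self_pow₀ h0 (by norm_num)) s.σ0.le) s.σ_mul_pow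
lemma σ_le_one : s.σ ≤ 1 := by
  have h0 : (1 : ℝ) ≤ s.y0 := by have := s.yR_ge 0; rw [y_zero] at this; linarith
  exact (le_mul_of_one_le_right s.σ0.le h0).trans s.σ_mul_y0
lemma σ_lt : 10 ^ 10 * s.C ^ 10 * s.σ ≤ 1 := by
  have h1 := s.cst_le 0
  rw [y_zero] at h1
  have hC := s.hC
  have h2 : (1 : ℝ) ≤ (1000 * s.d : ℝ) ^ (10 * s.d) := one_le_pow₀ (by linarith [s.three_le_d])
  have h3 : 10 ^ 10 * s.C ^ 10 ≤ 10 ^ 20 * s.C ^ 20 * (1000 * s.d : ℝ) ^ (10 * s.d) := by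
    refine le_trans ?_ (le_mul_of_one_le_right (by positivity) h2)
    gcongr <;> norm_num
  refine le_trans ?_ s.σ_mul_y0
  rw [mul_comm]
  exact mul_le_mul_of_nonneg_left (h3.trans h1) s.σ0.le
lemma one_le_u : 1 ≤ s.u k := by
  unfold u
  split_ifs
  · exact le_rfl
  · exact one_le_one_div s.σ0 s.σ_le_one
lemma u_le : s.u k ≤ 1 / s.σ := by
  unfold u
  split_ifs
  · exact one_le_one_div s.σ0 s.σ_le_one
  · exact le_rfl
lemma inv_σ_pow : (1 / s.σ) ^ 1000 ≤ (2 : ℝ) ^ ((s.J (k + 1) : ℝ) / 1000) := by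
  have hσ := s.σ0
  rw [Real.le_rpow_iff_log_le (by positivity) (by norm_num), Real.log_pow, one_div, Real.log_inv]
  have h1 := s.large
  have h2 : (s.y0 : ℝ) ^ 4 ≤ s.J (k + 1) := by
    exact_mod_cast Nat.pow_le_pow_left (s.y0_le k) 4
  have h3 := Real.log_two_gt_d9
  have h4 : (0 : ℝ) ≤ s.J (k + 1) := Nat.cast_nonneg _
  push_cast
  nlinarith
lemma r_mono : Monotone s.r := by
  intro a b h
  exact Nat.pow_le_pow_left (Nat.pow_le_pow_right (by norm_num)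
    (Nat.pow_le_pow_left (s.y_mono h) 7)) 4
lemma Rc_le : s.Rc (k + 1) + s.r k ≤ s.r (k + 1) := by
  have h1 : s.r k ≤ s.R (k + 1) := by
    simp only [r, R, ρ, y_succ, ← pow_mul]
    refine Nat.pow_le_pow_right (by norm_num) ?_
    have := s.mul_pow_le k (c := 4) (a := 7) (b := 2 * 7) (by norm_num) (by norm_num)
    omega
  have h2 : 41 * s.m (k + 1) ≤ s.ρ (k + 1) :=
    (s.mul_pow_le _ (by norm_num) (by norm_num : 8 < 9)).trans ((s.pow_le_two_pow _ (by norm_num)).trans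
      (Nat.pow_le_pow_right (by norm_num) (s.y_pow_mono _ (by norm_num))))
  have h3 : 1 ≤ s.m (k + 1) := pow_pos (s.y_pos _) _
  calc s.Rc (k + 1) + s.r k ≤ 40 * s.m (k + 1) * s.R (k + 1) + s.m (k + 1) * s.R (k + 1) :=
        add_le_add le_rfl (h1.trans (Nat.le_mul_of_pos_left _ h3))
    _ = 41 * s.m (k + 1) * s.R (k + 1) := by ring
    _ ≤ s.ρ (k + 1) * s.R (k + 1) := Nat.mul_le_mul_right _ h2
    _ = s.r (k + 1) := by rw [R, r]; ring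
/-- the radii of the witness recursion -/
def rad : Rad := ⟨s.r, s.Rc, s.m, s.r_mono, s.Rc_le⟩
lemma ρ_big : 1000 * s.m k * s.L0 k ≤ s.ρ k := by
  have h2 : 1000 * s.m k ≤ 2 ^ s.y k ^ 2 :=
    (s.mul_pow_le _ (by norm_num) (by norm_num : 8 < 9)).trans (s.pow_le_two_pow _ (by norm_num))
  refine (Nat.mul_le_mul_right _ h2).trans ?_
  rw [L0, ρ, ← pow_add]
  refine Nat.pow_le_pow_right (by norm_num) ?_
  have h3 := s.y_pow_mono k (by norm_num : 2 ≤ 5)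
  have h4 := s.mul_pow_le k (c := 2) (by norm_num) (by norm_num : 5 < 7)
  omega
lemma R0_le : 2 * s.R0 k ≤ s.L0 k := by
  rw [L0, R0, ← pow_succ']
  refine Nat.pow_le_pow_right (by norm_num) ?_
  have h3 := pow_pos (s.y_pos k) 4
  have h4 := s.mul_pow_le k (c := 2) (by norm_num) (by norm_num : 4 < 5)
  omega
lemma two_pow_le (hj : j ≤ s.J (k + 1) + 2) : 2 ^ j ≤ s.L0 k := by
  refine Nat.pow_le_pow_right (by norm_num) (hj.trans ?_)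
  have h3 := pow_pos (s.y_pos k) 4
  have h4 := s.mul_pow_le k (c := 3) (by norm_num) (by norm_num : 4 < 5)
  simp only [J]
  omega
lemma r_prev : 1000 * s.r k ≤ s.L0 (k + 1) := by
  simp only [r, L0, ρ, y_succ, ← pow_mul]
  refine (Nat.mul_le_mul_right _ (by norm_num : 1000 ≤ 2 ^ 10)).trans ?_
  rw [← pow_add]
  refine Nat.pow_le_pow_right (by norm_num) ?_
  have h3 := pow_pos (s.y_pos k) 7
  have h4 := s.mul_pow_le k (c := 14) (by norm_num) (by norm_num : 7 < 2 * 5)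
  omega
lemma one_le_σL : 1 ≤ s.σ ^ 2 * s.L k := by
  have hσ := s.σ0
  have h1 : (1 / s.σ) ^ 2 ≤ (1 / s.σ) ^ 1000 :=
    pow_le_pow_right₀ (one_le_one_div hσ s.σ_le_one) (by norm_num)
  have h2 : (2 : ℝ) ^ ((s.J (k + 1) : ℝ) / 1000) ≤ s.L k := by
    have h3 : s.J (k + 1) ≤ s.y k ^ 7 * 2 := by
      have := s.y_pow_mono k (by norm_num : 4 ≤ 7)
      simp only [J]
      omega
    have h4 : (s.J (k + 1) : ℝ) ≤ ((s.y k ^ 7 * 2 : ℕ) : ℝ) := by exact_mod_cast h3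
    rw [L, ρ, ← pow_mul, Nat.cast_pow, Nat.cast_ofNat, ← Real.rpow_natCast]
    exact Real.rpow_le_rpow_of_exponent_le (by norm_num)
      (by linarith [Nat.cast_nonneg (α := ℝ) (s.J (k + 1))])
  have h5 := (h1.trans (s.inv_σ_pow k)).trans h2
  rwa [one_div, inv_pow, inv_le_iff_one_le_mul₀' (by positivity)] at h5
lemma n0_pos : 0 < s.n0 k := by
  have := s.one_le_u k
  exact mul_pos (pow_pos (s.y_pos k) _) (Nat.ceil_pos.2 (by positivity))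
lemma n0_ge : 4 * (5 ^ s.d + 200 * s.ZΘ k ^ 2 + 1) ≤ s.n0 k := by
  have hy := s.yR_ge k
  have hu : 1 ≤ s.u k ^ 2 := one_le_pow₀ (s.one_le_u k)
  have h1 : (5 : ℝ) ^ s.d ≤ s.y k := by
    refine le_trans ?_ (s.y_big k)
    have h : (5 : ℝ) ≤ 1000 * s.d * s.C := by nlinarith [s.three_le_d, s.hC]
    exact (pow_le_pow_left₀ (by norm_num) h _).trans (pow_le_pow_right₀ (by linarith) (by omega))
  have h2 : (s.y k : ℝ) ≤ (s.y k : ℝ) ^ 120 * s.u k ^ 2 :=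
    (le_self_pow₀ (by linarith) (by norm_num)).trans (le_mul_of_one_le_right (by positivity) hu)
  have h3 : s.ZΘ k ^ 2 = (s.y k : ℝ) ^ 120 * s.u k ^ 2 := by rw [ZΘ]; ring
  have h4 : (s.y k : ℝ) ^ 2 * ((s.y k : ℝ) ^ 120 * s.u k ^ 2) ≤ s.n0 k := by
    rw [n0, ← mul_assoc, ← pow_add]
    push_cast
    exact mul_le_mul_of_nonneg_left (Nat.le_ceil _) (by positivity)
  have h5 : 808 * ((s.y k : ℝ) ^ 120 * s.u k ^ 2) ≤
      (s.y k : ℝ) ^ 2 * ((s.y k : ℝ) ^ 120 * s.u k ^ 2) :=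
    mul_le_mul_of_nonneg_right (by nlinarith) (by positivity)
  rw [h3]
  linarith
lemma g_le : s.g k ≤ 2 * (s.y k : ℝ) ^ 125 * s.u k ^ 2 := by
  have hu : 1 ≤ s.u k ^ 2 := one_le_pow₀ (s.one_le_u k)
  have h1 : (⌈s.u k ^ 2⌉₊ : ℝ) ≤ 2 * s.u k ^ 2 := by
    linarith [Nat.ceil_lt_add_one (by positivity : 0 ≤ s.u k ^ 2)]
  rw [g, n0]
  push_cast
  calc (s.y k : ℝ) ^ 3 * ((s.y k : ℝ) ^ 122 * ⌈s.u k ^ 2⌉₊)
      ≤ (s.y k : ℝ) ^ 3 * ((s.y k : ℝ) ^ 122 * (2 * s.u k ^ 2)) := by gcongr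
    _ = _ := by ring
lemma φ_pos : 0 < s.φ k := by
  have h1 := s.y_pos k
  have h2 := s.n0_pos k
  rw [φ]; positivity
lemma g_φ : s.g k * s.φ k = (s.y k : ℝ) ^ 2 := by
  have h1 : (0 : ℝ) < s.y k := by exact_mod_cast s.y_pos k
  have h2 : (0 : ℝ) < s.n0 k := by exact_mod_cast s.n0_pos k
  rw [g, φ]; field_simp

end Sch

end Crest.Agent.N334.AC
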