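import Crest.Agent.N334.AC.P.Sched

/-! # S0520 part P: ledger, small parameters (leaf: fill the sorries; take logarithms) -/

set_option autoImplicit false
set_option maxHeartbeats 400000

open Finset

namespace Crest.Agent.N334.AC

namespace Sch

variable (s : Sch) (k j : ℕ)

/-! ### logarithmic forms (helper61) -/
noncomputable def a1S : ℝ := -Real.log s.σ
noncomputable def a1c : ℝ := Real.log s.C
noncomputable def a1l : ℝ := Real.log (s.y k)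
noncomputable def a1P (j : ℕ) : ℝ := Real.log 2 * j
noncomputable def a1u : ℝ := if k = 0 then 0 else s.a1S
noncomputable def a1v : ℝ := if k = 0 then -s.a1S / 96 else -a1P (s.J k) / 3600
noncomputable def a1h : ℝ :=
  if k = 0 then min (-3 * s.a1S + 5 * s.a1S / 96) (12 * s.a1S - a1P j / 4) / 2
  else -a1P (s.J k) / 120 - (a1P j - a1P (s.J k)) / 8
noncomputable def a1f : ℝ := s.a1c + min (-3 * s.a1S + 3 * s.a1S / 96) (10 * s.a1S - a1P j / 4)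

lemma a1_yR : (10 : ℝ) ^ 100 ≤ s.y k := by exact_mod_cast s.y_ge k
lemma a1_y1 : (1 : ℝ) ≤ s.y k := le_trans (by norm_num) (s.a1_yR k)
lemma a1_y0 : (0 : ℝ) < s.y k := lt_of_lt_of_le one_pos (s.a1_y1 k)
lemma a1_C0 : 0 < s.C := lt_of_lt_of_le one_pos s.hC
lemma a1_σ : s.σ = Real.exp (-s.a1S) := by rw [a1S, neg_neg, Real.exp_log s.σ0]
lemma a1_C : s.C = Real.exp s.a1c := by rw [a1c, Real.exp_log s.a1_C0]
lemma a1_y : (s.y k : ℝ) = Real.exp (s.a1l k) := by rw [a1l, Real.exp_log (s.a1_y0 k)]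
lemma a1_two (t : ℝ) : (2 : ℝ) ^ t = Real.exp (Real.log 2 * t) := Real.rpow_def_of_pos two_pos t
lemma a1_u : s.u k = Real.exp (s.a1u k) := by
  unfold u a1u
  split_ifs
  · simp
  · rw [s.a1_σ, one_div, ← Real.exp_neg, neg_neg]
lemma a1_lam : s.lam k = Real.exp (300 * s.a1l k + 10 * s.a1u k) := by
  rw [lam, s.a1_y, s.a1_u, ← Real.exp_nat_mul, ← Real.exp_nat_mul, ← Real.exp_add]; norm_num
lemma a1_vp : s.vp k = Real.exp (s.a1v k) := by
  unfold vp a1v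
  split_ifs
  · rw [Real.rpow_def_of_pos s.σ0, a1S]; congr 1; ring
  · rw [a1_two, a1P]; congr 1; ring
lemma a1_v0 : s.a1v 0 = -s.a1S / 96 := if_pos rfl
lemma a1_hh : s.hh k j = Real.exp (s.a1h k j) := by
  unfold hh a1h
  split_ifs
  · have e1 : s.σ ^ 3 / s.vp 0 ^ 5 = Real.exp (-3 * s.a1S + 5 * s.a1S / 96) := by
      rw [s.a1_vp, a1_v0, s.a1_σ, ← Real.exp_nat_mul, ← Real.exp_nat_mul, ← Real.exp_sub]
      congr 1; push_cast; ring
    have e2 : 1 / s.σ ^ 12 * (2 : ℝ) ^ (-(j : ℝ) / 4) = Real.exp (12 * s.a1S - a1P j / 4) := by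
      rw [a1_two, s.a1_σ, ← Real.exp_nat_mul, one_div, ← Real.exp_neg, ← Real.exp_add, a1P]
      congr 1; push_cast; ring
    rw [e1, e2, ← Real.exp_monotone.map_min, Real.exp_half]
  · rw [a1_two, a1P, a1P]; congr 1; ring
lemma a1_FO : s.FO j = Real.exp (s.a1f j) := by
  unfold FO a1f
  have e1 : s.C * s.σ ^ 3 / s.vp 0 ^ 3 = Real.exp (s.a1c + (-3 * s.a1S + 3 * s.a1S / 96)) := by
    rw [s.a1_vp, a1_v0, s.a1_σ, s.a1_C, ← Real.exp_nat_mul, ← Real.exp_nat_mul, ← Real.exp_add,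
      ← Real.exp_sub]
    congr 1; push_cast; ring
  have e2 : s.C / s.σ ^ 10 * (2 : ℝ) ^ (-(j : ℝ) / 4) =
      Real.exp (s.a1c + (10 * s.a1S - a1P j / 4)) := by
    rw [a1_two, s.a1_σ, s.a1_C, ← Real.exp_nat_mul, ← Real.exp_sub, ← Real.exp_add, a1P]
    congr 1; push_cast; ring
  rw [e1, e2, ← Real.exp_monotone.map_min, min_add_add_left]

lemma a1_L2 : 0.69 ≤ Real.log 2 ∧ Real.log 2 ≤ 0.7 :=
  ⟨by linarith [Real.log_two_gt_d9], by linarith [Real.log_two_lt_d9]⟩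
lemma a1_Pmono {i j : ℕ} (h : i ≤ j) : a1P i ≤ a1P j :=
  mul_le_mul_of_nonneg_left (by exact_mod_cast h) (by linarith [a1_L2.1])
lemma a1_P0 : 0 ≤ a1P j := mul_nonneg (by linarith [a1_L2.1]) (Nat.cast_nonneg _)
lemma a1_Psucc : a1P (j + 1) = a1P j + Real.log 2 := by unfold a1P; push_cast; ring
lemma a1_Pz : a1P 0 = 0 := by simp [a1P]
lemma a1_Jz : s.J 0 = 0 := rfl
lemma a1_Js : s.J (k + 1) = s.y k ^ 4 := rfl
lemma a1_l1 : 1 ≤ s.a1l k := by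
  rw [a1l, Real.le_log_iff_exp_le (s.a1_y0 k)]
  have := Real.exp_one_lt_d9
  exact le_trans (by linarith [show (10 : ℝ) ≤ 10 ^ 100 by norm_num]) (s.a1_yR k)
lemma a1_small : 10 ^ 5 * s.a1l 0 ≤ s.a1S := by
  have : s.y 0 = s.y0 := by simp [y]
  rw [a1l, this]; exact s.small
lemma a1_S0 : 0 ≤ s.a1S := by linarith [s.a1_small, s.a1_l1 0]
lemma a1_large' : 10 ^ 7 * s.a1S ≤ s.J (k + 1) := by
  have h1 : s.J 1 ≤ s.J (k + 1) := s.J_mono (by omega)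
  have h2 : (s.J 1 : ℝ) = (s.y0 : ℝ) ^ 4 := by simp [J, y]
  have h3 : (s.J 1 : ℝ) ≤ s.J (k + 1) := by exact_mod_cast h1
  have := s.large
  unfold a1S
  linarith
lemma a1_large : 6 * 10 ^ 6 * s.a1S ≤ a1P (s.J (k + 1)) := by
  have h := s.a1_large' k
  have h0 := s.a1_S0
  unfold a1P
  nlinarith [a1_L2.1]
lemma a1_ly' : 10 ^ 40 * s.a1l k ≤ s.y k := by
  have h0 := s.a1_y0 k
  have h1 : (10 : ℝ) ^ 50 ≤ Real.sqrt (s.y k) := by
    apply Real.le_sqrt_of_sq_le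
    rw [← pow_mul]; exact s.a1_yR k
  have h2 : s.a1l k = 2 * Real.log (Real.sqrt (s.y k)) := by
    rw [Real.log_sqrt h0.le, a1l]; ring
  have h3 := Real.log_le_sub_one_of_pos (Real.sqrt_pos.2 h0)
  have h4 := Real.mul_self_sqrt h0.le
  nlinarith
lemma a1_ly : 10 ^ 30 * s.a1l k ≤ a1P (s.y k) := by
  have h := s.a1_ly' k
  have h0 := s.a1_l1 k
  unfold a1P
  nlinarith [a1_L2.1]
lemma a1_yJ : s.y k ≤ s.J (k + 1) := Nat.le_self_pow (by norm_num) _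
lemma a1_yJ' (hk : 1 ≤ k) : s.y k ≤ s.J k := by rw [s.J_eq k hk]; exact Nat.le_self_pow (by norm_num) _
lemma a1_c : 0 ≤ s.a1c ∧ 20 * s.a1c ≤ s.a1l k := by
  refine ⟨Real.log_nonneg s.hC, ?_⟩
  have h := s.cst_le k
  have hd : (1 : ℝ) ≤ (1000 * s.d : ℝ) ^ (10 * s.d) := by
    apply one_le_pow₀
    have : (3 : ℝ) ≤ s.d := by exact_mod_cast s.hd
    linarith
  have hC : 0 < s.C ^ 20 := pow_pos s.a1_C0 _
  have h2 : s.C ^ 20 ≤ s.y k := by nlinarith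
  have := Real.log_le_log hC h2
  rw [Real.log_pow] at this
  exact_mod_cast this
lemma a1_JJ : 10 ^ 100 * a1P (s.J k) ≤ a1P (s.J (k + 1)) := by
  rcases Nat.eq_zero_or_pos k with rfl | hk
  · rw [a1_Jz, a1_Pz, mul_zero]; exact a1_P0 _
  · have h : 10 ^ 100 * s.J k ≤ s.J (k + 1) := by
      rw [s.J_eq k hk, a1_Js, show s.y k ^ 4 = s.y k ^ 2 * s.y k ^ 2 by ring]
      exact Nat.mul_le_mul_right _ ((s.y_ge k).trans (Nat.le_self_pow (by norm_num) _))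
    refine le_trans (le_of_eq ?_) (a1_Pmono h)
    unfold a1P; push_cast; ring
/-- the facts of a late epoch -/
lemma a1_late (hk : k ≠ 0) : 6 * 10 ^ 6 * s.a1S ≤ a1P (s.J k) ∧ 10 ^ 30 * s.a1l k ≤ a1P (s.J k) := by
  obtain ⟨i, rfl⟩ := Nat.exists_eq_succ_of_ne_zero hk
  exact ⟨s.a1_large i, (s.a1_ly _).trans (a1_Pmono (s.a1_yJ' _ (by omega)))⟩
lemma a1_g1 : 1 ≤ s.g k := by
  have h : (1 : ℝ) ≤ s.n0 k := by exact_mod_cast s.n0_pos k
  exact one_le_mul_of_one_le_of_one_le (one_le_pow₀ (s.a1_y1 k)) h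
lemma a1_σ1 : s.σ ≤ 1 := by rw [s.a1_σ, Real.exp_le_one_iff]; linarith [s.a1_S0]

/-! ### small parameters -/
lemma vp_pos : 0 < s.vp k := by rw [s.a1_vp]; exact Real.exp_pos _
lemma vp_half : s.vp (k + 1) ≤ s.vp k / 2 := by
  rw [s.a1_vp, s.a1_vp, ← Real.exp_log (two_pos (α := ℝ)), ← Real.exp_sub, Real.exp_le_exp]
  have h1 := s.a1_large k
  have h2 := (s.a1_ly k).trans (a1_Pmono (s.a1_yJ k))
  have h3 := s.a1_JJ k
  have h4 := s.a1_l1 k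
  have h5 := a1_L2.2
  unfold a1v
  rw [if_neg (Nat.succ_ne_zero k)]
  split_ifs <;> linarith
lemma vp_anti : Antitone s.vp :=
  antitone_nat_of_succ_le fun k => by linarith [s.vp_half k, s.vp_pos k]
lemma vp0_pow : s.vp 0 ^ 96 = s.σ := by
  rw [s.a1_vp, a1_v0, s.a1_σ, ← Real.exp_nat_mul]; congr 1; push_cast; ring
lemma vp_lam : s.vp k * s.lam k ≤ 1 := by
  rw [s.a1_vp, s.a1_lam, ← Real.exp_add, Real.exp_le_one_iff]
  unfold a1v a1u
  split_ifs with hk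
  · subst hk; linarith [s.a1_small, s.a1_l1 0]
  · obtain ⟨h1, h2⟩ := s.a1_late k hk
    linarith [s.a1_l1 k, s.a1_S0]
lemma vpT_y : s.vpT k * (s.y k : ℝ) ^ 100 ≤ 1 := by
  rw [vpT, s.a1_vp, s.a1_y, ← Real.exp_nat_mul, ← Real.exp_add, Real.exp_le_one_iff]
  push_cast
  unfold a1v
  split_ifs with hk
  · have h1 : s.a1l k ≤ 2 * s.a1l 0 := by
      have : s.y k ≤ s.y 0 ^ 2 := by rw [← s.y_succ]; exact s.y_mono (by omega)
      have h2 : (s.y k : ℝ) ≤ (s.y 0 : ℝ) ^ 2 := by exact_mod_cast this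
      have := Real.log_le_log (s.a1_y0 k) h2
      rw [Real.log_pow] at this
      exact_mod_cast this
    linarith [s.a1_small, s.a1_l1 0]
  · have h1 : s.J (k - 1) = s.y k := by
      rw [s.J_eq _ (by omega), ← s.y_succ]; congr 1; omega
    rw [h1]
    linarith [s.a1_ly k, s.a1_l1 k]
lemma hh_pos : 0 < s.hh k j := by rw [s.a1_hh]; exact Real.exp_pos _
lemma hh_succ_le : s.hh k (j + 1) ≤ s.hh k j := by
  rw [s.a1_hh, s.a1_hh, Real.exp_le_exp]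
  have h1 := a1_Psucc j
  have h2 := a1_L2.1
  unfold a1h
  split_ifs
  · simp only [min_def]; split_ifs <;> linarith
  · linarith
/-- ratio `2^{1/8}` -/
lemma hh_le_succ : s.hh k j ≤ 11 / 10 * s.hh k (j + 1) := by
  have h0 : (0 : ℝ) < 11 / 10 := by norm_num
  rw [s.a1_hh, s.a1_hh, ← Real.exp_log h0, ← Real.exp_add, Real.exp_le_exp]
  have h1 := a1_Psucc j
  have h2 := a1_L2.2
  have h3 := Real.one_sub_inv_le_log_of_pos h0
  have h4 := a1_L2.1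
  norm_num at h3
  unfold a1h
  split_ifs
  · simp only [min_def]; split_ifs <;> linarith
  · linarith
lemma x_le (hj : s.J k ≤ j) : s.x k j ≤ s.vp k ^ 24 := by
  rw [x, s.a1_hh, s.a1_vp, s.a1_σ, ← Real.exp_nat_mul, ← Real.exp_sub, Real.exp_le_exp]
  push_cast
  have h0 := s.a1_S0
  have h3 := a1_Pmono hj
  unfold a1h a1v
  split_ifs with hk
  · linarith [min_le_left (-3 * s.a1S + 5 * s.a1S / 96) (12 * s.a1S - a1P j / 4)]
  · obtain ⟨h1, h2⟩ := s.a1_late k hk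
    linarith
/-- late epochs: powers of `1/σ` are free -/
lemma hh_late (hk : 1 ≤ k) (hj : s.J k ≤ j) : s.hh k j ≤ s.vp k ^ 24 * s.σ ^ 20 := by
  rw [s.a1_hh, s.a1_vp, s.a1_σ, ← Real.exp_nat_mul, ← Real.exp_nat_mul, ← Real.exp_add, Real.exp_le_exp]
  push_cast
  have h0 := s.a1_S0
  have h3 := a1_Pmono hj
  have hk' : k ≠ 0 := by omega
  obtain ⟨h1, h2⟩ := s.a1_late k hk'
  unfold a1h a1v
  rw [if_neg hk', if_neg hk']
  linarith
lemma hh_ge (hj : j ≤ s.J (k + 1) + 1) : (2 : ℝ) ^ (-(s.y k : ℝ) ^ 4) ≤ s.hh k j * s.σ ^ 100 := by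
  have e : Real.log 2 * -(s.y k : ℝ) ^ 4 = -a1P (s.J (k + 1)) := by
    rw [a1_Js, a1P]; push_cast; ring
  rw [s.a1_hh, a1_two, e, s.a1_σ, ← Real.exp_nat_mul, ← Real.exp_add, Real.exp_le_exp]
  push_cast
  have h0 := s.a1_S0
  have h1 := s.a1_large k
  have h2 := (s.a1_ly k).trans (a1_Pmono (s.a1_yJ k))
  have h3 := a1_Pmono hj
  have h4 := s.a1_l1 k
  have h5 := a1_L2.2
  have h6 := a1_P0 (s.J k)
  rw [a1_Psucc] at h3
  unfold a1h
  split_ifs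
  · simp only [min_def]; split_ifs <;> linarith
  · linarith
lemma hh_next : s.hh k (s.J (k + 1)) ≤ s.hh (k + 1) (s.J (k + 1)) ^ 4 * s.σ ^ 20 := by
  rw [s.a1_hh, s.a1_hh, s.a1_σ, ← Real.exp_nat_mul, ← Real.exp_nat_mul, ← Real.exp_add, Real.exp_le_exp]
  push_cast
  have h0 := s.a1_S0
  have h1 := s.a1_large k
  have h3 := s.a1_JJ k
  have h6 := a1_P0 (s.J k)
  unfold a1h
  rw [if_neg (Nat.succ_ne_zero k)]
  split_ifs
  · linarith [min_le_right (-3 * s.a1S + 5 * s.a1S / 96) (12 * s.a1S - a1P (s.J (k + 1)) / 4)]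
  · linarith
lemma FO_pos : 0 < s.FO j := by rw [s.a1_FO]; exact Real.exp_pos _
lemma FO_lam (hj : s.J k ≤ j) : s.FO j * s.lam k ≤ s.hh k j ^ 2 := by
  rw [s.a1_hh, s.a1_FO, s.a1_lam, ← Real.exp_nat_mul, ← Real.exp_add, Real.exp_le_exp]
  push_cast
  have h0 := s.a1_S0
  have h4 := s.a1_l1 k
  have h5 := (s.a1_c k).2
  unfold a1h a1f a1u
  split_ifs with hk
  · subst hk
    have := s.a1_small
    simp only [min_def]; split_ifs <;> linarith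
  · obtain ⟨h1, h2⟩ := s.a1_late k hk
    linarith [min_le_right (-3 * s.a1S + 3 * s.a1S / 96) (10 * s.a1S - a1P j / 4)]
lemma FT_le : s.FT k ≤ s.vpT k ^ 24 * s.σ ^ 2 := by
  rw [FT, vpT, s.a1_FO, s.a1_vp, s.a1_σ, ← Real.exp_nat_mul, ← Real.exp_nat_mul, ← Real.exp_add,
    Real.exp_le_exp]
  push_cast
  generalize k - 1 = i
  have h0 := s.a1_S0
  have h4 := s.a1_l1 i
  have h5 := (s.a1_c i).2
  unfold a1f a1v
  split_ifs with hk
  · subst hk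
    linarith [s.a1_small, min_le_left (-3 * s.a1S + 3 * s.a1S / 96) (10 * s.a1S - a1P (s.J 0) / 4)]
  · obtain ⟨h1, h2⟩ := s.a1_late i hk
    linarith [min_le_right (-3 * s.a1S + 3 * s.a1S / 96) (10 * s.a1S - a1P (s.J i) / 4)]
/-- either form of the capacity estimate applies -/
lemma FO_cases : s.FO j = s.C * s.σ ^ 3 / s.vp 0 ^ 3 ∨ s.C ≤ s.σ ^ 40 * (2 ^ j : ℕ) * s.FO j ^ 4 := by
  rcases min_choice (s.C * s.σ ^ 3 / s.vp 0 ^ 3) (s.C / s.σ ^ 10 * (2 : ℝ) ^ (-(j : ℝ) / 4)) with h | h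
  · exact Or.inl h
  · right
    have e : ((2 ^ j : ℕ) : ℝ) = Real.exp (Real.log 2 * j) := by
      rw [← a1_two, Real.rpow_natCast]; push_cast; rfl
    rw [FO, h, e, a1_two, s.a1_σ, s.a1_C, ← Real.exp_nat_mul, ← Real.exp_nat_mul, ← Real.exp_sub,
      ← Real.exp_add, ← Real.exp_add, ← Real.exp_nat_mul, ← Real.exp_add, Real.exp_le_exp]
    push_cast
    linarith [(s.a1_c 0).1]
lemma a1_x0 : 0 < s.x k j := div_pos (s.hh_pos k j) s.σ0
lemma a1_key (a b : ℕ) (ha : a < 300) (hb : b ≤ 10) : 2 * (s.y k : ℝ) ^ a * s.u k ^ b ≤ s.lam k := by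
  have h1 : 2 * (s.y k : ℝ) ^ a ≤ (s.y k : ℝ) ^ 300 := by
    refine le_trans ?_ (pow_le_pow_right₀ (s.a1_y1 k) (show a + 1 ≤ 300 by omega))
    rw [pow_succ, mul_comm]
    exact mul_le_mul_of_nonneg_left (le_trans (by norm_num) (s.a1_yR k)) (pow_nonneg (s.a1_y0 k).le _)
  exact mul_le_mul h1 (pow_le_pow_right₀ (s.one_le_u k) hb)
    (pow_nonneg (le_trans zero_le_one (s.one_le_u k)) _) (pow_nonneg (s.a1_y0 k).le _)
lemma δN_le : s.δN k j ≤ s.lam k * s.x k j := by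
  have hu : 0 < s.u k := lt_of_lt_of_le one_pos (s.one_le_u k)
  have hy := s.a1_y0 k
  have hx := s.a1_x0 k j
  calc s.δN k j = s.g k * ((s.y k : ℝ) ^ 88 * s.u k ^ 3 * s.x k j) := by
        unfold δN bb db ZΘ; ring
    _ ≤ (2 * (s.y k : ℝ) ^ 125 * s.u k ^ 2) * ((s.y k : ℝ) ^ 88 * s.u k ^ 3 * s.x k j) :=
        mul_le_mul_of_nonneg_right (s.g_le k) (by positivity)
    _ = (2 * (s.y k : ℝ) ^ 213 * s.u k ^ 5) * s.x k j := by ring
    _ ≤ _ := mul_le_mul_of_nonneg_right (s.a1_key k _ _ (by norm_num) (by norm_num)) hx.le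
lemma bb_le : s.bb k j * (s.y k : ℝ) ^ 50 ≤ s.lam k * s.x k j := by
  have hu : 0 < s.u k := lt_of_lt_of_le one_pos (s.one_le_u k)
  have hy := s.a1_y0 k
  have hx := s.a1_x0 k j
  calc s.bb k j * (s.y k : ℝ) ^ 50 = s.g k * ((s.y k : ℝ) ^ 126 * s.u k * s.x k j) := by
        unfold bb db ZΘ; ring
    _ ≤ (2 * (s.y k : ℝ) ^ 125 * s.u k ^ 2) * ((s.y k : ℝ) ^ 126 * s.u k * s.x k j) :=
        mul_le_mul_of_nonneg_right (s.g_le k) (by positivity)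
    _ = (2 * (s.y k : ℝ) ^ 251 * s.u k ^ 3) * s.x k j := by ring
    _ ≤ _ := mul_le_mul_of_nonneg_right (s.a1_key k _ _ (by norm_num) (by norm_num)) hx.le
lemma init_bias : 11 * s.C ^ 2 * s.σ ≤ s.bb 0 0 := by
  have h1 : s.σ ≤ s.x 0 0 := by
    rw [x, s.a1_hh, s.a1_σ, ← Real.exp_sub, Real.exp_le_exp, a1h, if_pos rfl, a1_Pz]
    have h0 := s.a1_S0
    simp only [min_def]; split_ifs <;> linarith
  have h2 : 11 * s.C ^ 2 ≤ (s.y 0 : ℝ) ^ 76 := by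
    have h11 : (11 : ℝ) ≤ s.y 0 := le_trans (by norm_num) (s.a1_yR 0)
    have hC : s.C ^ 2 ≤ (s.y 0 : ℝ) ^ 75 := by
      rw [s.a1_C, s.a1_y, ← Real.exp_nat_mul, ← Real.exp_nat_mul, Real.exp_le_exp]
      push_cast
      linarith [(s.a1_c 0).2, s.a1_l1 0]
    rw [pow_succ' _ 75]
    exact mul_le_mul h11 hC (sq_nonneg _) (s.a1_y0 0).le
  have hy := s.a1_y0 0
  have hx := s.a1_x0 0 0
  calc 11 * s.C ^ 2 * s.σ ≤ (s.y 0 : ℝ) ^ 76 * s.x 0 0 := mul_le_mul h2 h1 s.σ0.le (by positivity)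
    _ ≤ s.g 0 * ((s.y 0 : ℝ) ^ 76 * s.x 0 0) := le_mul_of_one_le_left (by positivity) (s.a1_g1 0)
    _ = s.bb 0 0 := by unfold bb db ZΘ u; rw [if_pos rfl]; ring
lemma init_Θ : s.C ^ 9 * s.σ ^ 3 ≤ s.hh 0 0 ^ 2 := by
  rw [s.a1_hh, s.a1_σ, s.a1_C, ← Real.exp_nat_mul, ← Real.exp_nat_mul, ← Real.exp_nat_mul, ← Real.exp_add,
    Real.exp_le_exp, a1h, if_pos rfl, a1_Pz]
  push_cast
  have h0 := s.a1_small
  have h1 := (s.a1_c 0).2
  have h2 := s.a1_l1 0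
  simp only [min_def]; split_ifs <;> linarith
lemma eps_nonneg (hj : s.J k ≤ j) : 0 ≤ s.eps k j := by
  have h1 : (0 : ℝ) ≤ (j : ℝ) - s.J k := sub_nonneg.2 (by exact_mod_cast hj)
  have h2 := s.vp_pos (k - 1)
  have h3 := s.a1_y0 k
  unfold eps epsE vpT
  exact add_nonneg (Finset.sum_nonneg fun i _ => pow_nonneg (s.vp_pos _).le _) (by positivity)
lemma a1_eps (hj : j ≤ s.J (k + 1)) : s.eps k j + s.vpT k ^ 3 / 2 ≤ s.epsE (k + 1) := by
  have h1 : (j : ℝ) - s.J k ≤ (s.y k : ℝ) ^ 4 := by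
    have : (j : ℝ) ≤ (s.y k : ℝ) ^ 4 := by exact_mod_cast hj
    linarith [Nat.cast_nonneg (α := ℝ) (s.J k)]
  have h2 : 0 < s.vpT k := s.vp_pos _
  have h3 := s.a1_y0 k
  have h4 := mul_le_mul_of_nonneg_right h1
    (show 0 ≤ s.vpT k ^ 3 / (2 * (s.y k : ℝ) ^ 4) by positivity)
  have h5 : (s.y k : ℝ) ^ 4 * (s.vpT k ^ 3 / (2 * (s.y k : ℝ) ^ 4)) = s.vpT k ^ 3 / 2 := by field_simp
  unfold eps
  rw [epsE, epsE, Finset.sum_range_succ]
  linarith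
lemma a1_epsE : s.epsE (k + 1) + 2 * s.vp k ^ 3 ≤ 3 * s.vp 0 ^ 3 := by
  induction k with
  | zero => simp [epsE, vpT]; linarith
  | succ k ih =>
    have h1 := pow_le_pow_left₀ (s.vp_pos (k + 1)).le (s.vp_half k) 3
    have h2 := pow_pos (s.vp_pos k) 3
    rw [epsE, Finset.sum_range_succ, ← epsE, vpT, Nat.add_sub_cancel]
    rw [div_pow] at h1
    linarith
lemma eps_le (hj : j ≤ s.J (k + 1)) : s.eps k j ≤ 4 * s.vp 0 ^ 3 := by
  have h1 := s.a1_eps k j hj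
  have h2 := s.a1_epsE k
  have h3 := pow_pos (s.vp_pos k) 3
  have h4 := pow_pos (s.vp_pos 0) 3
  have h5 : 0 < s.vpT k ^ 3 := pow_pos (s.vp_pos _) 3
  linarith
lemma eps_next : s.eps k (s.J (k + 1)) + s.vpT k ^ 3 / 2 ≤ s.eps (k + 1) (s.J (k + 1)) := by
  refine (s.a1_eps k _ le_rfl).trans (le_of_eq ?_)
  unfold eps; ring
lemma Ag_le (hj : j ≤ s.J (k + 1) + 1) : s.Ag k j ≤ 2 ^ s.y k ^ 6 * 2 ^ s.y k ^ 6 := by
  have hY := s.a1_yR k
  have hy := s.a1_y0 k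
  have hl := s.a1_ly' k
  have hl1 := s.a1_l1 k
  have hS := s.a1_large' k
  have hS0 := s.a1_S0
  rw [a1_Js] at hS
  push_cast at hS
  set Y : ℝ := (s.y k : ℝ) with hYdef
  have hY1 : 1 ≤ Y := s.a1_y1 k
  have hY2 : 10 ^ 100 * Y ≤ Y ^ 2 := by nlinarith
  have hY4 : Y ^ 2 ≤ Y ^ 4 := pow_le_pow_right₀ hY1 (by norm_num)
  have hY6 : 10 ^ 100 * Y ^ 4 ≤ Y ^ 6 := by
    have : Y ^ 6 = Y ^ 2 * Y ^ 4 := by ring
    rw [this]
    exact mul_le_mul_of_nonneg_right (by linarith) (by positivity)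
  have hu : 10 ^ 7 * s.a1u k ≤ Y ^ 2 := by
    unfold a1u
    split_ifs with hk
    · simp only [mul_zero]; positivity
    · obtain ⟨i, rfl⟩ := Nat.exists_eq_succ_of_ne_zero hk
      have := s.a1_large' i
      rw [s.J_eq _ (by omega)] at this
      push_cast at this
      exact this
  have hg : s.g k ≤ Real.exp (Y ^ 2 / 10 ^ 6) := by
    refine (s.g_le k).trans ?_
    rw [s.a1_u, s.a1_y, ← Real.exp_nat_mul, ← Real.exp_nat_mul, ← Real.exp_log (two_pos (α := ℝ)),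
      ← Real.exp_add, ← Real.exp_add, Real.exp_le_exp]
    push_cast
    linarith [a1_L2.2]
  have hn : ((2 * (j - s.J k) : ℕ) : ℝ) ≤ 4 * Y ^ 4 := by
    have h1 : 2 * (j - s.J k) ≤ 4 * s.y k ^ 4 := by
      have : 1 ≤ s.y k ^ 4 := Nat.one_le_pow _ _ (lt_of_lt_of_le (by norm_num) (s.y_ge k))
      rw [a1_Js] at hj
      omega
    rw [hYdef]
    exact_mod_cast h1
  have hgp : s.g k ^ (2 * (j - s.J k)) ≤ Real.exp (Y ^ 6 / 10 ^ 5) := by
    refine (pow_le_pow_left₀ (le_trans zero_le_one (s.a1_g1 k)) hg _).trans ?_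
    rw [← Real.exp_nat_mul, Real.exp_le_exp]
    have := mul_le_mul_of_nonneg_right hn (show 0 ≤ Y ^ 2 / 10 ^ 6 by positivity)
    have h6 : 0 ≤ Y ^ 6 := by positivity
    linarith [show 4 * Y ^ 4 * (Y ^ 2 / 10 ^ 6) = 4 * Y ^ 6 / 10 ^ 6 by ring]
  have hcst : 640 * 3 ^ s.d * s.C ^ 2 ≤ Y := by
    refine le_trans ?_ (s.cst_le k)
    have hd : (3 : ℝ) ≤ s.d := by exact_mod_cast s.hd
    have h1 : (3 : ℝ) ^ s.d ≤ (1000 * s.d : ℝ) ^ (10 * s.d) :=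
      (pow_le_pow_left₀ (by norm_num) (by linarith) _).trans
        (pow_le_pow_right₀ (by linarith) (by omega))
    have h2 : s.C ^ 2 ≤ s.C ^ 20 := pow_le_pow_right₀ s.hC (by norm_num)
    have h3 := s.a1_C0
    calc 640 * 3 ^ s.d * s.C ^ 2 = 640 * s.C ^ 2 * 3 ^ s.d := by ring
      _ ≤ _ := mul_le_mul (mul_le_mul (by norm_num) h2 (by positivity) (by positivity)) h1
          (by positivity) (by positivity)
  have hσ := s.σ0
  have e2 : (2 : ℝ) ^ s.y k ^ 6 = Real.exp (Real.log 2 * Y ^ 6) := by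
    rw [← a1_two, ← Real.rpow_natCast]; push_cast; rfl
  calc s.Ag k j = (640 * 3 ^ s.d * s.C ^ 2) * Y ^ 40 * (1 / s.σ ^ 2) * s.g k ^ (2 * (j - s.J k)) := by
        unfold Ag Ap Dp; ring
    _ ≤ Y * Y ^ 40 * (1 / s.σ ^ 2) * Real.exp (Y ^ 6 / 10 ^ 5) := by
        have := s.a1_g1 k
        gcongr
    _ ≤ _ := by
        rw [e2, ← pow_succ', hYdef, s.a1_y, s.a1_σ, ← Real.exp_nat_mul, ← Real.exp_nat_mul, one_div,
          ← Real.exp_neg, ← Real.exp_add, ← Real.exp_add, ← Real.exp_add, Real.exp_le_exp, ← s.a1_y,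
          ← hYdef]
        push_cast
        have h6 : 0 ≤ Y ^ 6 := by positivity
        nlinarith [a1_L2.1]
lemma Ag_le_ρ (hj : j ≤ s.J (k + 1) + 1) : s.Ag k j ≤ s.ρ k := by
  refine (s.Ag_le k j hj).trans ?_
  have h : s.y k ^ 6 + s.y k ^ 6 ≤ s.y k ^ 7 := by
    have : 2 ≤ s.y k := le_trans (by norm_num) (s.y_ge k)
    rw [pow_succ _ 6, ← mul_two]
    exact Nat.mul_le_mul_left _ this
  rw [← pow_add, ρ]
  push_cast
  exact pow_le_pow_right₀ one_le_two h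
lemma one_le_Ap : 1 ≤ s.Ap k j := by
  have h1 : 1 ≤ 10 * s.C ^ 2 / s.σ ^ 2 := by
    rw [le_div_iff₀ (pow_pos s.σ0 2)]
    have := pow_le_one₀ (n := 2) s.σ0.le s.a1_σ1
    have := one_le_pow₀ (n := 2) s.hC
    linarith
  exact one_le_mul_of_one_le_of_one_le (one_le_pow₀ (s.a1_y1 k))
    (one_le_mul_of_one_le_of_one_le h1 (one_le_pow₀ (s.a1_g1 k)))

end Sch

end Crest.Agent.N334.AC
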