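import Crest.Agent.N334.AC.P.Sched1

/-! # S0520 part P: ledger, tails (leaf: fill the sorries; take logarithms) -/

set_option autoImplicit false

open Finset

namespace Crest.Agent.N334.AC

namespace Sch

variable (s : Sch) (k j : ℕ)

namespace S2

/-- polynomials are below `2 ^ n` -/
lemma pow_le {n : ℕ} (hn : 10 ^ 100 ≤ n) : (n : ℝ) ^ 20 ≤ 2 ^ n := by
  have h0 : (10 : ℝ) ^ 100 ≤ n := by exact_mod_cast hn
  have h1 := Real.pow_div_factorial_le_exp (n / 2 : ℝ) (by positivity) 21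
  have h2 : Real.exp (n / 2) ≤ 2 ^ n := by
    rw [← Real.exp_log (pow_pos two_pos n), Real.log_pow, Real.exp_le_exp]
    nlinarith [Real.log_two_gt_d9]
  have h3 : ((Nat.factorial 21 : ℕ) : ℝ) ≤ 10 ^ 20 := by norm_num [Nat.factorial]
  rw [div_le_iff₀ (by positivity), div_pow, div_le_iff₀ (by positivity), pow_succ] at h1
  have h4 := mul_le_mul h2 h3 (by positivity) (by positivity)
  have h5 := mul_le_mul_of_nonneg_left h0 (show (0 : ℝ) ≤ n ^ 20 by positivity)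
  have h6 : (0 : ℝ) ≤ 2 ^ n := by positivity
  nlinarith

lemma two_le_exp (n : ℕ) : (2 : ℝ) ^ n ≤ Real.exp n := by
  rw [← mul_one (n : ℝ), Real.exp_nat_mul]
  exact pow_le_pow_left₀ zero_le_two (by linarith [Real.add_one_le_exp 1]) n

lemma yR : (10 : ℝ) ^ 100 ≤ s.y k := by exact_mod_cast s.y_ge k

lemma y1 : (1 : ℝ) ≤ s.y k := le_trans (by norm_num) (yR s k)

lemma y1' : 1 ≤ s.y k := le_trans (by norm_num) (s.y_ge k)

/-- `100 y ^ a ≤ y ^ b` for `a < b` -/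
lemma ypow {a b : ℕ} (h : a < b) : 100 * (s.y k : ℝ) ^ a ≤ (s.y k : ℝ) ^ b := by
  refine le_trans ?_ (pow_le_pow_right₀ (y1 s k) (Nat.succ_le_of_lt h))
  rw [pow_succ, mul_comm]
  exact mul_le_mul_of_nonneg_left (le_trans (by norm_num) (yR s k)) (by positivity)

lemma ypow' {a b : ℕ} (h : a < b) : 100 * s.y k ^ a ≤ s.y k ^ b := by
  exact_mod_cast ypow s k h

/-- `y ^ (20 a) ≤ 2 ^ y ^ a` -/
lemma y_two {a : ℕ} (ha : a ≠ 0) : (s.y k : ℝ) ^ (a * 20) ≤ 2 ^ s.y k ^ a := by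
  have := pow_le ((s.y_ge k).trans (Nat.le_self_pow ha _))
  rwa [Nat.cast_pow, ← pow_mul] at this

lemma ρ_eq : (s.ρ k : ℝ) = 2 ^ s.y k ^ 7 := by simp [ρ]

lemma L0_eq : (s.L0 k : ℝ) = 2 ^ s.y k ^ 5 := by simp [L0]

lemma R0_eq : (s.R0 k : ℝ) = 2 ^ s.y k ^ 4 := by simp [R0]

lemma ρ_ge : (s.y k : ℝ) ^ 140 ≤ s.ρ k := ρ_eq s k ▸ y_two s k (a := 7) (by norm_num)

lemma cst : 1000 * (1000 * s.d : ℝ) ^ s.d ≤ s.y k := by
  have hd : (3 : ℝ) ≤ s.d := by exact_mod_cast s.hd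
  have h1 := pow_le_pow_right₀ (show (1 : ℝ) ≤ 1000 * s.d by linarith)
    (show s.d ≤ 10 * s.d by omega)
  refine le_trans ?_ (s.cst_le k)
  have h2 := one_le_pow₀ (n := 20) s.hC
  exact mul_le_mul (by linarith) h1 (by positivity) (by positivity)

lemma d_le : 1000 * s.d ≤ s.y k := by
  have hd : (3 : ℝ) ≤ s.d := by exact_mod_cast s.hd
  have h1 := le_self_pow₀ (show (1 : ℝ) ≤ 1000 * s.d by linarith) (show s.d ≠ 0 by
    have := s.hd; omega)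
  have h2 := cst s k
  exact_mod_cast (show (1000 * s.d : ℝ) ≤ s.y k by linarith)

lemma d_mul (a : ℕ) : s.y k ^ a * (100 * s.d) ≤ s.y k ^ (a + 1) :=
  Nat.mul_le_mul_left _ (by have := d_le s k; omega)

lemma Big_le : s.Big k ≤ Real.exp ((s.y k : ℝ) ^ 8) := by
  rw [Big, ρ_eq, ← pow_mul, ← Nat.cast_pow]
  exact (pow_le_pow_right₀ one_le_two (d_mul s k 7)).trans (two_le_exp _)

lemma tt_ge : Real.exp (-(s.y k : ℝ) ^ 16) ≤ s.tt k := by
  rw [tt, Real.rpow_neg zero_le_two, Real.exp_neg, ← Nat.cast_pow, Real.rpow_natCast]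
  exact inv_anti₀ (by positivity) (two_le_exp _)

lemma cσ_le : 2 * s.C / s.σ ^ 2 ≤ s.R0 k := by
  have h0 := s.σ0
  have h1 := s.σ_lt
  have h2 := mul_le_mul_of_nonneg_right (le_self_pow₀ s.hC (show 10 ≠ 0 by norm_num)) h0.le
  have h3 := mul_le_mul_of_nonneg_right s.hC h0.le
  have h4 : 1 ≤ 1 / s.σ := one_le_one_div h0 (by linarith)
  calc 2 * s.C / s.σ ^ 2 = 2 * s.C * s.σ * (1 / s.σ) ^ 3 := by field_simp
    _ ≤ (1 / s.σ) ^ 3 := mul_le_of_le_one_left (by positivity) (by linarith)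
    _ ≤ (1 / s.σ) ^ 1000 := pow_le_pow_right₀ h4 (by norm_num)
    _ ≤ _ := s.inv_σ_pow k
    _ ≤ (2 : ℝ) ^ ((s.y k ^ 4 : ℕ) : ℝ) := Real.rpow_le_rpow_of_exponent_le one_le_two
        (div_le_self (by positivity) (by norm_num))
    _ = _ := by rw [Real.rpow_natCast, R0_eq]

lemma R0_sq : (s.R0 k : ℝ) * s.R0 k ≤ s.L0 k := by
  rw [R0_eq, L0_eq, ← pow_add]
  exact pow_le_pow_right₀ one_le_two (by have := ypow' s k (show 4 < 5 by norm_num); omega)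

lemma R0_ge : (s.y k : ℝ) ^ 80 ≤ s.R0 k := R0_eq s k ▸ y_two s k (a := 4) (by norm_num)

lemma Big_mul {a b : ℝ} (h : (s.y k : ℝ) ^ 8 + a ≤ b) : s.Big k * Real.exp a ≤ Real.exp b :=
  (mul_le_mul_of_nonneg_right (Big_le s k) (Real.exp_pos a).le).trans
    (by rwa [← Real.exp_add, Real.exp_le_exp])

end S2

open S2

/-! ### tails -/
lemma tt_pos : 0 < s.tt k := Real.rpow_pos_of_pos two_pos _
lemma Big_tail : s.Big k * Real.exp (-(s.ρ k : ℝ) / 8) ≤ s.tt k := by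
  refine (Big_mul s k ?_).trans (tt_ge s k)
  linarith [ρ_ge s k, ypow s k (show 16 < 140 by norm_num), ypow s k (show 8 < 140 by norm_num)]
lemma Big_tc (hk : 1 ≤ k) : s.Big k * s.tc k ≤ s.tt k := by
  obtain ⟨k, rfl⟩ : ∃ k', k = k' + 1 := ⟨k - 1, by omega⟩
  refine (Big_mul s (k + 1) ?_).trans (tt_ge s (k + 1))
  rw [y_succ, Nat.cast_pow, ← pow_mul, ← pow_mul, Nat.add_sub_cancel]
  simp only [Nat.reduceMul]
  linarith [ρ_ge s k, ypow s k (show 32 < 140 by norm_num),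
    ypow s k (show 16 < 140 by norm_num), Nat.cast_nonneg (α := ℝ) (s.ρ k)]
lemma tt_le : s.tt k ≤ ((2 : ℝ) ^ (-(s.y k : ℝ) ^ 4)) ^ 100 := by
  rw [tt, ← Real.rpow_mul_natCast zero_le_two]
  refine Real.rpow_le_rpow_of_exponent_le one_le_two ?_
  push_cast
  linarith [ypow s k (show 4 < 16 by norm_num)]
lemma tt_tc : s.Big k * Real.exp (-(s.ρ k : ℝ) / 2) ≤ s.tc (k + 1) := by
  refine Big_mul s k ?_
  rw [Nat.add_sub_cancel]
  linarith [ρ_ge s k, ypow s k (show 8 < 140 by norm_num), pow_nonneg (Nat.cast_nonneg (α := ℝ) (s.y k)) 8]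
lemma vol_le_ρ {M : ℕ} [NeZero M] {t : ℕ} (ht : t ≤ 100 * s.r k) : vol s.d M t ≤ (s.ρ k : ℝ) ^ (5 * s.d) := by
  have h1 : (t : ℝ) ≤ 100 * (s.ρ k : ℝ) ^ 4 := by exact_mod_cast ht
  have h2 : (300 : ℝ) ≤ s.ρ k :=
    le_trans (by linarith [yR s k, le_self_pow₀ (y1 s k) (show 140 ≠ 0 by norm_num)]) (ρ_ge s k)
  have h3 := one_le_pow₀ (n := 4) (show (1 : ℝ) ≤ s.ρ k by linarith)
  rw [pow_mul]
  refine (vol_le t).trans (pow_le_pow_left₀ (by positivity) ?_ _)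
  rw [pow_succ _ 4]
  nlinarith
/-- the two numerical hypotheses of `ct` -/
lemma ct_a {M : ℕ} [NeZero M] (hj : j ≤ s.J (k + 1) + 1) :
    1000 * 5 ^ s.d * vol s.d M (s.L0 k) * (2 * s.C / s.σ ^ 2) * s.L0 k * (1 + s.Ap k j) ≤ s.ρ k := by
  have hd : (3 : ℝ) ≤ s.d := by exact_mod_cast s.hd
  have two : ∀ {a : ℕ}, a ≤ 6 → (2 : ℝ) ^ s.y k ^ a ≤ 2 ^ s.y k ^ 6 := fun h =>
    pow_le_pow_right₀ one_le_two (Nat.pow_le_pow_right (y1' s k) h)
  have h1 : (1000 * 5 ^ s.d : ℝ) ≤ 2 ^ s.y k ^ 6 := by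
    have a1 := pow_le_pow_left₀ (by norm_num) (show (5 : ℝ) ≤ 1000 * s.d by linarith) s.d
    have a2 := le_self_pow₀ (y1 s k) (show 6 * 20 ≠ 0 by norm_num)
    linarith [cst s k, y_two s k (show 6 ≠ 0 by norm_num)]
  have h2 : vol s.d M (s.L0 k) ≤ 2 ^ s.y k ^ 6 := by
    have a1 : (100 : ℝ) ≤ s.L0 k := by
      have := ypow s k (show 0 < 5 * 20 by norm_num)
      rw [L0_eq]
      linarith [y_two s k (show 5 ≠ 0 by norm_num), pow_zero (s.y k : ℝ)]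
    refine (vol_le _).trans ((pow_le_pow_left₀ (by positivity)
      (show 2 * (s.L0 k : ℝ) + 1 ≤ s.L0 k ^ 2 by nlinarith) _).trans ?_)
    rw [L0_eq, ← pow_mul, ← pow_mul]
    exact pow_le_pow_right₀ one_le_two
      (le_trans (Nat.mul_le_mul_left _ (by omega)) (d_mul s k 5))
  have h3 := (cσ_le s k).trans ((R0_eq s k).trans_le (two (by norm_num)))
  have h4 := (L0_eq s k).trans_le (two (by norm_num))
  have h5 : 1 + s.Ap k j ≤ 2 ^ s.y k ^ 6 * 2 ^ s.y k ^ 6 := by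
    refine le_trans ?_ (s.Ag_le k j hj)
    have a1 := s.one_le_Ap k j
    have a2 := mul_le_mul_of_nonneg_right (one_le_pow₀ (n := s.d) (show (1 : ℝ) ≤ 3 by norm_num))
      (zero_le_one.trans a1)
    rw [Ag]
    linarith
  have h6 := zero_le_one.trans (one_le_vol (d := s.d) (M := M) (s.L0 k))
  have h7 := s.one_le_Ap k j
  have h8 := s.hC
  calc _ ≤ (2 : ℝ) ^ s.y k ^ 6 * 2 ^ s.y k ^ 6 * 2 ^ s.y k ^ 6 * 2 ^ s.y k ^ 6 *
        (2 ^ s.y k ^ 6 * 2 ^ s.y k ^ 6) := by gcongr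
    _ = 2 ^ (6 * s.y k ^ 6) := by ring
    _ ≤ _ := by
      rw [ρ_eq]
      exact pow_le_pow_right₀ one_le_two (by have := ypow' s k (show 6 < 7 by norm_num); omega)
lemma ct_b (hj : j ≤ s.J (k + 1) + 1) {x0 : ℝ} (hx : x0 ≤ s.Big k) :
    8 * Real.exp (-(s.L0 k : ℝ) / (4 * s.R0 k)) * (12 * s.d * s.R0 k) ^ s.d *
      (x0 + 300 * 3 ^ s.d * s.Ap k j) ≤ 1 := by
  have hy := yR s k
  have h0 := le_self_pow₀ (y1 s k) (show 80 ≠ 0 by norm_num)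
  have h1 : -(s.L0 k : ℝ) / (4 * s.R0 k) ≤ -(3 * (s.y k : ℝ) ^ 8) := by
    have a1 := R0_ge s k
    have a2 := ypow s k (show 8 < 80 by norm_num)
    have a3 := pow_nonneg (Nat.cast_nonneg (α := ℝ) (s.y k)) 8
    rw [div_le_iff₀ (by linarith)]
    nlinarith [R0_sq s k]
  have h2 : (12 * s.d * s.R0 k : ℝ) ^ s.d ≤ Real.exp ((s.y k : ℝ) ^ 8) := by
    have a1 : (1000 * s.d : ℝ) ≤ s.y k := by exact_mod_cast d_le s k
    have a2 : (12 * s.d : ℝ) ≤ s.R0 k := by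
      linarith [R0_ge s k, Nat.cast_nonneg (α := ℝ) s.d]
    refine (pow_le_pow_left₀ (by positivity) ((mul_le_mul_of_nonneg_right a2
      (Nat.cast_nonneg _)).trans (R0_sq s k)) _).trans ?_
    rw [L0_eq, ← pow_mul, ← Nat.cast_pow]
    exact (pow_le_pow_right₀ one_le_two ((le_trans (Nat.mul_le_mul_left _ (by omega))
      (d_mul s k 5)).trans (Nat.pow_le_pow_right (y1' s k) (by norm_num)))).trans (two_le_exp _)
  have h3 : x0 + 300 * 3 ^ s.d * s.Ap k j ≤ 6 * Real.exp ((s.y k : ℝ) ^ 8) := by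
    have a1 := s.Ag_le_ρ k j hj
    have a2 : (s.ρ k : ℝ) ≤ s.Big k := le_self_pow₀ (ρ_eq s k ▸ one_le_pow₀ one_le_two)
      (by have := s.hd; omega)
    have a3 := Big_le s k
    have a4 := Nat.cast_nonneg (α := ℝ) (s.ρ k)
    rw [Ag] at a1
    linarith
  have h4 : 48 ≤ Real.exp ((s.y k : ℝ) ^ 8) := by
    linarith [Real.add_one_le_exp ((s.y k : ℝ) ^ 8), le_self_pow₀ (y1 s k) (show 8 ≠ 0 by norm_num)]
  calc _ ≤ 8 * Real.exp (-(s.L0 k : ℝ) / (4 * s.R0 k)) * (12 * s.d * s.R0 k) ^ s.d *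
        (6 * Real.exp ((s.y k : ℝ) ^ 8)) := mul_le_mul_of_nonneg_left h3 (by positivity)
    _ = 48 * (12 * s.d * s.R0 k) ^ s.d * Real.exp ((s.y k : ℝ) ^ 8) *
        Real.exp (-(s.L0 k : ℝ) / (4 * s.R0 k)) := by ring
    _ ≤ Real.exp ((s.y k : ℝ) ^ 8) * Real.exp ((s.y k : ℝ) ^ 8) * Real.exp ((s.y k : ℝ) ^ 8) *
        Real.exp (-(3 * (s.y k : ℝ) ^ 8)) := by gcongr
    _ = 1 := by
      rw [← Real.exp_add, ← Real.exp_add, ← Real.exp_add, ← Real.exp_zero]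
      congr 1
      ring
lemma ref0 {t : ℕ} (ht : s.L0 0 < t) :
    s.C / s.σ ^ 2 * Real.exp (-(s.σ ^ 2 / s.C) * t) ≤ Real.exp (-(t : ℝ) / s.R0 0) := by
  have h0 := s.σ0
  have hC := s.hC
  have hA : 0 < s.C / s.σ ^ 2 := by positivity
  have h1 : 2 * (s.C / s.σ ^ 2) ≤ s.R0 0 := mul_div_assoc 2 s.C _ ▸ cσ_le s 0
  have hR : (0 : ℝ) < s.R0 0 := by linarith
  have h2 : (s.R0 0 : ℝ) ≤ t / s.R0 0 :=
    (le_div_iff₀ hR).2 ((R0_sq s 0).trans (by exact_mod_cast ht.le))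
  have h3 : 2 * ((t : ℝ) / s.R0 0) ≤ s.σ ^ 2 / s.C * t := by
    rw [← inv_div s.C, ← mul_div_assoc, ← div_eq_inv_mul, div_le_div_iff₀ hR hA]
    nlinarith [Nat.cast_nonneg (α := ℝ) t]
  refine (mul_le_mul_of_nonneg_right (show _ ≤ Real.exp (s.C / s.σ ^ 2) by
    linarith [Real.add_one_le_exp (s.C / s.σ ^ 2)]) (Real.exp_pos _).le).trans ?_
  rw [← Real.exp_add, Real.exp_le_exp, neg_div, neg_mul]
  linarith

end Sch

end Crest.Agent.N334.AC
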