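import Crest.Agent.N334.AC.P.SelA0
import Crest.Agent.N334.AC.Geo

/-! # S0520 part P (helper27): the selection of survivors, pure combinatorics (leaf).
Mark of `b` = `ξ b = 0`, `ξ b` uniform in `range n0`. `A b k = 1[tdist k b < 2s] + 16 π_bk²/h'² · 1[tdist ≤ L]` for
`k ≠ b` in `El`; `∑_k A b k ≤ K`, `∑_b A b k ≤ K` (`card_sep_le` with `k = 2`, symmetry of `π`).
`1[b ∈ sel] ≥ ξ_b (1 - ∑_k A b k ξ_k)` for `b ∈ El`. `loc1`: `W = ∑_{b ∈ El ∩ tball a L, b ≠ a} m a b ξ_b (1 - ∑ A ξ)` depends on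
`tball a (2L)`, `avgP W ≥ (3/4) n0⁻¹ ∑_{El ∩ tball a L} m` (`avgP_ind`, `avgP_ind₂`, `4K ≤ n0`); at most one forced point lies within
`2L` of `a`, so at most `K+1` points of `Ord ∩ tball a L` are not eligible (Markov for `π x b > h'/4`), each of mass `≤ c h`;
bounded differences `c_k = m a k (1+K) + ∑_b m a b A b k ≤ c h (2K+1)`, `∑ c_k ≤ Mt (2K+1)`; `locB_tail` for `-W`.
`loc2`: `f = ∑_{k ∈ El ∩ tball x L} ξ_k π_xk²`, mean `≤ Θ/n0`, differences `π² ≤ h'²/16`. -/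

set_option autoImplicit false
set_option linter.unusedSectionVars false

open Finset

namespace Crest.Agent.N334.AC

variable {d M : ℕ} [NeZero M]

open Classical in
/-- eligible ports -/
noncomputable def elig (Ord X : Finset (Tor d M)) (π : Tor d M → Tor d M → ℝ) (s : ℕ) (h' : ℝ) :
    Finset (Tor d M) := (Ord \ X).filter fun b => ∀ x ∈ X, 2 * s ≤ tdist b x ∧ π x b ≤ h' / 4

open Classical in
/-- survivors -/
noncomputable def sel (Ord X : Finset (Tor d M)) (π : Tor d M → Tor d M → ℝ) (s L : ℕ) (h' : ℝ)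
    (ξ : Tor d M → ℕ) : Finset (Tor d M) :=
  X ∪ (elig Ord X π s h').filter fun b => ξ b = 0 ∧
    (∀ k ∈ elig Ord X π s h', k ≠ b → tdist k b < 2 * s → ξ k ≠ 0) ∧
    ∑ k ∈ ((elig Ord X π s h').erase b).filter (fun k => tdist k b ≤ L ∧ ξ k = 0), π b k ^ 2 ≤ h' ^ 2 / 16

/-- hypotheses of the selection -/
structure SelH (Ord X : Finset (Tor d M)) (π : Tor d M → Tor d M → ℝ) (s L n0 : ℕ)
    (h h' Θ K tl : ℝ) : Prop where
  XO : X ⊆ Ord
  sepO : Sep s Ord
  s1 : 1 ≤ s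
  sL : 2 * s ≤ L
  sepX : Sep (4 * L + 1) X
  π0 : ∀ a b, 0 ≤ π a b
  symm : ∀ a b, π a b = π b a
  ent : ∀ a ∈ Ord, ∀ b ∈ Ord, a ≠ b → π a b ≤ h
  two : ∀ a ∈ Ord, ∑ b ∈ Ord.erase a, π a b ^ 2 ≤ Θ
  far : ∀ a ∈ Ord, ∑ b ∈ Ord.filter (fun b => L < tdist b a), π a b ≤ tl
  tl1 : tl ≤ 1
  tlh : tl ≤ h' / 4
  hh : 0 ≤ h
  h0 : 0 < h'
  hK : 5 ^ d + 16 * Θ / h' ^ 2 ≤ K
  hn : 4 * K ≤ n0

variable {Ord X : Finset (Tor d M)} {π : Tor d M → Tor d M → ℝ} {s L n0 : ℕ} {h h' Θ K tl : ℝ}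

lemma SelH.Θ0 (H : SelH Ord X π s L n0 h h' Θ K tl) {a : Tor d M} (ha : a ∈ Ord) : 0 ≤ Θ :=
  (sum_nonneg fun _ _ => sq_nonneg _).trans (H.two a ha)
lemma SelH.tl0 (H : SelH Ord X π s L n0 h h' Θ K tl) {a : Tor d M} (ha : a ∈ Ord) : 0 ≤ tl :=
  (sum_nonneg fun _ _ => H.π0 _ _).trans (H.far a ha)
lemma SelH.K_pos (H : SelH Ord X π s L n0 h h' Θ K tl) (hΘ : 0 ≤ Θ) : 0 < K :=
  lt_of_lt_of_le (by positivity) H.hK
lemma SelH.n0_pos (H : SelH Ord X π s L n0 h h' Θ K tl) (hΘ : 0 ≤ Θ) : 0 < n0 := by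
  have := H.K_pos hΘ
  exact_mod_cast (show (0 : ℝ) < n0 by linarith [H.hn])

namespace SelA

lemma mem_elig {b : Tor d M} : b ∈ elig Ord X π s h' ↔
    (b ∈ Ord ∧ b ∉ X) ∧ ∀ x ∈ X, 2 * s ≤ tdist b x ∧ π x b ≤ h' / 4 := by
  simp only [elig, mem_filter, mem_sdiff]

lemma mem_sel {ξ : Tor d M → ℕ} {b : Tor d M} : b ∈ sel Ord X π s L h' ξ ↔ b ∈ X ∨
    b ∈ elig Ord X π s h' ∧ ξ b = 0 ∧
    (∀ k ∈ elig Ord X π s h', k ≠ b → tdist k b < 2 * s → ξ k ≠ 0) ∧
    ∑ k ∈ ((elig Ord X π s h').erase b).filter (fun k => tdist k b ≤ L ∧ ξ k = 0), π b k ^ 2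
      ≤ h' ^ 2 / 16 := by
  simp only [sel, mem_union, mem_filter]

lemma far_one (H : SelH Ord X π s L n0 h h' Θ K tl) {a b : Tor d M} (ha : a ∈ Ord) (hb : b ∈ Ord)
    (hL : L < tdist b a) : π a b ≤ tl :=
  (single_le_sum (fun k _ => H.π0 a k) (mem_filter.2 ⟨hb, hL⟩)).trans (H.far a ha)

/-- split of a sum of squares into the near and the far part -/
lemma far_sq (H : SelH Ord X π s L n0 h h' Θ K tl) {a : Tor d M} (ha : a ∈ Ord)
    {S : Finset (Tor d M)} (hS : S ⊆ Ord) :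
    ∑ k ∈ S, π a k ^ 2 ≤ ∑ k ∈ S.filter (fun k => tdist k a ≤ L), π a k ^ 2 + tl := by
  rw [← sum_filter_add_sum_filter_not S fun k => tdist k a ≤ L]
  refine add_le_add le_rfl (le_trans ?_ (H.far a ha))
  refine le_trans (sum_le_sum fun k hk => ?_) (sum_le_sum_of_subset_of_nonneg
    (fun k hk => mem_filter.2 ⟨hS (mem_filter.1 hk).1, not_le.1 (mem_filter.1 hk).2⟩)
    fun k _ _ => H.π0 a k)
  rw [sq]
  exact mul_le_of_le_one_right (H.π0 a k)
    ((far_one H ha (hS (mem_filter.1 hk).1) (not_le.1 (mem_filter.1 hk).2)).trans H.tl1)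

lemma X_eq (H : SelH Ord X π s L n0 h h' Θ K tl) {x y a : Tor d M} (hx : x ∈ X) (hy : y ∈ X)
    (h1 : tdist x a ≤ 2 * L) (h2 : tdist y a ≤ 2 * L) : x = y := by
  by_contra hne
  have a1 := H.sepX x hx y hy hne
  have a2 := tdist_triangle x a y
  rw [tdist_comm a y] at a2
  omega

/-- conflict weights -/
noncomputable def A0 (π : Tor d M → Tor d M → ℝ) (s L : ℕ) (h' : ℝ) (b k : Tor d M) : ℝ :=
  (if tdist k b < 2 * s then 1 else 0) + if tdist k b ≤ L then 16 * π b k ^ 2 / h' ^ 2 else 0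

lemma A0_nonneg (b k : Tor d M) : 0 ≤ A0 π s L h' b k :=
  add_nonneg (ite_nonneg zero_le_one le_rfl) (ite_nonneg (by positivity) le_rfl)

lemma sum_A0 (H : SelH Ord X π s L n0 h h' Θ K tl) {b : Tor d M} (hb : b ∈ Ord) :
    ∑ k ∈ Ord.erase b, A0 π s L h' b k ≤ K := by
  have s1 := H.s1
  refine le_trans ?_ H.hK
  simp only [A0, sum_add_distrib]
  refine add_le_add ?_ ?_
  · rw [sum_boole]
    exact_mod_cast (card_le_card fun k hk => mem_inter.2 ⟨mem_of_mem_erase (mem_filter.1 hk).1,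
      mem_tball.2 (Nat.le_sub_one_of_lt (mem_filter.1 hk).2)⟩).trans
      (card_sep_le (k := 2) H.sepO s1 (by omega) b)
  · refine (sum_le_sum (g := fun k => 16 * π b k ^ 2 / h' ^ 2) fun k _ =>
      ite_le_sup _ _ _ |>.trans (sup_le le_rfl (by positivity))).trans ?_
    rw [← sum_div, ← mul_sum]
    gcongr
    exact H.two b hb

open Classical in
/-- conflict weights between eligible ports -/
noncomputable def A1 (Ord X : Finset (Tor d M)) (π : Tor d M → Tor d M → ℝ) (s L : ℕ) (h' : ℝ)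
    (b k : Tor d M) : ℝ :=
  if b ∈ elig Ord X π s h' ∧ k ∈ (elig Ord X π s h').erase b then A0 π s L h' b k else 0

lemma A1_nonneg (b k : Tor d M) : 0 ≤ A1 Ord X π s L h' b k := ite_nonneg (A0_nonneg b k) le_rfl

lemma A1_symm (H : SelH Ord X π s L n0 h h' Θ K tl) (b k : Tor d M) :
    A1 Ord X π s L h' b k = A1 Ord X π s L h' k b := by
  simp only [A1, A0, mem_erase, H.symm b k, tdist_comm b k]
  exact if_congr ⟨fun h => ⟨h.2.2, h.2.1.symm, h.1⟩, fun h => ⟨h.2.2, h.2.1.symm, h.1⟩⟩ rfl rfl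

lemma sum_A1 {b : Tor d M} (hb : b ∈ elig Ord X π s h') (f : Tor d M → ℝ) :
    ∑ k, A1 Ord X π s L h' b k * f k
      = ∑ k ∈ (elig Ord X π s h').erase b, A0 π s L h' b k * f k := by
  simp only [A1, hb, true_and, ite_mul, zero_mul, sum_ite_mem, univ_inter]

lemma sum_A1_le (H : SelH Ord X π s L n0 h h' Θ K tl) (hK : 0 ≤ K) (b : Tor d M) :
    ∑ k, A1 Ord X π s L h' b k ≤ K := by
  by_cases hb : b ∈ elig Ord X π s h'
  · have := sum_A1 (L := L) hb fun _ => 1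
    simp only [mul_one] at this
    exact this.trans_le ((sum_le_sum_of_subset_of_nonneg
      (erase_subset_erase b fun k hk => (mem_elig.1 hk).1.1) fun k _ _ => A0_nonneg b k).trans
      (sum_A0 H (mem_elig.1 hb).1.1))
  · simpa only [A1, hb, false_and, if_false, sum_const_zero] using hK

/-- a marked eligible port without conflict survives -/
lemma one_le_conf (H : SelH Ord X π s L n0 h h' Θ K tl) {ξ : Tor d M → ℕ} {b : Tor d M}
    (hb : b ∈ elig Ord X π s h') (h0 : ξ b = 0) (hs : b ∉ sel Ord X π s L h' ξ) :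
    1 ≤ ∑ k, A1 Ord X π s L h' b k * io ξ k := by
  have hp := H.h0
  rw [sum_A1 hb]
  by_cases h1 : ∀ k ∈ elig Ord X π s h', k ≠ b → tdist k b < 2 * s → ξ k ≠ 0
  · have h2 := not_le.1 fun h2 => hs (mem_sel.2 (Or.inr ⟨hb, h0, h1, h2⟩))
    rw [div_lt_iff₀ (by norm_num), ← one_lt_div (by positivity), sum_mul, sum_div, sum_filter] at h2
    refine h2.le.trans (sum_le_sum fun k _ => ?_)
    split_ifs with hk
    · rw [io, if_pos hk.2, mul_one, A0, if_pos hk.1, mul_comm]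
      exact le_add_of_nonneg_left (ite_nonneg zero_le_one le_rfl)
    · exact mul_nonneg (A0_nonneg b k) (io0 ξ k)
  · push Not at h1
    obtain ⟨k, k1, k2, k3, k4⟩ := h1
    refine le_trans ?_ (single_le_sum (fun k _ => mul_nonneg (A0_nonneg b k) (io0 ξ k))
      (mem_erase.2 ⟨k2, k1⟩))
    rw [io, if_pos k4, mul_one, A0, if_pos k3]
    exact le_add_of_nonneg_right (ite_nonneg (by positivity) le_rfl)

/-- a port that is not eligible is in conflict with a forced point -/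
lemma not_elig (H : SelH Ord X π s L n0 h h' Θ K tl) {b : Tor d M} (hb : b ∈ Ord)
    (h1 : b ∉ elig Ord X π s h') :
    ∃ x ∈ X, tdist b x ≤ L ∧ (b ≠ x → 1 ≤ A0 π s L h' x b) := by
  by_cases hX : b ∈ X
  · exact ⟨b, hX, by rw [tdist_self]; exact Nat.zero_le _, fun h => (h rfl).elim⟩
  have hp := H.h0
  have h2 : ¬∀ x ∈ X, 2 * s ≤ tdist b x ∧ π x b ≤ h' / 4 := fun h => h1 (mem_elig.2 ⟨⟨hb, hX⟩, h⟩)
  push Not at h2
  obtain ⟨x, hx, h3⟩ := h2
  by_cases h4 : tdist b x < 2 * s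
  · refine ⟨x, hx, h4.le.trans H.sL, fun _ => ?_⟩
    rw [A0, if_pos h4]
    exact le_add_of_nonneg_right (ite_nonneg (by positivity) le_rfl)
  · have h5 := h3 (not_lt.1 h4)
    have h6 : tdist b x ≤ L := not_lt.1 fun h => by linarith [far_one H (H.XO hx) hb h, H.tlh]
    refine ⟨x, hx, h6, fun _ => ?_⟩
    rw [A0, if_neg h4, if_pos h6, zero_add, one_le_div (by positivity)]
    nlinarith

open Classical in
lemma card_bad (H : SelH Ord X π s L n0 h h' Θ K tl) (hK : 0 ≤ K) (a : Tor d M) :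
    ((Ord.filter fun b => tdist b a ≤ L ∧ b ∉ elig Ord X π s h').card : ℝ) ≤ K + 1 := by
  set B := Ord.filter fun b => tdist b a ≤ L ∧ b ∉ elig Ord X π s h'
  have key : ∀ b ∈ B, ∃ x ∈ X, tdist x a ≤ 2 * L ∧ (b ≠ x → 1 ≤ A0 π s L h' x b) := fun b hb => by
    obtain ⟨b1, b2, b3⟩ := mem_filter.1 hb
    obtain ⟨x, x1, x2, x3⟩ := not_elig H b1 b3
    have := tdist_triangle x b a
    rw [tdist_comm x b] at this
    exact ⟨x, x1, by omega, x3⟩
  rcases B.eq_empty_or_nonempty with e | ⟨b, hb⟩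
  · rw [e, card_empty, Nat.cast_zero]
    linarith
  obtain ⟨x, x1, x2, -⟩ := key b hb
  have h1 : ((B.erase x).card : ℝ) ≤ K := by
    rw [card_eq_sum_ones, Nat.cast_sum, Nat.cast_one]
    refine ((sum_le_sum fun k hk => ?_).trans (sum_le_sum_of_subset_of_nonneg
      (erase_subset_erase x (filter_subset _ _)) fun k _ _ => A0_nonneg x k)).trans
      (sum_A0 H (H.XO x1))
    obtain ⟨y, y1, y2, y3⟩ := key k (mem_of_mem_erase hk)
    obtain rfl := X_eq H x1 y1 x2 y2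
    exact y3 (ne_of_mem_erase hk)
  have h2 : (B.card : ℝ) ≤ (B.erase x).card + 1 := by
    exact_mod_cast (show B.card ≤ (B.erase x).card + 1 by
      have := pred_card_le_card_erase (s := B) (a := x); omega)
  linarith

end SelA

open SelA

lemma SelH.X_sub (H : SelH Ord X π s L n0 h h' Θ K tl) (ξ : Tor d M → ℕ) :
    X ⊆ sel Ord X π s L h' ξ ∧ sel Ord X π s L h' ξ ⊆ Ord :=
  ⟨subset_union_left, fun _ hb => (mem_sel.1 hb).elim (fun h => H.XO h)
    fun h => (mem_elig.1 h.1).1.1⟩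
lemma SelH.sep (H : SelH Ord X π s L n0 h h' Θ K tl) (ξ : Tor d M → ℕ) :
    Sep (2 * s) (sel Ord X π s L h' ξ) := fun a ha b hb hab => by
  rcases mem_sel.1 ha with h1 | h1 <;> rcases mem_sel.1 hb with h2 | h2
  · have := H.sepX a h1 b h2 hab
    have := H.sL
    omega
  · exact tdist_comm a b ▸ ((mem_elig.1 h2.1).2 a h1).1
  · exact ((mem_elig.1 h1.1).2 b h2).1
  · exact not_lt.1 fun h => h2.2.2.1 a h1.1 hab h h1.2.1
lemma SelH.entry (H : SelH Ord X π s L n0 h h' Θ K tl) (ξ : Tor d M → ℕ) {a b : Tor d M}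
    (ha : a ∈ sel Ord X π s L h' ξ) (hb : b ∈ sel Ord X π s L h' ξ) (hab : a ≠ b) :
    π a b ≤ h' / 4 + tl := by
  have a0 := (H.X_sub ξ).2 ha
  have t0 := H.tl0 a0
  have hp := H.h0
  rcases lt_or_ge L (tdist b a) with hL | hL
  · linarith [far_one H a0 ((H.X_sub ξ).2 hb) hL]
  rcases mem_sel.1 ha with h1 | h1 <;> rcases mem_sel.1 hb with h2 | h2
  · have := H.sepX b h2 a h1 hab.symm
    omega
  · linarith [((mem_elig.1 h2.1).2 a h1).2]
  · linarith [((mem_elig.1 h1.1).2 b h2).2, H.symm a b]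
  · have h3 := (single_le_sum (f := fun k => π a k ^ 2) (fun k _ => sq_nonneg _)
      (mem_filter.2 ⟨mem_erase.2 ⟨hab.symm, h2.1⟩, hL, h2.2.1⟩)).trans h1.2.2.2
    have h4 : π a b ≤ h' / 4 := by
      refine abs_le_of_sq_le_sq' ?_ (by positivity) |>.2
      linarith
    linarith
lemma SelH.two_sel (H : SelH Ord X π s L n0 h h' Θ K tl) (ξ : Tor d M → ℕ) {b : Tor d M}
    (hb : b ∈ sel Ord X π s L h' ξ) (hX : b ∉ X) :
    ∑ k ∈ (sel Ord X π s L h' ξ).erase b, π b k ^ 2 ≤ h' ^ 2 / 8 + tl := by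
  classical
  obtain ⟨b1, -, -, b4⟩ := (mem_sel.1 hb).resolve_left hX
  refine (far_sq H ((H.X_sub ξ).2 hb) ((erase_subset _ _).trans (H.X_sub ξ).2)).trans
    (add_le_add ?_ le_rfl)
  set S := ((sel Ord X π s L h' ξ).erase b).filter fun k => tdist k b ≤ L
  have h1 : ∑ k ∈ S.filter (· ∈ X), π b k ^ 2 ≤ h' ^ 2 / 16 := by
    refine (sum_le_card_nsmul _ _ (h' ^ 2 / 16) fun k hk => ?_).trans ?_
    · have := pow_le_pow_left₀ (H.π0 k b) ((mem_elig.1 b1).2 k (mem_filter.1 hk).2).2 2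
      rw [H.symm b k]
      linarith
    · rw [nsmul_eq_mul]
      refine mul_le_of_le_one_left (by positivity) (Nat.cast_le_one.2 (card_le_one.2
        fun x hx y hy => X_eq H (a := b) (mem_filter.1 hx).2 (mem_filter.1 hy).2 ?_ ?_))
      · have := (mem_filter.1 (mem_filter.1 hx).1).2
        omega
      · have := (mem_filter.1 (mem_filter.1 hy).1).2
        omega
  have h2 : ∑ k ∈ S.filter (· ∉ X), π b k ^ 2 ≤ h' ^ 2 / 16 := by
    refine (sum_le_sum_of_subset_of_nonneg (fun k hk => ?_) fun k _ _ => sq_nonneg _).trans b4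
    obtain ⟨k1, k2⟩ := mem_filter.1 hk
    obtain ⟨k3, k4⟩ := mem_filter.1 k1
    obtain ⟨k5, k6, -⟩ := (mem_sel.1 (mem_of_mem_erase k3)).resolve_left k2
    exact mem_filter.2 ⟨mem_erase.2 ⟨ne_of_mem_erase k3, k5⟩, k4, k6⟩
  rw [← sum_filter_add_sum_filter_not S (· ∈ X)]
  linarith

open Classical in
theorem SelH.loc1 (H : SelH Ord X π s L n0 h h' Θ K tl) {a : Tor d M} (ha : a ∈ Ord)
    {m : Tor d M → ℝ} {c Mt t Z : ℝ} (hm0 : ∀ b, 0 ≤ m b) (hc : 0 ≤ c)
    (hm : ∀ b ∈ Ord, b ≠ a → m b ≤ c * π a b) (hM : ∑ b ∈ Ord.erase a, m b ≤ Mt) (ht : 0 < t)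
    (hZ : 0 < Z) (h1 : c * ((K + 1) * h + tl) ≤ t * n0) (h2 : Z * (c * h * Mt * (2 * K + 1) ^ 2) ≤ t ^ 2) :
    LocB (fun _ => n0) (tball a (2 * L)) (Real.exp (-Z)) fun ξ =>
      if ∑ b ∈ (sel Ord X π s L h' ξ).erase a, m b < 3 / 4 / n0 * ∑ b ∈ Ord.erase a, m b - 2 * t
      then 1 else 0 := by
  have hK := (H.K_pos (H.Θ0 ha)).le
  have hn := H.n0_pos (H.Θ0 ha)
  have hn' : (0 : ℝ) < n0 := by exact_mod_cast hn
  have hch := mul_nonneg hc H.hh
  set B := ((elig Ord X π s h').erase a).filter fun b => tdist b a ≤ L with hB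
  have memB : ∀ {b}, b ∈ B → b ∈ elig Ord X π s h' ∧ b ≠ a ∧ tdist b a ≤ L := fun hb =>
    ⟨mem_of_mem_erase (mem_filter.1 hb).1, ne_of_mem_erase (mem_filter.1 hb).1, (mem_filter.1 hb).2⟩
  have hmh : ∀ b ∈ Ord, b ≠ a → m b ≤ c * h := fun b hb hne =>
    (hm b hb hne).trans (mul_le_mul_of_nonneg_left (H.ent a ha b hb hne.symm) hc)
  have sB : ∀ f : Tor d M → ℝ, ∑ b, (if b ∈ B then m b else 0) * f b = ∑ b ∈ B, m b * f b :=
    fun f => by simp only [ite_mul, zero_mul, sum_ite_mem, univ_inter]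
  have sB1 : ∑ b, (if b ∈ B then m b else 0) = ∑ b ∈ B, m b := by rw [sum_ite_mem, univ_inter]
  refine locB_imp (quad_tail (m := fun b => if b ∈ B then m b else 0) (A := A1 Ord X π s L h') hn
    (fun b => ite_nonneg (hm0 b) le_rfl) hch (fun b => ?_) (S := Mt) ?_ A1_nonneg (fun b => ?_) hK
    (sum_A1_le H hK) (fun k => ?_) H.hn (fun b hb => if_neg fun h => hb ?_) (fun b k hk => ?_)
    ht hZ h2) fun ξ hξ => ?_
  · split_ifs with hb
    · exact hmh b (mem_elig.1 (memB hb).1).1.1 (memB hb).2.1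
    · exact hch
  · exact sB1.trans_le ((sum_le_sum_of_subset_of_nonneg (fun b hb => mem_erase.2
      ⟨(memB hb).2.1, (mem_elig.1 (memB hb).1).1.1⟩) fun b _ _ => hm0 b).trans hM)
  · exact if_neg fun h => notMem_erase _ _ h.2
  · simpa only [A1_symm H _ k] using sum_A1_le H hK k
  · have := (memB h).2.2
    exact mem_tball.2 (by omega)
  · by_cases hb : b ∈ B
    · have a1 := (memB hb).2.2
      have a2 := tdist_triangle k b a
      have a3 := H.sL
      rw [mem_tball] at hk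
      rw [A1, A0, if_neg (show ¬tdist k b < 2 * s by omega), if_neg (show ¬tdist k b ≤ L by omega),
        add_zero, ite_self, mul_zero]
    · rw [if_neg hb, zero_mul]
  · have a1 : ∑ b ∈ B, m b * (io ξ b * (1 - ∑ k, A1 Ord X π s L h' b k * io ξ k))
        ≤ ∑ b ∈ (sel Ord X π s L h' ξ).erase a, m b := by
      refine (sum_le_sum (g := fun b => if b ∈ sel Ord X π s L h' ξ then m b else 0)
        fun b hb => ?_).trans ?_
      · have b1 : 0 ≤ ∑ k, A1 Ord X π s L h' b k * io ξ k :=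
          sum_nonneg fun k _ => mul_nonneg (A1_nonneg b k) (io0 ξ k)
        by_cases b2 : ξ b = 0
        · rw [io, if_pos b2, one_mul]
          split_ifs with b3
          · exact mul_le_of_le_one_right (hm0 b) (by linarith)
          · exact mul_nonpos_of_nonneg_of_nonpos (hm0 b)
              (sub_nonpos.2 (one_le_conf H (memB hb).1 b2 b3))
        · rw [io, if_neg b2, zero_mul, mul_zero]
          exact ite_nonneg (hm0 b) le_rfl
      · rw [← sum_filter]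
        exact sum_le_sum_of_subset_of_nonneg (fun b hb => mem_erase.2
          ⟨(memB (mem_filter.1 hb).1).2.1, (mem_filter.1 hb).2⟩) fun b _ _ => hm0 b
    have a2 : ∑ b ∈ Ord.erase a, m b ≤ ∑ b ∈ B, m b + c * ((K + 1) * h + tl) := by
      have b1 := mul_le_mul_of_nonneg_right (card_bad H hK a) hch
      have b2 := mul_le_mul_of_nonneg_left (H.far a ha) hc
      have b3 : ∑ b ∈ Ord.erase a, m b ≤ ∑ b ∈ Ord, ((if b ∈ B then m b else 0)
          + (if tdist b a ≤ L ∧ b ∉ elig Ord X π s h' then c * h else 0)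
          + if L < tdist b a then c * π a b else 0) := by
        have n1 : ∀ b, 0 ≤ if b ∈ B then m b else 0 := fun b => ite_nonneg (hm0 b) le_rfl
        have n2 : ∀ b, 0 ≤ if tdist b a ≤ L ∧ b ∉ elig Ord X π s h' then c * h else 0 :=
          fun b => ite_nonneg hch le_rfl
        have n3 : ∀ b, 0 ≤ if L < tdist b a then c * π a b else 0 :=
          fun b => ite_nonneg (mul_nonneg hc (H.π0 a b)) le_rfl
        refine (sum_le_sum fun b hb => ?_).trans (sum_le_sum_of_subset_of_nonneg (erase_subset a _)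
          fun b _ _ => add_nonneg (add_nonneg (n1 b) (n2 b)) (n3 b))
        obtain ⟨c1, c2⟩ := mem_erase.1 hb
        by_cases c3 : L < tdist b a
        · rw [if_pos c3]
          linarith [n1 b, n2 b, hm b c2 c1]
        by_cases c4 : b ∈ elig Ord X π s h'
        · rw [if_pos (show b ∈ B from mem_filter.2 ⟨mem_erase.2 ⟨c1, c4⟩, not_lt.1 c3⟩)]
          linarith [n2 b, n3 b]
        · rw [if_pos (And.intro (not_lt.1 c3) c4)]
          linarith [n1 b, n3 b, hmh b c2 c1]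
      rw [sum_add_distrib, sum_add_distrib, ← sum_filter _ fun _ => c * h,
        ← sum_filter _ fun b => c * π a b, sum_const, nsmul_eq_mul, ← mul_sum] at b3
      have b4 := (sum_le_univ_sum_of_nonneg (s := Ord) (f := fun b => if b ∈ B then m b else 0)
        fun b => ite_nonneg (hm0 b) le_rfl).trans_eq sB1
      linarith
    have a3 := mul_le_mul_of_nonneg_left (a2.trans (add_le_add le_rfl h1))
      (show (0 : ℝ) ≤ 3 / 4 / n0 by positivity)
    have a4 : 3 / 4 / (n0 : ℝ) * (t * n0) = 3 / 4 * t := by field_simp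
    rw [sB, sB1]
    linarith

open Classical in
theorem SelH.loc2 (H : SelH Ord X π s L n0 h h' Θ K tl) {x : Tor d M} (hx : x ∈ X) {t Z : ℝ}
    (ht : 0 < t) (hZ : 0 < Z) (h2 : Z * (h' ^ 2 * Θ / 16) ≤ t ^ 2) :
    LocB (fun _ => n0) (tball x L) (Real.exp (-Z)) fun ξ =>
      if Θ / n0 + t + tl < ∑ k ∈ (sel Ord X π s L h' ξ).erase x, π x k ^ 2 then 1 else 0 := by
  have hO := H.XO hx
  set B := (elig Ord X π s h').filter fun k => tdist k x ≤ L with hB
  refine locB_imp (lin_tail (w := fun k => if k ∈ B then π x k ^ 2 else 0) (μ := h' ^ 2 / 16)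
    (S := Θ) (H.n0_pos (H.Θ0 hO)) (fun k => ite_nonneg (sq_nonneg _) le_rfl)
    (fun k hk => if_neg fun h : k ∈ B => hk (mem_tball.2 (mem_filter.1 h).2)) (by positivity)
    (fun k => ?_) ?_
    ht hZ (by linarith)) fun ξ hξ => ?_
  · split_ifs with hk
    · linarith [pow_le_pow_left₀ (H.π0 x k) ((mem_elig.1 (mem_filter.1 hk).1).2 x hx).2 2]
    · positivity
  · rw [sum_ite_mem, univ_inter]
    refine (sum_le_sum_of_subset_of_nonneg (fun k hk => ?_) fun k _ _ => sq_nonneg _).trans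
      (H.two x hO)
    obtain ⟨k1, k2⟩ := (mem_elig.1 (mem_filter.1 hk).1).1
    exact mem_erase.2 ⟨fun h => k2 (h ▸ hx), k1⟩
  · have a1 := far_sq H hO ((erase_subset x _).trans (H.X_sub ξ).2)
    refine le_trans (le_trans (by linarith) (le_refl (∑ k ∈ ((sel Ord X π s L h' ξ).erase x).filter
      (fun k => tdist k x ≤ L), π x k ^ 2))) ?_
    refine (sum_le_sum fun k hk => ?_).trans (sum_le_univ_sum_of_nonneg fun k =>
      mul_nonneg (ite_nonneg (sq_nonneg _) le_rfl) (io0 ξ k))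
    obtain ⟨k1, k2⟩ := mem_filter.1 hk
    obtain ⟨k3, k4, -⟩ := (mem_sel.1 (mem_of_mem_erase k1)).resolve_left fun h =>
      ne_of_mem_erase k1 (X_eq H (a := x) h hx (by omega) (by rw [tdist_self]; exact Nat.zero_le _))
    rw [if_pos (show k ∈ B from mem_filter.2 ⟨k3, k2⟩), io, if_pos k4, mul_one]

end Crest.Agent.N334.AC
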