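import Crest.Agent.N334.AC.F.Mon

/-! # S0520 part P: tails of linear and quadratic functions of independent marks (helper36) -/

set_option autoImplicit false

open Finset Function

namespace Crest.Agent.N334.AC.SelA

variable {Λ : Type} [Fintype Λ] [DecidableEq Λ]

/-- indicator of the mark -/
noncomputable def io (ξ : Λ → ℕ) (k : Λ) : ℝ := if ξ k = 0 then 1 else 0

omit [Fintype Λ] [DecidableEq Λ] in
lemma io0 (ξ : Λ → ℕ) (k : Λ) : 0 ≤ io ξ k := ite_nonneg zero_le_one le_rfl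

omit [Fintype Λ] [DecidableEq Λ] in
lemma io1 (ξ : Λ → ℕ) (k : Λ) : io ξ k ≤ 1 := ite_le_one le_rfl zero_le_one

omit [Fintype Λ] in
lemma io_upd (ξ : Λ → ℕ) (x : Λ) (v : ℕ) (k : Λ) :
    |io (update ξ x v) k - io ξ k| ≤ if k = x then 1 else 0 := by
  split_ifs with h
  · rw [abs_le]
    constructor <;> linarith [io0 ξ k, io1 ξ k, io0 (update ξ x v) k, io1 (update ξ x v) k]
  · rw [io, io, update_of_ne h, sub_self, abs_zero]

omit [Fintype Λ] in
lemma io_upd2 (ξ : Λ → ℕ) (x : Λ) (v : ℕ) (b k : Λ) :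
    |io (update ξ x v) b * io (update ξ x v) k - io ξ b * io ξ k|
      ≤ (if b = x then 1 else 0) + if k = x then 1 else 0 := by
  have e : io (update ξ x v) b * io (update ξ x v) k - io ξ b * io ξ k
      = (io (update ξ x v) b - io ξ b) * io (update ξ x v) k
        + (io (update ξ x v) k - io ξ k) * io ξ b := by ring
  rw [e]
  refine (abs_add_le _ _).trans (add_le_add ?_ ?_) <;>
    rw [abs_mul, abs_of_nonneg (io0 _ _)] <;>
    exact (mul_le_of_le_one_right (abs_nonneg _) (io1 _ _)).trans (io_upd ξ x v _)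

lemma locB_imp {m : Λ → ℕ} {U : Finset Λ} {φ : ℝ} {p q : (Λ → ℕ) → Prop} {_ : DecidablePred p}
    {_ : DecidablePred q} (h : LocB m U φ fun ξ => if p ξ then 1 else 0) (h' : ∀ ξ, q ξ → p ξ) :
    LocB m U φ fun ξ => if q ξ then 1 else 0 := by
  obtain ⟨g, h1, h2, h3⟩ := h
  refine ⟨g, h1, fun ξ hξ => ⟨ite_nonneg zero_le_one le_rfl, le_trans ?_ (h2 ξ hξ).2⟩, h3⟩
  by_cases hq : q ξ
  · simp only [if_pos hq, if_pos (h' ξ hq), le_rfl]
  · simp only [if_neg hq]
    exact ite_nonneg zero_le_one le_rfl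

omit [DecidableEq Λ] in
lemma sum_sq_le (U : Finset Λ) {c : Λ → ℝ} {μ S : ℝ} (h0 : ∀ k, 0 ≤ c k) (hμ0 : 0 ≤ μ)
    (hμ : ∀ k, c k ≤ μ) (hS : ∑ k, c k ≤ S) : ∑ k ∈ U, c k ^ 2 ≤ μ * S := by
  refine le_trans ?_ (mul_le_mul_of_nonneg_left hS hμ0)
  rw [mul_sum]
  refine (sum_le_univ_sum_of_nonneg fun k => sq_nonneg _).trans (sum_le_sum fun k _ => ?_)
  rw [sq]
  exact mul_le_mul_of_nonneg_right (hμ k) (h0 k)

variable {n : ℕ} {U : Finset Λ} {μ S K t Z : ℝ}

/-- upper tail of a linear function -/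
lemma lin_tail (hn : 0 < n) {w : Λ → ℝ} (h0 : ∀ k, 0 ≤ w k) (hU : ∀ k, k ∉ U → w k = 0)
    (hμ0 : 0 ≤ μ) (hμ : ∀ k, w k ≤ μ) (hS : ∑ k, w k ≤ S) (ht : 0 < t) (hZ : 0 < Z)
    (h2 : Z * (μ * S) ≤ t ^ 2) :
    LocB (fun _ => n) U (Real.exp (-Z)) fun ξ =>
      if S / n + t ≤ ∑ k, w k * io ξ k then 1 else 0 := by
  refine locB_imp (locB_tail (m := fun _ => n) (f := fun ξ => ∑ k, w k * io ξ k) (c := w)
    (fun _ => hn) ht hZ (fun ξ ξ' h => sum_congr rfl fun k _ => ?_) (fun ξ x v => ?_)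
    ((mul_le_mul_of_nonneg_left (sum_sq_le U h0 hμ0 hμ hS) hZ.le).trans h2)) fun ξ h => ?_
  · by_cases hk : k ∈ U
    · rw [io, io, h k hk]
    · rw [hU k hk, zero_mul, zero_mul]
  · rw [← sum_sub_distrib]
    refine (abs_sum_le_sum_abs _ _).trans ((sum_le_sum
      (g := fun k => w k * if k = x then 1 else 0) fun k _ => ?_).trans (by simp))
    rw [← mul_sub, abs_mul, abs_of_nonneg (h0 k)]
    exact mul_le_mul_of_nonneg_left (io_upd ξ x v k) (h0 k)
  · refine le_trans (add_le_add ?_ le_rfl) h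
    simp only [avgP_sum, avgP_mul, io, avgP_ind (m := fun _ : Λ => n) fun _ => hn]
    rw [← sum_mul, mul_one_div]
    exact div_le_div_of_nonneg_right hS (Nat.cast_nonneg n)

/-- lower tail of a quadratic function -/
lemma quad_tail (hn : 0 < n) {m : Λ → ℝ} {A : Λ → Λ → ℝ} (h0 : ∀ b, 0 ≤ m b) (hμ0 : 0 ≤ μ)
    (hμ : ∀ b, m b ≤ μ) (hS : ∑ b, m b ≤ S) (A0 : ∀ b k, 0 ≤ A b k) (Ad : ∀ b, A b b = 0)
    (hK0 : 0 ≤ K) (Ar : ∀ b, ∑ k, A b k ≤ K) (Ac : ∀ k, ∑ b, A b k ≤ K) (hK : 4 * K ≤ n)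
    (hU : ∀ b, b ∉ U → m b = 0) (hU' : ∀ b k, k ∉ U → m b * A b k = 0) (ht : 0 < t) (hZ : 0 < Z)
    (h2 : Z * (μ * S * (2 * K + 1) ^ 2) ≤ t ^ 2) :
    LocB (fun _ => n) U (Real.exp (-Z)) fun ξ =>
      if ∑ b, m b * (io ξ b * (1 - ∑ k, A b k * io ξ k)) ≤ 3 / 4 / n * ∑ b, m b - t
      then 1 else 0 := by
  have mA : ∀ b k, 0 ≤ m b * A b k := fun b k => mul_nonneg (h0 b) (A0 b k)
  have r : ∀ b, ∑ k, m b * A b k ≤ m b * K := fun b =>
    (mul_sum _ _ _).symm.trans_le (mul_le_mul_of_nonneg_left (Ar b) (h0 b))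
  have hS0 := (sum_nonneg fun b _ => h0 b).trans hS
  refine locB_imp (locB_tail (m := fun _ => n)
    (f := fun ξ => ∑ b, (∑ k, m b * A b k * (io ξ b * io ξ k) + -m b * io ξ b))
    (c := fun x => ∑ k, m x * A x k + ∑ b, m b * A b x + m x)
    (fun _ => hn) ht hZ (fun ξ ξ' h => sum_congr rfl fun b _ => ?_) (fun ξ x v => ?_)
    ((mul_le_mul_of_nonneg_left (sum_sq_le U (μ := μ * (2 * K + 1)) (S := S * (2 * K + 1))
      (fun x => ?_) (by positivity) (fun x => ?_) ?_) hZ.le).trans (by linarith))) fun ξ h => ?_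
  · by_cases hb : b ∈ U
    · have e : io ξ b = io ξ' b := by rw [io, io, h b hb]
      rw [e]
      congr 1
      refine sum_congr rfl fun k _ => ?_
      by_cases hk : k ∈ U
      · rw [io.eq_1 ξ k, io.eq_1 ξ' k, h k hk]
      · rw [hU' b k hk, zero_mul, zero_mul]
    · simp [hU b hb]
  · rw [← sum_sub_distrib]
    refine (abs_sum_le_sum_abs _ _).trans ((sum_le_sum (g := fun b =>
      ∑ k, m b * A b k * ((if b = x then 1 else 0) + if k = x then 1 else 0)
        + m b * if b = x then 1 else 0) fun b _ => ?_).trans (le_of_eq ?_))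
    · rw [add_sub_add_comm, ← sum_sub_distrib]
      refine (abs_add_le _ _).trans (add_le_add
        ((abs_sum_le_sum_abs _ _).trans (sum_le_sum fun k _ => ?_)) ?_)
      · rw [← mul_sub, abs_mul, abs_of_nonneg (mA b k)]
        exact mul_le_mul_of_nonneg_left (io_upd2 ξ x v b k) (mA b k)
      · rw [← mul_sub, abs_mul, abs_neg, abs_of_nonneg (h0 b)]
        exact mul_le_mul_of_nonneg_left (io_upd ξ x v b) (h0 b)
    · simp only [mul_add, sum_add_distrib, mul_ite, mul_one, mul_zero, sum_ite_eq', mem_univ,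
        if_true]
      rw [sum_comm]
      simp only [sum_ite_eq', mem_univ, if_true]
  · exact add_nonneg (add_nonneg (sum_nonneg fun k _ => mA x k) (sum_nonneg fun b _ => mA b x))
      (h0 x)
  · have a1 : ∑ b, m b * A b x ≤ μ * K :=
      (sum_le_sum fun b _ => mul_le_mul_of_nonneg_right (hμ b) (A0 b x)).trans
        ((mul_sum _ _ _).symm.trans_le (mul_le_mul_of_nonneg_left (Ac x) hμ0))
    have a2 := (r x).trans (mul_le_mul_of_nonneg_right (hμ x) hK0)
    linarith [hμ x]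
  · have a1 := (sum_le_sum fun b (_ : b ∈ univ) => r b).trans
      ((sum_mul _ _ _).symm.trans_le (mul_le_mul_of_nonneg_right hS hK0))
    rw [sum_add_distrib, sum_add_distrib, sum_comm (f := fun x b => m b * A b x)]
    linarith
  · have hn' : (0 : ℝ) < n := by exact_mod_cast hn
    have a1 : ∑ b, (∑ k, m b * A b k * (io ξ b * io ξ k) + -m b * io ξ b)
        = -∑ b, m b * (io ξ b * (1 - ∑ k, A b k * io ξ k)) := by
      rw [← sum_neg_distrib]
      refine sum_congr rfl fun b _ => ?_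
      rw [mul_sub, mul_sub, mul_sum, mul_sum, neg_sub, mul_one, neg_mul, sub_eq_add_neg]
      congr 1
      exact sum_congr rfl fun k _ => by ring
    have a2 : avgP (fun _ => n) (fun ξ : Λ → ℕ =>
        ∑ b, (∑ k, m b * A b k * (io ξ b * io ξ k) + -m b * io ξ b))
          ≤ ∑ b, -(3 / 4 / n * m b) := by
      simp only [avgP_sum, avgP_add, avgP_mul, io, avgP_ind (m := fun _ : Λ => n) fun _ => hn]
      refine sum_le_sum fun b _ => ?_
      have b1 : ∑ k, m b * A b k * avgP (fun _ => n) (fun ξ : Λ → ℕ =>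
          (if ξ b = 0 then (1 : ℝ) else 0) * if ξ k = 0 then 1 else 0)
          = (∑ k, m b * A b k) * (1 / n * (1 / n)) := by
        rw [sum_mul]
        refine sum_congr rfl fun k _ => ?_
        by_cases hk : b = k
        · rw [← hk, Ad, mul_zero, zero_mul, zero_mul]
        · rw [avgP_ind₂ (fun _ => hn) hk]
      have b2 := mul_le_mul_of_nonneg_right ((r b).trans (mul_le_mul_of_nonneg_left
        (show K ≤ n / 4 by linarith) (h0 b))) (show (0 : ℝ) ≤ 1 / n * (1 / n) by positivity)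
      have b3 : m b * (n / 4) * (1 / n * (1 / n)) + -m b * (1 / n) = -(3 / 4 / n * m b) := by
        field_simp
        ring
      rw [b1]
      linarith
    rw [sum_neg_distrib, ← mul_sum] at a2
    rw [a1]
    linarith

end Crest.Agent.N334.AC.SelA
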