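import Crest.Agent.N334.AC.P.Newt
import Crest.Agent.N334.AC.P.Env
import Crest.Agent.N334.AC.P.FP
import Crest.Agent.N334.AC.P.FLy
import Crest.Agent.N334.AC.P.FDw
import Crest.Agent.N334.AC.P.FN
import Crest.Agent.N334.AC.P.FNr
import Crest.Agent.N334.AC.P.FHd
import Crest.Agent.N334.AC.P.FEn

/-! # S0520 part P: one stage (leaf; fill the sorries, keep the statements)
`newton`, `select`, `engine` with the product of the ten families; `12 e^{-P/3} ≤ e^{-P/4}`. -/

set_option autoImplicit false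

open Finset Complex
open scoped Matrix.Norms.L2Operator Matrix

namespace Crest.Agent.N334.AC.P

variable {d M : ℕ} [NeZero M] {c : Cx d M} {e : Ep} {g : Sg} {f : Ref d M}

namespace Stg

theorem fol_trans {X : Finset (Tor d M)} {s s' s'' : St d M} (h : Fol e X s s')
    (h' : Fol e X s' s'') : Fol e X s s'' :=
  ⟨h.1.trans h'.1, fun x hx hs => (h.2 x hx hs).elim (h'.2 x hx)
    fun k => Or.inr (nbhd_mono' h'.1 le_rfl k)⟩

theorem num {P : ℝ} (hP : 10 ^ 60 ≤ P) :
    11 * Real.exp (-P / 3) + Real.exp (-P) ≤ Real.exp (-P / 4) := by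
  have h1 : Real.exp (-P) ≤ Real.exp (-P / 3) := Real.exp_le_exp.2 (by linarith)
  have h2 : Real.exp (-P / 4) = Real.exp (P / 12) * Real.exp (-P / 3) := by
    rw [← Real.exp_add]; congr 1; ring
  have h3 := Real.add_one_le_exp (P / 12)
  have h4 := Real.exp_pos (-P / 3)
  nlinarith

end Stg

theorem stage (L : Led c e g) (hf : RefOK c e f) {s : St d M} (h : Inv c e f (th0 e g) s)
    {X : Finset (Tor d M)} (hX : Sep (10 * e.ρ) X) {rr : ℕ}
    {W : (Tor d M → ℕ × ℕ) → (Tor d M → ℝ) → Prop} (G : Game c.N rr W) (hr : 3 * e.ρ ≤ rr) {β : ℝ}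
    (hβ : 0 ≤ β) (post : ∀ s' : St d M, Inv c e f (th3 e g) s' → Fol e X s s' → W s'.S (sd s'.PS β)) :
    W s.S (sd s.PS (β + Real.exp (-(e.P : ℝ) / 4))) := by
  obtain ⟨w', h1⟩ := newton L hf h
  have hN := L.ok.N0
  have hε := Real.exp_pos (-(e.P : ℝ) / 3)
  have hε' := Real.exp_pos (-(e.P : ℝ))
  have h2 := select L hf h1 hX G hr
    (β := β + 10 * Real.exp (-(e.P : ℝ) / 3) + Real.exp (-(e.P : ℝ))) (by positivity)
    fun s0 h0 hF hD => by
      have F := (((((((((FamOK.and hN (fam_p1 L hf h0) (fam_p2 L hf h0)).and hN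
        (fam_dg L hf h0)).and hN (fam_ly L hf h0)).and hN (fam_dw L hf h0)).and hN
        (fam_na L hf h0)).and hN (fam_ns L hf h0)).and hN (fam_nr L hf h0)).and hN
        (fam_hd L hf h0)).and hN (fam_en L hf h0)).mono (fun _ _ k => k)
        (β' := 10 * Real.exp (-(e.P : ℝ) / 3)) (le_of_eq (by ring))
      refine engine hN G hr F h0.rch h0.n0 (fun t ht k => ?_)
        (fun t ω ht hr hω => ht.next L hf hr hω) (fun t F ht => ht.frz F)
        (fun t ht => ⟨ht.sub, fun y hy => ht.bas.full y (ht.sub hy), ht.bas.g3⟩) hβ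
        fun t ht hA => ?_
      · obtain ⟨⟨⟨⟨⟨⟨⟨⟨⟨k1, k2⟩, k3⟩, k4⟩, k5⟩, k6⟩, k7⟩, k8⟩, k9⟩, k10⟩ := k
        exact env_of L hf h0 ht k1 k2 k3 k4 k5 k6 k7 k8 k9 k10
      · obtain ⟨k1, k2⟩ := ht.post L hf h0 hA hD
        exact post t.toSt k1 (Stg.fol_trans (s' := s0.toSt) hF k2)
  refine G.mono h2 (fun p => ?_) fun p => ?_
  · unfold sd; split_ifs <;> positivity
  · have := Stg.num L.P_ge
    unfold sd; split_ifs <;> linarith

end Crest.Agent.N334.AC.P
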