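import Crest.Agent.N334.AC.P.Stage
import Crest.Agent.N334.AC.P.Rel
import Crest.Agent.N334.AC.P.Ends
import Crest.Agent.N334.AC.P.Par
import Crest.Agent.N334.AC.P.Game

/-! # S0520 part P (helper50): epoch induction -/

set_option autoImplicit false

open Finset Complex
open scoped Matrix.Norms.L2Operator Matrix

namespace Crest.Agent.N334.AC.P

variable {d M : ℕ} [NeZero M] {c : Cx d M} {f : Ref d M}

theorem Fol.refl (e : Ep) (X : Finset (Tor d M)) (s : St d M) : Fol e X s s :=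
  ⟨subset_rfl, fun _ _ h => Or.inl h⟩

theorem Fol.trans {e : Ep} {X : Finset (Tor d M)} {s s' s'' : St d M} (h : Fol e X s s')
    (h' : Fol e X s' s'') : Fol e X s s'' :=
  ⟨h.1.trans h'.1, fun x hx hs => (h.2 x hx hs).elim (h'.2 x hx)
    fun h3 => Or.inr (nbhd_mono' h'.1 le_rfl h3)⟩

theorem Fol.frz (e : Ep) (X F : Finset (Tor d M)) (s : St d M) : Fol e X s (s.frz (3 * e.ρ) F) := by
  refine ⟨subset_union_left, fun x _ hs => ?_⟩
  by_cases h : x ∈ nbhd F (3 * e.ρ)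
  · exact Or.inr (nbhd_mono' subset_union_right le_rfl h)
  · exact Or.inl (mem_sdiff.2 ⟨hs, h⟩)

theorem sd_nonneg (PS : Finset (Tor d M)) {β : ℝ} (h : 0 ≤ β) (p : Tor d M) : 0 ≤ sd PS β p := by
  unfold sd; split_ifs; exacts [zero_le_one, h]

theorem sd_mono (PS : Finset (Tor d M)) {β β' : ℝ} (h : β ≤ β') (p : Tor d M) :
    sd PS β p ≤ sd PS β' p := by
  unfold sd; split_ifs; exacts [le_rfl, h]

theorem sd_mem {PS : Finset (Tor d M)} (β : ℝ) {p : Tor d M} (h : p ∈ PS) : sd PS β p = 1 := if_pos h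

theorem Rad.Rc_le_r (ρ : Rad) (k : ℕ) : ρ.Rc (k + 1) ≤ ρ.r (k + 1) := by
  have := ρ.le k; omega

variable {ρ : Rad} {k1 K : ℕ} {ep : ℕ → Ep} {n : ℕ → ℕ} {sg : ℕ → ℕ → Sg} {rp : ℕ → Rp} {b : ℕ → ℝ}
  {τ : ℝ}

/-- all remaining stages of an epoch -/
theorem stages (S : Sched c ρ k1 K ep n sg rp b τ) {k : ℕ} (hk : k ≤ K) (hf : RefOK c (ep k) f)
    {X : Finset (Tor d M)} (hX : Sep (10 * (ep k).ρ) X)
    {W : (Tor d M → ℕ × ℕ) → (Tor d M → ℝ) → Prop} (G : Game c.N (ρ.r (k + 1)) W) {β : ℝ}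
    (hβ : 0 ≤ β) (i : ℕ) : ∀ j, j + i = n k → ∀ s : St d M, Inv c (ep k) f (th0 (ep k) (sg k j)) s →
      (∀ s' : St d M, Inv c (ep k) f (th0 (ep k) (sg k (n k))) s' → Fol (ep k) X s s' →
        W s'.S (sd s'.PS β)) →
      W s.S (sd s.PS (β + i * Real.exp (-((ep k).P : ℝ) / 4))) := by
  induction i with
  | zero =>
    intro j hj s hs post
    obtain rfl : j = n k := by omega
    simpa using post s hs (Fol.refl _ _ _)
  | succ i ih =>
    intro j hj s hs post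
    have h1 := stage (S.led k hk j (by omega)) hf hs hX G (by have := S.ρ_le k; omega)
      (β := β + i * Real.exp (-((ep k).P : ℝ) / 4)) (by positivity) fun s' hs' hF =>
        ih (j + 1) (by omega) s' (S.nxt k hk j (by omega) ▸ hs') fun s'' h2 h3 =>
          post s'' h2 (hF.trans h3)
    convert h1 using 2
    push_cast
    ring

open Classical in
/-- one epoch, started with the crowded seeds -/
theorem epoch (S : Sched c ρ k1 K ep n sg rp b τ) {k : ℕ} (hk : k ≤ K) (hf : RefOK c (ep k) f)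
    {s : St d M} (hs : Inv c (ep k) f (th0 (ep k) (sg k 0)) s) (hPS : s.PS = ∅)
    {X : Finset (Tor d M)} (hX : Sep (10 * (ep k).ρ) X)
    {W : (Tor d M → ℕ × ℕ) → (Tor d M → ℝ) → Prop} (G : Game c.N (ρ.r (k + 1)) W)
    (post : ∀ s' : St d M, Inv c (ep k) f (th0 (ep k) (sg k (n k))) s' → Fol (ep k) X s s' →
      (∀ p ∈ f.P, Crowded ρ k f.P p → p ∈ s'.PS) →
      W s'.S (sd s'.PS (Real.exp (-((ep k).P : ℝ) / 4)))) :
    W s.S (sd (f.P.filter (Crowded ρ k f.P)) (b (k + 1))) := by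
  have h1 := stages S hk hf hX G (Real.exp_pos _).le (n k) 0 (by omega) _
    (hs.frz S.led0.led.ok.γ0.le (f.P.filter (Crowded ρ k f.P))) fun s' h2 h3 =>
      post s' h2 ((Fol.frz _ _ _ _).trans h3) fun p hp hc =>
        h3.1 (mem_union_right _ (mem_filter.2 ⟨hp, hc⟩))
  have e1 : (s.frz (3 * (ep k).ρ) (f.P.filter (Crowded ρ k f.P))).PS = f.P.filter (Crowded ρ k f.P) := by
    simp [St.frz, hPS]
  rw [e1] at h1
  refine G.mono h1 (sd_nonneg _ (by positivity)) (sd_mono _ ?_)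
  have := S.bud k hk
  linarith

open Classical in
/-- one epoch and its release -/
theorem epoch' (S : Sched c ρ k1 K ep n sg rp b τ) {k : ℕ} (hk : k < K) (hf : RefOK c (ep k) f)
    {s : St d M} (hs : Inv c (ep k) f (th0 (ep k) (sg k 0)) s) (hPS : s.PS = ∅)
    {X : Finset (Tor d M)} (hX : Sep (10 * (ep k).ρ) X)
    {W : (Tor d M → ℕ × ℕ) → (Tor d M → ℝ) → Prop} (G : Game c.N (ρ.r (k + 1)) W)
    (post : ∀ (f2 : Ref d M) (s2 : St d M), RefOK c (ep (k + 1)) f2 →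
      Inv c (ep (k + 1)) f2 (th0 (ep (k + 1)) (sg (k + 1) 0)) s2 → s2.PS = ∅ →
      (∀ x ∈ X, x ∈ s.ord → x ∈ s2.ord ∨ x ∈ nbhd f2.P (ρ.r (k + 2)) ∨ x ∈ nbhd f.P (ρ.r (k + 1))) →
      W s2.S (sd f2.P 0)) :
    W s.S (sd (f.P.filter (Crowded ρ k f.P)) (b (k + 1))) := by
  obtain ⟨L, hu⟩ := S.rel k hk
  refine epoch S hk.le hf hs hPS hX G fun s' h2 h3 h4 => ?_
  have h5 := release L hf h2 (by rwa [hu]) (W := W) (by rwa [hu]) le_rfl fun f2 s2 r1 r2 r3 r4 r5 =>
    post f2 s2 r1 r2 r3 fun x hx hxs => by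
      rcases h3.2 x hx hxs with h | h
      · rcases r5 x h with h | h | h
        · exact Or.inl h
        · exact Or.inr (Or.inl (nbhd_mono' subset_rfl (S.s_le (k + 1)) h))
        · refine Or.inr (Or.inr (nbhd_mono' subset_rfl ?_ h))
          have a1 := L.Rc
          have a2 := L.m1
          have a3 := Rad.Rc_le_r ρ k
          rw [hu] at a1 a2
          nlinarith
      · refine Or.inr (Or.inl (nbhd_mono' r4 ?_ h))
        have a1 := S.ρ_le k
        have a2 : ρ.r (k + 1) ≤ ρ.r (k + 2) := ρ.mono (by omega)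
        omega
  refine G.mono h5 (sd_nonneg _ (by positivity)) (sd_mono _ ?_)
  rw [zero_add]
  refine Real.exp_le_exp.2 ?_
  have : (0 : ℝ) ≤ (ep k).P := Nat.cast_nonneg _
  linarith

/-- captured at a low level -/
def Low (ρ : Rad) (k1 k : ℕ) (base : ℕ → Tor d M → ℝ) (x : Tor d M) : Prop :=
  ∃ k' < k1, k' ≤ k ∧ ∃ p, tdist p x ≤ ρ.r (k' + 1) ∧ 1 ≤ base k' p

omit [NeZero M] in
theorem upd_nonneg {base : ℕ → Tor d M → ℝ} (h0 : ∀ k p, 0 ≤ base k p) (l : ℕ) {π : Tor d M → ℝ}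
    (h : ∀ p, 0 ≤ π p) (k : ℕ) (p : Tor d M) : 0 ≤ Function.update base l π k p := by
  by_cases hk : k = l
  · subst hk; rw [Function.update_self]; exact h p
  · rw [Function.update_of_ne hk]; exact h0 k p

theorem from_epoch (S : Sched c ρ k1 K ep n sg rp b τ) {R0 : ℕ} {X : Finset (Tor d M)}
    (hX : Sep (4 * ρ.r k1 + 1) X) (hX0 : X ⊆ tball 0 R0) (i : ℕ) : ∀ k, k + i = K →
    ∀ (f : Ref d M) (s : St d M) (base : ℕ → Tor d M → ℝ), RefOK c (ep k) f →
      Inv c (ep k) f (th0 (ep k) (sg k 0)) s → s.PS = ∅ → (∀ k p, 0 ≤ base k p) →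
      (∀ k' p, k < k' → base k' p = b k') → (∀ p ∈ f.P, 1 ≤ base k p) →
      ((∀ x ∈ X, x ∈ s.ord ∨ Low ρ k1 k base x) ∨ (k1 ≤ k ∧ ∃ x ∈ X, x ∈ s.ord)) →
      badFrac c.σ c.E c.w0 (c.σ ^ 2 / (10 * c.C ^ 2)) R0 c.N c.r (fun x => cel (s.S x)) ≤
        Psi ρ X k1 (K + 1) k base := by
  classical
  have hN : 0 < c.N := S.led0.led.ok.N0
  -- reduction to the game of the level `k+1`
  have red : ∀ k (f : Ref d M) (s : St d M) (base : ℕ → Tor d M → ℝ), (∀ k p, 0 ≤ base k p) →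
      (∀ k' p, k < k' → base k' p = b k') → (∀ p ∈ f.P, 1 ≤ base k p) →
      Wn c (c.σ ^ 2 / (10 * c.C ^ 2)) R0 ρ X k1 (K + 1) (k + 1) base s.S
        (sd (f.P.filter (Crowded ρ k f.P)) (b (k + 1))) →
      badFrac c.σ c.E c.w0 (c.σ ^ 2 / (10 * c.C ^ 2)) R0 c.N c.r (fun x => cel (s.S x)) ≤
        Psi ρ X k1 (K + 1) k base := by
    intro k f s base h0 h1 h2 hW
    refine le_trans hW (Psi_next ρ X k1 (K + 1) k (P := f.P)
      (upd_nonneg h0 _ (sd_nonneg _ (S.b0 _))) h2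
      (fun k' p hk' => by rw [Function.update_of_ne hk']) (fun p => ?_) (h0 _))
    rw [Function.update_self]
    by_cases hp : p ∈ f.P.filter (Crowded ρ k f.P)
    · exact Or.inr ⟨(mem_filter.1 hp).2, (sd_mem _ hp).le⟩
    · left
      rw [h1 _ _ (Nat.lt_succ_self k)]
      exact (if_neg hp).le
  have low : ∀ k (s : St d M) (base : ℕ → Tor d M → ℝ), (∀ k p, 0 ≤ base k p) →
      (∀ x ∈ X, x ∈ s.ord ∨ Low ρ k1 k base x) → (¬ ∃ x ∈ X, x ∈ s.ord) →
      badFrac c.σ c.E c.w0 (c.σ ^ 2 / (10 * c.C ^ 2)) R0 c.N c.r (fun x => cel (s.S x)) ≤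
        Psi ρ X k1 (K + 1) k base := by
    intro k s base h0 h1 h2
    refine (badFrac_le_one _ _ _).trans (one_le_Psi_low ρ h0 fun x hx => ?_)
    obtain ⟨k', a1, -, a2⟩ := (h1 x hx).resolve_left fun h => h2 ⟨x, hx, h⟩
    exact ⟨k', a1, a2⟩
  have sep1 : ∀ (R : ℕ) (x : Tor d M), Sep R {x} := fun R x a ha a' ha' hne =>
    absurd ((mem_singleton.1 ha).trans (mem_singleton.1 ha').symm) hne
  induction i with
  | zero =>
    intro k hk f s base hf hs hPS h0 h1 h2 hO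
    obtain rfl : k = K := by omega
    by_cases hx : ∃ x ∈ X, x ∈ s.ord
    swap
    · exact low k s base h0 (hO.resolve_right fun h => hx h.2) hx
    obtain ⟨x, hx, hxs⟩ := hx
    refine red k f s base h0 h1 h2 (epoch S le_rfl hf hs hPS (sep1 _ x)
      (game_psi hN _ R0 ρ (k + 1) (k + 1) hX h0) fun s' h3 h4 _ => ?_)
    have hb := upd_nonneg h0 (k + 1) (sd_nonneg s'.PS (Real.exp_pos (-((ep k).P : ℝ) / 4)).le)
    have hM : ∀ p : Tor d M, tdist p x ≤ ρ.r (k + 1) := fun p => by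
      have := two_tdist_le p x
      have := S.r_ge
      omega
    have hk1 := S.k1_le
    rcases s'.PS.eq_empty_or_nonempty with e1 | ⟨p, hp⟩
    · rcases f.P.eq_empty_or_nonempty with e2 | ⟨p, hp⟩
      · have hx' : x ∈ s'.ord := (h4.2 x (mem_singleton_self x) hxs).resolve_right fun h => by
          rw [e1] at h
          obtain ⟨q, hq, -⟩ := mem_nbhd.1 h
          exact absurd hq (notMem_empty q)
        unfold Wn
        rw [final (S.led k le_rfl _ le_rfl) hf h3 e2 e1 S.last hx' (hX0 hx)]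
        exact Psi_nonneg ρ X _ _ _ hb
      · refine (badFrac_le_one _ _ _).trans
          (one_le_Psi_high ρ hb hx (k := k) (by omega) (by omega) (hM p) ?_)
        rw [Function.update_of_ne (by omega)]
        exact h2 p hp
    · refine (badFrac_le_one _ _ _).trans
        (one_le_Psi_high ρ hb hx (k := k + 1) (by omega) le_rfl
          ((hM p).trans (ρ.mono (by omega))) ?_)
      rw [Function.update_self, sd_mem _ hp]
  | succ i ih =>
    intro k hk f s base hf hs hPS h0 h1 h2 hO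
    have G := game_psi hN (c.σ ^ 2 / (10 * c.C ^ 2)) R0 ρ (K + 1) (k + 1) hX h0
    have nx : ∀ (f2 : Ref d M) (s2 : St d M), RefOK c (ep (k + 1)) f2 →
        Inv c (ep (k + 1)) f2 (th0 (ep (k + 1)) (sg (k + 1) 0)) s2 → s2.PS = ∅ →
        ((∀ x ∈ X, x ∈ s2.ord ∨ Low ρ k1 (k + 1) (Function.update base (k + 1) (sd f2.P 0)) x) ∨
          (k1 ≤ k + 1 ∧ ∃ x ∈ X, x ∈ s2.ord)) →
        Wn c (c.σ ^ 2 / (10 * c.C ^ 2)) R0 ρ X k1 (K + 1) (k + 1) base s2.S (sd f2.P 0) :=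
      fun f2 s2 r1 r2 r3 r4 => ih (k + 1) (by omega) f2 s2 _ r1 r2 r3
        (upd_nonneg h0 _ (sd_nonneg _ le_rfl))
        (fun k' p hk' => by rw [Function.update_of_ne (by omega), h1 _ _ (by omega)])
        (fun p hp => by rw [Function.update_self, sd_mem _ hp]) r4
    by_cases hl : k + 1 < k1
    · have hO' := hO.resolve_right fun h => by omega
      have hsep : Sep (10 * (ep k).ρ) X := hX.mono (by
        have a1 := S.ρ_le k
        have a2 : ρ.r (k + 1) ≤ ρ.r k1 := ρ.mono hl.le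
        omega) subset_rfl
      refine red k f s base h0 h1 h2 (epoch' S (by omega) hf hs hPS hsep G
        fun f2 s2 r1 r2 r3 r4 => nx f2 s2 r1 r2 r3 (Or.inl fun x hx => ?_))
      rcases hO' x hx with h | ⟨k', a1, a2, p, a3, a4⟩
      · rcases r4 x hx h with h | h | h
        · exact Or.inl h
        · obtain ⟨p, hp, h⟩ := mem_nbhd.1 h
          exact Or.inr ⟨k + 1, hl, le_rfl, p, by rwa [tdist_comm],
            by rw [Function.update_self, sd_mem _ hp]⟩
        · obtain ⟨p, hp, h⟩ := mem_nbhd.1 h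
          exact Or.inr ⟨k, by omega, by omega, p, by rwa [tdist_comm],
            by rw [Function.update_of_ne (by omega)]; exact h2 p hp⟩
      · exact Or.inr ⟨k', a1, by omega, p, a3, by rwa [Function.update_of_ne (by omega)]⟩
    · by_cases hx : ∃ x ∈ X, x ∈ s.ord
      swap
      · exact low k s base h0 (hO.resolve_right fun h => hx h.2) hx
      obtain ⟨x, hx, hxs⟩ := hx
      refine red k f s base h0 h1 h2 (epoch' S (by omega) hf hs hPS (sep1 _ x) G
        fun f2 s2 r1 r2 r3 r4 => ?_)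
      have hb := upd_nonneg h0 (k + 1) (sd_nonneg f2.P le_rfl)
      rcases r4 x (mem_singleton_self x) hxs with h | h | h
      · exact nx f2 s2 r1 r2 r3 (Or.inr ⟨by omega, x, hx, h⟩)
      · obtain ⟨p, hp, h⟩ := mem_nbhd.1 h
        refine (badFrac_le_one _ _ _).trans (one_le_Psi_high ρ hb hx (k := k + 1) (p := p) (by omega)
          (by omega) (by rwa [tdist_comm]) ?_)
        rw [Function.update_self, sd_mem _ hp]
      · obtain ⟨p, hp, h⟩ := mem_nbhd.1 h
        refine (badFrac_le_one _ _ _).trans (one_le_Psi_high ρ hb hx (k := k) (p := p) (by omega)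
          (by omega) (by rwa [tdist_comm]) ?_)
        rw [Function.update_of_ne (by omega)]
        exact h2 p hp

theorem bad_le (S : Sched c ρ k1 K ep n sg rp b τ) {R0 : ℕ} {X : Finset (Tor d M)}
    (hX : Sep (4 * ρ.r k1 + 1) X) (hX0 : X ⊆ tball 0 R0) (hX1 : Disjoint X (absb d M)) :
    badFrac c.σ c.E c.w0 (c.σ ^ 2 / (10 * c.C ^ 2)) R0 c.N c.r (fun _ => range c.N) ≤
      (1 / 2) ^ X.card + X.card * τ := by
  obtain ⟨h1, h2⟩ := init0 S.led0
  have h3 := from_epoch S hX hX0 K 0 (by omega) _ _ (fun k _ => b k) h1 h2 rfl (fun k _ => S.b0 k)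
    (fun _ _ _ => rfl) (fun p hp => absurd hp (notMem_empty p))
    (Or.inl fun x hx => Or.inl (mem_compl.2 (disjoint_left.1 hX1 hx)))
  have e : (fun x => cel ((st0 c).S x)) = fun _ : Tor d M => range c.N := by
    funext x
    simp [cel, st0]
  rw [e] at h3
  exact h3.trans (Psi_init ρ X k1 (K + 1) (fun k _ => S.b0 k) (fun _ _ => le_rfl) S.hrec S.hlow S.hhigh)

theorem proc : ProcStmt := by
  intro hI d hd
  obtain ⟨C, hC, c1, hc1, hI⟩ := hI d hd
  obtain ⟨c2, hc2, hS⟩ := exists_sched d hd C hC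
  refine ⟨min c1 (min c2 (1 / C)), by positivity, fun σ hσ hσc => ?_⟩
  simp only [lt_min_iff] at hσc
  obtain ⟨M1, hI⟩ := hI σ hσ hσc.1
  refine ⟨σ ^ 2 / (10 * C ^ 2), by positivity, fun ε hε => ?_⟩
  obtain ⟨ρ, k1, nX, τ, h1, h2, hS⟩ := hS σ hσ hσc.2.1 ε hε
  refine ⟨nX * (4 * ρ.r k1 + 1), fun E₀ hE₀ M₀ => ?_⟩
  obtain ⟨M, N, a1, a2, a3, a4, hS⟩ := hS (max M₀ M1)
  have : NeZero M := ⟨a2.ne'⟩
  obtain ⟨w0, hw⟩ := hI M (le_trans (le_max_right _ _) a1) E₀ hE₀
  have hw0 := hw E₀ hE₀ (by simp; positivity)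
  have hσC : C * σ ≤ 1 := by
    have := hσc.2.2
    rw [lt_div_iff₀ (by positivity)] at this
    linarith
  refine ⟨M, inferInstance, le_trans (le_max_left _ _) a1, w0, hw0.w_le.trans (by nlinarith), ?_, N, a3,
    fun E hE hE' r hr => ?_⟩
  · refine le_trans ?_ hw0.gam_lo
    gcongr
    nlinarith
  obtain ⟨X, x1, x2, x3, x4⟩ := exists_obs (M := M) (by omega : 1 ≤ d) nX (4 * ρ.r k1 + 1) (by omega) a4
  obtain ⟨K, ep, n, sg, rp, b, S⟩ := hS ⟨C, σ, E, w0, N, r⟩ rfl rfl rfl hr (hw E hE hE')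
  have := bad_le S x2 x3 x4
  rw [x1] at this
  exact this.trans h1

end Crest.Agent.N334.AC.P
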